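import Vale.Agent.P209.Basic4

open Set Filter Topology Function
open scoped Real ContDiff

noncomputable section
namespace Vale.Agent.P209
namespace AdmA
variable {n L : ℕ} [NeZero L]

theorem shift (g : ZMod L → ℝ) : ∑ k, g (k + 1) = ∑ k, g k :=
  Equiv.sum_comp (Equiv.addRight (1 : ZMod L)) g

/-- the `k`-th midpoint as a linear map -/
def midL (n : ℕ) (k : ZMod L) : (ZMod L → CV n) →L[ℝ] CV n :=
  (1 / 2 : ℝ) • (ContinuousLinearMap.proj (R := ℝ) (φ := fun _ : ZMod L => CV n) k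
    + ContinuousLinearMap.proj (R := ℝ) (φ := fun _ : ZMod L => CV n) (k + 1))

theorem midL_apply (k : ZMod L) (v : ZMod L → CV n) : midL n k v = mid v k := rfl

theorem norm_mid_le (k : ZMod L) (v : ZMod L → CV n) : ‖mid v k‖ ≤ ‖v‖ := by
  rw [mid, md, norm_smul, Real.norm_of_nonneg (by norm_num)]
  have := norm_add_le (v k) (v (k + 1))
  linarith [norm_le_pi_norm v k, norm_le_pi_norm v (k + 1)]

theorem norm_midL_le (k : ZMod L) : ‖midL n k‖ ≤ 1 :=
  ContinuousLinearMap.opNorm_le_bound _ zero_le_one fun v => by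
    rw [one_mul]
    exact norm_mid_le k v

theorem Qf_smul (s : ℝ) (v : ZMod L → CV n) : Qf (s • v) = s ^ 2 * Qf v := by
  simp only [Qf, Pi.smul_apply, om0_smul_left, om0_smul_right, Finset.mul_sum]
  exact Finset.sum_congr rfl fun _ _ => by ring

/-- the bilinear form of the quadratic action -/
def BB (n : ℕ) (c : ZMod L → ℝ) : (ZMod L → CV n) →ₗ[ℝ] (ZMod L → CV n) →ₗ[ℝ] ℝ :=
  ∑ k, ((1 / 2 : ℝ) • (omL n).compl₁₂ (LinearMap.proj k) (LinearMap.proj (k + 1))
    + c k • (omL n).compl₁₂ (midL n k).toLinearMap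
      (((LinearMap.lsmul ℂ (CV n) Complex.I).restrictScalars ℝ) ∘ₗ (midL n k).toLinearMap))

theorem BB_self (c : ZMod L → ℝ) (v : ZMod L → CV n) :
    BB n c v v = act (fun k w => c k * nsq w) v := by
  simp only [BB, LinearMap.sum_apply, LinearMap.add_apply, LinearMap.smul_apply, smul_eq_mul,
    LinearMap.compl₁₂_apply, act, Qf, ← Finset.sum_add_distrib]
  refine Finset.sum_congr rfl fun k _ => ?_
  rw [← om0_I_self]
  show 1 / 2 * omega0 (v k) (v (k + 1)) + c k * omega0 (mid v k) (Complex.I • mid v k) = _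
  ring

theorem diff_Qf : Differentiable ℝ (Qf : (ZMod L → CV n) → ℝ) := by
  unfold Qf omega0
  simp only [div_eq_mul_inv]
  refine Differentiable.fun_sum fun k _ => Differentiable.mul_const ?_ _
  refine Differentiable.fun_sum fun j _ => ?_
  have h : ∀ k, Differentiable ℝ fun v : ZMod L → CV n => v k j := fun k => by fun_prop
  exact ((Complex.reCLM.differentiable.comp (h _)).mul (Complex.imCLM.differentiable.comp (h _))).sub
    ((Complex.imCLM.differentiable.comp (h _)).mul (Complex.reCLM.differentiable.comp (h _)))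

end AdmA

open AdmA in
theorem qaddS : QaddStmt := by
  intro n L _ v y
  have h := shift fun k => omega0 (y k) (v k)
  have e : ∀ k, omega0 ((v + y) k) ((v + y) (k + 1)) / 2 = omega0 (v k) (v (k + 1)) / 2
      + omega0 (y k) (y (k + 1)) / 2 + omega0 (mid y k) (v (k + 1) - v k)
      + (omega0 (y k) (v k) / 2 - omega0 (y (k + 1)) (v (k + 1)) / 2) := fun k => by
    simp only [Pi.add_apply, mid, md, om0_smul_left, om0_add_left, om0_add_right, om0_sub_right]
    rw [om0_swap (v k) (y (k + 1))]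
    ring
  simp only [Qf, e, Finset.sum_add_distrib, Finset.sum_sub_distrib, ← Finset.sum_div, h]
  ring

open AdmA in
theorem critS (hQ : QaddStmt) : CritStmt := by
  intro n L _ f v hs hf h0 k
  have key : ∀ ξ : ZMod L → CV n, ∑ k, omega0 (mid ξ k) (v (k + 1) - v k)
      + ∑ k, fderiv ℝ (f k) (mid v k) (mid ξ k) = 0 := fun ξ => by
    have h1 : HasDerivAt (fun s : ℝ => v + s • ξ) ξ 0 := by
      simpa using ((hasDerivAt_id (0 : ℝ)).smul_const ξ).const_add v
    have hd : ∀ k, HasFDerivAt (fun v : ZMod L → CV n => f k (mid v k))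
        ((fderiv ℝ (f k) (mid v k)).comp (midL n k)) v := fun k =>
      (hf k (mid v k)).hasFDerivAt.comp v (midL n k).hasFDerivAt
    have h2 : HasFDerivAt (act f) (fderiv ℝ Qf v
        + ∑ k, (fderiv ℝ (f k) (mid v k)).comp (midL n k)) v :=
      (diff_Qf v).hasFDerivAt.fun_add (HasFDerivAt.fun_sum fun k _ => hd k)
    have h3 : HasDerivAt (fun s : ℝ => Qf (v + s • ξ)) (fderiv ℝ Qf v ξ) 0 :=
      HasFDerivAt.comp_hasDerivAt_of_eq (hl := (diff_Qf v).hasFDerivAt) (hf := h1) (hy := by simp)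
    have e : (fun s : ℝ => Qf (v + s • ξ))
        = fun s => Qf v + s ^ 2 * Qf ξ + s * ∑ k, omega0 (mid ξ k) (v (k + 1) - v k) := by
      funext s
      rw [hQ, Qf_smul, Finset.mul_sum]
      simp only [← midL_apply, map_smul, om0_smul_left]
    rw [e] at h3
    have h4 := ((((hasDerivAt_pow 2 (0 : ℝ)).mul_const (Qf ξ)).const_add (Qf v)).fun_add
      ((hasDerivAt_id' (0 : ℝ)).mul_const (∑ k, omega0 (mid ξ k) (v (k + 1) - v k))))
    have h5 := h3.unique h4
    have h6 := congrArg (fun φ => φ ξ) (h2.fderiv.symm.trans h0)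
    simp only [add_apply, sum_apply, ContinuousLinearMap.comp_apply,
      midL_apply, zero_apply, h5] at h6
    simpa using h6
  refine om0_ext fun η => ?_
  obtain ⟨ξ, hξ⟩ := hs (Pi.single k η)
  have := key ξ
  rw [hξ, Finset.sum_eq_single k (fun j _ hj => by simp [hj, om0_zero_left]) (by simp),
    Finset.sum_eq_single k (fun j _ hj => by simp [hj]) (by simp), Pi.single_eq_same] at this
  rw [om0_neg_right, om0_ham]
  linarith

theorem AdmA.psi {n L : ℕ} [NeZero L] {ψ : ZMod L → CV n → ℝ} (hψ : ∀ k, Nice (ψ k)) :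
    ∃ C : ℝ, Differentiable ℝ (fun v : ZMod L → CV n => ∑ k, ψ k (mid v k)) ∧
      (∀ v : ZMod L → CV n, |∑ k, ψ k (mid v k)| ≤ C ∧
        ‖fderiv ℝ (fun v : ZMod L → CV n => ∑ k, ψ k (mid v k)) v‖ ≤ C) ∧
      ∀ x y : ZMod L → CV n, ‖fderiv ℝ (fun v : ZMod L → CV n => ∑ k, ψ k (mid v k)) x
        - fderiv ℝ (fun v : ZMod L → CV n => ∑ k, ψ k (mid v k)) y‖ ≤ C * ‖x - y‖ := by
  choose C hC hb hl using fun k => (hψ k).bounds
  have hd : ∀ k v, HasFDerivAt (fun v : ZMod L → CV n => ψ k (mid v k))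
      ((fderiv ℝ (ψ k) (mid v k)).comp (midL n k)) v := fun k v =>
    ((hψ k).1.differentiable (by simp) (mid v k)).hasFDerivAt.comp v (midL n k).hasFDerivAt
  have hD : ∀ v, HasFDerivAt (fun v : ZMod L → CV n => ∑ k, ψ k (mid v k))
      (∑ k, (fderiv ℝ (ψ k) (mid v k)).comp (midL n k)) v := fun v =>
    HasFDerivAt.fun_sum fun k _ => hd k v
  have cmp : ∀ (k : ZMod L) (φ : CV n →L[ℝ] ℝ), ‖φ.comp (midL n k)‖ ≤ ‖φ‖ := fun k φ =>
    (φ.opNorm_comp_le _).trans (mul_le_of_le_one_right (norm_nonneg _) (norm_midL_le k))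
  refine ⟨∑ k, C k, fun v => (hD v).differentiableAt, fun v =>
    ⟨(Finset.abs_sum_le_sum_abs _ _).trans (Finset.sum_le_sum fun k _ => (hb k _).1), ?_⟩,
    fun x y => ?_⟩
  · rw [(hD v).fderiv]
    exact (norm_sum_le _ _).trans (Finset.sum_le_sum fun k _ => (cmp k _).trans (hb k _).2)
  · rw [(hD x).fderiv, (hD y).fderiv, ← Finset.sum_sub_distrib, Finset.sum_mul]
    refine (norm_sum_le _ _).trans (Finset.sum_le_sum fun k _ => ?_)
    rw [← ContinuousLinearMap.sub_comp]
    refine (cmp k _).trans ((hl k _ _).trans (mul_le_mul_of_nonneg_left ?_ (hC k).le))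
    have e : mid x k - mid y k = mid (x - y) k := ((midL n k).map_sub x y).symm
    rw [e]
    exact norm_mid_le k _

open AdmA in
theorem admActS (hA : AdmQStmt) : AdmActStmt := by
  intro n L _ A W c ψ hc hψ h1 h2
  obtain ⟨C, a1, a2, a3⟩ := psi hψ
  have e : (act fun k w => c k * nsq w + ψ k w)
      = fun x => BB n c x x + ∑ k, ψ k (mid x k) := by
    funext x
    simp only [BB_self, act, Finset.sum_add_distrib, add_assoc]
  rw [e]
  have b1 : ∀ y ∈ A, y ≠ 0 → BB n c y y < 0 := fun y hy h0 => by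
    rw [BB_self]
    exact h1 y hy h0
  have b2 : ∀ y ∈ W, y ≠ 0 → 0 < BB n c y y := fun y hy h0 => by
    rw [BB_self]
    exact h2 y hy h0
  generalize BB n c = B at b1 b2
  exact hA (ZMod L → CV n) A W B (fun v : ZMod L → CV n => ∑ k, ψ k (mid v k)) C hc b1 b2 a1 a2 a3

end Vale.Agent.P209
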