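import Vale.Agent.P209.Basic4

open Set Filter Topology Function
open scoped Real ContDiff

noncomputable section
namespace Vale.Agent.P209
namespace AdmQ
variable {E : Type} [NormedAddCommGroup E] [NormedSpace ℝ E] [FiniteDimensional ℝ E]

theorem unif (B : E →L[ℝ] E →L[ℝ] ℝ) (W : Submodule ℝ E) (h : ∀ y ∈ W, y ≠ 0 → 0 < B y y) :
    ∃ β : ℝ, 0 < β ∧ ∀ y ∈ W, β * ‖y‖ ^ 2 ≤ B y y := by
  have hK : IsCompact (Metric.sphere (0 : E) 1 ∩ W) :=
    (isCompact_sphere _ _).inter_right W.closed_of_finiteDimensional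
  obtain ⟨β, hβ, hb⟩ := hK.exists_forall_le' (f := fun y => B y y) (a := 0)
    (Continuous.continuousOn (by fun_prop)) fun y hy => h y hy.2 (by
      rintro rfl
      simpa using hy.1)
  refine ⟨β, hβ, fun y hy => ?_⟩
  rcases eq_or_ne y 0 with rfl | h0
  · simp
  have hn := norm_pos_iff.2 h0
  have := hb (‖y‖⁻¹ • y) ⟨by simp [norm_smul, hn.ne'], W.smul_mem _ hy⟩
  simp only [map_smul, smul_apply, smul_eq_mul] at this
  calc β * ‖y‖ ^ 2 ≤ ‖y‖⁻¹ * (‖y‖⁻¹ * B y y) * ‖y‖ ^ 2 := by gcongr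
    _ = B y y := by field_simp

theorem quad {β c x : ℝ} (hβ : 0 < β) : c * x - β * x ^ 2 ≤ c ^ 2 / (4 * β) := by
  rw [le_div_iff₀ (by positivity)]
  nlinarith [sq_nonneg (c - 2 * β * x)]

end AdmQ

open AdmQ in
theorem admQS : AdmQStmt := by
  intro E _ _ _ A W B0 ψ C hc hA hW hψ hb hl
  let B : E →L[ℝ] E →L[ℝ] ℝ := LinearMap.toContinuousLinearMap
    ((LinearMap.toContinuousLinearMap (𝕜 := ℝ) (E := E) (F' := ℝ)).toLinearMap ∘ₗ B0)
  have hB : ∀ x y, B0 x y = B x y := fun _ _ => rfl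
  simp only [hB] at hA hW ⊢
  clear_value B
  have hC : 0 ≤ C := (abs_nonneg _).trans (hb 0).1
  let D : E →L[ℝ] E →L[ℝ] ℝ := B + B.flip
  have hD : ∀ x y, D x y = B x y + B y x := fun _ _ => rfl
  have dq : ∀ x, HasFDerivAt (fun x => B x x) (D x) x := fun x => by
    have := B.hasFDerivAt.clm_apply (hasFDerivAt_id (𝕜 := ℝ) x)
    refine this.congr_fderiv ?_
    ext v
    simp [hD, add_comm]
  have dF : ∀ x, HasFDerivAt (fun x => B x x + ψ x) (D x + fderiv ℝ ψ x) x := fun x =>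
    (dq x).fun_add (hψ x).hasFDerivAt
  have inj : Injective D := by
    rw [injective_iff_map_eq_zero]
    intro x hx
    obtain ⟨a, ha, w, hw, rfl⟩ := Submodule.mem_sup.1 (hc.sup_eq_top ▸ Submodule.mem_top (x := x))
    have h1 : D (a + w) a = 0 := by rw [hx]; rfl
    have h2 : D (a + w) w = 0 := by rw [hx]; rfl
    simp only [hD, map_add, add_apply] at h1 h2
    have h3 : B a a = B w w := by linarith
    by_cases h4 : a = 0
    · by_cases h5 : w = 0
      · rw [h4, h5, add_zero]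
      · have := hW w hw h5
        rw [← h3, h4] at this
        simp at this
    · have h6 := hA a ha h4
      by_cases h5 : w = 0
      · rw [h3, h5] at h6
        simp at h6
      · linarith [hW w hw h5]
  obtain ⟨K, -, hK⟩ := (D : E →ₗ[ℝ] E →L[ℝ] ℝ).exists_antilipschitzWith
    (LinearMap.ker_eq_bot.2 inj)
  obtain ⟨β, hβ, hβ'⟩ := unif (-B) A fun y hy h0 => by simpa using hA y hy h0
  refine ⟨fun x => (dF x).differentiableAt, ⟨‖D‖ + C, fun x y => ?_⟩, ⟨K * (1 + C), fun x hx => ?_⟩,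
    fun R => ⟨(‖D‖ * R) ^ 2 / (4 * β) + ‖B‖ * R ^ 2 + C, fun y hy e he => ?_⟩,
    ⟨-C, fun y hy => ?_⟩⟩
  · rw [(dF x).fderiv, (dF y).fderiv, add_sub_add_comm, ← map_sub, add_mul]
    exact (norm_add_le _ _).trans (add_le_add (D.le_opNorm _) (hl x y))
  · rw [(dF x).fderiv] at hx
    have h1 : ‖x‖ ≤ K * ‖D x‖ := by simpa using hK.le_mul_dist x 0
    have h2 : ‖D x‖ ≤ 1 + C := by
      have := norm_sub_le (D x + fderiv ℝ ψ x) (fderiv ℝ ψ x)
      rw [add_sub_cancel_right] at this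
      linarith [(hb x).2]
    exact h1.trans (by gcongr)
  · have e1 : B (y + e) (y + e) = B y y + D e y + B e e := by
      simp only [hD, map_add, add_apply]
      ring
    have h1 := hβ' y hy
    have hR := (norm_nonneg e).trans he
    have h2 : D e y ≤ ‖D‖ * R * ‖y‖ := (le_abs_self _).trans ((D.le_opNorm₂ e y).trans (by gcongr))
    have h3 : B e e ≤ ‖B‖ * R ^ 2 := (le_abs_self _).trans ((B.le_opNorm₂ e e).trans (by
      rw [sq, ← mul_assoc]
      gcongr))
    have h4 := quad (c := ‖D‖ * R) (x := ‖y‖) hβ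
    have h5 := (abs_le.1 (hb (y + e)).1).2
    simp only [neg_apply] at h1
    linarith
  · have h5 := (abs_le.1 (hb y).1).1
    rcases eq_or_ne y 0 with rfl | h0
    · simpa using h5
    · linarith [hW y hy h0]

end Vale.Agent.P209
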