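import Vale.Agent.P209.Basic

open Set Filter Topology Function MeasureTheory
open scoped Real ContDiff

noncomputable section
namespace Vale.Agent.P209

namespace CaseB

/-- available length at depth `σ` -/
def Lam (h σ : ℝ) : ℝ := 3 + 3 * h - 9 * σ - 2 * max (h - σ) 0

def LL (h a u σ : ℝ) : ℝ := max (min (Lam h σ - a) (4 / a * (h - a - u))) 0

theorem Lam_of_le {h σ : ℝ} (hσ : σ ≤ h) : Lam h σ = 3 + h - 7 * σ := by
  unfold Lam
  rw [max_eq_left (by linarith)]
  ring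

theorem Lam_le (h σ : ℝ) : Lam h σ ≤ 3 + h - 7 * σ := by
  unfold Lam
  linarith [le_max_left (h - σ) 0]

theorem Lam_anti (h : ℝ) {σ σ' : ℝ} (hσ : σ ≤ σ') : Lam h σ' ≤ Lam h σ := by
  unfold Lam
  rcases le_total (h - σ) 0 with h1 | h1
  · rw [max_eq_right h1, max_eq_right (by linarith)]
    linarith
  · rw [max_eq_left h1]
    linarith [le_max_left (h - σ') 0]

theorem Lam_lip (h σ σ' : ℝ) : |Lam h σ - Lam h σ'| ≤ 11 * |σ - σ'| := by
  have h1 := abs_max_sub_max_le_abs (h - σ) (h - σ') 0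
  have e : h - σ - (h - σ') = -(σ - σ') := by ring
  rw [e, abs_neg] at h1
  have h2 := abs_le.1 h1
  unfold Lam
  rw [abs_le]
  constructor <;> linarith [le_abs_self (σ - σ'), neg_abs_le (σ - σ')]

theorem LL_nonneg (h a u σ : ℝ) : 0 ≤ LL h a u σ := le_max_right _ _

theorem LL_anti {h a u u' σ σ' : ℝ} (ha : 0 < a) (hu : u ≤ u') (hσ : σ ≤ σ') :
    LL h a u' σ' ≤ LL h a u σ := by
  unfold LL
  refine max_le_max (min_le_min (by linarith [Lam_anti h hσ]) ?_) le_rfl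
  exact mul_le_mul_of_nonneg_left (by linarith) (by positivity)

theorem LL_eq {h a u σ : ℝ} (ha : 0 < a) (hh : 2 * h < 1) (hu : u ≤ h - 2 * a) (hσ : 0 ≤ σ) :
    LL h a u σ = max (Lam h σ - a) 0 := by
  unfold LL
  rw [min_eq_left]
  have h1 : 4 / a * a ≤ 4 / a * (h - a - u) :=
    mul_le_mul_of_nonneg_left (by linarith) (by positivity)
  rw [div_mul_cancel₀ _ ha.ne'] at h1
  linarith [Lam_le h σ]

theorem LL_eq' {h a u σ : ℝ} (ha : 0 < a) (hh : 2 * h < 1) (hu : u ≤ h - 2 * a) (hσ : 0 ≤ σ)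
    (hσ' : σ ≤ h - 2 * a) : LL h a u σ = 3 + h - a - 7 * σ := by
  rw [LL_eq ha hh hu hσ, Lam_of_le (by linarith), max_eq_left (by linarith)]
  ring

theorem LL_lip {h a : ℝ} (ha : 0 < a) (u u' σ σ' : ℝ) :
    |LL h a u σ - LL h a u' σ'| ≤ 11 * |σ - σ'| + 4 / a * |u - u'| := by
  unfold LL
  refine (abs_max_sub_max_le_abs _ _ _).trans ((abs_min_sub_min_le_max _ _ _ _).trans ?_)
  have h1 : |Lam h σ - a - (Lam h σ' - a)| ≤ 11 * |σ - σ'| := by
    rw [sub_sub_sub_cancel_right]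
    exact Lam_lip h σ σ'
  have h2 : |4 / a * (h - a - u) - 4 / a * (h - a - u')| = 4 / a * |u - u'| := by
    have e : 4 / a * (h - a - u) - 4 / a * (h - a - u') = -(4 / a * (u - u')) := by ring
    rw [e, abs_neg, abs_mul, abs_of_pos (by positivity)]
  rw [h2]
  refine max_le (h1.trans (le_add_of_nonneg_right (by positivity))) ?_
  exact le_add_of_nonneg_left (by positivity)

variable {d : ℕ}

/-- the profile on the cross-section -/
def Lf (h a : ℝ) (s : Fin (d + 1) → ℝ) : ℝ := LL h a (s 0) (∑ j, s j)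

theorem lipE {h a : ℝ} (ha : 0 < a) : LipE (Lf h a : (Fin (d + 1) → ℝ) → ℝ) := by
  refine ⟨11 * (d + 1) + 4 / a, fun s t _ _ => (LL_lip ha _ _ _ _).trans ?_⟩
  have h1 : ∀ j, |s j - t j| ≤ ‖s - t‖ := fun j => norm_le_pi_norm (s - t) j
  have h2 : |∑ j, s j - ∑ j, t j| ≤ (d + 1) * ‖s - t‖ := by
    rw [← Finset.sum_sub_distrib]
    refine (Finset.abs_sum_le_sum_abs _ _).trans ((Finset.sum_le_sum fun j _ => h1 j).trans ?_)
    simp
  have h3 := mul_le_mul_of_nonneg_left (h1 0) (by positivity : 0 ≤ 4 / a)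
  linarith

theorem sum_single (s : Fin (d + 1) → ℝ) (i : Fin (d + 1)) (δ : ℝ) :
    ∑ j, (s + Pi.single i δ : Fin (d + 1) → ℝ) j = ∑ j, s j + δ := by
  simp [Finset.sum_add_distrib]

theorem le_single (s : Fin (d + 1) → ℝ) (i : Fin (d + 1)) {δ : ℝ} (hδ : 0 ≤ δ) :
    s 0 ≤ (s + Pi.single i δ : Fin (d + 1) → ℝ) 0 := by
  rw [Pi.add_apply, le_add_iff_nonneg_right, Pi.single_apply]
  split_ifs
  · exact hδ
  · exact le_rfl

theorem single_ne (s : Fin (d + 1) → ℝ) {i : Fin (d + 1)} (hi : i ≠ 0) (δ : ℝ) :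
    (s + Pi.single i δ : Fin (d + 1) → ℝ) 0 = s 0 := by
  rw [Pi.add_apply, Pi.single_eq_of_ne hi.symm, add_zero]

theorem single_zero (s : Fin (d + 1) → ℝ) (δ : ℝ) :
    (s + Pi.single 0 δ : Fin (d + 1) → ℝ) 0 = s 0 + δ := by
  rw [Pi.add_apply, Pi.single_eq_same]

theorem zero_le_sum {s : Fin (d + 1) → ℝ} (hs : 0 ≤ s) : s 0 ≤ ∑ j, s j :=
  Finset.single_le_sum (fun j _ => hs j) (Finset.mem_univ 0)

section phi

variable {ι : Type} {r : ι → ℝ} {S : Finset ι} {b : ℝ}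

theorem phi_zero (hr : ∀ i, r i ≤ b) {σ : ℝ} (hσ : b ≤ σ) : ∑ i ∈ S, max (r i - σ) 0 = 0 :=
  Finset.sum_eq_zero fun i _ => max_eq_right (by linarith [hr i])

theorem phi_nonneg (σ : ℝ) : 0 ≤ ∑ i ∈ S, max (r i - σ) 0 :=
  Finset.sum_nonneg fun _ _ => le_max_right _ _

theorem phi_sub (hS : S.card ≤ 7) {σ σ' : ℝ} (hσ : σ ≤ σ') :
    ∑ i ∈ S, max (r i - σ) 0 ≤ ∑ i ∈ S, max (r i - σ') 0 + 7 * (σ' - σ) := by
  have h1 : ∑ i ∈ S, max (r i - σ) 0 ≤ ∑ i ∈ S, (max (r i - σ') 0 + (σ' - σ)) :=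
    Finset.sum_le_sum fun i _ => max_le (by linarith [le_max_left (r i - σ') 0])
      (by linarith [le_max_right (r i - σ') 0])
  rw [Finset.sum_add_distrib, Finset.sum_const, nsmul_eq_mul] at h1
  have h2 : (S.card : ℝ) ≤ 7 := by exact_mod_cast hS
  have h3 := mul_le_mul_of_nonneg_right h2 (sub_nonneg.2 hσ)
  linarith

end phi

variable {ι : Type} {r : ι → ℝ} {S : Finset ι} {h a x : ℝ}

theorem gam_mono (ha : 0 < a) (hh : 2 * h < 1) (hr : ∀ i, r i ≤ h - 2 * a) (hS : S.card ≤ 7)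
    {u u' σ σ' : ℝ} (h0 : 0 ≤ σ) (huσ : u ≤ σ) (hu : u ≤ u') (hσ : σ ≤ σ') :
    ∑ i ∈ S, max (r i - σ) 0 - LL h a u σ ≤ ∑ i ∈ S, max (r i - σ') 0 - LL h a u' σ' := by
  rcases le_total σ (h - 2 * a) with h1 | h1
  · have hub : u ≤ h - 2 * a := huσ.trans h1
    rw [LL_eq' ha hh hub h0 h1]
    rcases le_total σ' (h - 2 * a) with h2 | h2
    · have h3 := LL_anti (h := h) ha hu (le_refl σ')
      rw [LL_eq' ha hh hub (h0.trans hσ) h2] at h3
      linarith [phi_sub (r := r) hS hσ]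
    · have h3 := LL_anti (h := h) ha hu h2
      rw [LL_eq' ha hh hub (h0.trans h1) le_rfl] at h3
      have h4 := phi_sub (r := r) hS h1
      rw [phi_zero hr le_rfl] at h4
      linarith [phi_nonneg (r := r) (S := S) σ']
  · rw [phi_zero hr h1, phi_zero hr (h1.trans hσ)]
    linarith [LL_anti (h := h) ha hu hσ]

theorem cls (ha : 0 < a) (hh : 2 * h < 1) (hr : ∀ i, r i ≤ h - 2 * a) (hS : S.card ≤ 7)
    (hx : x ≤ h - 2 * a) (hx' : x ≤ 0 ∨ (S.card = 7 ∧ ∀ i ∈ S, x ≤ r i)) :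
    Cls 0 x fun s : Fin (d + 1) → ℝ => ∑ i ∈ S, max (r i - ∑ j, s j) 0 - Lf h a s := by
  refine ⟨fun s hs i δ hδ => ?_, fun s hs i j hij δ hδ => ?_, fun s hs k j hkj δ hδ hp => ?_,
    fun s hs δ hδ hp => ?_⟩
  · simp only [Lf, sum_single]
    exact gam_mono ha hh hr hS ((hs 0).trans (zero_le_sum hs)) (zero_le_sum hs)
      (le_single s i hδ) (by linarith)
  · have hj : j ≠ 0 := ((Fin.zero_le i).trans_lt hij).ne'
    simp only [Lf, sum_single, single_ne s hj]
    linarith [LL_anti (h := h) ha (le_single s i hδ) (le_refl (∑ j, s j + δ))]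
  · have hj : j ≠ 0 := by
      rintro rfl
      simp at hkj
    have h1 : s 0 ≤ ps s k :=
      Finset.single_le_sum (f := s) (fun j _ => hs j)
        (Finset.mem_filter.2 ⟨Finset.mem_univ _, Fin.zero_le k⟩)
    have h3 : (0 : ℝ) ≤ s 0 := hs 0
    have h2 : 0 ≤ ∑ j, s j + δ := by linarith [zero_le_sum hs]
    simp only [Lf, sum_single, single_ne s hj, single_zero]
    rw [LL_eq ha hh (u := s 0 + δ) (by linarith) h2, LL_eq ha hh (u := s 0) (by linarith) h2]
    linarith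
  · have h1 := zero_le_sum hs
    have h2 : (0 : ℝ) ≤ s 0 := hs 0
    rcases hx' with hx0 | ⟨hc, hx1⟩
    · linarith
    simp only [Lf, sum_single, single_zero]
    rw [LL_eq' ha hh (u := s 0 + δ) (by linarith) (by linarith) (by linarith),
      LL_eq' ha hh (u := s 0) (by linarith) (by linarith) (by linarith)]
    have h3 : ∑ i ∈ S, max (r i - (∑ j, s j + δ)) 0 = ∑ i ∈ S, (max (r i - ∑ j, s j) 0 - δ) := by
      refine Finset.sum_congr rfl fun i hi => ?_
      have h4 := hx1 i hi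
      rw [max_eq_left (by linarith), max_eq_left (by linarith)]
      ring
    rw [h3, Finset.sum_sub_distrib, Finset.sum_const, hc, nsmul_eq_mul]
    push_cast
    linarith

theorem phi_le (ha : 0 < a) (hh : 2 * h < 1) (hr : ∀ i, r i ≤ h - 2 * a) (hS : S.card ≤ 7)
    (s : Fin (d + 1) → ℝ) (hs : 0 ≤ s) : ∑ i ∈ S, max (r i - ∑ j, s j) 0 ≤ Lf h a s := by
  have h1 := zero_le_sum hs
  have h2 : (0 : ℝ) ≤ s 0 := hs 0
  rcases le_total (∑ j, s j) (h - 2 * a) with h3 | h3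
  · have h4 := phi_sub (r := r) hS h3
    rw [phi_zero hr le_rfl] at h4
    rw [Lf, LL_eq' ha hh (by linarith) (by linarith) h3]
    linarith
  · rw [phi_zero hr h3]
    exact LL_nonneg _ _ _ _

theorem sum_lt (ha : 0 < a) (hh : 2 * h < 1) (hb : 0 ≤ h - 2 * a) (hr : ∀ i, r i ≤ h - 2 * a)
    (hS : S.card ≤ 7) : ∑ i ∈ S, r i < Lf h a (0 : Fin (d + 1) → ℝ) := by
  have h1 : ∑ i ∈ S, r i ≤ S.card • (h - 2 * a) :=
    Finset.sum_le_card_nsmul _ _ _ fun i _ => hr i
  rw [nsmul_eq_mul] at h1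
  have h2 : (S.card : ℝ) ≤ 7 := by exact_mod_cast hS
  have h3 := mul_le_mul_of_nonneg_right h2 hb
  simp only [Lf, Pi.zero_apply, Finset.sum_const_zero]
  rw [LL_eq' ha hh hb le_rfl hb]
  linarith

theorem orth_meas : MeasurableSet (orth d) := measurableSet_Ici

theorem tent_meas (c : ℝ) :
    Measurable fun s : Fin (d + 1) → ℝ => ENNReal.ofReal (max (c - ∑ j, s j) 0) := by
  refine ENNReal.measurable_ofReal.comp (Continuous.measurable ?_)
  fun_prop

/-- the volume under the profile -/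
theorem vol_le (hS : SimplexStmt) (ha : 0 < a) (hh : 2 * h < 1) (hh0 : 0 ≤ h) {c : ℝ}
    (hc : 9 * c = 3 + 3 * h - a) (hc0 : 0 ≤ c) (hcb : 0 ≤ c - (h - 2 * a)) :
    9 * ENNReal.ofReal (c ^ (d + 2) / (d + 2).factorial)
      ≤ (∫⁻ s in orth d, ENNReal.ofReal (Lf h a s))
        + (2 * ENNReal.ofReal (h ^ (d + 2) / (d + 2).factorial)
          + 9 * ENNReal.ofReal ((c - (h - 2 * a)) ^ (d + 2) / (d + 2).factorial)) := by
  set g : (Fin (d + 1) → ℝ) → ENNReal := (orth d).indicator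
    fun s => ENNReal.ofReal (max (c - (h - 2 * a) - ∑ j, s j) 0) with hg
  have gm : Measurable g := (tent_meas _).indicator orth_meas
  have gm' : Measurable fun s : Fin (d + 1) → ℝ => g (s + Pi.single 0 (-(h - 2 * a))) :=
    gm.comp (measurable_add_const _)
  have h1 : ∫⁻ s in orth d, g (s + Pi.single 0 (-(h - 2 * a)))
      ≤ ENNReal.ofReal ((c - (h - 2 * a)) ^ (d + 2) / (d + 2).factorial) := by
    refine (setLIntegral_le_lintegral _ _).trans (le_of_eq ?_)
    rw [lintegral_add_right_eq_self g, hg, lintegral_indicator orth_meas, hS d _ hcb]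
  rw [← hS d c hc0, ← hS d h hh0]
  refine le_trans ?_ (add_le_add_right (add_le_add_right (mul_le_mul_right h1 9) _) _)
  rw [← lintegral_const_mul _ (tent_meas c), ← lintegral_const_mul _ (tent_meas h),
    ← lintegral_const_mul _ gm',
    ← lintegral_add_right _ (gm'.const_mul 9),
    ← lintegral_add_right _ (((tent_meas h).const_mul 2).fun_add (gm'.const_mul 9))]
  refine setLIntegral_mono' orth_meas fun s hs => ?_
  have hs0 : 0 ≤ s := hs
  have h2 := zero_le_sum hs0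
  have h3 : (0 : ℝ) ≤ s 0 := hs0 0
  rcases le_total (s 0) (h - 2 * a) with h4 | h4
  · refine le_trans ?_ (add_le_add_right le_self_add _)
    have e9 : (9 : ENNReal) = ENNReal.ofReal 9 := by simp
    have e2 : (2 : ENNReal) = ENNReal.ofReal 2 := by simp
    rw [Lf, e9, e2, ← ENNReal.ofReal_mul (by norm_num), ← ENNReal.ofReal_mul (by norm_num),
      ← ENNReal.ofReal_add (LL_nonneg _ _ _ _) (by positivity)]
    refine ENNReal.ofReal_le_ofReal ?_
    rw [LL_eq ha hh h4 (by linarith)]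
    have h5 := le_max_left (Lam h (∑ j, s j) - a) 0
    have h6 := le_max_right (Lam h (∑ j, s j) - a) 0
    have h7 := le_max_right (h - ∑ j, s j) 0
    have h8 : Lam h (∑ j, s j) = 3 + 3 * h - 9 * ∑ j, s j - 2 * max (h - ∑ j, s j) 0 := rfl
    rcases le_total (c - ∑ j, s j) 0 with h9 | h9
    · rw [max_eq_right h9]
      linarith
    · rw [max_eq_left h9]
      linarith
  · refine le_trans (le_of_eq ?_) (le_add_self.trans le_add_self)
    have hm : s + Pi.single 0 (-(h - 2 * a)) ∈ orth d := by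
      intro j
      by_cases hj : j = 0
      · subst hj
        rw [single_zero, Pi.zero_apply]
        linarith
      · rw [Pi.add_apply, Pi.single_eq_of_ne hj, add_zero]
        exact hs0 j
    rw [hg, indicator_of_mem hm, sum_single]
    have e : c - (h - 2 * a) - (∑ j, s j + -(h - 2 * a)) = c - ∑ j, s j := by ring
    rw [e]

theorem exists_top [Fintype ι] [DecidableEq ι] (r : ι → ℝ) (N : ℕ) : ∃ S : Finset ι,
    (S = Finset.univ ∧ S.card ≤ N ∨ S.card = N) ∧ ∀ i, i ∉ S → ∀ j ∈ S, r i ≤ r j := by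
  induction N with
  | zero => exact ⟨∅, Or.inr rfl, fun _ _ _ hj => absurd hj (Finset.notMem_empty _)⟩
  | succ N ih =>
    obtain ⟨S, hS, hr⟩ := ih
    by_cases hu : S = Finset.univ
    · refine ⟨S, Or.inl ⟨hu, ?_⟩, hr⟩
      rcases hS with h1 | h1
      · exact h1.2.trans (Nat.le_succ N)
      · omega
    · have hc : S.card = N := hS.resolve_left fun h1 => hu h1.1
      have hne : Sᶜ.Nonempty := by
        rw [Finset.nonempty_iff_ne_empty, Ne, Finset.compl_eq_empty_iff]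
        exact hu
      obtain ⟨i0, hi0, hmax⟩ := Finset.exists_max_image Sᶜ r hne
      have hi0' : i0 ∉ S := Finset.mem_compl.1 hi0
      refine ⟨insert i0 S, Or.inr (by rw [Finset.card_insert_of_notMem hi0', hc]),
        fun i hi j hj => ?_⟩
      have hiS : i ∉ S := fun h1 => hi (Finset.mem_insert_of_mem h1)
      rcases Finset.mem_insert.1 hj with rfl | hj
      · exact hmax i (Finset.mem_compl.2 hiS)
      · exact hr i hiS j hj

theorem exists_sel [Fintype ι] [DecidableEq ι] (r : ι → ℝ) {b : ℝ} (hb : 0 ≤ b)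
    (hr : ∀ i, r i ≤ b) : ∃ (S : Finset ι) (x : ℝ), S.card ≤ 7 ∧ (∀ i, i ∉ S → r i ≤ x) ∧
      x ≤ b ∧ (x ≤ 0 ∨ (S.card = 7 ∧ ∀ i ∈ S, x ≤ r i)) := by
  obtain ⟨S, hS, hS'⟩ := exists_top r 7
  rcases hS with ⟨hu, hc⟩ | hc
  · exact ⟨S, 0, hc, fun i hi => absurd (hu ▸ Finset.mem_univ i) hi, hb, Or.inl le_rfl⟩
  · obtain ⟨j, hj, hmin⟩ := Finset.exists_min_image S r (Finset.card_pos.1 (by omega))
    exact ⟨S, r j, hc.le, fun i hi => hS' i hi j hj, hr j, Or.inr ⟨hc, hmin⟩⟩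

theorem loop (h5 : FiveStmt) (hf : FoldFnStmt) {κ : ℝ} (hκ : 0 < κ) (hκh : 2 * κ ≤ 1 - 2 * h) :
    Nonempty (LoopData ((1 + h) / 3 - κ) (Reg5 h κ) fun D => Lam h D - 2 * κ) := by
  obtain ⟨f, F⟩ := hf κ hκ
  have hd : ∀ y, HasDerivAt f (deriv f y) y := fun y =>
    (F.smooth.differentiable (by simp) y).hasDerivAt
  have s1 : ContDiff ℝ ∞ fun D : ℝ => f (D - h) := F.smooth.comp (contDiff_id.sub contDiff_const)
  have s2 : ContDiff ℝ ∞ fun D : ℝ => f (h - D) := F.smooth.comp (contDiff_const.sub contDiff_id)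
  have s0 : ContDiff ℝ ∞ fun D : ℝ => 1 - 2 * D - f (D - h) :=
    (contDiff_const.sub (contDiff_const.mul contDiff_id)).sub s1
  have d1 : ∀ D, HasDerivAt (fun D : ℝ => f (h - D)) (-deriv f (h - D)) D := fun D =>
    (hd (h - D)).comp_const_sub h D
  have d0 : ∀ D, HasDerivAt (fun D : ℝ => 1 - 2 * D - f (D - h)) (-2 - deriv f (D - h)) D := by
    intro D
    have h1 : HasDerivAt (fun D : ℝ => f (D - h)) (deriv f (D - h)) D :=
      (hd (D - h)).comp_sub_const D h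
    refine ((((hasDerivAt_id' D).const_mul 2).const_sub 1).fun_sub h1).congr_deriv ?_
    ring
  have odd : ∀ D, f (D - h) - f (h - D) = D - h := fun D => by
    have h1 := F.odd (D - h)
    rwa [neg_sub] at h1
  have dsum : ∀ D, -2 - deriv f (D - h) + -deriv f (h - D) = -3 := by
    intro D
    have h1 := (d0 D).fun_add (d1 D)
    have e : (fun D : ℝ => 1 - 2 * D - f (D - h) + f (h - D)) = fun D => 1 + h - 3 * D := by
      funext y
      linarith [odd y]
    rw [e] at h1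
    have h2 := h1.unique (((hasDerivAt_id' D).const_mul 3).const_sub (1 + h))
    linarith
  obtain ⟨P⟩ := h5 ((1 + h) / 3 - κ) κ (fun D => 1 - 2 * D - f (D - h)) (fun D => f (h - D))
    (fun D => 1 - 2 * D - f (D - h) - f (h - D)) (fun D => f (h - D))
    (fun D => 1 - 2 * D - f (D - h)) hκ s0 s2 (s0.sub s2) s2 s0
    (fun D => ⟨by ring, by ring⟩) (fun D hD => by
      rw [(d0 D).deriv, (d1 D).deriv, ((d0 D).fun_sub (d1 D)).deriv]
      have a1 := F.d0 (D - h)
      have a2 := F.d0 (h - D)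
      have a3 := F.d1 (h - D)
      have a4 := F.le (h - D)
      have a5 := odd D
      have a6 := hD.2
      refine ⟨F.nonneg _, ?_, F.nonneg _, by linarith, by linarith, by linarith, by linarith,
        by linarith, (dsum D).le⟩
      rcases le_total (h - D) 0 with a7 | a7
      · rw [max_eq_right a7] at a4
        linarith
      · rw [max_eq_left a7] at a4
        linarith)
  refine ⟨P.mono (fun D _ U V hR => ?_) fun D _ => ?_⟩
  · obtain ⟨b1, b2, b3, b4, b5⟩ := hR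
    have a1 := F.nonneg (D - h)
    have a2 := odd D
    exact ⟨b1, by linarith, by linarith, b2, by linarith⟩
  · have a1 := F.le (h - D)
    have a2 := odd D
    unfold Lam
    linarith

theorem exists_a [Fintype ι] (ρ : ι → ℝ) (h0 : 0 < h) (hh : 2 * h < 1) (hρ : ∀ i, ρ i < h)
    (hs : ∑ i, ρ i ^ 3 < 1 - (1 - h) ^ 3) : ∃ a : ℝ, 0 < a ∧ a < 1 - 2 * h ∧ 2 * a < h ∧
      (∀ i, ρ i + a < h - 2 * a) ∧ ∑ i, (ρ i + a) ^ 3 + 2 * h ^ 3
        + 9 * ((3 + 3 * h - a) / 9 - (h - 2 * a)) ^ 3 < 9 * ((3 + 3 * h - a) / 9) ^ 3 := by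
  have h1 : ∀ᶠ a in 𝓝 (0 : ℝ), a < 1 - 2 * h := gt_mem_nhds (by linarith)
  have h2 : ∀ᶠ a in 𝓝 (0 : ℝ), 2 * a < h := by
    have hc : Continuous fun a : ℝ => 2 * a := by fun_prop
    exact hc.continuousAt.eventually_lt continuousAt_const (by simpa using h0)
  have h3 : ∀ᶠ a in 𝓝 (0 : ℝ), ∀ i, ρ i + a < h - 2 * a := by
    simp only [eventually_all]
    intro i
    have hc : Continuous fun a : ℝ => ρ i + a := by fun_prop
    have hc' : Continuous fun a : ℝ => h - 2 * a := by fun_prop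
    exact hc.continuousAt.eventually_lt hc'.continuousAt (by simpa using hρ i)
  have h4 : ∀ᶠ a in 𝓝 (0 : ℝ), ∑ i, (ρ i + a) ^ 3 + 2 * h ^ 3
      + 9 * ((3 + 3 * h - a) / 9 - (h - 2 * a)) ^ 3 < 9 * ((3 + 3 * h - a) / 9) ^ 3 := by
    have hc : Continuous fun a : ℝ => ∑ i, (ρ i + a) ^ 3 + 2 * h ^ 3
      + 9 * ((3 + 3 * h - a) / 9 - (h - 2 * a)) ^ 3 := by fun_prop
    have hc' : Continuous fun a : ℝ => 9 * ((3 + 3 * h - a) / 9) ^ 3 := by fun_prop
    refine hc.continuousAt.eventually_lt hc'.continuousAt ?_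
    simp only [add_zero, sub_zero, mul_zero]
    linarith
  have h5 : ∀ᶠ a in 𝓝[>] (0 : ℝ), 0 < a ∧ a < 1 - 2 * h ∧ 2 * a < h ∧
      (∀ i, ρ i + a < h - 2 * a) ∧ ∑ i, (ρ i + a) ^ 3 + 2 * h ^ 3
        + 9 * ((3 + 3 * h - a) / 9 - (h - 2 * a)) ^ 3 < 9 * ((3 + 3 * h - a) / 9) ^ 3 := by
    filter_upwards [self_mem_nhdsWithin, mem_nhdsWithin_of_mem_nhds h1,
      mem_nhdsWithin_of_mem_nhds h2, mem_nhdsWithin_of_mem_nhds h3,
      mem_nhdsWithin_of_mem_nhds h4] with a b1 b2 b3 b4 b5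
    exact ⟨b1, b2, b3, b4, b5⟩
  exact h5.exists

end CaseB

open CaseB in
theorem caseBS (h5 : FiveStmt) (hG : GlueStmt) (hf : FoldFnStmt) (hS : SimplexStmt) :
    CaseBStmt := by
  intro h ι _ _ ρ h0 hh hρ hs
  obtain ⟨a, ha, ha1, ha2, ha3, ha4⟩ := exists_a ρ h0 hh (fun i => (hρ i).2) hs
  have hr : ∀ i, ρ i + a ≤ h - 2 * a := fun i => (ha3 i).le
  have hb : 0 ≤ h - 2 * a := by linarith
  obtain ⟨S, x, hc, hx1, hx2, hx3⟩ := exists_sel (fun i => ρ i + a) hb hr
  refine hG 0 h (a / 120) ((1 + h) / 3 - a / 120) (fun D => Lam h D - 2 * (a / 120))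
    (by positivity) (loop h5 hf (by positivity) (by linarith)) ι ρ (fun i => ρ i + a) S x
    (a / 16) (a / 2) 4 (Lf h a) (fun i => ⟨(hρ i).1, by linarith⟩) hx1 (by positivity)
    (by linarith) (by positivity) (lipE ha) (cls ha hh hr hc hx2 hx3) (phi_le ha hh hr hc)
    (sum_lt ha hh hb hr hc) (fun s hs hL => ?_) ?_
  · have h1 := zero_le_sum hs
    have h2 : (0 : ℝ) ≤ s 0 := hs 0
    unfold Lf LL at hL ⊢
    generalize ∑ j, s j = σ at h1 hL ⊢
    have h3 : 0 < min (Lam h σ - a) (4 / a * (h - a - s 0)) :=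
      (lt_max_iff.1 hL).resolve_right (lt_irrefl 0)
    have h4 := (lt_min_iff.1 h3).1
    have h6 : 0 < h - a - s 0 := (mul_pos_iff_of_pos_left (by positivity)).1 (lt_min_iff.1 h3).2
    have h7 := min_le_left (Lam h σ - a) (4 / a * (h - a - s 0))
    have h8 := Lam_le h σ
    have h9 : Lam h σ ≤ 3 + 3 * h - 9 * σ := by
      unfold Lam
      linarith [le_max_right (h - σ) 0]
    have h10 : Lam h σ - 27 * (a / 120) ≤ Lam h (σ + 3 * (a / 120)) := by
      unfold Lam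
      have h11 : max (h - (σ + 3 * (a / 120))) 0 ≤ max (h - σ) 0 :=
        max_le_max (by linarith) le_rfl
      linarith
    have h12 := Lam_le h (σ + 3 * (a / 120))
    rw [max_eq_left h3.le, pow_zero, one_mul]
    refine ⟨by linarith, by linarith, by linarith, ?_⟩
    have h13 : a / 16 * (Lam h (σ + 3 * (a / 120)) - 2 * (a / 120)) ≤ a / 16 * 4 :=
      mul_le_mul_of_nonneg_left (by linarith) (by positivity)
    linarith
  · have hv := vol_le (d := 1) (c := (3 + 3 * h - a) / 9) hS ha hh h0.le (by ring) (by linarith)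
      (by linarith)
    by_contra hn
    have hn' := not_lt.1 hn
    have h1 := hv.trans (add_le_add_left hn' _)
    have e9 : (9 : ENNReal) = ENNReal.ofReal 9 := by simp
    have e2 : (2 : ENNReal) = ENNReal.ofReal 2 := by simp
    have p0 : 0 ≤ (3 + 3 * h - a) / 9 - (h - 2 * a) := by linarith
    have p1 : 0 ≤ ∑ i, (ρ i + a) ^ (0 + 3) / ((0 + 3).factorial : ℝ) :=
      Finset.sum_nonneg fun i _ => by
        have := (hρ i).1
        positivity
    rw [e9, e2, ← ENNReal.ofReal_mul (by norm_num), ← ENNReal.ofReal_mul (by norm_num),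
      ← ENNReal.ofReal_mul (by norm_num), ← ENNReal.ofReal_add (by positivity) (by positivity),
      ← ENNReal.ofReal_add p1 (by positivity),
      ENNReal.ofReal_le_ofReal_iff (by positivity), ← Finset.sum_div] at h1
    have f1 : ((1 + 2).factorial : ℝ) = 6 := by norm_num [Nat.factorial]
    rw [f1] at h1
    have h2 : 9 * (((3 + 3 * h - a) / 9) ^ 3 / 6) ≤ (∑ i, (ρ i + a) ^ 3) / 6 +
      (2 * (h ^ 3 / 6) + 9 * (((3 + 3 * h - a) / 9 - (h - 2 * a)) ^ 3 / 6)) := h1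
    linarith

end Vale.Agent.P209
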