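import Vale.Agent.P209.Basic

/-! An area preserving embedding of the plane into a half strip. -/

open Set Filter Topology Function
open scoped Real ContDiff

noncomputable section
namespace Vale.Agent.P209
namespace Chi

/-- `f` has the gradient `(a, b)` at `z`. -/
def P (f : ℝ × ℝ → ℝ) (z : ℝ × ℝ) (a b : ℝ) : Prop :=
  HasFDerivAt f (a • ContinuousLinearMap.fst ℝ ℝ ℝ + b • ContinuousLinearMap.snd ℝ ℝ ℝ) z

variable {f g : ℝ × ℝ → ℝ} {z : ℝ × ℝ} {a b c d : ℝ}

lemma P.fst : P (fun z => z.1) z 1 0 := hasFDerivAt_fst.congr_fderiv (by ext <;> simp)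

lemma P.snd : P (fun z => z.2) z 0 1 := hasFDerivAt_snd.congr_fderiv (by ext <;> simp)

lemma P.add (h : P f z a b) (h' : P g z c d) : P (fun z => f z + g z) z (a + c) (b + d) :=
  (HasFDerivAt.fun_add h h').congr_fderiv (by ext <;> simp)

lemma P.mul (h : P f z a b) (h' : P g z c d) :
    P (fun z => f z * g z) z (f z * c + g z * a) (f z * d + g z * b) :=
  (HasFDerivAt.fun_mul h h').congr_fderiv (by ext <;> simp)

lemma P.comp {k : ℝ → ℝ} {k' : ℝ} (h : P f z a b) (hk : HasDerivAt k k' (f z)) :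
    P (fun z => k (f z)) z (k' * a) (k' * b) :=
  (hk.comp_hasFDerivAt z h).congr_fderiv (by ext <;> simp)

lemma P.congr (h : P f z a b) (h1 : a = c) (h2 : b = d) : P f z c d := h1 ▸ h2 ▸ h

lemma area_of (h : P f z a b) (h' : P g z c d) (hf : ContDiffAt ℝ ∞ f z) (hg : ContDiffAt ℝ ∞ g z)
    (e : a * d - c * b = 1) : Area (fun z => (f z, g z)) z := by
  refine ⟨hf.prodMk hg, ?_⟩
  rw [(HasFDerivAt.prodMk h h').fderiv]
  simpa using e

def ww (e : ℝ) (z : ℝ × ℝ) : ℝ := (z.1 * z.1 + z.2 * z.2) / 2 + e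

def gg (e : ℝ) (z : ℝ × ℝ) : ℝ := √((ww e z + e) / 2)

def AA (e : ℝ) (z : ℝ × ℝ) : ℝ := ww e z + z.1 * gg e z

def BB (e : ℝ) (z : ℝ × ℝ) : ℝ := z.2 * gg e z

def tt (e : ℝ) (z : ℝ × ℝ) : ℝ := BB e z * (AA e z)⁻¹

variable {e : ℝ}

lemma ww_pos (he : 0 < e) (z : ℝ × ℝ) : 0 < ww e z := by
  unfold ww
  nlinarith [mul_self_nonneg z.1, mul_self_nonneg z.2]

lemma gg_pos (he : 0 < e) (z : ℝ × ℝ) : 0 < gg e z :=
  Real.sqrt_pos.2 (by linarith [ww_pos he z])

lemma gg_sq (he : 0 < e) (z : ℝ × ℝ) : gg e z ^ 2 = (ww e z + e) / 2 :=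
  Real.sq_sqrt (by linarith [ww_pos he z])

lemma key (he : 0 < e) (z : ℝ × ℝ) : AA e z ^ 2 + BB e z ^ 2 + e ^ 2 = 2 * AA e z * ww e z := by
  have h := gg_sq he z
  have h1 : z.1 * z.1 + z.2 * z.2 = 2 * (ww e z - e) := by
    unfold ww
    ring
  unfold AA BB
  linear_combination (z.1 * z.1 + z.2 * z.2) * h + (ww e z + e) / 2 * h1

lemma AA_pos (he : 0 < e) (z : ℝ × ℝ) : 0 < AA e z := by
  have h := key he z
  have h1 : 0 < 2 * AA e z * ww e z := by
    rw [← h]
    positivity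
  have h2 := (mul_pos_iff_of_pos_right (ww_pos he z)).1 h1
  linarith

lemma sm_ww : ContDiff ℝ ∞ (ww e) := by
  unfold ww
  fun_prop

lemma sm_gg (he : 0 < e) : ContDiff ℝ ∞ (gg e) :=
  ((sm_ww.add contDiff_const).div_const 2).sqrt fun z => by linarith [ww_pos he z]

lemma sm_AA (he : 0 < e) : ContDiff ℝ ∞ (AA e) := sm_ww.add (contDiff_fst.mul (sm_gg he))

lemma sm_tt (he : 0 < e) : ContDiff ℝ ∞ (tt e) :=
  (contDiff_snd.mul (sm_gg he)).mul ((sm_AA he).inv fun z => (AA_pos he z).ne')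

lemma P_ww (z : ℝ × ℝ) : P (ww e) z z.1 z.2 :=
  (((P.fst.mul P.fst).add (P.snd.mul P.snd)).comp (k := fun x => x / 2 + e)
    (((hasDerivAt_id' _).div_const 2).add_const e)).congr (by ring) (by ring)

lemma P_gg (he : 0 < e) (z : ℝ × ℝ) : P (gg e) z (z.1 / (4 * gg e z)) (z.2 / (4 * gg e z)) := by
  have h : (ww e z + e) / 2 ≠ 0 := by linarith [ww_pos he z]
  have h1 := (gg_pos he z).ne'
  refine ((P_ww z).comp (k := fun x => √((x + e) / 2))
    ((((hasDerivAt_id' _).add_const e).div_const 2).sqrt h)).congr ?_ ?_ <;>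
  · show 1 / 2 / (2 * gg e z) * _ = _
    field_simp
    ring

lemma area (he : 0 < e) (z : ℝ × ℝ) : Area (fun z =>
    (π * (AA e z * (1 + tt e z ^ 2)), Real.arctan (tt e z) / π + 1 / 2)) z := by
  have hA : P (AA e) z _ _ := (P_ww z).add (P.fst.mul (P_gg he z))
  have hB : P (BB e) z _ _ := P.snd.mul (P_gg he z)
  have h0 := (AA_pos he z).ne'
  have ht : P (tt e) z _ _ := hB.mul (hA.comp (hasDerivAt_inv h0))
  refine area_of ((hA.mul (ht.comp (k := fun x => 1 + x ^ 2)
    (((hasDerivAt_id' _).fun_pow 2).const_add 1))).comp (k := fun x => π * x)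
      ((hasDerivAt_id' _).const_mul π))
    (ht.comp (k := fun x => Real.arctan x / π + 1 / 2)
      (((Real.hasDerivAt_arctan _).div_const π).add_const _))
    (contDiff_const.mul ((sm_AA he).mul (contDiff_const.add ((sm_tt he).pow 2)))).contDiffAt
    (((Real.contDiff_arctan.comp (sm_tt he)).div_const π).add contDiff_const).contDiffAt ?_
  have h1 := (gg_pos he z).ne'
  have h2 : 1 + tt e z ^ 2 ≠ 0 := by positivity
  have h3 := Real.pi_ne_zero
  have h4 : AA e z = z.1 * gg e z + gg e z ^ 2 + (z.1 * z.1 + z.2 * z.2) / 4 := by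
    rw [gg_sq he, AA, ww]
    ring
  generalize tt e z = t at *
  generalize BB e z = B at *
  generalize AA e z = A at *
  generalize gg e z = g at *
  field_simp
  rw [h4]
  ring

end Chi

open Chi in
theorem chiS : ChiStmt := by
  intro ε hε
  obtain ⟨e, he, he'⟩ : ∃ e : ℝ, 0 < e ∧ ε = 2 * π * e :=
    ⟨ε / (2 * π), by positivity, by field_simp⟩
  refine ⟨_, area he, fun z z' h => ?_, fun z => ⟨?_, ?_, ?_, ?_⟩⟩
  · obtain ⟨h1, h2⟩ := Prod.mk.inj h
    have h3 : tt e z = tt e z' := Real.arctan_injective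
      ((div_left_inj' Real.pi_ne_zero).1 (add_right_cancel h2))
    rw [h3] at h1
    have h4 : AA e z = AA e z' :=
      mul_right_cancel₀ (by positivity) (mul_left_cancel₀ Real.pi_ne_zero h1)
    have h5 : BB e z = BB e z' := by
      rw [tt, tt, h4] at h3
      exact mul_right_cancel₀ (inv_ne_zero (AA_pos he z').ne') h3
    have h6 : ww e z = ww e z' := by
      have h7 := key he z
      rw [h4, h5, key he z'] at h7
      exact (mul_left_cancel₀ (mul_pos two_pos (AA_pos he z')).ne' h7).symm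
    have h7 : gg e z = gg e z' := by rw [gg, gg, h6]
    rw [AA, AA, h6, h7] at h4
    rw [BB, BB, h7] at h5
    exact Prod.ext (mul_right_cancel₀ (gg_pos he z').ne' (add_left_cancel h4))
      (mul_right_cancel₀ (gg_pos he z').ne' h5)
  · have := AA_pos he z
    show 0 < π * (AA e z * (1 + tt e z ^ 2))
    positivity
  · have h0 := AA_pos he z
    have h1 : AA e z * (1 + tt e z ^ 2) < 2 * ww e z := by
      refine lt_of_mul_lt_mul_left ?_ h0.le
      have h2 : AA e z * (AA e z * (1 + tt e z ^ 2)) = AA e z ^ 2 + BB e z ^ 2 := by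
        unfold tt
        field_simp
      linarith [key he z, pow_pos he 2]
    refine (mul_lt_mul_of_pos_left h1 Real.pi_pos).trans_eq ?_
    rw [he', ww]
    ring
  · have h := Real.neg_pi_div_two_lt_arctan (tt e z)
    show 0 < Real.arctan (tt e z) / π + 1 / 2
    rw [← neg_lt_iff_pos_add, lt_div_iff₀ Real.pi_pos]
    linarith
  · have h := Real.arctan_lt_pi_div_two (tt e z)
    show Real.arctan (tt e z) / π + 1 / 2 < 1
    rw [← lt_sub_iff_add_lt, div_lt_iff₀ Real.pi_pos]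
    linarith

end Vale.Agent.P209
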