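import Vale.Agent.P209.Basic

open Set Filter Topology Function
open scoped Real ContDiff

noncomputable section
namespace Vale.Agent.P209
namespace Core01
variable {d : ℕ} {s t : Fin (d + 1) → ℝ} {q p : (Fin (d + 1) → ℝ) → ℝ} {lam r x u δ : ℝ}

theorem upd_nn (hs : 0 ≤ s) (hu : 0 ≤ u) (k : Fin (d + 1)) : 0 ≤ update s k u := fun a => by
  by_cases h : a = k
  · simpa [h] using hu
  · simpa [h] using hs a

theorem add_nn (hs : 0 ≤ s) (hδ : 0 ≤ δ) (k : Fin (d + 1)) : 0 ≤ s + Pi.single k δ :=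
  add_nonneg hs (Pi.single_nonneg.2 hδ)

theorem upd_ne {j k : Fin (d + 1)} (h : j ≠ k) :
    update (s + Pi.single j δ) k u = update s k u + Pi.single j δ := by
  funext a
  by_cases ha : a = k
  · simp [ha, h]
  · simp [ha]

theorem upd_self (k : Fin (d + 1)) : update (s + Pi.single k δ) k u = update s k u := by
  funext a
  by_cases ha : a = k
  · simp [ha]
  · simp [ha]

theorem upd_single (k : Fin (d + 1)) : update s k u + Pi.single k δ = update s k (u + δ) := by
  funext a
  by_cases ha : a = k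
  · simp [ha]
  · simp [ha]

theorem upd_le (h : s ≤ t) {v : ℝ} (hu : u ≤ v) (k : Fin (d + 1)) :
    update s k u ≤ update t k v := fun a => by
  by_cases ha : a = k
  · simpa [ha] using hu
  · simpa [ha] using h a

theorem app_ne {j k : Fin (d + 1)} (h : j ≠ k) :
    (s + (Pi.single j δ : Fin (d + 1) → ℝ)) k = s k := by simp [h]

theorem app_self (k : Fin (d + 1)) : (s + (Pi.single k δ : Fin (d + 1) → ℝ)) k = s k + δ := by simp

theorem sum_add (k : Fin (d + 1)) :
    ∑ j, (s + (Pi.single k δ : Fin (d + 1) → ℝ)) j = ∑ j, s j + δ := by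
  simp [Finset.sum_add_distrib]

theorem le_of_lt' {a b : ℝ} (h : ∀ τ, b < τ → a < τ) : a ≤ b :=
  le_of_forall_gt fun τ hτ => h τ hτ

theorem srt_lt (hq : LB q) (k : Fin (d + 1)) (hs : 0 ≤ s) (τ : ℝ) :
    srt k q p s < τ ↔ ∃ u, 0 ≤ u ∧ p (update s k u) < τ ∧ q (update s k (u + s k)) < τ := by
  obtain ⟨b, hb⟩ := hq
  rw [srt, csInf_lt_iff ⟨b, ?_⟩ (nonempty_Ici.image _)]
  · simp only [mem_image, mem_Ici, exists_exists_and_eq_and, max_lt_iff]
  · rintro _ ⟨u, hu, rfl⟩
    exact (hb _ (upd_nn hs (add_nonneg hu (hs k)) k)).trans (le_max_right _ _)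

theorem chain_lt (hq : LB q) {k : ℕ} (h : k < d + 1) (hs : 0 ≤ s) (τ : ℝ) :
    chain lam r q (k + 1) s < τ ↔ ∃ u, 0 ≤ u ∧ chain lam r q k (update s ⟨k, h⟩ u) < τ ∧
      q (update s ⟨k, h⟩ (u + s ⟨k, h⟩)) < τ := by
  rw [chain, dif_pos h, srt_lt hq _ hs]

theorem chain_ge {k : ℕ} (h : ¬ k < d + 1) : chain lam r q (k + 1) = chain lam r q k := by
  rw [chain, dif_neg h]

theorem mono' (h : Cls lam x q) (hs : 0 ≤ s) (hst : s ≤ t) : q s ≤ q t := by
  have key : ∀ A : Finset (Fin (d + 1)), q s ≤ q (s + ∑ i ∈ A, Pi.single i (t i - s i)) := by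
    intro A
    induction A using Finset.induction_on with
    | empty => simp
    | insert a A ha ih =>
      rw [Finset.sum_insert ha, add_comm (Pi.single a _), ← add_assoc]
      exact ih.trans (h.mono _ (add_nonneg hs (Finset.sum_nonneg fun i _ =>
        Pi.single_nonneg.2 (sub_nonneg.2 (hst i)))) _ _ (sub_nonneg.2 (hst a)))
  have e : s + ∑ i, Pi.single i (t i - s i) = t := by
    rw [Finset.univ_sum_single fun i => t i - s i]
    funext a
    simp
  simpa only [e] using key Finset.univ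

theorem ord0 (h : Cls lam x q) (hs : 0 ≤ s) (j : Fin (d + 1)) (hδ : 0 ≤ δ) :
    q (s + Pi.single j δ) ≤ q (s + Pi.single 0 δ) := by
  rcases (Fin.zero_le j).eq_or_lt with rfl | hj
  · exact le_rfl
  · exact h.ord s hs 0 j hj δ hδ

theorem conc (h : Cls lam x q) (hs : 0 ≤ s) : q s ≤ q (0 + Pi.single 0 (∑ j, s j)) := by
  have key : ∀ A : Finset (Fin (d + 1)), ∀ w : Fin (d + 1) → ℝ, 0 ≤ w →
      q (w + ∑ i ∈ A, Pi.single i (s i)) ≤ q (w + Pi.single 0 (∑ i ∈ A, s i)) := by
    intro A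
    induction A using Finset.induction_on with
    | empty => simp
    | insert a A ha ih =>
      intro w hw
      rw [Finset.sum_insert ha, Finset.sum_insert ha, ← add_assoc, add_comm (s a), Pi.single_add,
        ← add_assoc]
      refine (ih _ (add_nn hw (hs a) a)).trans ?_
      rw [add_right_comm]
      exact ord0 h (add_nn hw (Finset.sum_nonneg fun i _ => hs i) 0) a (hs a)
  simpa only [Finset.univ_sum_single, zero_add] using key Finset.univ 0 le_rfl

theorem lb (h : Cls lam x q) : LB q := ⟨q 0, fun _ hs => mono' h le_rfl hs⟩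

theorem lip_nn (h : LipE q) : ∃ Λ : ℝ, 0 ≤ Λ ∧ ∀ s t, 0 ≤ s → 0 ≤ t → q s ≤ q t + Λ * ‖s - t‖ := by
  obtain ⟨Λ, hΛ⟩ := h
  refine ⟨max Λ 0, le_max_right _ _, fun s t hs ht => ?_⟩
  have h1 := (abs_le.1 (hΛ s t hs ht)).2
  have h2 := mul_le_mul_of_nonneg_right (le_max_left Λ 0) (norm_nonneg (s - t))
  linarith

theorem lip_of {Λ : ℝ} (h : ∀ s t, 0 ≤ s → 0 ≤ t → q s ≤ q t + Λ * ‖s - t‖) : LipE q :=
  ⟨Λ, fun s t hs ht => by
    have h1 := h s t hs ht
    have h2 := h t s ht hs
    rw [norm_sub_rev] at h2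
    exact abs_le.2 ⟨by linarith, by linarith⟩⟩

theorem upd_norm (k : Fin (d + 1)) {a b : ℝ} (h : |a - b| ≤ ‖s - t‖) :
    ‖update s k a - update t k b‖ ≤ ‖s - t‖ := by
  refine (pi_norm_le_iff_of_nonneg (norm_nonneg _)).2 fun i => ?_
  by_cases hi : i = k
  · simpa [hi] using h
  · simpa [hi] using norm_le_pi_norm (s - t) i

end Core01
open Core01

theorem core0S : Core0Stmt := by
  intro d lam r hl
  refine ⟨fun q hq k => ?_, fun q hq k s hs τ => chain_lt hq k.2 hs τ,
    fun q q' c hq hq' h k => ?_, fun q hq hL k => ?_⟩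
  · obtain ⟨b, hb⟩ := id hq
    refine ⟨b, ?_⟩
    induction k with
    | zero => exact fun s hs => (hb s hs).trans (le_add_of_nonneg_right (by positivity))
    | succ k ih =>
      intro s hs
      by_cases h : k < d + 1
      · refine le_of_lt' fun τ hτ => ?_
        obtain ⟨u, hu, h1, -⟩ := (chain_lt hq h hs τ).1 hτ
        exact (ih _ (upd_nn hs hu _)).trans_lt h1
      · rw [chain_ge h]
        exact ih s hs
  · induction k with
    | zero =>
      intro s hs
      have := h s hs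
      simp only [chain, job]
      linarith
    | succ k ih =>
      intro s hs
      by_cases hk : k < d + 1
      · refine le_of_lt' fun τ hτ => ?_
        obtain ⟨u, hu, h1, h2⟩ := (chain_lt hq' hk hs (τ - c)).1 (lt_sub_iff_add_lt.2 hτ)
        refine (chain_lt hq hk hs τ).2 ⟨u, hu, ?_, ?_⟩
        · linarith [ih _ (upd_nn hs hu ⟨k, hk⟩)]
        · linarith [h _ (upd_nn hs (add_nonneg hu (hs ⟨k, hk⟩)) ⟨k, hk⟩)]
      · rw [chain_ge hk, chain_ge hk]
        exact ih s hs
  · obtain ⟨Λ, hΛ0, hΛ⟩ := lip_nn hL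
    induction k with
    | zero =>
      refine lip_of (Λ := Λ + lam * (d + 1)) fun s t hs ht => ?_
      have h1 := hΛ s t hs ht
      have h2 : ∑ j, t j - ∑ j, s j ≤ (d + 1) * ‖s - t‖ := by
        rw [← Finset.sum_sub_distrib]
        refine (Finset.sum_le_card_nsmul _ _ ‖s - t‖ fun j _ => ?_).trans (by simp)
        have := norm_le_pi_norm (s - t) j
        rw [Real.norm_eq_abs, Pi.sub_apply] at this
        linarith [(abs_le.1 this).1]
      have h3 : max (r - ∑ j, s j) 0 ≤ max (r - ∑ j, t j) 0 + (d + 1) * ‖s - t‖ :=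
        max_le (by linarith [le_max_left (r - ∑ j, t j) 0])
          (add_nonneg (le_max_right _ _) (by positivity))
      have h4 := mul_le_mul_of_nonneg_left h3 hl
      simp only [chain, job]
      linarith
    | succ k ih =>
      by_cases hk : k < d + 1
      · obtain ⟨Λ', hΛ0', hΛ'⟩ := lip_nn ih
        refine lip_of (Λ := Λ + Λ') fun s t hs ht => le_of_lt' fun τ hτ => ?_
        obtain ⟨u, hu, h1, h2⟩ := (chain_lt hq hk ht (τ - (Λ + Λ') * ‖s - t‖)).1
          (lt_sub_iff_add_lt.2 hτ)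
        have n0 := norm_nonneg (s - t)
        refine (chain_lt hq hk hs τ).2 ⟨u, hu, ?_, ?_⟩
        · have h3 := hΛ' _ _ (upd_nn hs hu ⟨k, hk⟩) (upd_nn ht hu ⟨k, hk⟩)
          have h4 := mul_le_mul_of_nonneg_left
            (upd_norm (s := s) (t := t) ⟨k, hk⟩ (a := u) (b := u) (by simp)) hΛ0'
          nlinarith [mul_nonneg hΛ0 n0]
        · have h3 := hΛ _ _ (upd_nn hs (add_nonneg hu (hs ⟨k, hk⟩)) ⟨k, hk⟩)
            (upd_nn ht (add_nonneg hu (ht ⟨k, hk⟩)) ⟨k, hk⟩)
          have h4 := mul_le_mul_of_nonneg_left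
            (upd_norm (s := s) (t := t) ⟨k, hk⟩ (a := u + s ⟨k, hk⟩) (b := u + t ⟨k, hk⟩)
              (by simpa using norm_le_pi_norm (s - t) ⟨k, hk⟩)) hΛ0
          nlinarith [mul_nonneg hΛ0' n0]
      · rwa [chain_ge hk]

theorem core1S (h0 : Core0Stmt) : Core1Stmt := by
  intro d lam r x q hl hr hx h k
  have hq := lb h
  induction k with
  | zero =>
    simp only [chain, job, sum_add]
    refine ⟨fun s hs => le_add_of_nonneg_right (by positivity), fun s hs => ?_,
      fun s hs j _ δ hδ => ?_, fun s hs j hj => absurd hj (Nat.not_lt_zero _),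
      fun s hs i j hij δ hδ => by linarith [h.ord s hs i j hij δ hδ]⟩
    · rcases le_or_gt (r - ∑ j, s j) 0 with h1 | h1
      · rw [max_eq_right h1, mul_zero, add_zero]
        exact le_max_left _ _
      · have h2 := h.dlast 0 le_rfl (∑ j, s j) (Finset.sum_nonneg fun i _ => hs i)
          (by simp only [Pi.zero_apply, Finset.sum_const_zero]; linarith)
        rw [max_eq_left h1.le]
        exact le_max_of_le_right (by linarith [conc h hs])
    · rcases le_or_gt (r - (∑ j, s j + δ)) 0 with h1 | h1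
      · rw [max_eq_right h1, mul_zero, add_zero]
        exact le_max_right _ _
      · have h2 := h.dlast s hs δ hδ (by linarith)
        rw [max_eq_left h1.le, max_eq_left (by linarith : 0 ≤ r - ∑ j, s j)]
        exact le_max_of_le_left (by linarith [ord0 h hs j hδ])
  | succ k ih =>
    obtain ⟨iS, iB, iU, iM, iO⟩ := ih
    by_cases hk : k < d + 1
    swap
    · rw [chain_ge hk]
      exact ⟨iS, iB, fun s hs j hj => iU s hs j (by omega),
        fun s hs j hj => iM s hs j (by omega), iO⟩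
    obtain ⟨κ, hκ⟩ : ∃ κ : Fin (d + 1), κ = ⟨k, hk⟩ := ⟨_, rfl⟩
    have hκv : (κ : ℕ) = k := by rw [hκ]
    have E : ∀ {s : Fin (d + 1) → ℝ}, 0 ≤ s → ∀ τ, chain lam r q (k + 1) s < τ ↔ ∃ u, 0 ≤ u ∧
        chain lam r q k (update s κ u) < τ ∧ q (update s κ (u + s κ)) < τ := fun hs τ =>
      hκ ▸ chain_lt hq hk hs τ
    refine ⟨fun s hs => le_of_lt' fun τ hτ => ?_, fun s hs => le_of_lt' fun τ hτ => ?_,
      fun s hs j hj δ hδ => le_of_lt' fun τ hτ => ?_,
      fun s hs j hj δ hδ => le_of_lt' fun τ hτ => ?_,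
      fun s hs i j hij δ hδ => le_of_lt' fun τ hτ => ?_⟩
    · obtain ⟨u, hu, -, h2⟩ := (E hs τ).1 hτ
      refine (mono' h hs ?_).trans_lt h2
      simpa using upd_le (le_refl s) (le_add_of_nonneg_left hu : s κ ≤ u + s κ) κ
    · have h1 : update s κ 0 ≤ s := by simpa using upd_le (le_refl s) (hs κ) κ
      refine (E hs τ).2 ⟨0, le_rfl, (iB _ (upd_nn hs le_rfl κ)).trans_lt ?_, ?_⟩
      · exact (max_le_max_right _ (mono' h (upd_nn hs le_rfl κ) h1)).trans_lt hτ
      · simpa using (max_lt_iff.1 hτ).1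
    · obtain ⟨h1, h2⟩ := max_lt_iff.1 hτ
      obtain ⟨u, hu, h3, h4⟩ := (E hs τ).1 h1
      have hκj : κ < j := by rw [Fin.lt_def]; omega
      rcases le_or_gt δ u with hδu | hδu
      · have hu' := sub_nonneg.2 hδu
        refine (E (add_nn hs hδ j) τ).2 ⟨u - δ, hu', ?_, ?_⟩
        · rw [upd_ne hκj.ne']
          refine (iO _ (upd_nn hs hu' κ) κ j hκj δ hδ).trans_lt ?_
          rwa [upd_single, sub_add_cancel]
        · rw [upd_ne hκj.ne', app_ne hκj.ne']
          refine (h.ord _ (upd_nn hs (add_nonneg hu' (hs κ)) κ) κ j hκj δ hδ).trans_lt ?_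
          rwa [upd_single, add_right_comm, sub_add_cancel]
      · have w0 := upd_nn hs le_rfl κ
        have h5 : update s κ 0 ≤ s := by simpa using upd_le (le_refl s) (hs κ) κ
        have h6 := iO _ w0 κ j hκj u hu
        have h7 := iU _ (add_nn w0 hu j) j (by omega) (δ - u) (sub_nonneg.2 hδu.le)
        rw [upd_single, zero_add] at h6
        rw [add_assoc, ← Pi.single_add, add_sub_cancel] at h7
        refine (E (add_nn hs hδ j) τ).2 ⟨0, le_rfl, ?_, by rwa [zero_add, update_eq_self]⟩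
        rw [upd_ne hκj.ne']
        exact h7.trans_lt (max_lt (h6.trans_lt h3)
          ((mono' h (add_nn w0 hδ j) (add_le_add_left h5 _)).trans_lt h2))
    · obtain ⟨u, hu, h3, h4⟩ := (E (add_nn hs hδ j) τ).1 hτ
      have h5 : s ≤ s + Pi.single j δ := le_add_of_nonneg_right (Pi.single_nonneg.2 hδ)
      refine (E hs τ).2 ⟨u, hu, ?_, (mono' h (upd_nn hs (add_nonneg hu (hs κ)) κ)
        (upd_le h5 (add_le_add_right (h5 κ) u) κ)).trans_lt h4⟩
      by_cases hjκ : j = κ
      · rwa [hjκ, upd_self] at h3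
      · rw [upd_ne hjκ] at h3
        have : (j : ℕ) ≠ κ := fun e => hjκ (Fin.ext e)
        exact (iM _ (upd_nn hs hu κ) j (by omega) δ hδ).trans_lt h3
    · obtain ⟨u, hu, h3, h4⟩ := (E (add_nn hs hδ i) τ).1 hτ
      have w0 := upd_nn hs hu κ
      have w1 := upd_nn hs (add_nonneg hu (hs κ)) κ
      refine (E (add_nn hs hδ j) τ).2 ⟨u, hu, ?_⟩
      by_cases hi : i = κ
      · subst hi
        rw [upd_self] at h3
        rw [upd_self, app_self, ← add_assoc, ← upd_single] at h4
        rw [upd_ne hij.ne', upd_ne hij.ne', app_ne hij.ne']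
        refine ⟨(iU _ w0 j (by have := Fin.lt_def.1 hij; omega) δ hδ).trans_lt (max_lt h3 ?_),
          (h.ord _ w1 i j hij δ hδ).trans_lt h4⟩
        exact ((h.ord _ w0 i j hij δ hδ).trans (mono' h (add_nn w0 hδ i) (add_le_add_left
          (upd_le (le_refl s) (le_add_of_nonneg_right (hs i)) i) _))).trans_lt h4
      by_cases hj : j = κ
      · subst hj
        rw [upd_ne hi] at h3
        rw [upd_ne hi, app_ne hi] at h4
        rw [upd_self, upd_self, app_self, ← add_assoc, ← upd_single]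
        exact ⟨(iM _ w0 i (by have := Fin.lt_def.1 hij; omega) δ hδ).trans_lt h3,
          (h.ord _ w1 i j hij δ hδ).trans_lt h4⟩
      · rw [upd_ne hi] at h3
        rw [upd_ne hi, app_ne hi] at h4
        rw [upd_ne hj, upd_ne hj, app_ne hj]
        exact ⟨(iO _ w0 i j hij δ hδ).trans_lt h3, (h.ord _ w1 i j hij δ hδ).trans_lt h4⟩

end Vale.Agent.P209
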