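import Vale.Agent.P209.Basic

open Set Function

noncomputable section
namespace Vale.Agent.P209

namespace Core2

variable {d : ℕ}

/-- unit vectors, zero when the index is out of range -/
def E (d j : ℕ) : Fin (d + 1) → ℝ := fun l => if (l : ℕ) = j then 1 else 0

/-- sum of the first `j` coordinates -/
def S (j : ℕ) (s : Fin (d + 1) → ℝ) : ℝ := ∑ l : Fin (d + 1) with l.val < j, s l

/-- nonnegative with vanishing coordinate `k` -/
def Z (k : ℕ) (s : Fin (d + 1) → ℝ) : Prop := 0 ≤ s ∧ ∀ l : Fin (d + 1), (l : ℕ) = k → s l = 0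

theorem single_eq (i : Fin (d + 1)) (a : ℝ) : Pi.single i a = a • E d i := by
  funext l
  by_cases h : l = i
  · subst h
    simp [E]
  · have h' : (l : ℕ) ≠ i := fun e => h (Fin.ext e)
    simp [E, h, h']

theorem E_out {j : ℕ} (h : d < j) : E d j = 0 := by
  funext l
  have := l.2
  exact if_neg (by omega)

theorem nn {s : Fin (d + 1) → ℝ} {a : ℝ} (hs : 0 ≤ s) (ha : 0 ≤ a) (j : ℕ) :
    0 ≤ s + a • E d j := by
  refine add_nonneg hs (smul_nonneg ha fun l => ?_)
  unfold E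
  split_ifs <;> simp

theorem Z.add {k j : ℕ} {s : Fin (d + 1) → ℝ} {a : ℝ} (h : Z k s) (ha : 0 ≤ a) (hj : j ≠ k) :
    Z k (s + a • E d j) :=
  ⟨nn h.1 ha j, fun l hl => by
    rw [Pi.add_apply, h.2 l hl, Pi.smul_apply, E, if_neg (by omega), smul_zero, add_zero]⟩

theorem decomp {k : ℕ} (hk : k ≤ d) {s : Fin (d + 1) → ℝ} (hs : 0 ≤ s) :
    ∃ (b : Fin (d + 1) → ℝ) (a : ℝ), Z k b ∧ 0 ≤ a ∧ s = b + a • E d k := by
  refine ⟨fun l => if (l : ℕ) = k then 0 else s l, s ⟨k, by omega⟩,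
    ⟨fun l => ?_, fun l hl => if_pos hl⟩, hs _, ?_⟩
  · dsimp only
    split_ifs
    · exact le_rfl
    · exact hs l
  · funext l
    by_cases h : (l : ℕ) = k
    · subst h
      simp [E]
    · simp [E, h]

theorem S_lt {i j : ℕ} (h : i < j) (hi : i ≤ d) (s : Fin (d + 1) → ℝ) (a : ℝ) :
    S j (s + a • E d i) = S j s + a := by
  unfold S
  simp only [Pi.add_apply, Finset.sum_add_distrib, add_right_inj]
  rw [Finset.sum_eq_single_of_mem (⟨i, by omega⟩ : Fin (d + 1)) (by simpa using h)]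
  · simp [E]
  · intro l _ hl
    have h' : (l : ℕ) ≠ i := fun e => hl (Fin.ext e)
    simp [E, h']

theorem S_ge {i j : ℕ} (h : j ≤ i) (s : Fin (d + 1) → ℝ) (a : ℝ) :
    S j (s + a • E d i) = S j s := by
  unfold S
  refine Finset.sum_congr rfl fun l hl => ?_
  have := (Finset.mem_filter.mp hl).2
  rw [Pi.add_apply, Pi.smul_apply, E, if_neg (by omega), smul_zero, add_zero]

theorem S_mono {i j : ℕ} (h : i ≤ j) {s : Fin (d + 1) → ℝ} (hs : 0 ≤ s) : S i s ≤ S j s :=
  Finset.sum_le_sum_of_subset_of_nonneg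
    (fun _ hl => Finset.mem_filter.mpr ⟨Finset.mem_univ _, (Finset.mem_filter.mp hl).2.trans_le h⟩)
    fun l _ _ => hs l

theorem S_top (s : Fin (d + 1) → ℝ) : S (d + 1) s = ∑ l, s l := by
  unfold S
  rw [Finset.filter_true_of_mem fun l _ => l.2]

theorem S_ps (s : Fin (d + 1) → ℝ) (k : Fin (d + 1)) : S (k + 1) s = ps s k := by
  unfold S ps
  exact Finset.sum_congr (Finset.filter_congr fun l _ => by rw [Fin.le_def]; omega) fun _ _ => rfl

theorem cut {G : ℝ → Prop} {lo hi ε : ℝ} (hε : 0 < ε) (hle : lo ≤ hi) (h0 : G lo) (h1 : ¬ G hi)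
    (hd : ∀ v, hi ≤ v → G v → G hi) : ∃ v, lo ≤ v ∧ v ≤ hi ∧ G v ∧ ¬ G (v + ε) := by
  have hb : BddAbove {v | lo ≤ v ∧ v ≤ hi ∧ G v} := ⟨hi, fun v hv => hv.2.1⟩
  obtain ⟨v, hv, hlt⟩ := exists_lt_of_lt_csSup (s := {v | lo ≤ v ∧ v ≤ hi ∧ G v})
    ⟨lo, le_rfl, hle, h0⟩ (sub_lt_self _ hε)
  refine ⟨v, hv.1, hv.2.1, hv.2.2, fun h => ?_⟩
  rcases le_total hi (v + ε) with h2 | h2
  · exact h1 (hd _ h2 h)
  · have := le_csSup hb (show v + ε ∈ _ from ⟨by linarith [hv.1], h2, h⟩)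
    linarith

/-- the facts on the sublevel sets that are used -/
structure Sys (lam x : ℝ) (F : (Fin (d + 1) → ℝ) → ℝ → Prop)
    (P : ℕ → (Fin (d + 1) → ℝ) → ℝ → Prop) : Prop where
  lam0 : 0 ≤ lam
  up : ∀ {p τ τ'}, F p τ → τ ≤ τ' → F p τ'
  mono : ∀ (j : ℕ) (a : ℝ) {p p' τ}, F p τ → 0 ≤ p' → 0 ≤ a → p = p' + a • E d j → F p' τ
  ord : ∀ {i j : ℕ} (b : Fin (d + 1) → ℝ) (δ : ℝ) {p p' τ}, F p τ → i < j → 0 ≤ b → 0 ≤ δ →
    p = b + δ • E d i → p' = b + δ • E d j → F p' τ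
  dd : ∀ {j : ℕ} (b : Fin (d + 1) → ℝ) (δ : ℝ) {p p' τ}, F p τ → 1 ≤ j → j ≤ d + 1 → 0 ≤ b →
    0 ≤ δ → S j b + δ < x → p = b + δ • E d j → p' = b + δ • E d 0 → F p' (τ + lam * δ)
  X : ∀ (j : ℕ) (a c : ℝ) {δ p p' τ}, P 0 p τ → j ≤ d → 0 ≤ p' → 0 ≤ a → 0 ≤ c → a + c ≤ δ →
    p = p' + a • E d j + c • E d 0 → P 0 p' (τ + lam * δ)
  out : ∀ {k : ℕ} (b : Fin (d + 1) → ℝ) (a : ℝ) {p τ}, P (k + 1) p τ → k ≤ d → Z k b → 0 ≤ a →
    p = b + a • E d k → ∃ u, 0 ≤ u ∧ P k (b + u • E d k) τ ∧ F (b + (u + a) • E d k) τ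
  inn : ∀ {k : ℕ} (b : Fin (d + 1) → ℝ) (a u : ℝ) {p p₁ p₂ τ}, P k p₁ τ → F p₂ τ → k ≤ d → Z k b →
    0 ≤ a → 0 ≤ u → p = b + a • E d k → p₁ = b + u • E d k → p₂ = b + (u + a) • E d k →
    P (k + 1) p τ
  O : ∀ {k i j : ℕ} (b : Fin (d + 1) → ℝ) (δ : ℝ) {p p' τ}, P k p τ → i < j → j ≤ d → 0 ≤ b →
    0 ≤ δ → p = b + δ • E d i → p' = b + δ • E d j → P k p' τ

variable {lam x : ℝ} {F : (Fin (d + 1) → ℝ) → ℝ → Prop} {P : ℕ → (Fin (d + 1) → ℝ) → ℝ → Prop}

/-- the statement `W` -/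
def WS (lam x : ℝ) (F : (Fin (d + 1) → ℝ) → ℝ → Prop) (P : ℕ → (Fin (d + 1) → ℝ) → ℝ → Prop)
    (i j : ℕ) : Prop :=
  ∀ (w : Fin (d + 1) → ℝ) (θ δ c τ : ℝ), 0 ≤ w → 0 ≤ θ → θ ≤ δ → 0 ≤ c → P i (w + θ • E d j) τ →
    F (w + δ • E d 0) (τ + lam * δ) → ¬ F (w + δ • E d 0 + c • E d i) (τ + lam * δ) →
    S j w + δ + c < x → P i (w + δ • E d 0) (τ + lam * δ)

theorem W_one (h : Sys lam x F P) {j : ℕ} (hj1 : 1 ≤ j) (hjd : j ≤ d) : WS lam x F P 1 j := by
  intro w θ δ c τ hw hθ hθδ hc hP hF hn hS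
  obtain ⟨b, a, hb, ha, rfl⟩ := decomp (Nat.zero_le d) hw
  rw [S_lt (by omega) (Nat.zero_le d)] at hS
  obtain ⟨u, hu, h1, h2⟩ := h.out (b + θ • E d j) a hP (Nat.zero_le d) (hb.add hθ (by omega)) ha
    (by module)
  have hl : τ + lam * θ ≤ τ + lam * δ := by
    have := mul_le_mul_of_nonneg_left hθδ h.lam0
    linarith
  have key : ∀ v, 0 ≤ v → v ≤ u + a → S j b + v + θ < x →
      F (b + (v + θ) • E d 0) (τ + lam * δ) := by
    intro v hv hvu hx
    have h3 : F (b + v • E d 0 + θ • E d j) τ :=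
      h.mono 0 (u + a - v) h2 (nn (nn hb.1 hv 0) hθ j) (by linarith) (by module)
    exact h.up (h.dd (b + v • E d 0) θ h3 hj1 (by omega) (nn hb.1 hv 0) hθ
      (by rwa [S_lt (by omega) (Nat.zero_le d)]) rfl (by module)) hl
  rcases le_total u (δ - θ) with h3 | h3
  · exact h.inn b (a + δ) 0 (h.X j θ u h1 hjd hb.1 hθ hu (by linarith) rfl) hF (Nat.zero_le d) hb
      (by linarith) le_rfl (by module) (by module) (by module)
  · have h4 : P 0 (b + (u - (δ - θ)) • E d 0) (τ + lam * δ) :=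
      h.X j θ (δ - θ) h1 hjd (nn hb.1 (by linarith) 0) hθ (by linarith) (by linarith) (by module)
    by_cases h5 : S j b + (u + a) + θ < x
    · exact h.inn b (a + δ) (u - (δ - θ)) h4 (key _ (by linarith) le_rfl h5) (Nat.zero_le d) hb
        (by linarith) (by linarith) (by module) rfl (by module)
    · exact absurd (h.ord (b + a • E d 0 + δ • E d 0) c
        (key (a + δ + c - θ) (by linarith) (by linarith) (by linarith)) Nat.one_pos
        (nn (nn hb.1 ha 0) (by linarith) 0) hc (by module) rfl) hn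

theorem W_succ (h : Sys lam x F P) {i j : ℕ} (hi : 1 ≤ i) (hij : i < j) (hjd : j ≤ d)
    (ih : WS lam x F P i j) : WS lam x F P (i + 1) j := by
  intro w θ δ c τ hw hθ hθδ hc hP hF hn hS
  have hid : i ≤ d := by omega
  have hδ : 0 ≤ δ := hθ.trans hθδ
  obtain ⟨b, a, hb, ha, rfl⟩ := decomp hid hw
  rw [S_lt hij hid] at hS
  obtain ⟨u, hu, h1, h2⟩ := h.out (b + θ • E d j) a hP hid (hb.add hθ (by omega)) ha (by module)
  have hn' : ¬ F (b + δ • E d 0 + (a + c) • E d i) (τ + lam * δ) := fun h3 =>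
    hn (h.ord (b + a • E d i + δ • E d 0) c h3 i.lt_succ_self (nn (nn hb.1 ha i) hδ 0) hc
      (by module) rfl)
  have key : ∀ v, δ - θ ≤ v → v ≤ u + a → S j b + v + θ < x →
      F (b + δ • E d 0 + (v - (δ - θ)) • E d i) (τ + lam * δ) := by
    intro v hv hvu hx
    have hv0 : 0 ≤ v := by linarith
    have h3 : F (b + v • E d i + θ • E d j) τ :=
      h.mono i (u + a - v) h2 (nn (nn hb.1 hv0 i) hθ j) (by linarith) (by module)
    have h4 := h.dd (b + v • E d i) θ h3 (by omega) (by omega) (nn hb.1 hv0 i) hθ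
      (by rwa [S_lt hij hid]) rfl rfl
    have h5 := S_mono hij.le hb.1
    refine h.up (h.dd (b + θ • E d 0 + (v - (δ - θ)) • E d i) (δ - θ) h4 hi (by omega)
      (nn (nn hb.1 hθ 0) (by linarith) i) (by linarith) ?_ (by module) (by module))
      (le_of_eq (by ring))
    rw [S_ge le_rfl, S_lt (by omega) (Nat.zero_le d)]
    linarith
  obtain ⟨θ', h0, h3, h4, h5⟩ : ∃ θ', 0 ≤ θ' ∧ θ' ≤ u ∧ θ + θ' ≤ δ ∧
      F (b + δ • E d 0 + (u - θ' + a) • E d i) (τ + lam * δ) := by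
    rcases le_total u (δ - θ) with h3 | h3
    · exact ⟨u, hu, le_rfl, by linarith,
        h.mono 0 0 hF (nn (nn hb.1 hδ 0) (by linarith) i) le_rfl (by module)⟩
    · refine ⟨δ - θ, by linarith, h3, by linarith, ?_⟩
      by_cases h5 : S j b + (u + a) + θ < x
      · exact h.mono 0 0 (key _ (by linarith) le_rfl h5) (nn (nn hb.1 hδ 0) (by linarith) i)
          le_rfl (by module)
      · exact absurd (h.mono 0 0 (key (a + c + δ - θ) (by linarith) (by linarith) (by linarith))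
          (nn (nn hb.1 hδ 0) (by linarith) i) le_rfl (by module)) hn'
  have h6 : u - θ' ≤ c := by
    by_contra h6
    exact hn' (h.mono i (u - θ' - c) h5 (nn (nn hb.1 hδ 0) (by linarith) i) (by linarith)
      (by module))
  have hz : 0 ≤ b + (u - θ') • E d i := nn hb.1 (by linarith) i
  have h7 := ih (b + (u - θ') • E d i) (θ + θ') δ (a + c - (u - θ')) τ hz (by linarith) h4
    (by linarith) (h.O (b + (u - θ') • E d i + θ • E d j) θ' h1 hij hjd (nn hz hθ j) h0
      (by module) (by module))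
    (h.mono i a h5 (nn hz hδ 0) ha (by module))
    (fun h7 => hn' (h.mono 0 0 h7 (nn (nn hb.1 hδ 0) (by linarith) i) le_rfl (by module)))
    (by rw [S_lt hij hid]; linarith)
  exact h.inn (b + δ • E d 0) a (u - θ') h7 h5 hid (hb.add hδ (by omega)) ha (by linarith)
    (by module) (by module) rfl

theorem W_all (h : Sys lam x F P) {i j : ℕ} (hi : 1 ≤ i) (hij : i ≤ j) (hjd : j ≤ d) :
    WS lam x F P i j := by
  induction i, hi using Nat.le_induction with
  | base => exact W_one h hij hjd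
  | succ i hi ih => exact W_succ h hi hij hjd (ih (by omega))

theorem T_all (h : Sys lam x F P) {k : ℕ} (hk : 1 ≤ k) (hkd : k ≤ d + 1) :
    ∀ (s : Fin (d + 1) → ℝ) (δ τ : ℝ), 0 ≤ s → 0 ≤ δ → S k s + δ < x → P k s τ →
      F (s + δ • E d 0) (τ + lam * δ) → P k (s + δ • E d 0) (τ + lam * δ) := by
  induction k, hk using Nat.le_induction with
  | base =>
    intro s δ τ hs hδ _ hP hF
    obtain ⟨b, a, hb, ha, rfl⟩ := decomp (Nat.zero_le d) hs
    obtain ⟨u, hu, h1, h2⟩ := h.out b a hP (Nat.zero_le d) hb ha rfl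
    rcases le_total u δ with h3 | h3
    · exact h.inn b (a + δ) 0 (h.X 0 0 u h1 (Nat.zero_le d) hb.1 le_rfl hu (by linarith)
        (by module)) hF (Nat.zero_le d) hb (by linarith) le_rfl (by module) (by module) (by module)
    · have h4 : P 0 (b + (u - δ) • E d 0) (τ + lam * δ) :=
        h.X 0 0 δ h1 (Nat.zero_le d) (nn hb.1 (by linarith) 0) le_rfl hδ (by linarith) (by module)
      exact h.inn b (a + δ) (u - δ) h4
        (h.up h2 (le_add_of_nonneg_right (mul_nonneg h.lam0 hδ))) (Nat.zero_le d) hb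
        (by linarith) (by linarith) (by module) rfl (by module)
  | succ k hk ih =>
    intro s δ τ hs hδ hS hP hF
    have hkd' : k ≤ d := by omega
    obtain ⟨b, a, hb, ha, rfl⟩ := decomp hkd' hs
    rw [S_lt k.lt_succ_self hkd'] at hS
    have hS' := S_mono k.le_succ hb.1
    obtain ⟨u, hu, h1, h2⟩ := h.out b a hP hkd' hb ha rfl
    have hb' : Z k (b + δ • E d 0) := hb.add hδ (by omega)
    by_cases h3 : F (b + δ • E d 0 + (u + a) • E d k) (τ + lam * δ)
    · have h4 := ih (by omega) (b + u • E d k) δ τ (nn hb.1 hu k) hδ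
        (by rw [S_ge le_rfl]; linarith) h1 (h.mono k a h3 (nn (nn hb.1 hu k) hδ 0) ha (by module))
      exact h.inn (b + δ • E d 0) a u h4 h3 hkd' hb' ha hu (by module) (by module) rfl
    · obtain ⟨lo, l0, l1, l2, l3⟩ : ∃ lo, 0 ≤ lo ∧ lo ≤ u ∧ u - δ ≤ lo ∧
          F (b + δ • E d 0 + (lo + a) • E d k) (τ + lam * δ) := by
        rcases le_total u δ with h4 | h4
        · exact ⟨0, le_rfl, hu, by linarith,
            h.mono 0 0 hF (nn hb'.1 (by linarith) k) le_rfl (by module)⟩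
        · exact ⟨u - δ, by linarith, by linarith, le_rfl,
            h.dd (b + (u - δ + a) • E d k) δ h2 hk (by omega) (nn hb.1 (by linarith) k) hδ
              (by rw [S_ge le_rfl]; linarith) (by module) (by module)⟩
      obtain ⟨v, v0, v1, v2, v3⟩ := cut (G := fun v => F (b + δ • E d 0 + (v + a) • E d k)
        (τ + lam * δ)) (ε := (x - S (k + 1) b - a - δ) / 2) (by linarith) l1 l3 h3
        fun v hv h4 => h.mono k (v - u) h4 (nn hb'.1 (by linarith) k) (by linarith) (by module)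
      have hv : 0 ≤ v := l0.trans v0
      have hz : 0 ≤ b + v • E d k := nn hb.1 hv k
      have e1 : b + v • E d k + (u - v) • E d k = b + u • E d k := by module
      have h4 := W_all h hk le_rfl hkd' (b + v • E d k) (u - v) δ
        (a + (x - S (k + 1) b - a - δ) / 2) τ hz (by linarith) (by linarith) (by linarith)
        (e1 ▸ h1) (h.mono k a v2 (nn hz hδ 0) ha (by module))
        (fun h4 => v3 (h.mono 0 0 h4 (nn hb'.1 (by linarith) k) le_rfl (by module)))
        (by rw [S_ge le_rfl]; linarith)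
      exact h.inn (b + δ • E d 0) a v h4 v2 hkd' hb' ha hv (by module) (by module) rfl

theorem D_all (h : Sys lam x F P) {j m : ℕ} (hj : 1 ≤ j) (hm : j + 1 ≤ m) (hmd : m ≤ d + 1) :
    ∀ (s : Fin (d + 1) → ℝ) (δ τ : ℝ), 0 ≤ s → 0 ≤ δ → S j s + δ < x → P m (s + δ • E d j) τ →
      P m (s + δ • E d 0) (τ + lam * δ) := by
  induction m, hm using Nat.le_induction with
  | base =>
    intro s δ τ hs hδ hS hP
    have hjd : j ≤ d := by omega
    obtain ⟨b, a, hb, ha, rfl⟩ := decomp hjd hs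
    rw [S_ge le_rfl] at hS
    obtain ⟨u, hu, h1, h2⟩ := h.out b (a + δ) hP hjd hb (by linarith) (by module)
    have h3 := h.dd (b + (u + a) • E d j) δ h2 hj (by omega) (nn hb.1 (by linarith) j) hδ
      (by rwa [S_ge le_rfl]) (by module) rfl
    have h4 := T_all h hj (by omega) (b + u • E d j) δ τ (nn hb.1 hu j) hδ (by rwa [S_ge le_rfl]) h1
      (h.mono j a h3 (nn (nn hb.1 hu j) hδ 0) ha (by module))
    exact h.inn (b + δ • E d 0) a u h4 h3 hjd (hb.add hδ (by omega)) ha hu (by module) (by module)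
      (by module)
  | succ m hm ih =>
    intro s δ τ hs hδ hS hP
    have hmd' : m ≤ d := by omega
    obtain ⟨b, a, hb, ha, rfl⟩ := decomp hmd' hs
    rw [S_ge (by omega)] at hS
    obtain ⟨u, hu, h1, h2⟩ := h.out (b + δ • E d j) a hP hmd' (hb.add hδ (by omega)) ha (by module)
    have h3 := h.dd (j := j) (b + (u + a) • E d m) δ h2 hj (by omega) (nn hb.1 (by linarith) m) hδ
      (by rwa [S_ge (by omega)]) (by module) rfl
    have e1 : b + δ • E d j + u • E d m = b + u • E d m + δ • E d j := by module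
    have h4 := ih (by omega) (b + u • E d m) δ τ (nn hb.1 hu m) hδ (by rwa [S_ge (by omega)])
      (e1 ▸ h1)
    exact h.inn (b + δ • E d 0) a u h4 h3 hmd' (hb.add hδ (by omega)) ha hu (by module) (by module)
      (by module)

theorem mono_E {q : (Fin (d + 1) → ℝ) → ℝ} (hq : Cls lam x q) {s : Fin (d + 1) → ℝ} (hs : 0 ≤ s)
    (j : ℕ) {a : ℝ} (ha : 0 ≤ a) : q s ≤ q (s + a • E d j) := by
  rcases le_or_gt j d with hj | hj
  · have := hq.mono s hs ⟨j, by omega⟩ a ha
    rwa [single_eq] at this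
  · rw [E_out hj, smul_zero, add_zero]

theorem lb {q : (Fin (d + 1) → ℝ) → ℝ} (hq : Cls lam x q) : LB q := by
  refine ⟨q 0, fun s hs => ?_⟩
  have key : ∀ A : Finset (Fin (d + 1)), q 0 ≤ q (∑ i ∈ A, Pi.single i (s i)) := by
    intro A
    induction A using Finset.induction_on with
    | empty => simp
    | insert i A hi ih =>
      rw [Finset.sum_insert hi, add_comm _ (∑ x ∈ A, _)]
      exact ih.trans (hq.mono _ (Finset.sum_nonneg fun l _ => Pi.single_nonneg.mpr (hs l)) i _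
        (hs i))
  have := key Finset.univ
  rwa [Finset.univ_sum_single] at this

theorem upd {k : Fin (d + 1)} {b : Fin (d + 1) → ℝ} (hb : Z k b) (a u : ℝ) :
    update (b + a • E d k) k u = b + u • E d k := by
  funext l
  by_cases h : l = k
  · subst h
    simp [E, hb.2 l rfl]
  · have h' : (l : ℕ) ≠ k := fun e => h (Fin.ext e)
    simp [E, h, h']

theorem sys (h0 : Core0Stmt) (h1 : Core1Stmt) {r : ℝ} {q : (Fin (d + 1) → ℝ) → ℝ} (hl : 0 ≤ lam)
    (hr : 0 ≤ r) (hrx : r ≤ x) (hq : Cls lam x q) :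
    Sys lam x (fun s τ => q s < τ) fun k s τ => chain lam r q k s < τ := by
  have step : ∀ {k : ℕ} (b : Fin (d + 1) → ℝ) (a τ : ℝ), k ≤ d → Z k b → 0 ≤ a →
      (chain lam r q (k + 1) (b + a • E d k) < τ ↔ ∃ u, 0 ≤ u ∧
        chain lam r q k (b + u • E d k) < τ ∧ q (b + (u + a) • E d k) < τ) := by
    intro k b a τ hk hb ha
    have e := (h0 d lam r hl).2.1 q (lb hq) ⟨k, by omega⟩ (b + a • E d k) (nn hb.1 ha k) τ
    have e1 : (b + a • E d k) ⟨k, by omega⟩ = a := by simp [E, hb.2 ⟨k, by omega⟩ rfl]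
    have e2 := upd (k := ⟨k, by omega⟩) hb a
    simp only [e1, e2] at e
    exact e
  refine ⟨hl, fun h h' => h.trans_le h', ?_, ?_, ?_, ?_, ?_, ?_, ?_⟩
  · rintro j a p p' τ h hp ha rfl
    exact (mono_E hq hp j ha).trans_lt h
  · rintro i j b δ p p' τ h hij hb hδ rfl rfl
    refine lt_of_le_of_lt ?_ h
    rcases le_or_gt j d with hj | hj
    · have := hq.ord b hb ⟨i, by omega⟩ ⟨j, by omega⟩ hij δ hδ
      rwa [single_eq, single_eq] at this
    · rw [E_out hj, smul_zero, add_zero]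
      exact mono_E hq hb i hδ
  · rintro j b δ p p' τ h hj hjd hb hδ hS rfl rfl
    obtain ⟨k, rfl⟩ : ∃ k, j = k + 1 := ⟨j - 1, by omega⟩
    rcases hjd.lt_or_eq with hjd | hjd
    · have := hq.dd b hb ⟨k, by omega⟩ ⟨k + 1, hjd⟩ rfl δ hδ (by rwa [← S_ps])
      rw [single_eq, single_eq] at this
      exact this.trans_lt (add_lt_add_left h _)
    · rw [hjd, S_top] at hS
      have := hq.dlast b hb δ hδ hS
      rw [single_eq] at this
      rw [E_out (by omega), smul_zero, add_zero] at h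
      exact this.trans_lt (add_lt_add_left h _)
  · rintro j a c δ p p' τ h hj hp ha hc hδ rfl
    have e1 := (mono_E hq hp j ha).trans (mono_E hq (nn hp ha j) 0 hc)
    have e2 : ∑ l, (p' + a • E d j + c • E d 0) l = ∑ l, p' l + a + c := by
      rw [← S_top, ← S_top, S_lt (by omega) (Nat.zero_le d), S_lt (by omega) hj]
    simp only [chain, job] at h ⊢
    rw [e2] at h
    have e3 : max (r - ∑ l, p' l) 0 ≤ max (r - (∑ l, p' l + a + c)) 0 + δ :=
      max_le (by linarith [le_max_left (r - (∑ l, p' l + a + c)) 0])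
        (by linarith [le_max_right (r - (∑ l, p' l + a + c)) 0])
    have e4 := mul_le_mul_of_nonneg_left e3 hl
    rw [mul_add] at e4
    linarith
  · rintro k b a p τ h hk hb ha rfl
    exact (step b a τ hk hb ha).mp h
  · rintro k b a u p p₁ p₂ τ h h' hk hb ha hu rfl rfl rfl
    exact (step b a τ hk hb ha).mpr ⟨u, hu, h, h'⟩
  · rintro k i j b δ p p' τ h hij hj hb hδ rfl rfl
    have := (h1 d lam r x q hl hr hrx hq k).2.2.2.2 b hb ⟨i, by omega⟩ ⟨j, by omega⟩ hij δ hδ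
    rw [single_eq, single_eq] at this
    exact this.trans_lt h

theorem le_add_of {a b c : ℝ} (h : ∀ τ, b < τ → a < τ + c) : a ≤ b + c := by
  by_contra hn
  have := h (a - c) (by linarith)
  linarith

end Core2

open Core2 in
theorem core2S (h0 : Core0Stmt) (h1 : Core1Stmt) : Core2Stmt := by
  intro d lam r x q hl hr hrx hq
  have hs := sys h0 h1 hl hr hrx hq
  obtain ⟨c1, -, -, c4, c5⟩ := h1 d lam r x q hl hr hrx hq (d + 1)
  refine ⟨fun s hs0 i δ hδ => c4 s hs0 i i.2 δ hδ, c5, fun s hs0 k j hj δ hδ hS => ?_,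
    fun s hs0 δ hδ hS => ?_⟩
  · rw [single_eq, single_eq]
    refine le_add_of fun τ hτ => D_all hs (j := j) (by omega) j.2 le_rfl s δ τ hs0 hδ ?_ hτ
    rwa [hj, S_ps]
  · rw [single_eq]
    refine le_add_of fun τ hτ => T_all hs (by omega) le_rfl s δ τ hs0 hδ (by rwa [S_top]) hτ ?_
    have := hq.dlast s hs0 δ hδ hS
    rw [single_eq] at this
    exact this.trans_lt (add_lt_add_left ((c1 s hs0).trans_lt hτ) _)

end Vale.Agent.P209
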