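import Vale.Agent.P209.Basic

/-! Cotangent lifts, twisted by an exact form. -/

open Set Filter Topology Function Matrix
open scoped Real ContDiff

noncomputable section
namespace Vale.Agent.P209

namespace Cot
variable {ι : Type} [Fintype ι] [DecidableEq ι]

theorem smooth_det {E : Type} [NormedAddCommGroup E] [NormedSpace ℝ E] {M : E → Matrix ι ι ℝ}
    {x : E} (h : ∀ i j, ContDiffAt ℝ ∞ (fun y => M y i j) x) :
    ContDiffAt ℝ ∞ (fun y => (M y).det) x := by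
  simp only [Matrix.det_apply']
  exact ContDiffAt.sum fun σ _ => contDiffAt_const.mul (contDiffAt_prod fun i _ => h _ _)

theorem smooth_inv {E : Type} [NormedAddCommGroup E] [NormedSpace ℝ E] {M : E → Matrix ι ι ℝ}
    {x : E} (h : ∀ i j, ContDiffAt ℝ ∞ (fun y => M y i j) x) (h0 : (M x).det ≠ 0) (i j : ι) :
    ContDiffAt ℝ ∞ (fun y => (M y)⁻¹ i j) x := by
  simp only [Matrix.inv_def, Ring.inverse_eq_inv', Matrix.smul_apply, smul_eq_mul,
    Matrix.adjugate_apply]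
  refine ((smooth_det h).inv h0).mul (smooth_det fun a b => ?_)
  by_cases ha : a = j
  · subst ha
    simp only [Matrix.updateRow_self]
    exact contDiffAt_const
  · simp only [Matrix.updateRow_ne ha]
    exact h a b

/-- the Jacobian matrix -/
def jac (Ψ : (ι → ℝ) → (ι → ℝ)) (q : ι → ℝ) : Matrix ι ι ℝ :=
  Matrix.of fun i j => fderiv ℝ Ψ q (Pi.single j 1) i

theorem apply_eq_sum {F : Type} [NormedAddCommGroup F] [NormedSpace ℝ F] (L : (ι → ℝ) →L[ℝ] F)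
    (v : ι → ℝ) : L v = ∑ j, v j • L (Pi.single j 1) := by
  conv_lhs => rw [pi_eq_sum_univ' v]
  simp only [map_sum, map_smul]

theorem jac_mulVec (Ψ : (ι → ℝ) → (ι → ℝ)) (q v : ι → ℝ) : jac Ψ q *ᵥ v = fderiv ℝ Ψ q v := by
  funext i
  rw [apply_eq_sum]
  simp [jac, mulVec, dotProduct, mul_comm]

theorem inj_iff (Ψ : (ι → ℝ) → (ι → ℝ)) (q : ι → ℝ) :
    Injective (fderiv ℝ Ψ q) ↔ (jac Ψ q).det ≠ 0 := by
  have : (jac Ψ q).mulVec = fderiv ℝ Ψ q := funext (jac_mulVec Ψ q)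
  rw [← this, Matrix.mulVec_injective_iff_isUnit, Matrix.isUnit_iff_isUnit_det, isUnit_iff_ne_zero]

/-- the lift -/
def lift (Ψ : (ι → ℝ) → (ι → ℝ)) (K : (ι → ℝ) → ℝ) (x : Ph ι) : Ph ι :=
  (Ψ x.1, (x.2 + fun j => fderiv ℝ K x.1 (Pi.single j 1)) ᵥ* (jac Ψ x.1)⁻¹)

theorem char (Ψ : (ι → ℝ) → (ι → ℝ)) (K : (ι → ℝ) → ℝ) (x : Ph ι)
    (h : (jac Ψ x.1).det ≠ 0) (v : ι → ℝ) :
    ∑ i, (lift Ψ K x).2 i * fderiv ℝ Ψ x.1 v i = ∑ i, x.2 i * v i + fderiv ℝ K x.1 v := by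
  have h1 : ∑ i, (lift Ψ K x).2 i * fderiv ℝ Ψ x.1 v i = (lift Ψ K x).2 ⬝ᵥ (jac Ψ x.1 *ᵥ v) := by
    rw [jac_mulVec]; rfl
  rw [h1, dotProduct_mulVec, lift, vecMul_vecMul,
    Matrix.nonsing_inv_mul _ (isUnit_iff_ne_zero.2 h), vecMul_one, add_dotProduct,
    apply_eq_sum (fderiv ℝ K x.1) v]
  simp [dotProduct, mul_comm]

end Cot

open Cot in
theorem cotS (hE : ExactStmt) : CotStmt := by
  intro ι _ _ Ψ K
  refine ⟨lift Ψ K, fun _ => rfl, fun x hx => char Ψ K x ((inj_iff Ψ x.1).1 hx),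
    fun x hΨ hK hx => ?_⟩
  have h0 := (inj_iff Ψ x.1).1 hx
  have hJ : ∀ i j, ContDiffAt ℝ ∞ (fun y : Ph ι => jac Ψ y.1 i j) x := by
    intro i j
    have h1 : ContDiffAt ℝ ∞ (fun y : Ph ι => fderiv ℝ Ψ y.1) x :=
      (hΨ.fderiv_right (m := ∞) (by simp)).comp x contDiffAt_fst
    exact contDiffAt_pi.1 (h1.clm_apply contDiffAt_const) i
  have hg : ∀ j, ContDiffAt ℝ ∞ (fun y : Ph ι => fderiv ℝ K y.1 (Pi.single j 1)) x := by
    intro j
    have h1 : ContDiffAt ℝ ∞ (fun y : Ph ι => fderiv ℝ K y.1) x :=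
      (hK.fderiv_right (m := ∞) (by simp)).comp x contDiffAt_fst
    exact h1.clm_apply contDiffAt_const
  have hF : ContDiffAt ℝ ∞ (lift Ψ K) x := by
    refine (hΨ.comp x contDiffAt_fst).prodMk (contDiffAt_pi.2 fun j => ?_)
    simp only [vecMul, dotProduct, Pi.add_apply]
    exact ContDiffAt.sum fun i _ =>
      ((contDiffAt_pi.1 contDiffAt_snd i).add (hg i)).mul (smooth_inv hJ h0 i j)
  refine hE ι _ (fun y => K y.1) x hF (hK.comp x contDiffAt_fst) ?_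
  have e1 : ∀ᶠ y in 𝓝 x, (jac Ψ y.1).det ≠ 0 := (smooth_det hJ).continuousAt.eventually_ne h0
  have e2 := (hF.of_le (m := 1) (by simp)).eventually (by simp)
  have e3 := continuousAt_fst.tendsto.eventually
    ((hΨ.of_le (m := 1) (by simp)).eventually (by simp))
  have e4 := continuousAt_fst.tendsto.eventually
    ((hK.of_le (m := 1) (by simp)).eventually (by simp))
  filter_upwards [e1, e2, e3, e4] with y h1 h2 h3 h4 v
  have a1 := (h2.differentiableAt one_ne_zero).hasFDerivAt.fst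
  have a2 := (h3.differentiableAt one_ne_zero).hasFDerivAt.comp y hasFDerivAt_fst
  have a3 := (h4.differentiableAt one_ne_zero).hasFDerivAt.comp y hasFDerivAt_fst
  have b1 : (fderiv ℝ (lift Ψ K) y v).1 = fderiv ℝ Ψ y.1 v.1 :=
    congrArg (fun L : Ph ι →L[ℝ] ι → ℝ => L v) (a1.unique a2)
  have b2 : fderiv ℝ (fun y : Ph ι => K y.1) y v = fderiv ℝ K y.1 v.1 :=
    congrArg (fun L : Ph ι →L[ℝ] ℝ => L v) a3.fderiv
  rw [b1, b2]
  exact char Ψ K y h1 v.1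

end Vale.Agent.P209
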