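import Vale.Agent.P209.Basic

/-! P209: stacking the jobs between two fronts. -/

open Set Filter Topology Function MeasureTheory

noncomputable section
namespace Vale.Agent.P209

namespace DynX

variable {d : ℕ} {κ : Type} [DecidableEq κ] {ρ : κ → ℝ} {L lo mid hi p q : (Fin (d + 1) → ℝ) → ℝ}

theorem lip_add (hp : LipE p) (hq : LipE q) : LipE fun s => p s + q s := by
  obtain ⟨a, ha⟩ := hp
  obtain ⟨b, hb⟩ := hq
  refine ⟨a + b, fun s t hs ht => ?_⟩
  rw [add_sub_add_comm, add_mul]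
  exact (abs_add_le _ _).trans (add_le_add (ha s t hs ht) (hb s t hs ht))

theorem lip_neg (hp : LipE p) : LipE fun s => -p s := by
  obtain ⟨a, ha⟩ := hp
  refine ⟨a, fun s t hs ht => ?_⟩
  rw [neg_sub_neg, abs_sub_comm]
  exact ha s t hs ht

theorem lip_const (c : ℝ) : LipE fun _ : Fin (d + 1) → ℝ => c := ⟨0, fun s t _ _ => by simp⟩

theorem lip_job (r : ℝ) : LipE fun s : Fin (d + 1) → ℝ => max (r - ∑ j, s j) 0 := by
  refine ⟨(d + 1 : ℕ), fun s t _ _ => (abs_max_sub_max_le_abs _ _ _).trans ?_⟩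
  rw [sub_sub_sub_cancel_left, abs_sub_comm, ← Finset.sum_sub_distrib]
  refine (Finset.abs_sum_le_sum_abs _ _).trans ((Finset.sum_le_card_nsmul _ _ ‖s - t‖
    fun j _ => norm_le_pi_norm (s - t) j).trans_eq ?_)
  simp

theorem lip_sum (r : κ → ℝ) (S : Finset κ) :
    LipE fun s : Fin (d + 1) → ℝ => ∑ i ∈ S, max (r i - ∑ j, s j) 0 := by
  induction S using Finset.induction_on with
  | empty => simpa using lip_const 0
  | insert i S hi ih => simpa only [Finset.sum_insert hi] using lip_add (lip_job (r i)) ih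

theorem cls_lb {lam x : ℝ} (h : Cls lam x q) : LB q := by
  refine ⟨q 0, fun s hs => ?_⟩
  have : ∀ T : Finset (Fin (d + 1)), q 0 ≤ q (∑ i ∈ T, Pi.single i (s i)) := fun T => by
    induction T using Finset.induction_on with
    | empty => simp
    | insert i T hi ih =>
      rw [Finset.sum_insert hi, add_comm _ (Finset.sum T _)]
      exact ih.trans (h.mono _ (Finset.sum_nonneg fun j _ => Pi.single_nonneg.2 (hs j)) _ _ (hs i))
  simpa only [Finset.univ_sum_single] using this Finset.univ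

theorem cls_add {lam x : ℝ} (h : Cls lam x q) (c : ℝ) : Cls lam x fun s => q s + c :=
  ⟨fun s hs i δ hδ => by linarith [h.mono s hs i δ hδ],
    fun s hs i j hij δ hδ => by linarith [h.ord s hs i j hij δ hδ],
    fun s hs k j hj δ hδ hx => by linarith [h.dd s hs k j hj δ hδ hx],
    fun s hs δ hδ hx => by linarith [h.dlast s hs δ hδ hx]⟩

theorem mvs_le (h0 : Core0Stmt) (c : ℝ) (rs : List ℝ) : ∀ p q : (Fin (d + 1) → ℝ) → ℝ, LB p →
    LB q → (∀ s, 0 ≤ s → p s ≤ q s + c) → ∀ s, 0 ≤ s → mvs rs p s ≤ mvs rs q s + c := by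
  induction rs with
  | nil => exact fun p q _ _ h => h
  | cons r rs ih =>
    obtain ⟨a1, -, a3, -⟩ := h0 d 1 r zero_le_one
    exact fun p q hp hq h => ih _ _ (a1 p hp _) (a1 q hq _) (a3 p q c hp hq h _)

/-- the region between two fronts -/
def Bx (L lo hi : (Fin (d + 1) → ℝ) → ℝ) : Set (Option (Fin (d + 1)) → ℝ) :=
  {z | (∀ j, 0 < z (some j)) ∧ 0 < L (cs z) ∧ lo (cs z) < z none ∧ z none < hi (cs z)}

/-- the balls with index in `A` are packed between two fronts -/
def St (ρ : κ → ℝ) (L : (Fin (d + 1) → ℝ) → ℝ) (A : Finset κ)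
    (lo hi : (Fin (d + 1) → ℝ) → ℝ) : Prop :=
  (∀ s, 0 ≤ s → lo s ≤ hi s) ∧ ∃ V : κ → Set (Option (Fin (d + 1)) → ℝ),
    (∀ i ∈ A, V i ⊆ Bx L lo hi ∧ Emb (ballO _ (ρ i)) Eq (tor (V i)) Lat) ∧
    ∀ i ∈ A, ∀ j ∈ A, i ≠ j → Disjoint (V i) (V j)

theorem Bx.nn {z : Option (Fin (d + 1)) → ℝ} (h : z ∈ Bx L lo hi) : 0 ≤ cs z :=
  fun j => (h.1 j).le

omit [DecidableEq κ] in
theorem St.empty : St ρ L ∅ lo lo := ⟨fun _ _ => le_rfl, fun _ => ∅, by simp, by simp⟩

omit [DecidableEq κ] in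
theorem St.single {i : κ} (h : ∀ s, 0 ≤ s → lo s ≤ hi s)
    (hE : Emb (ballO _ (ρ i)) Eq (tor (Bx L lo hi)) Lat) : St ρ L {i} lo hi :=
  ⟨h, fun _ => Bx L lo hi, fun j hj => by
    rw [Finset.mem_singleton.1 hj]
    exact ⟨subset_rfl, hE⟩, by simp⟩

omit [DecidableEq κ] in
theorem St.up {A : Finset κ} (h : St ρ L A lo mid) (hm : ∀ s, 0 ≤ s → mid s ≤ hi s) :
    St ρ L A lo hi := by
  obtain ⟨h1, V, h2, h3⟩ := h
  exact ⟨fun s hs => (h1 s hs).trans (hm s hs), V, fun i hi => ⟨fun z hz =>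
    have := (h2 i hi).1 hz
    ⟨this.1, this.2.1, this.2.2.1, this.2.2.2.trans_le (hm _ (Bx.nn this))⟩, (h2 i hi).2⟩, h3⟩

theorem St.union {A A' : Finset κ} (h : St ρ L A lo mid) (h' : St ρ L A' mid hi) :
    St ρ L (A ∪ A') lo hi := by
  obtain ⟨h1, V, h2, h3⟩ := h
  obtain ⟨g1, W, g2, g3⟩ := h'
  have hd : ∀ i ∈ A, ∀ j ∈ A', Disjoint (V i) (W j) := fun i hi j hj =>
    Set.disjoint_left.2 fun z hz hz' => ((h2 i hi).1 hz).2.2.2.not_gt ((g2 j hj).1 hz').2.2.1
  refine ⟨fun s hs => (h1 s hs).trans (g1 s hs), fun i => if i ∈ A then V i else W i,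
    fun i hi => ?_, fun i hi j hj hij => ?_⟩
  · beta_reduce
    split_ifs with a
    · exact ⟨fun z hz =>
        have := (h2 i a).1 hz
        ⟨this.1, this.2.1, this.2.2.1, this.2.2.2.trans_le (g1 _ (Bx.nn this))⟩, (h2 i a).2⟩
    · have b := (Finset.mem_union.1 hi).resolve_left a
      exact ⟨fun z hz =>
        have := (g2 i b).1 hz
        ⟨this.1, this.2.1, (h1 _ (Bx.nn this)).trans_lt this.2.2.1, this.2.2.2⟩, (g2 i b).2⟩
  · beta_reduce
    split_ifs with a b b
    · exact h3 i a j b hij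
    · exact hd i a j ((Finset.mem_union.1 hj).resolve_left b)
    · exact (hd j b i ((Finset.mem_union.1 hi).resolve_left a)).symm
    · exact g3 i ((Finset.mem_union.1 hi).resolve_left a) j
        ((Finset.mem_union.1 hj).resolve_left b) hij

theorem sorts (h0 : Core0Stmt) (h1 : Core1Stmt) (h2 : Core2Stmt) (hR : RealStmt) {r : κ → ℝ}
    {x B η : ℝ} (hρ : ∀ i, 0 < ρ i ∧ ρ i < r i) (hη : 0 < η) (hη1 : η ≤ 1)
    (hB : ∀ s, 0 ≤ s → 0 < L s → ∑ j, s j ≤ B) (l : List κ) :
    ∀ q : (Fin (d + 1) → ℝ) → ℝ, (∀ i ∈ l, r i ≤ x) → Cls 1 x q → LipE q →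
      (∀ s, 0 ≤ s → q s < q 0 + (l.map r).sum + 1 → 0 < L s) →
      St ρ L l.toFinset q fun s => mvs (l.map r) q s + l.length * η := by
  induction l with
  | nil => exact fun q _ _ _ _ => St.empty.up fun s _ => by simp [mvs]
  | cons i l ih =>
    intro q hx hq hl hL
    have r0 : ∀ j, 0 ≤ r j := fun j => ((hρ j).1.trans (hρ j).2).le
    have hi := hx i List.mem_cons_self
    have s0 : 0 ≤ (l.map r).sum := List.sum_nonneg fun a ha => by
      obtain ⟨j, -, rfl⟩ := List.mem_map.1 ha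
      exact r0 j
    obtain ⟨a1, a2, -⟩ := h1 d 1 (r i) x q zero_le_one (r0 i) hi hq (d + 1)
    have c1 := h2 d 1 (r i) x q zero_le_one (r0 i) hi hq
    rw [List.map_cons, List.sum_cons] at hL
    have b1 : St ρ L {i} q fun s => mv 1 (r i) q s + η :=
      St.single (fun s hs => (a1 s hs).trans (le_add_of_nonneg_right hη.le))
        ((hR d (ρ i) (r i) x B η q (hρ i).1 (hρ i).2 hi hη hq hl fun s hs h =>
          hB s hs (hL s hs (by linarith))).mono_tor fun z hz => ⟨hz.1,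
            hL _ (fun j => (hz.1 j).le) (by linarith [hz.2.1, hz.2.2.2]), hz.2.1, hz.2.2.1⟩)
    have b2 := ih (fun s => mv 1 (r i) q s + η) (fun j hj => hx j (List.mem_cons_of_mem _ hj))
      (cls_add c1 η) (lip_add ((h0 d 1 (r i) zero_le_one).2.2.2 q (cls_lb hq) hl _) (lip_const η))
      fun s hs h => hL s hs (by
        have e1 : q s ≤ mv 1 (r i) q s := a1 s hs
        have e2 : mv 1 (r i) q 0 ≤ q 0 + r i :=
          (a2 0 le_rfl).trans (max_le (by linarith [r0 i]) (by linarith))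
        linarith)
    rw [List.toFinset_cons, Finset.insert_eq]
    refine (b1.union b2).up fun s hs => ?_
    have e := mvs_le h0 η (l.map r) _ _ (cls_lb (cls_add c1 η)) (cls_lb c1) (fun _ _ => le_rfl) s hs
    have e' : mvs ((i :: l).map r) q = mvs (l.map r) (mv 1 (r i) q) := rfl
    rw [e', List.length_cons, Nat.cast_succ]
    linarith

theorem typeb (hB : TypeBStmt) {r : κ → ℝ} (hρ : ∀ i, 0 < ρ i ∧ ρ i < r i) (hq : LipE q)
    (S : Finset κ) (hL : ∀ s, 0 ≤ s → ∀ i ∈ S, r i - ∑ j, s j ≤ L s) :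
    St ρ L S q fun s => q s + ∑ i ∈ S, max (r i - ∑ j, s j) 0 := by
  induction S using Finset.induction_on with
  | empty => exact St.empty.up fun s _ => by simp
  | insert i S hi ih =>
    rw [Finset.insert_eq, Finset.union_comm]
    refine (ih fun s hs j hj => hL s hs j (Finset.mem_insert_of_mem hj)).union
      (St.single (fun s _ => ?_) ((hB d (ρ i) (r i) _ (hρ i).2
        (lip_add hq (lip_sum r S))).mono_tor fun z hz => ⟨hz.1, ?_, hz.2.1, ?_⟩))
    · rw [Finset.union_comm, ← Finset.insert_eq, Finset.sum_insert hi]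
      linarith [le_max_right (r i - ∑ j, s j) 0]
    · linarith [hL (cs z) (fun j => (hz.1 j).le) i (Finset.mem_insert_self _ _), hz.2.1, hz.2.2]
    · beta_reduce
      rw [Finset.union_comm, ← Finset.insert_eq, Finset.sum_insert hi]
      linarith [le_max_left (r i - ∑ j, cs z j) 0, hz.2.2]

end DynX

open DynX in
theorem dynS (h0 : Core0Stmt) (h1 : Core1Stmt) (h2 : Core2Stmt) (hMin : MinStmt) (hB : TypeBStmt)
    (hR : RealStmt) (hS : SimplexStmt) : DynStmt := by
  intro d κ _ _ ρ r S x B η L hρ hx hη hL hc hle hL0 hbd hv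
  have r0 : ∀ j, 0 ≤ r j := fun j => ((hρ j).1.trans (hρ j).2).le
  have m0 : ∀ s : Fin (d + 1) → ℝ, 0 ≤ ∑ i ∈ S, max (r i - ∑ j, s j) 0 :=
    fun s => Finset.sum_nonneg fun i _ => le_max_right _ _
  have lΓ : LipE fun s => ∑ i ∈ S, max (r i - ∑ j, s j) 0 - L s := by
    simpa only [sub_eq_add_neg] using lip_add (lip_sum r S) (lip_neg hL)
  have v0 : ∀ i, 0 ≤ r i ^ (d + 2) / (d + 2).factorial := fun i =>
    div_nonneg (pow_nonneg (r0 i) _) (Nat.cast_nonneg _)
  obtain ⟨f, c1, c2, c3, c4⟩ := hMin d x B (Sᶜ.toList.map r) _ (fun a ha => by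
      obtain ⟨j, hj, rfl⟩ := List.mem_map.1 ha
      exact ⟨r0 j, hx j (Finset.mem_compl.1 (Finset.mem_toList.1 hj))⟩) hc lΓ
    (fun s hs => sub_nonpos.2 (hle s hs)) (by simpa [r0] using hL0)
    (fun s hs h => hbd s hs (by linarith [m0 s])) (by
      have me : ∀ i, Measurable fun s : Fin (d + 1) → ℝ =>
        ENNReal.ofReal (max (r i - ∑ j, s j) 0) := fun i => by fun_prop
      rw [List.map_map, Finset.sum_map_toList, Function.comp_def]
      refine lt_of_add_lt_add_right (a := ENNReal.ofReal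
        (∑ i ∈ S, r i ^ (d + 2) / (d + 2).factorial)) ?_
      rw [← ENNReal.ofReal_add (Finset.sum_nonneg fun i _ => v0 i)
        (Finset.sum_nonneg fun i _ => v0 i), Finset.sum_compl_add_sum]
      refine hv.trans_le ?_
      rw [ENNReal.ofReal_sum_of_nonneg fun i _ => v0 i]
      simp only [← hS d _ (r0 _)]
      rw [← lintegral_finsetSum _ fun i _ => me i,
        ← lintegral_add_right _ (Finset.measurable_sum _ fun i _ => me i)]
      refine lintegral_mono fun s => ?_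
      beta_reduce
      rw [← ENNReal.ofReal_sum_of_nonneg fun i _ => le_max_right _ _]
      exact (ENNReal.ofReal_le_ofReal (by linarith)).trans ENNReal.ofReal_add_le)
  have n0 : (0 : ℝ) ≤ Sᶜ.toList.length := Nat.cast_nonneg _
  have e0 : 0 < min 1 η / (Sᶜ.toList.length + 1) := div_pos (lt_min one_pos hη) (by linarith)
  have e1 : (Sᶜ.toList.length + 1) * (min 1 η / (Sᶜ.toList.length + 1)) = min 1 η :=
    mul_div_cancel₀ _ (by linarith)
  generalize min 1 η / (Sᶜ.toList.length + 1) = ε at e0 e1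
  have e2 := mul_nonneg n0 e0.le
  have b1 := (sorts (L := L) h0 h1 h2 hR hρ e0 (by linarith [min_le_left 1 η]) hbd Sᶜ.toList f
    (fun j hj => hx j (Finset.mem_compl.1 (Finset.mem_toList.1 hj))) c1 c2
    fun s hs h => by linarith [c4 s hs h, m0 s]).up
      (hi := fun s => f s + -(∑ i ∈ S, max (r i - ∑ j, s j) 0 - L s) + Sᶜ.toList.length * ε)
      fun s hs => by linarith [c3 s hs]
  obtain ⟨-, V, b3, b4⟩ := (b1.union (typeb hB hρ (lip_add (lip_add c2 (lip_neg lΓ)) (lip_const _))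
    S fun s hs i hi => ((le_max_left _ 0).trans (Finset.single_le_sum
      (f := fun i => max (r i - ∑ j, s j) 0) (fun _ _ => le_max_right _ _) hi)).trans
        (hle s hs))).up (hi := fun s => f s + L s + η) fun s _ => by linarith [min_le_right 1 η]
  have a : ∀ i, i ∈ Sᶜ.toList.toFinset ∪ S := fun i => by simp [em']
  exact ⟨f, c2, V, fun i => (b3 i (a i)).1, fun i j hij => b4 i (a i) j (a j) hij,
    fun i => (b3 i (a i)).2⟩

end Vale.Agent.P209
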