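import Vale.Agent.P209.Basic

open Set Filter Topology Function
open scoped Real ContDiff

noncomputable section
namespace Vale.Agent.P209

namespace Exact

variable {ι : Type} [Fintype ι]

theorem two_le : (2 : WithTop ℕ∞) ≤ ∞ := WithTop.coe_le_coe.2 (le_top (a := (2 : ℕ∞)))

theorem fst_coord {G : ℝ → Ph ι} {G' : Ph ι} {t : ℝ} (h : HasDerivAt G G' t) (i : ι) :
    HasDerivAt (fun s => (G s).1 i) (G'.1 i) t :=
  hasDerivAt_pi.1 ((ContinuousLinearMap.fst ℝ (ι → ℝ) (ι → ℝ)).hasFDerivAt.comp_hasDerivAt t h) i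

theorem snd_coord {G : ℝ → Ph ι} {G' : Ph ι} {t : ℝ} (h : HasDerivAt G G' t) (i : ι) :
    HasDerivAt (fun s => (G s).2 i) (G'.2 i) t :=
  hasDerivAt_pi.1 ((ContinuousLinearMap.snd ℝ (ι → ℝ) (ι → ℝ)).hasFDerivAt.comp_hasDerivAt t h) i

theorem app {E : Type} [NormedAddCommGroup E] [NormedSpace ℝ E] {G : ℝ → Ph ι →L[ℝ] E}
    {G' : Ph ι →L[ℝ] E} {t : ℝ} (h : HasDerivAt G G' t) (v : Ph ι) :
    HasDerivAt (fun s => G s v) (G' v) t :=
  (ContinuousLinearMap.apply ℝ E v).hasFDerivAt.comp_hasDerivAt t h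

theorem along {E : Type} [NormedAddCommGroup E] [NormedSpace ℝ E] {G : Ph ι → E} {x : Ph ι}
    (h : DifferentiableAt ℝ G x) (u : Ph ι) :
    HasDerivAt (fun s : ℝ => G (x + s • u)) (fderiv ℝ G x u) 0 :=
  h.hasFDerivAt.hasLineDerivAt u

theorem key {F : Ph ι → Ph ι} {S : Ph ι → ℝ} {x : Ph ι} (hF : ContDiffAt ℝ ∞ F x)
    (hS : ContDiffAt ℝ ∞ S x)
    (h : ∀ᶠ y in 𝓝 x, ∀ v : Ph ι, ∑ i, (F y).2 i * (fderiv ℝ F y v).1 i
      = ∑ i, y.2 i * v.1 i + fderiv ℝ S y v) (u v : Ph ι) :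
    ∑ i, ((fderiv ℝ F x u).2 i * (fderiv ℝ F x v).1 i
        + (F x).2 i * (fderiv ℝ (fderiv ℝ F) x u v).1 i)
      = ∑ i, u.2 i * v.1 i + fderiv ℝ (fderiv ℝ S) x u v := by
  have hF1 : DifferentiableAt ℝ F x := hF.differentiableAt (by simp)
  have hF2 : DifferentiableAt ℝ (fderiv ℝ F) x :=
    (hF.fderiv_right (m := 1) (one_add_one_eq_two.trans_le two_le)).differentiableAt (by simp)
  have hS2 : DifferentiableAt ℝ (fderiv ℝ S) x :=
    (hS.fderiv_right (m := 1) (one_add_one_eq_two.trans_le two_le)).differentiableAt (by simp)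
  have hγ : HasDerivAt (fun s : ℝ => x + s • u) u 0 := by
    simpa using ((hasDerivAt_id (0 : ℝ)).smul_const u).const_add x
  have ht : Tendsto (fun s : ℝ => x + s • u) (𝓝 0) (𝓝 x) := by
    have h1 := hγ.continuousAt.tendsto
    simpa using h1
  have hL : HasDerivAt
      (fun s : ℝ => ∑ i, (F (x + s • u)).2 i * (fderiv ℝ F (x + s • u) v).1 i)
      (∑ i, ((fderiv ℝ F x u).2 i * (fderiv ℝ F x v).1 i
        + (F x).2 i * (fderiv ℝ (fderiv ℝ F) x u v).1 i)) 0 := by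
    refine HasDerivAt.fun_sum fun i _ => ?_
    have h1 := (snd_coord (along hF1 u) i).fun_mul (fst_coord (app (along hF2 u) v) i)
    simpa only [zero_smul, add_zero] using h1
  have hR : HasDerivAt
      (fun s : ℝ => ∑ i, (x + s • u).2 i * v.1 i + fderiv ℝ S (x + s • u) v)
      (∑ i, u.2 i * v.1 i + fderiv ℝ (fderiv ℝ S) x u v) 0 :=
    (HasDerivAt.fun_sum fun i _ => (snd_coord hγ i).mul_const (v.1 i)).fun_add
      (app (along hS2 u) v)
  refine hL.unique (hR.congr_of_eventuallyEq ?_)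
  filter_upwards [ht.eventually h] with s hs
  exact hs v

theorem block (A : ℝ × ℝ →L[ℝ] ℝ × ℝ)
    (h : (A (1, 0)).1 * (A (0, 1)).2 - (A (1, 0)).2 * (A (0, 1)).1 = 1) (a b c d : ℝ) :
    (A (a, b)).1 * (A (c, d)).2 - (A (a, b)).2 * (A (c, d)).1 = a * d - b * c := by
  have e : ∀ p q : ℝ, A (p, q) = p • A (1, 0) + q • A (0, 1) := by
    intro p q
    rw [← map_smul, ← map_smul, ← map_add]
    simp
  rw [e a b, e c d]
  simp only [Prod.fst_add, Prod.snd_add, Prod.smul_fst, Prod.smul_snd, smul_eq_mul]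
  linear_combination (a * d - b * c) * h

/-- the projection to one pair of coordinates -/
def pr (i : ι) : Ph ι →L[ℝ] ℝ × ℝ :=
  ((ContinuousLinearMap.proj i).comp (ContinuousLinearMap.fst ℝ (ι → ℝ) (ι → ℝ))).prod
    ((ContinuousLinearMap.proj i).comp (ContinuousLinearMap.snd ℝ (ι → ℝ) (ι → ℝ)))

omit [Fintype ι] in
theorem pr_apply (i : ι) (y : Ph ι) : pr i y = (y.1 i, y.2 i) := rfl

end Exact

theorem exactS : ExactStmt := by
  intro ι _ _ F S x hF hS h
  refine ⟨hF, fun u v => ?_⟩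
  have h1 := Exact.key hF hS h u v
  have h2 := Exact.key hF hS h v u
  have s1 := (hF.isSymmSndFDerivAt (by simpa using Exact.two_le)).eq u v
  have s2 := (hS.isSymmSndFDerivAt (by simpa using Exact.two_le)).eq u v
  rw [s1, s2] at h1
  rw [Finset.sum_add_distrib] at h1 h2
  simp only [om, Finset.sum_sub_distrib]
  simp only [mul_comm ((fderiv ℝ F x u).1 _), mul_comm (u.1 _)]
  linarith

theorem pairsS : PairsStmt := by
  intro ι _ _ φ x h
  have hc : ∀ i, ContDiffAt ℝ ∞ (fun y : Ph ι => φ i (y.1 i, y.2 i)) x := fun i =>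
    ContDiffAt.comp (g := φ i) (f := Exact.pr i) x (h i).1 (Exact.pr i).contDiff.contDiffAt
  have hP : ContDiffAt ℝ ∞ (pairs φ) x :=
    (contDiffAt_pi.2 fun i => (hc i).fst).prodMk (contDiffAt_pi.2 fun i => (hc i).snd)
  have hd : ∀ i, HasFDerivAt (fun y : Ph ι => φ i (y.1 i, y.2 i))
      ((fderiv ℝ (φ i) (x.1 i, x.2 i)).comp (Exact.pr i)) x := fun i =>
    HasFDerivAt.comp (g := φ i) (f := Exact.pr i) x
      ((h i).1.differentiableAt (by simp)).hasFDerivAt (Exact.pr i).hasFDerivAt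
  have hD : HasFDerivAt (pairs φ) _ x :=
    (hasFDerivAt_pi.2 fun i => (hd i).fst).prodMk (hasFDerivAt_pi.2 fun i => (hd i).snd)
  refine ⟨hP, fun u v => ?_⟩
  rw [hD.fderiv]
  exact Finset.sum_congr rfl fun i _ => Exact.block _ (h i).2 _ _ _ _

end Vale.Agent.P209
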