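import Vale.Agent.P209.Transfer

open Set Filter Topology Function
open scoped Real ContDiff

noncomputable section
namespace Vale.Agent.P209

/-- the shell statement in dimension `n = m + 3` -/
def CaseBn (m : ℕ) : Prop := ∀ (h : ℝ) (ι : Type) [Fintype ι] [DecidableEq ι] (ρ : ι → ℝ),
  0 < h → 2 * h < 1 → (∀ i, 0 < ρ i ∧ ρ i < h) → ∑ i, ρ i ^ (m + 3) < 1 - (1 - h) ^ (m + 3) →
  PackB ρ {y : Ph (Option (Fin (m + 2))) | 1 - h < cap y ∧ cap y < 1}

theorem caseBn_zero (h : CaseBStmt) : CaseBn 0 := h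

namespace Final

theorem exists_delta {k : ℕ} (N : ℕ) (r : Fin k → ℝ) (hs : ∑ i, r i ^ N < 1)
    (hp : ∀ i j, i ≠ j → r i + r j < 1) (P : Set ℝ) (hP : P ∈ 𝓝 (0 : ℝ)) :
    ∃ δ : ℝ, 0 < δ ∧ δ ∈ P ∧ ∑ i, (r i + δ) ^ N < 1 ∧
      ∀ i j, i ≠ j → (r i + δ) + (r j + δ) < 1 := by
  have h1 : ∀ᶠ δ in 𝓝 (0 : ℝ), ∑ i, (r i + δ) ^ N < 1 := by
    have hc : Continuous fun δ : ℝ => ∑ i, (r i + δ) ^ N := by fun_prop
    exact hc.continuousAt.eventually_lt continuousAt_const (by simpa using hs)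
  have h2 : ∀ᶠ δ in 𝓝 (0 : ℝ), ∀ i j, i ≠ j → (r i + δ) + (r j + δ) < 1 := by
    simp only [eventually_all]
    intro i j hij
    have hc : Continuous fun δ : ℝ => (r i + δ) + (r j + δ) := by fun_prop
    exact hc.continuousAt.eventually_lt continuousAt_const (by simpa using hp i j hij)
  have h3 : ∀ᶠ δ in 𝓝[>] (0 : ℝ), 0 < δ ∧ δ ∈ P ∧ ∑ i, (r i + δ) ^ N < 1 ∧
      ∀ i j, i ≠ j → (r i + δ) + (r j + δ) < 1 := by
    filter_upwards [self_mem_nhdsWithin, mem_nhdsWithin_of_mem_nhds hP,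
      mem_nhdsWithin_of_mem_nhds h1, mem_nhdsWithin_of_mem_nhds h2] with δ a b c d
    exact ⟨a, b, c, d⟩
  exact h3.exists

theorem unitA (hA : CaseAStmt) (m k : ℕ) (r : Fin k → ℝ) (h0 : ∀ i, 0 < r i)
    (hs : ∑ i, r i ^ (m + 3) < 1) (hp : ∀ i j, i ≠ j → r i + r j < 1) (h2 : ∀ i, 2 * r i < 1) :
    ∃ ρ : Fin k → ℝ, (∀ i, r i < ρ i) ∧ PackB ρ (ballO (Option (Fin (m + 2))) 1) := by
  have hP : {δ : ℝ | ∀ i, 2 * (r i + δ) < 1} ∈ 𝓝 (0 : ℝ) := by
    have : ∀ᶠ δ in 𝓝 (0 : ℝ), ∀ i, 2 * (r i + δ) < 1 := by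
      simp only [eventually_all]
      intro i
      have hc : Continuous fun δ : ℝ => 2 * (r i + δ) := by fun_prop
      exact hc.continuousAt.eventually_lt continuousAt_const (by simpa using h2 i)
    exact this
  obtain ⟨δ, hδ, hd, hs', -⟩ := exists_delta (m + 3) r hs hp _ hP
  exact ⟨fun i => r i + δ, fun i => by linarith,
    hA m (Fin k) _ (fun i => ⟨by linarith [h0 i], hd i⟩) hs'⟩

theorem unitB {m : ℕ} (hB : CaseBn m) (k : ℕ) (r : Fin k → ℝ) (h0 : ∀ i, 0 < r i)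
    (hs : ∑ i, r i ^ (m + 3) < 1) (hp : ∀ i j, i ≠ j → r i + r j < 1) (a : Fin k)
    (ha : 1 ≤ 2 * r a) :
    ∃ ρ : Fin k → ℝ, (∀ i, r i < ρ i) ∧ PackB ρ (ballO (Option (Fin (m + 2))) 1) := by
  classical
  obtain ⟨δ, hδ, -, hs', hp'⟩ := exists_delta (m + 3) r hs hp univ univ_mem
  set ρ : Fin k → ℝ := fun i => r i + δ with hρ
  have hρ0 : ∀ i, 0 < ρ i := fun i => by have := h0 i; simp only [hρ]; linarith
  have hsplit : ∑ i, ρ i ^ (m + 3) = ρ a ^ (m + 3) + ∑ i : {i // i ≠ a}, ρ i ^ (m + 3) :=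
    (Fintype.sum_eq_add_sum_subtype_ne (fun i => ρ i ^ (m + 3)) a)
  have hnn : 0 ≤ ∑ i : {i // i ≠ a}, ρ i ^ (m + 3) :=
    Finset.sum_nonneg fun i _ => pow_nonneg (hρ0 _).le _
  have hs'' : ∑ i, ρ i ^ (m + 3) < 1 := hs'
  have ha1 : ρ a < 1 := by
    by_contra hc
    have : 1 ≤ ρ a ^ (m + 3) := one_le_pow₀ (not_lt.1 hc)
    linarith
  obtain ⟨F, hF, hinj⟩ := hB (1 - ρ a) {i // i ≠ a} (fun i => ρ i) (by linarith)
    (by simp only [hρ]; linarith)
    (fun i => ⟨hρ0 _, by have := hp' i.1 a i.2; simp only [hρ]; linarith⟩)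
    (by simp only [sub_sub_cancel]; linarith)
  refine ⟨ρ, fun i => by simp only [hρ]; linarith,
    fun i => if h : i = a then fun y => y else F ⟨i, h⟩, fun i x hx => ?_, fun i j x hx y hy h => ?_⟩
  · by_cases h : i = a
    · subst h
      simp only [dite_true]
      exact ⟨sympAt_id x, lt_trans (show cap x < ρ i from hx) ha1⟩
    · simp only [h, dite_false]
      exact ⟨(hF ⟨i, h⟩ x hx).1, (hF ⟨i, h⟩ x hx).2.2⟩
  · by_cases hi : i = a <;> by_cases hj : j = a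
    · subst hi; subst hj
      simpa using h
    · subst hi
      simp only [dite_true, hj, dite_false] at h
      have h1 := (hF ⟨j, hj⟩ y hy).2.1
      have h2 : cap x < ρ i := hx
      rw [← h] at h1
      linarith
    · subst hj
      simp only [dite_true, hi, dite_false] at h
      have h1 := (hF ⟨i, hi⟩ x hx).2.1
      have h2 : cap y < ρ j := hy
      rw [h] at h1
      linarith
    · simp only [hi, hj, dite_false] at h
      have := hinj ⟨i, hi⟩ ⟨j, hj⟩ x hx y hy h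
      exact ⟨congrArg Subtype.val this.1, this.2⟩

end Final

theorem final_of_cases (hA : CaseAStmt) (m k : ℕ) (R : ℝ) (r : Fin k → ℝ) (hR : 0 < R)
    (h0 : ∀ i, 0 < r i) (hs : ∑ i, r i ^ (m + 3) < R ^ (m + 3))
    (hp : ∀ i j, i < j → r i + r j < R) (hc : CaseBn m ∨ ∀ i, 2 * r i < R) :
    Packs (m + 3) k r R := by
  have h0' : ∀ i, 0 < r i / R := fun i => div_pos (h0 i) hR
  have hs' : ∑ i, (r i / R) ^ (m + 3) < 1 := by
    simp only [div_pow]
    rw [← Finset.sum_div, div_lt_one (pow_pos hR _)]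
    exact hs
  have hp' : ∀ i j, i ≠ j → r i / R + r j / R < 1 := fun i j hij => by
    rw [← add_div, div_lt_one hR]
    rcases lt_or_gt_of_ne hij with h | h
    · exact hp i j h
    · rw [add_comm]; exact hp j i h
  have key : ∃ ρ : Fin k → ℝ, (∀ i, r i / R < ρ i) ∧
      PackB ρ (ballO (Option (Fin (m + 2))) 1) := by
    by_cases h2 : ∀ i, 2 * (r i / R) < 1
    · exact Final.unitA hA m k _ h0' hs' hp' h2
    · push Not at h2
      obtain ⟨a, ha⟩ := h2
      rcases hc with hB | h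
      · exact Final.unitB hB k _ h0' hs' hp' a ha
      · exfalso
        have := h a
        rw [← mul_div_assoc, le_div_iff₀ hR] at ha
        linarith
  obtain ⟨ρ, h1, h2⟩ := key
  exact packs_of_packB (finSuccEquiv (m + 2)).symm r ρ R hR h1 h2

end Vale.Agent.P209
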