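import Vale.Agent.P209.FiveA

/-! P209: the family of five sided loops. -/

open Set Filter Topology Function
open scoped Real ContDiff

noncomputable section
namespace Vale.Agent.P209
namespace Five

theorem d1_eq {F : ℝ × ℝ → ℝ} (hF : ContDiff ℝ ∞ F) {t D v : ℝ}
    (h : HasDerivAt (fun s => F (s, D)) v t) : d1 F (t, D) = v := by
  have h1 := (hF.differentiable (by simp) (t, D)).hasFDerivAt.comp_hasDerivAt t
    ((hasDerivAt_id t).prodMk (hasDerivAt_const t D))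
  exact h1.unique h

theorem d2_eq {F : ℝ × ℝ → ℝ} (hF : ContDiff ℝ ∞ F) {t D v : ℝ}
    (h : HasDerivAt (fun s => F (t, s)) v D) : d2 F (t, D) = v := by
  have h1 := (hF.differentiable (by simp) (t, D)).hasFDerivAt.comp_hasDerivAt D
    ((hasDerivAt_const D t).prodMk (hasDerivAt_id D))
  exact h1.unique h

/-- first coordinate of the loop -/
def UU (S X l1 l2 : ℝ → ℝ) (k : ℝ) (p : ℝ × ℝ) : ℝ :=
  p.2 + k * X p.1 + (S (p.1 - 3) - S (p.1 - 9)) * l1 p.2 + (S (p.1 - 5) - S (p.1 - 9)) * l2 p.2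

/-- second coordinate of the loop -/
def VV (S Y l2 l3 : ℝ → ℝ) (k : ℝ) (p : ℝ × ℝ) : ℝ :=
  1 - p.2 + k * Y p.1 - (S (p.1 - 1) - S (p.1 - 5)) * l2 p.2 - (S (p.1 - 1) - S (p.1 - 7)) * l3 p.2

/-- length function of the loop -/
def GG (S l1 l2 l3 : ℝ → ℝ) (k : ℝ) (p : ℝ × ℝ) : ℝ :=
  k * p.1 + S (p.1 - 1) * (l2 p.2 + l3 p.2) + S (p.1 - 3) * l1 p.2 + S (p.1 - 5) * l2 p.2
    + S (p.1 - 7) * l3 p.2 + S (p.1 - 9) * (l1 p.2 + l2 p.2)

variable {S X Y l1 l2 l3 : ℝ → ℝ} {k : ℝ}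

theorem St.sm2 (h : St S) (n : ℝ) : ContDiff ℝ ∞ fun p : ℝ × ℝ => S (p.1 - n) :=
  (h.sm n).comp contDiff_fst

theorem UU_smooth (h : St S) (hX : ContDiff ℝ ∞ X) (h1 : ContDiff ℝ ∞ l1) (h2 : ContDiff ℝ ∞ l2) :
    ContDiff ℝ ∞ (UU S X l1 l2 k) :=
  ((contDiff_snd.add (contDiff_const.mul (hX.comp contDiff_fst))).add
    (((h.sm2 3).sub (h.sm2 9)).mul (h1.comp contDiff_snd))).add
    (((h.sm2 5).sub (h.sm2 9)).mul (h2.comp contDiff_snd))

theorem VV_smooth (h : St S) (hY : ContDiff ℝ ∞ Y) (h2 : ContDiff ℝ ∞ l2) (h3 : ContDiff ℝ ∞ l3) :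
    ContDiff ℝ ∞ (VV S Y l2 l3 k) :=
  (((contDiff_const.sub contDiff_snd).add (contDiff_const.mul (hY.comp contDiff_fst))).sub
    (((h.sm2 1).sub (h.sm2 5)).mul (h2.comp contDiff_snd))).sub
    (((h.sm2 1).sub (h.sm2 7)).mul (h3.comp contDiff_snd))

theorem GG_smooth (h : St S) (h1 : ContDiff ℝ ∞ l1) (h2 : ContDiff ℝ ∞ l2) (h3 : ContDiff ℝ ∞ l3) :
    ContDiff ℝ ∞ (GG S l1 l2 l3 k) :=
  (((((contDiff_const.mul contDiff_fst).add
    ((h.sm2 1).mul ((h2.comp contDiff_snd).add (h3.comp contDiff_snd)))).add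
    ((h.sm2 3).mul (h1.comp contDiff_snd))).add ((h.sm2 5).mul (h2.comp contDiff_snd))).add
    ((h.sm2 7).mul (h3.comp contDiff_snd))).add
    ((h.sm2 9).mul ((h1.comp contDiff_snd).add (h2.comp contDiff_snd)))

theorem UU_t (h : St S) {t x : ℝ} (hX : HasDerivAt X x t) (D : ℝ) :
    HasDerivAt (fun s => UU S X l1 l2 k (s, D))
      (k * x + (deriv S (t - 3) - deriv S (t - 9)) * l1 D
        + (deriv S (t - 5) - deriv S (t - 9)) * l2 D) t :=
  (((hX.const_mul k).const_add D).fun_add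
    (((h.has 3 t).fun_sub (h.has 9 t)).mul_const (l1 D))).fun_add
    (((h.has 5 t).fun_sub (h.has 9 t)).mul_const (l2 D))

theorem VV_t (h : St S) {t y : ℝ} (hY : HasDerivAt Y y t) (D : ℝ) :
    HasDerivAt (fun s => VV S Y l2 l3 k (s, D))
      (k * y - (deriv S (t - 1) - deriv S (t - 5)) * l2 D
        - (deriv S (t - 1) - deriv S (t - 7)) * l3 D) t :=
  (((hY.const_mul k).const_add (1 - D)).fun_sub
    (((h.has 1 t).fun_sub (h.has 5 t)).mul_const (l2 D))).fun_sub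
    (((h.has 1 t).fun_sub (h.has 7 t)).mul_const (l3 D))

theorem GG_t (h : St S) (t D : ℝ) :
    HasDerivAt (fun s => GG S l1 l2 l3 k (s, D))
      (k + deriv S (t - 1) * (l2 D + l3 D) + deriv S (t - 3) * l1 D + deriv S (t - 5) * l2 D
        + deriv S (t - 7) * l3 D + deriv S (t - 9) * (l1 D + l2 D)) t :=
  (((((hasDerivAt_const_mul k).fun_add ((h.has 1 t).mul_const (l2 D + l3 D))).fun_add
    ((h.has 3 t).mul_const (l1 D))).fun_add ((h.has 5 t).mul_const (l2 D))).fun_add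
    ((h.has 7 t).mul_const (l3 D))).fun_add ((h.has 9 t).mul_const (l1 D + l2 D))

theorem UU_D (h1 : ContDiff ℝ ∞ l1) (h2 : ContDiff ℝ ∞ l2) (t D : ℝ) :
    HasDerivAt (fun s => UU S X l1 l2 k (t, s))
      (1 + (S (t - 3) - S (t - 9)) * deriv l1 D + (S (t - 5) - S (t - 9)) * deriv l2 D) D :=
  (((hasDerivAt_id' D).add_const (k * X t)).fun_add
    ((h1.differentiable (by simp) D).hasDerivAt.const_mul (S (t - 3) - S (t - 9)))).fun_add
    ((h2.differentiable (by simp) D).hasDerivAt.const_mul (S (t - 5) - S (t - 9)))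

theorem VV_D (h2 : ContDiff ℝ ∞ l2) (h3 : ContDiff ℝ ∞ l3) (t D : ℝ) :
    HasDerivAt (fun s => VV S Y l2 l3 k (t, s))
      (-1 - (S (t - 1) - S (t - 5)) * deriv l2 D - (S (t - 1) - S (t - 7)) * deriv l3 D) D :=
  ((((hasDerivAt_id' D).const_sub 1).add_const (k * Y t)).fun_sub
    ((h2.differentiable (by simp) D).hasDerivAt.const_mul (S (t - 1) - S (t - 5)))).fun_sub
    ((h3.differentiable (by simp) D).hasDerivAt.const_mul (S (t - 1) - S (t - 7)))

/-- injectivity of a family of convex loops moving inwards -/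
theorem inj_of (hC : ConvexStmt) {hi T : ℝ} {U V : ℝ × ℝ → ℝ} {φ : ℝ → ℝ}
    {Ut Vt UD VD : ℝ → ℝ → ℝ} (hT : 0 < T) (hφ : Continuous φ) (hm : Monotone φ)
    (hp : ∀ t, φ (t + T) = φ t + 2 * π) (pU : ∀ t D, U (t + T, D) = U (t, D))
    (pV : ∀ t D, V (t + T, D) = V (t, D))
    (dU : ∀ t D, HasDerivAt (fun s => U (s, D)) (Ut t D) t)
    (dV : ∀ t D, HasDerivAt (fun s => V (s, D)) (Vt t D) t)
    (dU' : ∀ t D, HasDerivAt (fun s => U (t, s)) (UD t D) D)
    (dV' : ∀ t D, HasDerivAt (fun s => V (t, s)) (VD t D) D)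
    (hg : ∀ t, ∀ D ∈ Ioo 0 hi, (∃ u, 0 < u ∧ Ut t D = u * Real.cos (φ t) ∧
      Vt t D = u * Real.sin (φ t)) ∧ 0 < Ut t D * VD t D - Vt t D * UD t D)
    (t D t' D' : ℝ) (hD : D ∈ Ioo 0 hi) (hD' : D' ∈ Ioo 0 hi) (e1 : U (t, D) = U (t', D'))
    (e2 : V (t, D) = V (t', D')) : D = D' ∧ ∃ k : ℤ, t - t' = k * T := by
  have cv : ∀ D ∈ Ioo 0 hi, (∀ s t, 0 ≤ -Real.sin (φ t) * (U (s, D) - U (t, D))
      + Real.cos (φ t) * (V (s, D) - V (t, D))) ∧
      ∀ s t, U (s, D) = U (t, D) → V (s, D) = V (t, D) → ∃ k : ℤ, s - t = k * T := fun D hD => by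
    choose u hu h1 h2 using fun t => (hg t D hD).1
    exact hC T (fun s => U (s, D)) (fun s => V (s, D)) u φ hT (fun t => pU t D) (fun t => pV t D)
      (fun t => h1 t ▸ dU t D) (fun t => h2 t ▸ dV t D) hu hφ hm hp
  have mono : ∀ t, StrictMonoOn (fun D => -Real.sin (φ t) * U (t, D) + Real.cos (φ t) * V (t, D))
      (Ioo 0 hi) := fun t => by
    have hd : ∀ D, HasDerivAt (fun D => -Real.sin (φ t) * U (t, D) + Real.cos (φ t) * V (t, D))
        (-Real.sin (φ t) * UD t D + Real.cos (φ t) * VD t D) D := fun D =>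
      ((dU' t D).const_mul _).fun_add ((dV' t D).const_mul _)
    refine strictMonoOn_of_deriv_pos (convex_Ioo _ _)
      (fun D _ => (hd D).continuousAt.continuousWithinAt) fun D hD => ?_
    rw [interior_Ioo] at hD
    obtain ⟨⟨u, hu, h1, h2⟩, h3⟩ := hg t D hD
    rw [(hd D).deriv]
    rw [h1, h2] at h3
    refine (mul_pos_iff_of_pos_left hu).1 ?_
    linarith
  have key : ∀ t D t' D', D ∈ Ioo 0 hi → D' ∈ Ioo 0 hi → U (t, D) = U (t', D') →
      V (t, D) = V (t', D') → ¬ D < D' := fun t D t' D' hD hD' e1 e2 hlt => by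
    have a := mono t hD hD' hlt
    have b := (cv D' hD').1 t' t
    rw [← e1, ← e2] at b
    simp only at a
    linarith
  have hDD : D = D' := le_antisymm (not_lt.1 (key t' D' t D hD' hD e1.symm e2.symm))
    (not_lt.1 (key t D t' D' hD hD' e1 e2))
  subst hDD
  exact ⟨rfl, (cv D hD).2 t t' e1 e2⟩

end Five

open Five in
theorem fiveS (hS : StairStmt) (hC : ConvexStmt) : FiveStmt := by
  intro hi κ l0 l1 l2 l3 l4 hκ _ s1 s2 s3 _ hcl hl
  obtain rfl : l0 = fun D => l2 D + l3 D := funext fun D => (hcl D).2.symm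
  obtain rfl : l4 = fun D => l1 D + l2 D := funext fun D => (hcl D).1.symm
  have f1 := s1.differentiable (by simp)
  have f2 := s2.differentiable (by simp)
  have f3 := s3.differentiable (by simp)
  have hl' : ∀ D ∈ Ioo 0 hi, 0 ≤ l1 D ∧ 0 ≤ l2 D ∧ 0 ≤ l3 D ∧ deriv l1 D ≤ 0 ∧ deriv l2 D ≤ 0 ∧
      deriv l3 D ≤ 0 ∧ deriv l2 D + deriv l3 D ≤ -2 ∧ deriv l1 D + deriv l2 D ≤ -2 ∧
      deriv l2 D + deriv l3 D + deriv l1 D ≤ -3 := fun D hD => by
    have := hl D hD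
    rwa [deriv_fun_add (f2 D) (f3 D), deriv_fun_add (f1 D) (f2 D)] at this
  obtain ⟨S, h⟩ := exists_st hS
  obtain ⟨X, c1, c4, M1, sX, hc1, hc4, hM1, dX, pX, bX⟩ := h.closed
    (f := fun t => sp S t * Real.cos (ph S t)) (h.sp_smooth.mul h.ph_smooth.cos)
    (fun t => by rw [h.sp_per, h.ph_per, Real.cos_add_two_pi]) 3 9
  obtain ⟨Y, c3, c0, M2, sY, hc3, hc0, hM2, dY, pY, bY⟩ := h.closed
    (f := fun t => sp S t * Real.sin (ph S t)) (h.sp_smooth.mul h.ph_smooth.sin)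
    (fun t => by rw [h.sp_per, h.ph_per, Real.sin_add_two_pi]) 7 1
  obtain ⟨k, hk, hkM⟩ : ∃ k : ℝ, 0 < k ∧ k * (M1 + M2) = κ :=
    ⟨κ / (M1 + M2), by positivity, by field_simp⟩
  have dY' : ∀ t, HasDerivAt Y
      (sp S t * Real.sin (ph S t) - c0 * deriv S (t - 1) + c3 * deriv S (t - 7)) t := fun t =>
    (dY t).congr_deriv (by ring)
  have sU : ContDiff ℝ ∞ (UU S X l1 l2 k) := UU_smooth h sX s1 s2
  have sV : ContDiff ℝ ∞ (VV S Y l2 l3 k) := VV_smooth h sY s2 s3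
  have sG : ContDiff ℝ ∞ (GG S l1 l2 l3 k) := GG_smooth h s1 s2 s3
  have eU := fun t D => d1_eq sU (UU_t h (dX t) D)
  have eV := fun t D => d1_eq sV (VV_t h (dY' t) D)
  have eG := fun t D => d1_eq sG (GG_t h t D)
  have eU' := fun t D => d2_eq sU (UU_D s1 s2 t D)
  have eV' := fun t D => d2_eq sV (VV_D s2 s3 t D)
  have good := fun t D (hD : D ∈ Ioo 0 hi) => Sec.good (h.secAt t) hk hc0 hc1 hc3 hc4 (h.dpos _)
    (h.dpos _) (h.dpos _) (h.dpos _) (h.dpos _) (hl' D hD).1 (hl' D hD).2.1 (hl' D hD).2.2.1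
    (hl' D hD).2.2.2.2.2.2.1 (hl' D hD).2.2.2.2.2.2.2.1 (hl' D hD).2.2.2.2.2.2.2.2
  have pU : ∀ t D, UU S X l1 l2 k (t + 12, D) = UU S X l1 l2 k (t, D) := fun t D => by
    simp only [UU, h.per', pX]
    ring
  have pV : ∀ t D, VV S Y l2 l3 k (t + 12, D) = VV S Y l2 l3 k (t, D) := fun t D => by
    simp only [VV, h.per', pY]
    ring
  have gT : ∀ D, GG S l1 l2 l3 k (12, D)
      = k * 12 + (l2 D + l3 D + l1 D + l2 D + l3 D + (l1 D + l2 D)) := fun D => by
    have z : ∀ n : ℝ, 0 ≤ n → n ≤ 11 → S (12 - n) = 1 := fun n a b =>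
      (h.hi _ (by linarith) (by linarith)).1
    simp only [GG]
    rw [z 1 (by norm_num) (by norm_num), z 3 (by norm_num) (by norm_num),
      z 5 (by norm_num) (by norm_num), z 7 (by norm_num) (by norm_num),
      z 9 (by norm_num) (by norm_num)]
    ring
  have anti : ∀ l : ℝ → ℝ, Differentiable ℝ l → (∀ D ∈ Ioo 0 hi, deriv l D ≤ 0) →
      AntitoneOn l (Ioo 0 hi) := fun l a b =>
    antitoneOn_of_deriv_nonpos (convex_Ioo _ _) a.continuous.continuousOn a.differentiableOn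
      (by rwa [interior_Ioo])
  have a1 := anti l1 f1 fun D hD => (hl' D hD).2.2.2.1
  have a2 := anti l2 f2 fun D hD => (hl' D hD).2.2.2.2.1
  have a3 := anti l3 f3 fun D hD => (hl' D hD).2.2.2.2.2.1
  refine ⟨⟨12, 1, k, GG S l1 l2 l3 k, UU S X l1 l2 k, VV S Y l2 l3 k, -1, -1, by norm_num,
    by norm_num, by norm_num, hk, sG, sU, sV, fun t D _ => pU t D, fun t D _ => pV t D,
    fun t D _ => ?_, fun D _ => ?_, fun t D _ ht => ?_, fun t D hD => ?_,
    fun t D D' hD hD' hle => ?_, ?_, fun t D hD => ?_, fun t D hD => ?_, by decide,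
    fun t D hD ht => ?_, fun t D hD => ?_⟩⟩
  · rw [gT]
    simp only [GG, h.per']
    ring
  · rw [gT]
    linarith
  · have z := fun n a b => (h.zone ht (n := n) a b).1
    simp only [GG]
    rw [z 1 (by norm_num) (by norm_num), z 3 (by norm_num) (by norm_num),
      z 5 (by norm_num) (by norm_num), z 7 (by norm_num) (by norm_num),
      z 9 (by norm_num) (by norm_num)]
    ring
  · obtain ⟨b1, b2, b3, -⟩ := hl' D hD
    have := h.dpos (t - 1)
    have := h.dpos (t - 3)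
    have := h.dpos (t - 5)
    have := h.dpos (t - 7)
    have := h.dpos (t - 9)
    rw [eG]
    positivity
  · have b1 := a1 hD hD' hle
    have b2 := a2 hD hD' hle
    have b3 := a3 hD hD' hle
    have := h.dpos
    rw [eG, eG]
    gcongr <;> exact this _
  · refine inj_of hC (by norm_num) h.ph_smooth.continuous h.ph_mono h.ph_per pU pV
      (fun t D => UU_t h (dX t) D) (fun t D => VV_t h (dY' t) D) (UU_D s1 s2) (VV_D s2 s3)
      fun t D hD => ?_
    obtain ⟨⟨r, hr, g1, g2⟩, g3, -⟩ := good t D hD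
    exact ⟨⟨r * sp S t, mul_pos hr (h.sp_pos t), by rw [g1, mul_assoc], by rw [g2, mul_assoc]⟩, g3⟩
  · rw [eU, eV, eU', eV']
    exact (good t D hD).2.1.ne'
  · rw [eU, eV, eU', eV', eG]
    exact (good t D hD).2.2
  · have z := fun n a b => h.zone ht (n := n) a b
    obtain ⟨z1, y1⟩ := z 1 (by norm_num) (by norm_num)
    obtain ⟨z3, y3⟩ := z 3 (by norm_num) (by norm_num)
    obtain ⟨z5, y5⟩ := z 5 (by norm_num) (by norm_num)
    obtain ⟨z7, y7⟩ := z 7 (by norm_num) (by norm_num)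
    obtain ⟨z9, y9⟩ := z 9 (by norm_num) (by norm_num)
    rw [eU, eV, eU', eV', (h.zone_dir ht).1, (h.zone_dir ht).2, z1, z3, z5, z7, z9, y1, y3, y5, y7,
      y9]
    refine ⟨by push_cast; ring, by push_cast; ring, fun a b hab => ⟨-a, by ring, ?_⟩⟩
    have e : |a - b| < 1 := by
      have : ((|a - b| : ℤ) : ℝ) < 1 := by
        push_cast
        refine lt_of_eq_of_lt (congrArg _ ?_) hab
        ring
      exact_mod_cast this
    rw [Int.abs_lt_one_iff] at e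
    omega
  · obtain ⟨b1, b2, b3, -⟩ := hl' D hD
    obtain ⟨p1, q1⟩ := h.diff_mem t (m := 3) (n := 9) (by norm_num) (by norm_num)
    obtain ⟨p2, q2⟩ := h.diff_mem t (m := 5) (n := 9) (by norm_num) (by norm_num)
    obtain ⟨p3, q3⟩ := h.diff_mem t (m := 1) (n := 5) (by norm_num) (by norm_num)
    obtain ⟨p4, q4⟩ := h.diff_mem t (m := 1) (n := 7) (by norm_num) (by norm_num)
    obtain ⟨p5, q5⟩ := h.diff_mem t (m := 1) (n := 9) (by norm_num) (by norm_num)
    obtain ⟨x1, x2⟩ := abs_le.1 (bX t)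
    obtain ⟨y1, y2⟩ := abs_le.1 (bY t)
    have u1 := mul_le_mul_of_nonneg_left x1 hk.le
    have u2 := mul_le_mul_of_nonneg_left x2 hk.le
    have u3 := mul_le_mul_of_nonneg_left y1 hk.le
    have u4 := mul_le_mul_of_nonneg_left y2 hk.le
    have u5 := mul_pos hk hM1
    have u6 := mul_pos hk hM2
    have v1 := mul_nonneg p1 b1
    have v2 := mul_nonneg p2 b2
    have v3 := mul_nonneg p3 b2
    have v4 := mul_nonneg p4 b3
    have w1 := mul_le_of_le_one_left b1 q1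
    have w2 := mul_le_of_le_one_left b2 q2
    have w3 := mul_le_of_le_one_left b2 q3
    have w4 := mul_le_of_le_one_left b3 q4
    have w5 := mul_le_of_le_one_left b2 q5
    simp only [UU, VV]
    refine ⟨by linarith, by linarith, by linarith, by linarith, by linarith⟩

end Vale.Agent.P209
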