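import Vale.Agent.P209.Basic

/-! The fold map. -/

open Set Filter Topology Function
open scoped Real ContDiff

noncomputable section
namespace Vale.Agent.P209

namespace Fold

variable {m : ℕ}

/-- a vector with prescribed coordinates at `none`, `some 0`, `some 1` and `lg j` -/
def mk {α : Type} (a b c : α) (e : Fin m → α) : Option (Fin (m + 2)) → α :=
  fun i => i.elim a (Fin.cons b (Fin.cons c e))

@[simp] theorem mk_none {α : Type} (a b c : α) (e : Fin m → α) : mk a b c e none = a := rfl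
@[simp] theorem mk_zero {α : Type} (a b c : α) (e : Fin m → α) : mk a b c e (some 0) = b := rfl
@[simp] theorem mk_one {α : Type} (a b c : α) (e : Fin m → α) : mk a b c e (some 1) = c := rfl
@[simp] theorem mk_lg {α : Type} (a b c : α) (e : Fin m → α) (j : Fin m) :
    mk a b c e (lg j) = e j := rfl

theorem cases {p : Option (Fin (m + 2)) → Prop} (h : p none) (h0 : p (some 0)) (h1 : p (some 1))
    (h2 : ∀ j, p (lg j)) : ∀ i, p i
  | none => h
  | some k => Fin.cases h0 (fun k' => Fin.cases h1 h2 k') k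

theorem sum_eq (φ : Option (Fin (m + 2)) → ℝ) :
    ∑ i, φ i = φ none + φ (some 0) + φ (some 1) + ∑ j, φ (lg j) := by
  rw [Fintype.sum_option, Fin.sum_univ_succ, Fin.sum_univ_succ, add_assoc (φ none),
    add_assoc (φ none), add_assoc (φ (some 0))]
  rfl

theorem lg_ne_none (j : Fin m) : lg j ≠ none := Option.some_ne_none _

theorem lg_ne_one (j : Fin m) : lg j ≠ some 1 := fun h =>
  Fin.succ_ne_zero j (Fin.succ_injective _ (Option.some_injective _ h))

variable (f : ℝ → ℝ)

def l3 (q : Option (Fin (m + 2)) → ℝ) : ℝ := q (some 0) + f (q (some 1) - q none)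

def gc (y : Ph (Option (Fin (m + 2)))) : ℝ := deriv f (y.1 (some 1) - y.1 none) * y.2 (some 0)

/-- the fold -/
def F (y : Ph (Option (Fin (m + 2)))) : Ph (Option (Fin (m + 2))) :=
  (mk (y.1 (some 1) - l3 f y.1 - ∑ j, y.1 (lg j)) (l3 f y.1)
      (1 - y.1 none - l3 f y.1 - ∑ j, y.1 (lg j)) fun j => 2 * y.1 (lg j),
    mk (y.2 (some 1) - gc f y) (y.2 (some 0) + y.2 (some 1) - y.2 none - 2 * gc f y)
      (-y.2 none - gc f y) fun j => (y.2 (lg j) + y.2 (some 1) - y.2 none) / 2 - gc f y)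

variable {f}

theorem contDiff_F (hf : ContDiff ℝ ∞ f) : ContDiff ℝ ∞ (F (m := m) f) := by
  have h1 : ContDiff ℝ ∞ fun y : Ph (Option (Fin (m + 2))) => l3 f y.1 := by
    unfold l3
    fun_prop
  have h2 : ContDiff ℝ ∞ (gc (m := m) f) := by
    have := hf.deriv' (n := ∞)
    unfold gc
    fun_prop
  refine ContDiff.prodMk (contDiff_pi.2 (cases ?_ ?_ ?_ fun j => ?_))
    (contDiff_pi.2 (cases ?_ ?_ ?_ fun j => ?_))
  all_goals
    simp only [mk_none, mk_zero, mk_one, mk_lg]
    fun_prop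

theorem fderiv_F (hf : ContDiff ℝ ∞ f) (y v : Ph (Option (Fin (m + 2)))) :
    (fderiv ℝ (F f) y v).1 = mk
      (v.1 (some 1) - (v.1 (some 0) + deriv f (y.1 (some 1) - y.1 none) *
        (v.1 (some 1) - v.1 none)) - ∑ j, v.1 (lg j))
      (v.1 (some 0) + deriv f (y.1 (some 1) - y.1 none) * (v.1 (some 1) - v.1 none))
      (-v.1 none - (v.1 (some 0) + deriv f (y.1 (some 1) - y.1 none) *
        (v.1 (some 1) - v.1 none)) - ∑ j, v.1 (lg j)) fun j => 2 * v.1 (lg j) := by
  have h0 : HasDerivAt (fun t : ℝ => F f (y + t • v)) (fderiv ℝ (F f) y v) 0 :=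
    ((contDiff_F hf).differentiable (by simp) y).hasFDerivAt.hasLineDerivAt v
  have h1 : ∀ i, HasDerivAt (fun t : ℝ => (F f (y + t • v)).1 i) ((fderiv ℝ (F f) y v).1 i) 0 :=
    fun i => hasDerivAt_pi.1 ((hasFDerivAt_fst.comp_hasDerivAt 0 h0)) i
  have h2 : ∀ i, HasDerivAt (fun t : ℝ => (y + t • v).1 i) (v.1 i) 0 := fun i => by
    simpa using ((hasDerivAt_id (0 : ℝ)).mul_const (v.1 i)).const_add (y.1 i)
  have h3 : HasDerivAt (fun t : ℝ => l3 f (y + t • v).1)
      (v.1 (some 0) + deriv f (y.1 (some 1) - y.1 none) * (v.1 (some 1) - v.1 none)) 0 := by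
    refine (h2 (some 0)).add (HasDerivAt.comp (h₂ := f) 0 ?_ ((h2 (some 1)).sub (h2 none)))
    simpa using (hf.differentiable (by simp) _).hasDerivAt
  have h4 : HasDerivAt (fun t : ℝ => ∑ j, (y + t • v).1 (lg j)) (∑ j, v.1 (lg j)) 0 :=
    HasDerivAt.fun_sum fun j _ => h2 (lg j)
  funext i
  refine (h1 i).unique ?_
  revert i
  refine cases ?_ ?_ ?_ fun j => ?_
  · exact ((h2 (some 1)).sub h3).sub h4
  · exact h3
  · exact (((h2 none).const_sub 1).sub h3).sub h4
  · exact (h2 (lg j)).const_mul 2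

theorem int_eq {s t : ℝ} {k : ℤ} (hs : 0 < s ∧ s < 1) (ht : 0 < t ∧ t < 1) (h : s - t = k) :
    s = t := by
  have h1 : (k : ℝ) < 1 := by linarith [hs.2, ht.1]
  have h2 : (-1 : ℝ) < k := by linarith [hs.1, ht.2]
  have h3 : k = 0 := by
    have a : k < 1 := by exact_mod_cast h1
    have b : -1 < k := by exact_mod_cast h2
    omega
  rw [h3, Int.cast_zero] at h
  linarith

end Fold

open Fold in
theorem foldS (hE : ExactStmt) (hC : CotStmt) : FoldStmt := by
  intro m κ h f hf
  refine ⟨F f, fun x => ?_, fun x hx => ?_, fun x hx y hy hl => ?_, fun a b ⟨r, hr⟩ => ?_⟩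
  · refine hE _ (F f) (fun _ => 0) x (contDiff_F hf.smooth).contDiffAt contDiffAt_const
      (Eventually.of_forall fun y v => ?_)
    rw [fderiv_F hf.smooth, sum_eq, sum_eq]
    have e : ∑ j, ((y.2 (lg j) + y.2 (some 1) - y.2 none) / 2 - gc f y) * (2 * v.1 (lg j)) =
        ∑ j, y.2 (lg j) * v.1 (lg j) +
          (y.2 (some 1) - y.2 none - 2 * gc f y) * ∑ j, v.1 (lg j) := by
      rw [Finset.mul_sum, ← Finset.sum_add_distrib]
      exact Finset.sum_congr rfl fun j _ => by ring
    simp only [F, mk_none, mk_zero, mk_one, mk_lg, e, fderiv_fun_const, Pi.zero_apply,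
      zero_apply]
    rw [gc]
    ring
  · obtain ⟨-, -, h3, h4, h5, h6, h7⟩ := hx
    have o := hf.odd (x.1 none - x.1 (some 1))
    rw [neg_sub] at o
    have n1 := hf.nonneg (x.1 none - x.1 (some 1))
    have n2 := hf.nonneg (x.1 (some 1) - x.1 none)
    have e : ∑ i, (F f x).1 i = 1 - (x.1 (some 0) + f (x.1 none - x.1 (some 1))) := by
      rw [sum_eq]
      simp only [F, mk_none, mk_zero, mk_one, mk_lg, ← Finset.mul_sum, l3]
      linarith
    refine ⟨cases ?_ ?_ ?_ fun j => ?_, by rw [e]; linarith, by rw [e]; linarith⟩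
    all_goals simp only [F, mk_none, mk_zero, mk_one, mk_lg, l3]
    · linarith
    · linarith
    · linarith
    · linarith [h4 j]
  · obtain ⟨hb, hk⟩ := hl
    have b0 := congrFun hb none
    have b1 := congrFun hb (some 0)
    have b2 := congrFun hb (some 1)
    have b3 : ∀ j, x.1 (lg j) = y.1 (lg j) := fun j => by
      have := congrFun hb (lg j)
      simp only [F, mk_lg] at this
      linarith
    simp only [F, mk_none, mk_zero, mk_one, b3] at b0 b1 b2
    have c1 : x.1 (some 1) = y.1 (some 1) := by linarith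
    have c2 : x.1 none = y.1 none := by linarith
    have c3 : x.1 (some 0) = y.1 (some 0) := by
      simp only [l3, c1, c2] at b1
      linarith
    obtain ⟨k0, e0⟩ := hk none
    obtain ⟨k1, e1⟩ := hk (some 0)
    obtain ⟨k2, e2⟩ := hk (some 1)
    simp only [F, mk_none, mk_zero, mk_one] at e0 e1 e2
    have d0 : x.2 (some 0) = y.2 (some 0) :=
      int_eq (k := k1 - k0 - k2) ⟨hx.1, hx.2.1⟩ ⟨hy.1, hy.2.1⟩ (by push_cast; linarith)
    have d1 : gc f x = gc f y := by rw [gc, gc, c1, c2, d0]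
    refine ⟨funext (cases c2 c3 c1 b3), d0, -k2, k0, by push_cast; linarith, by linarith,
      fun j => ?_⟩
    obtain ⟨k, e⟩ := hk (lg j)
    simp only [F, mk_lg] at e
    exact ⟨k - k2, by push_cast; linarith⟩
  · refine ⟨mk b (b - a) (-a) fun _ => r - a, fun y => Prod.ext ?_ (funext ?_)⟩
    · simp only [F, Prod.fst_add, add_zero]
    · have hr' : (a : ℝ) + b = r + r := by exact_mod_cast hr
      refine cases ?_ ?_ ?_ fun j => ?_
      all_goals
        simp [F, gc, lg_ne_none, lg_ne_one]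
        linarith

end Vale.Agent.P209
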