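import Vale.Agent.P209.Basic

open Set Filter Topology Function
open scoped Real ContDiff

noncomputable section
namespace Vale.Agent.P209

namespace GeoA

section shear
variable {ι : Type} [Fintype ι] [DecidableEq ι]

/-- a linear shear of the base with its cotangent lift -/
def shear (k : ι) (a : ι → ℝ) : Ph ι →ₗ[ℝ] Ph ι where
  toFun x := (fun i => x.1 i + if i = k then ∑ j, a j * x.1 j else 0, fun i => x.2 i - a i * x.2 k)
  map_add' x y := by
    refine Prod.ext (funext fun i => ?_) (funext fun i => ?_)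
    · simp only [Prod.fst_add, Pi.add_apply, mul_add, Finset.sum_add_distrib]
      split_ifs <;> ring
    · simp only [Prod.snd_add, Pi.add_apply]
      ring
  map_smul' c x := by
    have h : ∑ j, a j * (c * x.1 j) = c * ∑ j, a j * x.1 j := by
      rw [Finset.mul_sum]
      exact Finset.sum_congr rfl fun j _ => by ring
    refine Prod.ext (funext fun i => ?_) (funext fun i => ?_)
    · simp only [Prod.smul_fst, Pi.smul_apply, smul_eq_mul, RingHom.id_apply, h]
      split_ifs <;> ring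
    · simp only [Prod.smul_snd, Pi.smul_apply, smul_eq_mul, RingHom.id_apply]
      ring

theorem shear_fst (k : ι) (a : ι → ℝ) (x : Ph ι) (i : ι) :
    (shear k a x).1 i = x.1 i + if i = k then ∑ j, a j * x.1 j else 0 := rfl

theorem shear_snd (k : ι) (a : ι → ℝ) (x : Ph ι) (i : ι) :
    (shear k a x).2 i = x.2 i - a i * x.2 k := rfl

theorem om_shear (k : ι) (a : ι → ℝ) (ha : a k = 0) (u v : Ph ι) :
    om (shear k a u) (shear k a v) = om u v := by
  have h : ∀ i, (shear k a u).1 i * (shear k a v).2 i - (shear k a u).2 i * (shear k a v).1 i =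
      (u.1 i * v.2 i - u.2 i * v.1 i) - a i * u.1 i * v.2 k + a i * v.1 i * u.2 k +
        if i = k then (∑ j, a j * u.1 j) * v.2 k - (∑ j, a j * v.1 j) * u.2 k else 0 := by
    intro i
    simp only [shear_fst, shear_snd]
    split_ifs with hi
    · rw [hi, ha]
      ring
    · ring
  unfold om
  simp only [h, Finset.sum_add_distrib, Finset.sum_sub_distrib, Finset.sum_ite_eq',
    Finset.mem_univ, if_true, ← Finset.sum_mul]
  ring

theorem sympAt_shear (k : ι) (a : ι → ℝ) (ha : a k = 0) (x : Ph ι) : SympAt (shear k a) x := by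
  let L : Ph ι →L[ℝ] Ph ι := LinearMap.toContinuousLinearMap (shear k a)
  have hL : (shear k a : Ph ι → Ph ι) = L := rfl
  rw [hL]
  refine ⟨L.contDiff.contDiffAt, fun u v => ?_⟩
  rw [L.fderiv]
  exact om_shear k a ha u v

end shear

variable {m : ℕ}

theorem lg_ne_none (j : Fin m) : lg j ≠ none := Option.some_ne_none _

theorem lg_ne_one (j : Fin m) : lg j ≠ some 1 := by
  intro h
  have h1 : j.succ.succ = (0 : Fin (m + 1)).succ := Option.some_injective _ h
  exact Fin.succ_ne_zero _ (Fin.succ_injective _ h1)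

theorem zero_ne_one' : (some 0 : Option (Fin (m + 2))) ≠ some 1 := fun h =>
  Fin.zero_ne_one (Option.some_injective _ h)

theorem sum_some (q : Option (Fin (m + 2)) → ℝ) :
    ∑ j, q (some j) = q (some 0) + q (some 1) + ∑ j, q (lg j) := by
  rw [Fin.sum_univ_succ, Fin.sum_univ_succ]
  exact (add_assoc _ _ _).symm

/-- weights of the shear -/
def wt (m : ℕ) (i : Option (Fin (m + 2))) : ℝ := if i = none ∨ i = some 1 then 0 else 1

theorem wt_none : wt m none = 0 := if_pos (Or.inl rfl)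

theorem wt_one : wt m (some 1) = 0 := if_pos (Or.inr rfl)

theorem wt_other {i : Option (Fin (m + 2))} (h : i ≠ none) (h' : i ≠ some 1) : wt m i = 1 :=
  if_neg (not_or.2 ⟨h, h'⟩)

theorem sum_wt (q : Option (Fin (m + 2)) → ℝ) :
    ∑ i, wt m i * q i = q (some 0) + ∑ j, q (lg j) := by
  rw [Fintype.sum_option, sum_some fun i => wt m i * q i, wt_none, wt_one,
    wt_other (Option.some_ne_none _) zero_ne_one']
  simp only [wt_other (lg_ne_none _) (lg_ne_one _), one_mul, zero_mul, zero_add, add_zero]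

def c1 (m : ℕ) (c : ℝ × ℝ → ℝ × ℝ) (i : Option (Fin (m + 2))) : ℝ × ℝ → ℝ × ℝ :=
  if i = some 1 then c else fun w => w

def c3 (m : ℕ) (c : ℝ × ℝ → ℝ × ℝ) (i : Option (Fin (m + 2))) : ℝ × ℝ → ℝ × ℝ :=
  if i = none ∨ i = some 1 then fun w => w else c

/-- the preparation map: cut, shear, cut, translate -/
def prep (c : ℝ × ℝ → ℝ × ℝ) (δ : ℝ) (x : Ph (Option (Fin (m + 2)))) :
    Ph (Option (Fin (m + 2))) :=
  pairs (c3 m c) (shear (some 1) (wt m) (pairs (c1 m c) x)) + (Pi.single (some 1) δ, 0)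

theorem mid_other (c : ℝ × ℝ → ℝ × ℝ) (x : Ph (Option (Fin (m + 2))))
    {i : Option (Fin (m + 2))} (h' : i ≠ some 1) :
    (shear (some 1) (wt m) (pairs (c1 m c) x)).1 i = x.1 i ∧
      (shear (some 1) (wt m) (pairs (c1 m c) x)).2 i =
        x.2 i - wt m i * (c (x.1 (some 1), x.2 (some 1))).2 := by
  simp [shear_fst, shear_snd, pairs, c1, h']

theorem prep_none (c : ℝ × ℝ → ℝ × ℝ) (δ : ℝ) (x : Ph (Option (Fin (m + 2)))) :
    (prep c δ x).1 none = x.1 none ∧ (prep c δ x).2 none = x.2 none := by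
  have h := mid_other c x (i := none) (Option.some_ne_none _).symm
  rw [wt_none, zero_mul, sub_zero] at h
  have h2 : c3 m c none = fun w => w := if_pos (Or.inl rfl)
  unfold prep pairs
  simp only [Prod.fst_add, Prod.snd_add, Pi.add_apply, h2, add_zero, Pi.zero_apply,
    Pi.single_eq_of_ne (Option.some_ne_none (1 : Fin (m + 2))).symm]
  exact h

theorem prep_one (c : ℝ × ℝ → ℝ × ℝ) (δ : ℝ) (x : Ph (Option (Fin (m + 2)))) :
    (prep c δ x).1 (some 1) =
      (c (x.1 (some 1), x.2 (some 1))).1 + (x.1 (some 0) + ∑ j, x.1 (lg j)) + δ ∧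
      (prep c δ x).2 (some 1) = (c (x.1 (some 1), x.2 (some 1))).2 := by
  have h := sum_wt (pairs (c1 m c) x).1
  simp only [pairs, c1, if_neg zero_ne_one', if_neg (lg_ne_one _)] at h
  simp [prep, pairs, c3, c1, shear_fst, shear_snd, wt_one, h]

theorem prep_other (c : ℝ × ℝ → ℝ × ℝ) (δ : ℝ) (x : Ph (Option (Fin (m + 2))))
    {i : Option (Fin (m + 2))} (h : i ≠ none) (h' : i ≠ some 1) :
    (prep c δ x).1 i = (c (x.1 i, x.2 i - (c (x.1 (some 1), x.2 (some 1))).2)).1 ∧
      (prep c δ x).2 i = (c (x.1 i, x.2 i - (c (x.1 (some 1), x.2 (some 1))).2)).2 := by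
  have h1 := mid_other c x h'
  rw [wt_other h h', one_mul] at h1
  have h2 : c3 m c i = c := if_neg (not_or.2 ⟨h, h'⟩)
  constructor
  · show (c3 m c i (_, _)).1 + (Pi.single (some 1) δ : Option (Fin (m + 2)) → ℝ) i = _
    rw [h1.1, h1.2, h2, Pi.single_eq_of_ne h', add_zero]
  · show (c3 m c i (_, _)).2 + 0 = _
    rw [h1.1, h1.2, h2, add_zero]

theorem prep_shift (c : ℝ × ℝ → ℝ × ℝ) (δ ρ : ℝ) (y : Ph (Option (Fin (m + 2)))) :
    prep c δ (y + (0, Pi.single none ρ)) = prep c δ y + (0, Pi.single none ρ) := by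
  refine Prod.ext (funext fun i => ?_) (funext fun i => ?_)
  · rw [Prod.fst_add, add_zero]
    by_cases h : i = none
    · rw [h, (prep_none _ _ _).1, (prep_none _ _ _).1, Prod.fst_add, add_zero]
    · by_cases h' : i = some 1
      · rw [h', (prep_one _ _ _).1, (prep_one _ _ _).1]
        simp
      · rw [(prep_other _ _ _ h h').1, (prep_other _ _ _ h h').1]
        simp [h]
  · rw [Prod.snd_add, Pi.add_apply]
    by_cases h : i = none
    · rw [h, (prep_none _ _ _).2, (prep_none _ _ _).2, Prod.snd_add, Pi.add_apply]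
    · by_cases h' : i = some 1
      · rw [h', (prep_one _ _ _).2, (prep_one _ _ _).2]
        simp
      · rw [(prep_other _ _ _ h h').2, (prep_other _ _ _ h h').2]
        simp [h]

theorem sympAt_prep (hP : PairsStmt) {c : ℝ × ℝ → ℝ × ℝ} (hc : ∀ z : ℝ × ℝ, 0 < z.1 → Area c z)
    (δ : ℝ) {x : Ph (Option (Fin (m + 2)))} (hx : ∀ j, 0 < x.1 (some j)) :
    SympAt (prep c δ) x := by
  have h1 : SympAt (pairs (c1 m c)) x := by
    refine hP _ _ _ fun i => ?_
    unfold c1
    split_ifs with hi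
    · exact hc _ (hi ▸ hx 1)
    · exact area_id _
  have h2 := (sympAt_shear (some 1) (wt m) wt_one _).comp' h1
  have h3 : SympAt (pairs (c3 m c)) (shear (some 1) (wt m) (pairs (c1 m c) x)) := by
    refine hP _ _ _ fun i => ?_
    unfold c3
    split_ifs with hi
    · exact area_id _
    · rw [not_or] at hi
      refine hc _ ?_
      show 0 < (shear (some 1) (wt m) (pairs (c1 m c) x)).1 i
      rw [(mid_other c x hi.2).1]
      obtain ⟨j, rfl⟩ := Option.ne_none_iff_exists'.1 hi.1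
      exact hx j
  have h4 := SympAt.comp' (F := fun y => shear (some 1) (wt m) (pairs (c1 m c) y)) h3 h2
  exact (sympAt_add_const (Pi.single (some 1) δ, 0) _).comp' h4

theorem d1_comp {n : ℕ} {G : ℝ × ℝ → ℝ} (hG : ContDiff ℝ ∞ G) (b t : ℝ) (s : Fin n → ℝ) :
    d1 (fun p : ℝ × (Fin n → ℝ) => G (p.1, ∑ j, p.2 j + b)) (t, s) = d1 G (t, ∑ j, s j + b) := by
  have hd : Differentiable ℝ G := hG.differentiable (by simp)
  have hd' : Differentiable ℝ fun p : ℝ × (Fin n → ℝ) => G (p.1, ∑ j, p.2 j + b) := by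
    refine hd.comp ?_
    fun_prop
  have h1 : HasDerivAt (fun u : ℝ => (u, s)) ((1 : ℝ), (0 : Fin n → ℝ)) t :=
    (hasDerivAt_id t).prodMk (hasDerivAt_const t s)
  have h2 : HasDerivAt (fun u : ℝ => (u, ∑ j, s j + b)) ((1 : ℝ), (0 : ℝ)) t :=
    (hasDerivAt_id t).prodMk (hasDerivAt_const t _)
  exact ((hd' (t, s)).hasFDerivAt.comp_hasDerivAt t h1).unique
    ((hd (t, ∑ j, s j + b)).hasFDerivAt.comp_hasDerivAt t h2)

end GeoA

open GeoA in
theorem geoS (hCut : CutStmt) (hP : PairsStmt) (hC : CotStmt) (hE : ExactStmt) (hL : LiftStmt)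
    (hF : FoldStmt) (hf : FoldFnStmt) : GeoStmt := by
  intro m h κ hi ell P hκ
  obtain ⟨ε, hε⟩ : ∃ ε : ℝ, ε = κ / (m + 2) := ⟨_, rfl⟩
  have hε0 : 0 < ε := by rw [hε]; positivity
  have hε1 : (m + 2) * ε = κ := by rw [hε]; field_simp
  have hm0 : 0 ≤ (m : ℝ) * ε := by positivity
  obtain ⟨c, hc, hc'⟩ := hCut ε hε0
  obtain ⟨f, hf⟩ := hf κ hκ
  obtain ⟨FL, hL1, hL2, hL3, hL4⟩ := hL m hi _ ell P
  obtain ⟨FF, hF1, hF2, hF3, hF4⟩ := hF m κ h f hf
  obtain ⟨v, hv⟩ := hF4 P.k1 P.k2 P.even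
  obtain ⟨δ, hδ⟩ : ∃ δ : ℝ, δ = (m + 1) * ε + 2 * κ := ⟨_, rfl⟩
  let W : Set (Ph (Option (Fin (m + 2)))) :=
    W0 {s : Fin (m + 2) → ℝ | (∀ j, 0 < s j) ∧ s 0 + 2 * κ < h ∧ ∑ j, s j + 3 * κ < hi}
      (fun p => P.G (p.1, ∑ j, p.2 j + 3 * κ)) P.z
  have key : ∀ x ∈ W, prep c δ x ∈ AL hi P.z P.G ∧ FL (prep c δ x) ∈ AF f h := by
    rintro x ⟨⟨hs, hs0, hσ⟩, hθ0, hθ1, hθ2⟩
    have hs' : ∀ j, 0 < x.1 (some j) := hs
    have hs0' : x.1 (some 0) + 2 * κ < h := hs0
    have hσ' : ∑ j, x.1 (some j) + 3 * κ < hi := hσ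
    rw [d1_comp P.sG] at hθ1
    have hθ1' : x.2 none < d1 P.G (x.1 none, ∑ j, x.1 (some j) + 3 * κ) := hθ1
    obtain ⟨-, hb0, hb1, hb2, hb3⟩ := hc (x.1 (some 1), x.2 (some 1)) (hs' 1)
    have ho : ∀ j : Fin (m + 2), (some j : Option (Fin (m + 2))) ≠ some 1 →
        0 < (prep c δ x).1 (some j) ∧ (prep c δ x).1 (some j) < x.1 (some j) + ε ∧
          0 < (prep c δ x).2 (some j) ∧ (prep c δ x).2 (some j) < 1 := by
      intro j hj
      rw [(prep_other c δ x (Option.some_ne_none _) hj).1,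
        (prep_other c δ x (Option.some_ne_none _) hj).2]
      exact (hc (x.1 (some j), _) (hs' j)).2
    have hlg0 : 0 ≤ ∑ j, x.1 (lg j) := Finset.sum_nonneg fun j _ => (hs' _).le
    have hlg1 : 0 ≤ ∑ j, (prep c δ x).1 (lg j) :=
      Finset.sum_nonneg fun j _ => (ho _ (lg_ne_one j)).1.le
    have hlg2 : ∑ j, (prep c δ x).1 (lg j) ≤ ∑ j, x.1 (lg j) + m * ε := by
      have : ∑ j, (prep c δ x).1 (lg j) ≤ ∑ j, (x.1 (lg j) + ε) :=
        Finset.sum_le_sum fun j _ => (ho _ (lg_ne_one j)).2.1.le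
      simpa [Finset.sum_add_distrib] using this
    have hD := (prep_one c δ x).1
    have hsum := sum_some x.1
    have h0 := hs' 0
    have h1 := hs' 1
    obtain ⟨hY0, hY1, hY2, hY3⟩ := ho 0 zero_ne_one'
    simp only at hb1
    have hDle : (prep c δ x).1 (some 1) ≤ ∑ j, x.1 (some j) + 3 * κ := by linarith
    have hDm : (prep c δ x).1 (some 1) ∈ Ioo 0 hi := ⟨by linarith, by linarith⟩
    have hAL : prep c δ x ∈ AL hi P.z P.G := by
      refine ⟨hDm, ?_, ?_, ?_, fun j => ?_⟩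
      · rw [(prep_none c δ x).2]
        exact hθ0
      · rw [(prep_none c δ x).1, (prep_none c δ x).2]
        exact hθ1'.trans_le (P.anti _ _ _ hDm ⟨by linarith, hσ'⟩ hDle)
      · rw [(prep_none c δ x).1, (prep_none c δ x).2]
        exact hθ2
      · by_cases hj : (some j : Option (Fin (m + 2))) = some 1
        · rw [hj, (prep_one c δ x).2]
          exact ⟨hb2, hb3⟩
        · exact (ho j hj).2.2
    refine ⟨hAL, ?_⟩
    obtain ⟨e1, e2, e3, e4⟩ := hL2 (prep c δ x)
    have e5 := (hL1 _ hAL).2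
    obtain ⟨r1, r2, r3, r4, r5⟩ := P.reg ((prep c δ x).1 none) _ hDm
    rw [← e1] at r1 r3 r5
    rw [← e2] at r2 r4 r5
    have f1 := hf.le ((FL (prep c δ x)).1 none - (FL (prep c δ x)).1 (some 1))
    have f2 := hf.le ((FL (prep c δ x)).1 (some 1) - (FL (prep c δ x)).1 none)
    refine ⟨e5 ▸ hY2, e5 ▸ hY3, e3 ▸ hY0, fun j => (e4 j) ▸ (ho _ (lg_ne_one j)).1, ?_, ?_, ?_⟩
    · simp only [e3, e4]
      rcases max_choice ((FL (prep c δ x)).1 none - (FL (prep c δ x)).1 (some 1)) 0 with hm | hm <;>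
        rw [hm] at f1 <;> linarith
    · simp only [e3, e4]
      rcases max_choice ((FL (prep c δ x)).1 (some 1) - (FL (prep c δ x)).1 none) 0 with hm | hm <;>
        rw [hm] at f2 <;> linarith
    · rw [e3]
      rcases max_choice ((FL (prep c δ x)).1 none - (FL (prep c δ x)).1 (some 1)) 0 with hm | hm <;>
        rw [hm] at f1 <;> linarith
  have hsy : ∀ x ∈ W, SympAt (prep c δ) x := fun x hx =>
    sympAt_prep hP (fun z hz => (hc z hz).1) δ hx.1.1
  refine ⟨fun x => FF (FL (prep c δ x)), v, fun x hx => ?_, fun x hx => hF2 (key x hx).2,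
    fun x hx y hy hxy => ?_, fun x hx h0 => ?_⟩
  · exact (hF1 _).comp' ((hL1 _ (key x hx).1).1.comp' (hsy x hx))
  · obtain ⟨⟨k, hk⟩, h1, h2⟩ := hL3 _ (key x hx).1 _ (key y hy).1
      (hF3 _ (key x hx).2 _ (key y hy).2 hxy)
    have h1' : ∀ j, (prep c δ x).1 (some j) = (prep c δ y).1 (some j) := fun j => congrFun h1 j
    have hx' : ∀ j, 0 < x.1 (some j) := hx.1.1
    have hy' : ∀ j, 0 < y.1 (some j) := hy.1.1
    have hψ : (c (x.1 (some 1), x.2 (some 1))).2 = (c (y.1 (some 1), y.2 (some 1))).2 := by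
      rw [← (prep_one c δ x).2, ← (prep_one c δ y).2, h2]
    have ho : ∀ j : Fin (m + 2), (some j : Option (Fin (m + 2))) ≠ some 1 →
        x.1 (some j) = y.1 (some j) ∧ ∃ k : ℤ, x.2 (some j) - y.2 (some j) = k := by
      intro j hj
      have a1 := prep_other c δ x (Option.some_ne_none _) hj
      have a2 := prep_other c δ y (Option.some_ne_none _) hj
      obtain ⟨b1, k, b2⟩ := hc' (x.1 (some j), _) (y.1 (some j), _) (hx' j) (hy' j)
        (Prod.ext (a1.1.symm.trans ((h1' j).trans a2.1))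
          (a1.2.symm.trans ((congrFun h2 _).trans a2.2)))
      refine ⟨b1, k, ?_⟩
      simp only at b2
      linarith
    have h3 : (c (x.1 (some 1), x.2 (some 1))).1 = (c (y.1 (some 1), y.2 (some 1))).1 := by
      have a1 := h1' 1
      have a2 : ∑ j, x.1 (lg j) = ∑ j, y.1 (lg j) :=
        Finset.sum_congr rfl fun j _ => (ho _ (lg_ne_one j)).1
      rw [(prep_one c δ x).1, (prep_one c δ y).1, a2, (ho 0 zero_ne_one').1] at a1
      linarith
    have h4 := hc' (x.1 (some 1), x.2 (some 1)) (y.1 (some 1), y.2 (some 1)) (hx' 1) (hy' 1)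
      (Prod.ext h3 hψ)
    have h5 : ∀ j : Fin (m + 2),
        x.1 (some j) = y.1 (some j) ∧ ∃ k : ℤ, x.2 (some j) - y.2 (some j) = k := by
      intro j
      by_cases hj : (some j : Option (Fin (m + 2))) = some 1
      · rw [hj]
        exact h4
      · exact ho j hj
    refine ⟨⟨k, ?_⟩, funext fun j => (h5 j).1, ?_, fun j => (h5 j).2⟩
    · rw [← (prep_none c δ x).1, ← (prep_none c δ y).1]
      exact hk
    · rw [← (prep_none c δ x).2, ← (prep_none c δ y).2, h2]
  · have h1 := hL4 _ (key x hx).1 ((prep_none c δ x).2.trans h0)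
    filter_upwards [(hsy x hx).continuousAt.tendsto.eventually h1] with y hy
    rw [prep_shift, hy, hv]

end Vale.Agent.P209
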