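import Vale.Agent.P209.Basic

open Set Filter Topology Function
open scoped Real ContDiff

noncomputable section
namespace Vale.Agent.P209

namespace Glue

theorem d1_eq {n : ℕ} {G : ℝ × ℝ → ℝ} (hG : ContDiff ℝ ∞ G) (c t : ℝ) (s : Fin n → ℝ) :
    d1 (fun p : ℝ × (Fin n → ℝ) => G (p.1, ∑ j, p.2 j + c)) (t, s) = d1 G (t, ∑ j, s j + c) := by
  have hφ : ContDiff ℝ ∞ fun p : ℝ × (Fin n → ℝ) => G (p.1, ∑ j, p.2 j + c) :=
    hG.comp (by fun_prop)
  have a := (hφ.differentiable (by simp) (t, s)).hasFDerivAt.comp_hasDerivAt t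
    ((hasDerivAt_id t).prodMk (hasDerivAt_const t s))
  have b := (hG.differentiable (by simp) (t, ∑ j, s j + c)).hasFDerivAt.comp_hasDerivAt t
    ((hasDerivAt_id t).prodMk (hasDerivAt_const t (∑ j, s j + c)))
  exact a.unique b

theorem per {G : ℝ → ℝ} {T g : ℝ} (h : ∀ t, G (t + T) = G t + g) (n : ℕ) (t : ℝ) :
    G (t + n * T) = G t + n * g := by
  induction n with
  | zero => simp
  | succ n ih =>
    rw [Nat.cast_succ, add_mul, one_mul, ← add_assoc, h, ih]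
    ring

end Glue

theorem glueS (hD : DynStmt) (hW : WrapStmt) (hG : GeoStmt) (hT : TgtStmt) : GlueStmt := by
  rintro m h κ hi ell hκ ⟨P⟩ ι _ _ ρ r S x ε η M L h1 h2 hε hε1 hη hL hC h3 h4 h5 h6
  obtain ⟨f, hf, hP⟩ := hD (m + 1) ι ρ r S x hi (η / 2) L h1 h2 (half_pos hη) hL hC h3 h4
    (fun s hs h0 => by linarith [(h5 s hs h0).2.1]) h6
  have hDm : ∀ s : Fin (m + 2) → ℝ, (∀ j, 0 < s j) → ∑ j, s j + 3 * κ < hi →
      ∑ j, s j + 3 * κ ∈ Ioo 0 hi := fun s hs h0 => by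
    have : 0 ≤ ∑ j, s j := Finset.sum_nonneg fun j _ => (hs j).le
    exact ⟨by linarith, h0⟩
  have hE := hW (m + 1)
    {s : Fin (m + 2) → ℝ | (∀ j, 0 < s j) ∧ s 0 + 2 * κ < h ∧ ∑ j, s j + 3 * κ < hi}
    {s : Fin (m + 2) → ℝ | (∀ j, 0 < s j) ∧ 0 < L s}
    (fun p => P.G (p.1, ∑ j, p.2 j + 3 * κ)) (2 ^ m * P.T) P.z P.ρ0 ε (η / 2) (M + η / 2)
    (fun s => 2 ^ m * P.G (P.T, ∑ j, s j + 3 * κ)) (fun s => L s + η / 2) f (shellA m h)
    (by
      have a1 : IsOpen {s : Fin (m + 2) → ℝ | ∀ j, 0 < s j} := by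
        rw [ofPred_forall]
        exact isOpen_iInter_of_finite fun j => isOpen_lt continuous_const (continuous_apply j)
      have a2 : IsOpen {s : Fin (m + 2) → ℝ | s 0 + 2 * κ < h} :=
        isOpen_lt (by fun_prop) continuous_const
      have a3 : IsOpen {s : Fin (m + 2) → ℝ | ∑ j, s j + 3 * κ < hi} :=
        isOpen_lt (by fun_prop) continuous_const
      exact a1.inter (a2.inter a3))
    (fun s hs => ⟨hs.1, (h5 s (fun j => (hs.1 j).le) hs.2).1,
      (h5 s (fun j => (hs.1 j).le) hs.2).2.1⟩)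
    (fun s hs j => (hs.1 j).le) (P.sG.comp (by fun_prop)) (mul_pos (by positivity) P.hT) P.hz
    P.hρ hε hε1 (half_pos hη)
    (fun s hs t => by
      rw [Glue.d1_eq P.sG]
      exact P.wpos t _ (hDm s hs.1 hs.2.2))
    (fun s hs t => by
      have := Glue.per (G := fun t => P.G (t, ∑ j, s j + 3 * κ))
        (fun t => P.perG t _ (hDm s hs.1 hs.2.2)) (2 ^ m) t
      push_cast at this
      exact this)
    (fun s hs t ht => P.zone t _ (hDm s hs.1 hs.2.2) ht) hf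
    (fun s hs => by
      obtain ⟨-, a2, a3, a4⟩ := h5 s (fun j => (hs.1 j).le) hs.2
      have a5 := mul_le_mul_of_nonneg_left (mul_le_mul_of_nonneg_left
        (P.len _ (hDm s hs.1 a2)) (by positivity : (0 : ℝ) ≤ 2 ^ m)) (sub_pos.2 hε1).le
      exact ⟨by linarith, by linarith⟩)
    (hG m h κ hi ell P hκ)
  refine hP.toPackB ((hE.trans (hT _ (1 - h) 1)).mono (fun y hy => ?_) subset_rfl)
  obtain ⟨a1, a2, a3, a4⟩ := hy
  exact ⟨⟨a1, a2⟩, a3, by linarith⟩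

end Vale.Agent.P209
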