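import Vale.Agent.P209.Basic

open Set Filter Topology Function
open scoped Real ContDiff

noncomputable section
namespace Vale.Agent.P209
namespace InvA

theorem hasDerivAt_fst {E : Type} [NormedAddCommGroup E] [NormedSpace ℝ E] {G : ℝ × E → ℝ}
    (hG : ContDiff ℝ ∞ G) (t : ℝ) (s : E) : HasDerivAt (fun r => G (r, s)) (d1 G (t, s)) t :=
  (hG.differentiable (by simp) (t, s)).hasFDerivAt.comp_hasDerivAt t
    ((hasDerivAt_id t).prodMk (hasDerivAt_const t s))

theorem local_inv {E : Type} [NormedAddCommGroup E] [NormedSpace ℝ E] [FiniteDimensional ℝ E]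
    {G : ℝ × E → ℝ} (hG : ContDiff ℝ ∞ G) (a : ℝ × E) (h : d1 G a ≠ 0) :
    ∃ ψ : ℝ × E → ℝ, ContDiffAt ℝ ∞ ψ (G a, a.2) ∧ ∀ᶠ y in 𝓝 (G a, a.2), G (ψ y, y.2) = y.1 := by
  have := FiniteDimensional.complete ℝ (ℝ × E)
  have h1 : HasFDerivAt (fun p : ℝ × E => (G p, p.2))
      ((fderiv ℝ G a).prod (ContinuousLinearMap.snd ℝ ℝ E)) a :=
    (hG.differentiable (by simp) a).hasFDerivAt.prodMk hasFDerivAt_snd
  have h2 : Injective ((fderiv ℝ G a).prod (ContinuousLinearMap.snd ℝ ℝ E)).toLinearMap := by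
    rw [injective_iff_map_eq_zero]
    rintro ⟨u, v⟩ huv
    obtain ⟨h3, rfl⟩ : fderiv ℝ G a (u, v) = 0 ∧ v = 0 := by simpa using huv
    have e : ((u, 0) : ℝ × E) = u • ((1, 0) : ℝ × E) := by simp
    rw [e, map_smul, smul_eq_mul] at h3
    rw [(mul_eq_zero.1 h3).resolve_right h]
    rfl
  obtain ⟨L, hL⟩ : ∃ L : (ℝ × E) ≃L[ℝ] (ℝ × E), (L : ℝ × E →L[ℝ] ℝ × E) =
      (fderiv ℝ G a).prod (ContinuousLinearMap.snd ℝ ℝ E) :=
    ⟨(LinearEquiv.ofInjectiveEndo _ h2).toContinuousLinearEquiv, ContinuousLinearMap.ext fun _ => rfl⟩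
  rw [← hL] at h1
  have h4 : ContDiffAt ℝ ∞ (fun p : ℝ × E => (G p, p.2)) a := (hG.prodMk contDiff_snd).contDiffAt
  have hn : (∞ : WithTop ℕ∞) ≠ 0 := by simp
  refine ⟨fun y => (h4.localInverse h1 hn y).1, (h4.to_localInverse h1 hn).fst, ?_⟩
  filter_upwards [(h4.hasStrictFDerivAt' h1 hn).eventually_right_inverse] with y hy
  obtain ⟨h5, h6⟩ := Prod.ext_iff.1 hy
  rw [← h6]
  exact h5

/-- one step of the staircase -/
def stp (a b x : ℝ) : ℝ := Real.smoothTransition ((x - a) / (b - a))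

/-- the staircase -/
def stair (P a b t : ℝ) : ℝ := ⌊(t - a) / P⌋ + stp a b (t - ⌊(t - a) / P⌋ * P)

variable {P a b : ℝ}

theorem stp_zero (h : a < b) {x : ℝ} (hx : x ≤ a) : stp a b x = 0 :=
  Real.smoothTransition.zero_of_nonpos (div_nonpos_of_nonpos_of_nonneg (by linarith) (by linarith))

theorem stp_one (h : a < b) {x : ℝ} (hx : b ≤ x) : stp a b x = 1 :=
  Real.smoothTransition.one_of_one_le ((one_le_div (by linarith)).2 (by linarith))

theorem stp_smooth : ContDiff ℝ ∞ (stp a b) :=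
  Real.smoothTransition.contDiff.comp ((contDiff_id.sub contDiff_const).div_const _)

theorem stp_mono (h : a < b) : Monotone (stp a b) := fun _ _ hxy =>
  Real.smoothTransition.monotone (div_le_div_of_nonneg_right (by linarith) (by linarith))

theorem stp_deriv (h : a < b) {x : ℝ} (hx : x ∉ Ioo a b) : deriv (stp a b) x = 0 := by
  rcases le_or_gt x a with h1 | h1
  · refine IsLocalMin.deriv_eq_zero (Eventually.of_forall fun y => ?_)
    rw [stp_zero h h1]
    exact Real.smoothTransition.nonneg _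
  · refine IsLocalMax.deriv_eq_zero (Eventually.of_forall fun y => ?_)
    rw [stp_one h (le_of_not_gt fun h2 => hx ⟨h1, h2⟩)]
    exact Real.smoothTransition.le_one _

theorem stair_eq (h : a < b) (hP : b - a < P) (m : ℤ) {t : ℝ} (h1 : b - P ≤ t - m * P)
    (h2 : t - m * P < a + P) : stair P a b t = m + stp a b (t - m * P) := by
  have hP0 : 0 < P := by linarith
  unfold stair
  rcases le_or_gt a (t - m * P) with h3 | h3
  · have e : ⌊(t - a) / P⌋ = m := by
      rw [Int.floor_eq_iff, le_div_iff₀ hP0, div_lt_iff₀ hP0]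
      constructor <;> linarith
    rw [e]
  · have e : ⌊(t - a) / P⌋ = m - 1 := by
      rw [Int.floor_eq_iff, le_div_iff₀ hP0, div_lt_iff₀ hP0]
      push_cast
      constructor <;> linarith
    rw [e, stp_zero h h3.le, stp_one h (by push_cast; linarith)]
    push_cast
    ring

theorem stair_loc (h : a < b) (hP : b - a < P) (t : ℝ) :
    ∃ m : ℤ, stair P a b =ᶠ[𝓝 t] fun r => m + stp a b (r - m * P) := by
  have hP0 : 0 < P := by linarith
  have h1 := Int.floor_le ((t - a) / P)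
  have h2 := Int.lt_floor_add_one ((t - a) / P)
  rw [le_div_iff₀ hP0] at h1
  rw [div_lt_iff₀ hP0] at h2
  refine ⟨⌊(t - a) / P⌋, ?_⟩
  generalize ⌊(t - a) / P⌋ = m at h1 h2
  filter_upwards [Ioo_mem_nhds (a := b - P + m * P) (b := a + P + m * P) (x := t) (by linarith)
    (by linarith)] with r hr
  exact stair_eq h hP m (by linarith [hr.1]) (by linarith [hr.2])

theorem stair_deriv (h : a < b) (hP : b - a < P) (t : ℝ) :
    ∃ m : ℤ, deriv (stair P a b) t = deriv (stp a b) (t - m * P) := by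
  obtain ⟨m, hm⟩ := stair_loc h hP t
  exact ⟨m, by rw [hm.deriv_eq, deriv_const_add, deriv_comp_sub_const]⟩

theorem stair_add (h : a < b) (hP : b - a < P) (t : ℝ) :
    stair P a b (t + P) = stair P a b t + 1 := by
  have hP0 : 0 < P := by linarith
  have e : (t + P - a) / P = (t - a) / P + 1 := by field_simp; ring
  unfold stair
  rw [e, Int.floor_add_one]
  push_cast
  rw [show t + P - (⌊(t - a) / P⌋ + 1) * P = t - ⌊(t - a) / P⌋ * P by ring]
  ring

end InvA

open InvA

theorem invS : InvStmt := by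
  intro d G C hC hG hpos hsur
  have h1 : ∀ p : ℝ × (Fin (d + 1) → ℝ), p.2 ∈ C →
      G (invFun (fun t => G (t, p.2)) p.1, p.2) = p.1 :=
    fun p hp => invFun_eq (f := fun t => G (t, p.2)) (hsur p.2 hp p.1)
  refine ⟨fun p => invFun (fun t => G (t, p.2)) p.1, fun p hp => ⟨?_, h1 p hp⟩⟩
  obtain ⟨ψ, h2, h3⟩ := local_inv hG (invFun (fun t => G (t, p.2)) p.1, p.2) (hpos _ hp _).ne'
  rw [h1 p hp] at h2 h3
  refine h2.congr_of_eventuallyEq ?_
  filter_upwards [h3, continuous_snd.continuousAt.preimage_mem_nhds (hC.mem_nhds hp)] with y h4 h5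
  exact (strictMono_of_hasDerivAt_pos (fun t => hasDerivAt_fst hG t y.2) (hpos _ h5)).injective
    ((h1 y h5).trans h4.symm)

theorem stairS : StairStmt := by
  intro P a b h hP
  have h0 : ∀ t, b - P ≤ t → t < a + P → stair P a b t = stp a b t := fun t h1 h2 => by
    simpa using stair_eq h hP 0 (t := t) (by simpa using h1) (by simpa using h2)
  refine ⟨stair P a b, contDiff_iff_contDiffAt.2 fun t => ?_, stair_add h hP, fun t => ?_,
    fun t ht => ?_, fun t ht => ?_, fun t ht => ?_, fun t ht => ?_⟩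
  · obtain ⟨m, hm⟩ := stair_loc h hP t
    exact (contDiff_const.add (stp_smooth.comp
      (contDiff_id.sub contDiff_const))).contDiffAt.congr_of_eventuallyEq hm
  · obtain ⟨m, hm⟩ := stair_deriv h hP t
    rw [hm]
    exact (stp_mono h).deriv_nonneg
  · rw [h0 t ht.1 (by linarith [ht.2]), stp_zero h ht.2]
  · rcases ht.2.eq_or_lt with rfl | h1
    · rw [stair_add h hP, h0 a (by linarith) (by linarith), stp_zero h le_rfl, zero_add]
    · rw [h0 t (by linarith [ht.1]) h1, stp_one h ht.1]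
  · rw [h0 t (by linarith [ht.1]) (by linarith [ht.2])]
    exact ⟨Real.smoothTransition.nonneg _, Real.smoothTransition.le_one _⟩
  · obtain ⟨m, hm⟩ := stair_deriv h hP t
    exact ⟨m, by_contra fun h1 => ht (hm.trans (stp_deriv h h1))⟩

theorem convexS : ConvexStmt := by
  intro T X Y u φ hT hX hY dX dY hu hc hm hφ
  have red : ∀ s t, ∃ r ∈ Ico t (t + T), X r = X s ∧ Y r = Y s ∧ ∃ k : ℤ, s - r = k * T :=
    fun s t => ⟨toIcoMod hT t s, toIcoMod_mem_Ico hT t s,
      Periodic.sub_zsmul_eq (c := T) hX _, Periodic.sub_zsmul_eq (c := T) hY _,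
      toIcoDiv hT t s, by rw [self_sub_toIcoMod, zsmul_eq_mul]⟩
  have key : ∀ t, ∃ g : ℝ → ℝ,
      (∀ s, g s = -Real.sin (φ t) * (X s - X t) + Real.cos (φ t) * (Y s - Y t)) ∧
      (∀ s, HasDerivAt g (u s * Real.sin (φ s - φ t)) s) ∧
      ∃ m ∈ Icc t (t + T), MonotoneOn g (Icc t m) ∧ AntitoneOn g (Icc m (t + T)) := by
    intro t
    have dg : ∀ s, HasDerivAt
        (fun s => -Real.sin (φ t) * (X s - X t) + Real.cos (φ t) * (Y s - Y t))
        (u s * Real.sin (φ s - φ t)) s := fun s =>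
      ((((dX s).sub_const _).const_mul _).fun_add (((dY s).sub_const _).const_mul _)).congr_deriv
        (by rw [Real.sin_sub]; ring)
    obtain ⟨m, hm1, hm2⟩ : φ t + π ∈ φ '' Icc t (t + T) :=
      intermediate_value_Icc (by linarith) hc.continuousOn
        ⟨by linarith [Real.pi_pos], by rw [hφ]; linarith [Real.pi_pos]⟩
    refine ⟨_, fun _ => rfl, dg, m, hm1,
      monotoneOn_of_deriv_nonneg (convex_Icc _ _)
        (fun s _ => (dg s).continuousAt.continuousWithinAt)
        (fun s _ => (dg s).differentiableAt.differentiableWithinAt) fun s hs => ?_,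
      antitoneOn_of_deriv_nonpos (convex_Icc _ _)
        (fun s _ => (dg s).continuousAt.continuousWithinAt)
        (fun s _ => (dg s).differentiableAt.differentiableWithinAt) fun s hs => ?_⟩
    · have hs' := interior_subset hs
      rw [(dg s).deriv]
      exact mul_nonneg (hu s).le (Real.sin_nonneg_of_nonneg_of_le_pi (by linarith [hm hs'.1])
        (by linarith [hm hs'.2]))
    · have hs' := interior_subset hs
      rw [(dg s).deriv, ← Real.sin_sub_two_pi]
      exact mul_nonpos_of_nonneg_of_nonpos (hu s).le (Real.sin_nonpos_of_nonpos_of_neg_pi_le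
        (by linarith [hm hs'.2, hφ t]) (by linarith [hm hs'.1]))
  have pos : ∀ s t, 0 ≤ -Real.sin (φ t) * (X s - X t) + Real.cos (φ t) * (Y s - Y t) := by
    intro s t
    obtain ⟨r, hr, e1, e2, -⟩ := red s t
    obtain ⟨g, hg, -, m, hm1, h1, h2⟩ := key t
    rw [← e1, ← e2, ← hg]
    rcases le_total r m with h | h
    · have := h1 ⟨le_rfl, hm1.1⟩ ⟨hr.1, h⟩ hr.1
      rw [hg t] at this
      simpa using this
    · have := h2 ⟨h, hr.2.le⟩ ⟨hm1.2, le_rfl⟩ hr.2.le
      rw [hg (t + T), hX, hY] at this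
      simpa using this
  refine ⟨pos, fun s t e1 e2 => ?_⟩
  obtain ⟨r, hr, e3, e4, k, hk⟩ := red s t
  rcases hr.1.eq_or_lt with rfl | hlt
  · exact ⟨k, hk⟩
  exfalso
  obtain ⟨g, hg, dg, m, hm1, h1, h2⟩ := key t
  have rolle : ∀ x y, x < y → X x = X y → Y x = Y y → (∀ c ∈ Ioo x y, g c ≤ 0) → False := by
    intro x y hxy e5 e6 h0
    have dh : ∀ s, HasDerivAt (fun s => Real.cos (φ t) * X s + Real.sin (φ t) * Y s)
        (u s * Real.cos (φ s - φ t)) s := fun s =>
      (((dX s).const_mul _).fun_add ((dY s).const_mul _)).congr_deriv (by rw [Real.cos_sub]; ring)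
    obtain ⟨c, hc1, hc2⟩ := exists_hasDerivAt_eq_zero hxy
      (fun s _ => (dh s).continuousAt.continuousWithinAt) (by rw [e5, e6]) fun s _ => dh s
    have h3 : IsLocalMin g c :=
      Eventually.of_forall fun z => (h0 c hc1).trans ((pos z t).trans_eq (hg z).symm)
    have h4 := (mul_eq_zero.1 (h3.hasDerivAt_eq_zero (dg c))).resolve_left (hu c).ne'
    have h5 := (mul_eq_zero.1 hc2).resolve_left (hu c).ne'
    have := Real.sin_sq_add_cos_sq (φ c - φ t)
    rw [h4, h5] at this
    norm_num at this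
  have g0 : g r = 0 := by rw [hg, e3, e4, e1, e2]; ring
  rcases le_total r m with h | h
  · exact rolle t r hlt (by rw [e3, e1]) (by rw [e4, e2]) fun c hc' =>
      (h1 ⟨hc'.1.le, hc'.2.le.trans h⟩ ⟨hr.1, h⟩ hc'.2.le).trans_eq g0
  · exact rolle r (t + T) hr.2 (by rw [e3, e1, hX]) (by rw [e4, e2, hY]) fun c hc' =>
      (h2 ⟨h, hr.2.le⟩ ⟨h.trans hc'.1.le, hc'.2.le⟩ hc'.1.le).trans_eq g0

end Vale.Agent.P209
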