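import Vale.Agent.P209.Basic

open Set Filter Topology Function
open scoped Real ContDiff

noncomputable section
namespace Vale.Agent.P209
namespace Lift

variable {m : ℕ}

theorem sum_split (g : Option (Fin (m + 2)) → ℝ) :
    ∑ i, g i = g none + g (some 0) + g (some 1) + ∑ j : Fin m, g (lg j) := by
  rw [Fintype.sum_option, Fin.sum_univ_succ, Fin.sum_univ_succ]
  simp only [lg, Fin.succ_zero_eq_one]
  ring

theorem idx_cases {p : Option (Fin (m + 2)) → Prop} (h0 : p none) (h1 : p (some 0))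
    (h2 : p (some 1)) (h3 : ∀ j, p (lg j)) : ∀ i, p i := by
  intro i
  rcases i with _ | i
  · exact h0
  · refine Fin.cases h1 (fun i => ?_) i
    exact Fin.cases h2 (fun j => h3 j) i

theorem lg_ne_none (j : Fin m) : lg j ≠ none := by simp [lg]

theorem lg_ne_zero (j : Fin m) : lg j ≠ some 0 := fun h =>
  Fin.succ_ne_zero _ (Option.some_injective _ h)

theorem lg_ne_one (j : Fin m) : lg j ≠ some 1 := fun h => by
  have h1 : j.succ.succ = (0 : Fin (m + 1)).succ := Option.some_injective _ h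
  exact Fin.succ_ne_zero _ (Fin.succ_injective _ h1)

theorem lg_inj {i j : Fin m} (h : lg i = lg j) : i = j :=
  Fin.succ_injective _ (Fin.succ_injective _ (Option.some_injective _ h))

theorem zero_ne_one' : (some 0 : Option (Fin (m + 2))) ≠ some 1 := fun h =>
  Fin.zero_ne_one (Option.some_injective _ h)

/-- the two distinguished coordinates -/
def prL (m : ℕ) : (Option (Fin (m + 2)) → ℝ) →L[ℝ] ℝ × ℝ :=
  (ContinuousLinearMap.proj none).prod (ContinuousLinearMap.proj (some 1))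

theorem prL_apply (q : Option (Fin (m + 2)) → ℝ) : prL m q = (q none, q (some 1)) := rfl

def Psi (U V : ℝ × ℝ → ℝ) (q : Option (Fin (m + 2)) → ℝ) : Option (Fin (m + 2)) → ℝ :=
  fun i => if i = none then U (prL m q) else if i = some 1 then V (prL m q) else q i

def KK (wv : Fin m → ℝ → ℝ) (q : Option (Fin (m + 2)) → ℝ) : ℝ :=
  ∑ j, wv j (q none) * q (lg j)

theorem Psi_none (U V : ℝ × ℝ → ℝ) (q : Option (Fin (m + 2)) → ℝ) :
    Psi U V q none = U (q none, q (some 1)) := by simp [Psi, prL_apply]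

theorem Psi_one (U V : ℝ × ℝ → ℝ) (q : Option (Fin (m + 2)) → ℝ) :
    Psi U V q (some 1) = V (q none, q (some 1)) := by simp [Psi, prL_apply]

theorem Psi_zero (U V : ℝ × ℝ → ℝ) (q : Option (Fin (m + 2)) → ℝ) :
    Psi U V q (some 0) = q (some 0) := by
  unfold Psi
  rw [if_neg (by simp), if_neg zero_ne_one']

theorem Psi_lg (U V : ℝ × ℝ → ℝ) (q : Option (Fin (m + 2)) → ℝ) (j : Fin m) :
    Psi U V q (lg j) = q (lg j) := by
  unfold Psi
  rw [if_neg (lg_ne_none j), if_neg (lg_ne_one j)]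

theorem Psi_smooth {U V : ℝ × ℝ → ℝ} (hU : ContDiff ℝ ∞ U) (hV : ContDiff ℝ ∞ V) :
    ContDiff ℝ ∞ (Psi (m := m) U V) := by
  refine contDiff_pi.2 fun i => ?_
  unfold Psi
  split_ifs
  · exact hU.comp (prL m).contDiff
  · exact hV.comp (prL m).contDiff
  · exact contDiff_apply ℝ ℝ i

theorem KK_smooth {wv : Fin m → ℝ → ℝ} (h : ∀ j, ContDiff ℝ ∞ (wv j)) : ContDiff ℝ ∞ (KK wv) :=
  ContDiff.sum fun j _ => ((h j).comp (contDiff_apply ℝ ℝ none)).mul (contDiff_apply ℝ ℝ (lg j))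

theorem fd_two (U : ℝ × ℝ → ℝ) (p : ℝ × ℝ) (a b : ℝ) :
    fderiv ℝ U p (a, b) = a * d1 U p + b * d2 U p := by
  have e : ((a, b) : ℝ × ℝ) = a • ((1, 0) : ℝ × ℝ) + b • ((0, 1) : ℝ × ℝ) := by simp
  rw [e, map_add, map_smul, map_smul]
  rfl

theorem fd_comp {U : ℝ × ℝ → ℝ} (hU : ContDiff ℝ ∞ U) (q v : Option (Fin (m + 2)) → ℝ) :
    fderiv ℝ (fun q => U (prL m q)) q v =
      v none * d1 U (q none, q (some 1)) + v (some 1) * d2 U (q none, q (some 1)) := by
  have h := ((hU.differentiable (by simp) (prL m q)).hasFDerivAt.comp q (prL m).hasFDerivAt).fderiv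
  have e : (fun q => U (prL m q)) = U ∘ prL m := rfl
  rw [e, h, ContinuousLinearMap.comp_apply, prL_apply v, fd_two, prL_apply q]

theorem fd_coord {U V : ℝ × ℝ → ℝ} (hU : ContDiff ℝ ∞ U) (hV : ContDiff ℝ ∞ V)
    (q v : Option (Fin (m + 2)) → ℝ) (i : Option (Fin (m + 2))) :
    fderiv ℝ (Psi U V) q v i = fderiv ℝ (fun q => Psi U V q i) q v := by
  have h := ((Psi_smooth (m := m) hU hV).differentiable (by simp) q).hasFDerivAt
  rw [(hasFDerivAt_pi'.1 h i).fderiv]
  rfl

theorem fd_proj (q v : Option (Fin (m + 2)) → ℝ) (i : Option (Fin (m + 2))) :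
    fderiv ℝ (fun q : Option (Fin (m + 2)) → ℝ => q i) q v = v i := by
  rw [(hasFDerivAt_apply i q).fderiv]
  rfl

theorem fd_Psi {U V : ℝ × ℝ → ℝ} (hU : ContDiff ℝ ∞ U) (hV : ContDiff ℝ ∞ V)
    (q v : Option (Fin (m + 2)) → ℝ) :
    fderiv ℝ (Psi U V) q v none =
      v none * d1 U (q none, q (some 1)) + v (some 1) * d2 U (q none, q (some 1)) ∧
    fderiv ℝ (Psi U V) q v (some 1) =
      v none * d1 V (q none, q (some 1)) + v (some 1) * d2 V (q none, q (some 1)) ∧
    fderiv ℝ (Psi U V) q v (some 0) = v (some 0) ∧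
    ∀ j, fderiv ℝ (Psi U V) q v (lg j) = v (lg j) := by
  refine ⟨?_, ?_, ?_, fun j => ?_⟩
  · rw [fd_coord hU hV, ← fd_comp hU]
    simp only [Psi_none, prL_apply]
  · rw [fd_coord hU hV, ← fd_comp hV]
    simp only [Psi_one, prL_apply]
  · rw [fd_coord hU hV, ← fd_proj q v]
    simp only [Psi_zero]
  · rw [fd_coord hU hV, ← fd_proj q v]
    simp only [Psi_lg]

theorem fd_KK {wv : Fin m → ℝ → ℝ} (h : ∀ j, ContDiff ℝ ∞ (wv j))
    (q v : Option (Fin (m + 2)) → ℝ) :
    fderiv ℝ (KK wv) q v =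
      ∑ j, (wv j (q none) * v (lg j) + q (lg j) * (deriv (wv j) (q none) * v none)) := by
  have h1 : ∀ j ∈ (Finset.univ : Finset (Fin m)), HasFDerivAt
      (fun q : Option (Fin (m + 2)) → ℝ => wv j (q none) * q (lg j))
      (wv j (q none) • (ContinuousLinearMap.proj (lg j) : (Option (Fin (m + 2)) → ℝ) →L[ℝ] ℝ) +
        q (lg j) • (deriv (wv j) (q none) •
          (ContinuousLinearMap.proj none : (Option (Fin (m + 2)) → ℝ) →L[ℝ] ℝ))) q := by
    intro j _
    have a := ((h j).differentiable (by simp) (q none)).hasDerivAt.comp_hasFDerivAt q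
      (hasFDerivAt_apply (𝕜 := ℝ) (none : Option (Fin (m + 2))) q)
    exact a.mul (hasFDerivAt_apply (𝕜 := ℝ) (lg j) q)
  have h2 := (HasFDerivAt.fun_sum h1).fderiv
  have e : KK wv = fun q : Option (Fin (m + 2)) → ℝ => ∑ j, wv j (q none) * q (lg j) := rfl
  rw [e, h2, sum_apply]
  rfl

theorem solve2 {a b c d x y : ℝ} (h : a * d - c * b ≠ 0) (h1 : x * a + y * b = 0)
    (h2 : x * c + y * d = 0) : x = 0 ∧ y = 0 := by
  have e1 : x * (a * d - c * b) = 0 := by linear_combination d * h1 - b * h2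
  have e2 : y * (a * d - c * b) = 0 := by linear_combination a * h2 - c * h1
  exact ⟨(mul_eq_zero.1 e1).resolve_right h, (mul_eq_zero.1 e2).resolve_right h⟩

theorem Psi_inj {U V : ℝ × ℝ → ℝ} (hU : ContDiff ℝ ∞ U) (hV : ContDiff ℝ ∞ V)
    {q : Option (Fin (m + 2)) → ℝ}
    (h : d1 U (q none, q (some 1)) * d2 V (q none, q (some 1)) -
      d1 V (q none, q (some 1)) * d2 U (q none, q (some 1)) ≠ 0) :
    Injective (fderiv ℝ (Psi U V) q) := by
  refine (injective_iff_map_eq_zero _).2 fun v hv => ?_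
  obtain ⟨h1, h2, h3, h4⟩ := fd_Psi hU hV q v
  rw [hv] at h1 h2 h3 h4
  obtain ⟨a, b⟩ := solve2 h h1.symm h2.symm
  funext i
  exact idx_cases (p := fun i => v i = 0) a h3.symm b (fun j => (h4 j).symm) i

theorem char {U V : ℝ × ℝ → ℝ} (hU : ContDiff ℝ ∞ U) (hV : ContDiff ℝ ∞ V)
    {wv : Fin m → ℝ → ℝ} (hwv : ∀ j, ContDiff ℝ ∞ (wv j)) {q p Q : Option (Fin (m + 2)) → ℝ}
    (h : ∀ v : Option (Fin (m + 2)) → ℝ,
      ∑ i, Q i * fderiv ℝ (Psi U V) q v i = ∑ i, p i * v i + fderiv ℝ (KK wv) q v) :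
    Q none * d1 U (q none, q (some 1)) + Q (some 1) * d1 V (q none, q (some 1)) =
      p none + ∑ j, q (lg j) * deriv (wv j) (q none) ∧
    Q none * d2 U (q none, q (some 1)) + Q (some 1) * d2 V (q none, q (some 1)) = p (some 1) ∧
    Q (some 0) = p (some 0) ∧ ∀ j, Q (lg j) = p (lg j) + wv j (q none) := by
  have key : ∀ v : Option (Fin (m + 2)) → ℝ,
      Q none * (v none * d1 U (q none, q (some 1)) + v (some 1) * d2 U (q none, q (some 1))) +
        Q (some 0) * v (some 0) +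
        Q (some 1) * (v none * d1 V (q none, q (some 1)) + v (some 1) * d2 V (q none, q (some 1))) +
        ∑ j, Q (lg j) * v (lg j) =
      p none * v none + p (some 0) * v (some 0) + p (some 1) * v (some 1) +
        ∑ j, p (lg j) * v (lg j) +
        ∑ j, (wv j (q none) * v (lg j) + q (lg j) * (deriv (wv j) (q none) * v none)) := by
    intro v
    have e := h v
    obtain ⟨h1, h2, h3, h4⟩ := fd_Psi hU hV q v
    rw [sum_split, sum_split, h1, h2, h3, fd_KK hwv] at e
    simp only [h4] at e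
    exact e
  refine ⟨?_, ?_, ?_, fun j => ?_⟩
  · have e := key (Pi.single none 1)
    simp only [Pi.single_eq_same, Pi.single_eq_of_ne (lg_ne_none _),
      Pi.single_eq_of_ne (Option.some_ne_none _), mul_zero, mul_one, zero_mul, one_mul, add_zero,
      zero_add, Finset.sum_const_zero] at e
    exact e
  · have e := key (Pi.single (some 1) 1)
    simp only [Pi.single_eq_same, Pi.single_eq_of_ne (lg_ne_one _),
      Pi.single_eq_of_ne (Option.some_ne_none _).symm, Pi.single_eq_of_ne zero_ne_one', mul_zero,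
      mul_one, zero_mul, one_mul, add_zero, zero_add, Finset.sum_const_zero] at e
    exact e
  · have e := key (Pi.single (some 0) 1)
    simp only [Pi.single_eq_same, Pi.single_eq_of_ne (lg_ne_zero _),
      Pi.single_eq_of_ne (Option.some_ne_none _).symm, Pi.single_eq_of_ne zero_ne_one'.symm,
      mul_zero, mul_one, zero_mul, add_zero, zero_add, Finset.sum_const_zero] at e
    exact e
  · have e := key (Pi.single (lg j) 1)
    have s : ∀ g : Fin m → ℝ, ∑ k, g k * (Pi.single (lg j) (1 : ℝ) : Option (Fin (m + 2)) → ℝ)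
        (lg k) = g j := fun g => by
      rw [Finset.sum_eq_single j]
      · rw [Pi.single_eq_same, mul_one]
      · intro k _ hk
        rw [Pi.single_eq_of_ne (fun e => hk (lg_inj e)), mul_zero]
      · intro hj
        exact absurd (Finset.mem_univ j) hj
    simp only [Pi.single_eq_of_ne (lg_ne_none _).symm, Pi.single_eq_of_ne (lg_ne_zero _).symm,
      Pi.single_eq_of_ne (lg_ne_one _).symm, mul_zero, zero_mul, add_zero, zero_add] at e
    rw [s fun k => Q (lg k), s fun k => p (lg k), s fun k => wv k (q none)] at e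
    exact e

theorem shift_int {g : ℝ → ℝ} {T c : ℝ} (h : ∀ t, g (t + T) = g t + c) (k : ℤ) (t : ℝ) :
    g (t + k * T) = g t + k * c := by
  induction k using Int.induction_on generalizing t with
  | zero => simp
  | succ n ih =>
    have e : t + ((n + 1 : ℤ) : ℝ) * T = t + ((n : ℤ) : ℝ) * T + T := by push_cast; ring
    rw [e, h, ih]
    push_cast
    ring
  | pred n ih =>
    have e : t + ((-n : ℤ) : ℝ) * T = t + ((-n - 1 : ℤ) : ℝ) * T + T := by push_cast; ring
    have e2 := ih t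
    rw [e, h] at e2
    push_cast at e2 ⊢
    linarith

theorem deriv_shift {g : ℝ → ℝ} {a c : ℝ} (h : ∀ t, g (t + a) = g t + c) (t : ℝ) :
    deriv g (t + a) = deriv g t := by
  rw [← deriv_comp_add_const]
  simp only [h, deriv_add_const]

theorem d1_eq {G : ℝ × ℝ → ℝ} (hG : ContDiff ℝ ∞ G) (t D : ℝ) :
    d1 G (t, D) = deriv (fun s => G (s, D)) t := by
  have h1 : HasDerivAt (fun s : ℝ => ((s, D) : ℝ × ℝ)) (1, 0) t :=
    (hasDerivAt_id t).prodMk (hasDerivAt_const t D)
  exact ((hG.differentiable (by simp) (t, D)).hasFDerivAt.comp_hasDerivAt t h1).deriv.symm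

theorem d1_shift {G : ℝ × ℝ → ℝ} (hG : ContDiff ℝ ∞ G) {T c D : ℝ}
    (h : ∀ t, G (t + T, D) = G (t, D) + c) (k : ℤ) (t : ℝ) :
    d1 G (t + k * T, D) = d1 G (t, D) := by
  rw [d1_eq hG, d1_eq hG]
  exact deriv_shift (shift_int (g := fun s => G (s, D)) h k) t

theorem fd_shift {U : ℝ × ℝ → ℝ} {T hi D : ℝ} (hD : D ∈ Ioo 0 hi)
    (h : ∀ t D, D ∈ Ioo 0 hi → U (t + T, D) = U (t, D)) (k : ℤ) (t : ℝ) :
    fderiv ℝ U (t + k * T, D) = fderiv ℝ U (t, D) := by
  have e : ((t + k * T, D) : ℝ × ℝ) = (t, D) + (k * T, 0) := by simp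
  rw [e, ← fderiv_comp_add_right]
  refine Filter.EventuallyEq.fderiv_eq ?_
  have ho : ∀ᶠ p : ℝ × ℝ in 𝓝 (t, D), p.2 ∈ Ioo 0 hi :=
    continuous_snd.continuousAt.preimage_mem_nhds (isOpen_Ioo.mem_nhds hD)
  filter_upwards [ho] with p hp
  have e2 := shift_int (g := fun s => U (s, p.2)) (T := T) (c := 0)
    (fun s => by rw [h s p.2 hp, add_zero]) k p.1
  simp only [mul_zero, add_zero] at e2
  have e3 : p + ((k * T, 0) : ℝ × ℝ) = (p.1 + k * T, p.2) := by ext <;> simp
  rw [e3, e2]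

theorem int_zero {a b : ℝ} {k : ℤ} (ha : 0 < a ∧ a < 1) (hb : 0 < b ∧ b < 1) (h : a - b = k) :
    k = 0 := by
  have h1 : (k : ℝ) < 1 := by linarith [ha.2, hb.1]
  have h2 : (-1 : ℝ) < k := by linarith [ha.1, hb.2]
  have h3 : k < 1 := by exact_mod_cast h1
  have h4 : -1 < k := by exact_mod_cast h2
  omega

end Lift

open Lift in
theorem liftS (hC : CotStmt) (hS : StairStmt) : LiftStmt := by
  intro m hi Reg ell P
  have hz := P.hz
  have hT := P.hT
  have hzT := P.hzT
  have hst : ∀ j : Fin m, ∃ S : ℝ → ℝ, ContDiff ℝ ∞ S ∧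
      (∀ t, S (t + 2 ^ (j : ℕ) * P.T) = S t + 1) ∧
      ∀ t, deriv S t ≠ 0 → ∃ k : ℤ, t - k * (2 ^ (j : ℕ) * P.T) ∈ Ioo (-(P.z / 2)) (P.z / 2) := by
    intro j
    have h1 : (1 : ℝ) ≤ 2 ^ (j : ℕ) := one_le_pow₀ (by norm_num)
    obtain ⟨S, a, b, -, -, -, -, c⟩ := hS (2 ^ (j : ℕ) * P.T) (-(P.z / 2)) (P.z / 2) (by linarith)
      (by nlinarith)
    exact ⟨S, a, b, c⟩
  choose wv hwv hwp hwd using hst
  obtain ⟨F, hF1, hF2, hF3⟩ := hC (Option (Fin (m + 2))) (Psi P.U P.V) (KK wv)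
  have hinj : ∀ x : Ph (Option (Fin (m + 2))), x.1 (some 1) ∈ Ioo 0 hi →
      Injective (fderiv ℝ (Psi P.U P.V) x.1) := fun x hx => Psi_inj P.sU P.sV (P.det _ _ hx)
  have hch := fun (x : Ph (Option (Fin (m + 2)))) (hx : x.1 (some 1) ∈ Ioo 0 hi) =>
    char P.sU P.sV hwv (hF2 x (hinj x hx))
  refine ⟨F, fun x hx => ⟨hF3 x (Psi_smooth P.sU P.sV).contDiffAt (KK_smooth hwv).contDiffAt
    (hinj x hx.1), (hch x hx.1).2.2.1⟩, fun x => ?_, ?_, ?_⟩
  · rw [hF1]
    exact ⟨Psi_none _ _ _, Psi_one _ _ _, Psi_zero _ _ _, Psi_lg _ _ _⟩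
  · rintro x ⟨xD, x0, x1, -, x3⟩ y ⟨yD, y0, y1, -, y3⟩ ⟨hb, h0, a, b, ha, hb', hc⟩
    rw [hF1, hF1] at hb
    have bU := congrFun hb none
    have bV := congrFun hb (some 1)
    have b0 := congrFun hb (some 0)
    rw [Psi_none, Psi_none] at bU
    rw [Psi_one, Psi_one] at bV
    rw [Psi_zero, Psi_zero] at b0
    have bl : ∀ j, x.1 (lg j) = y.1 (lg j) := fun j => by
      have e := congrFun hb (lg j)
      rwa [Psi_lg, Psi_lg] at e
    obtain ⟨eD, M, hM⟩ := P.inj _ _ _ _ xD yD bU bV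
    obtain ⟨cx1, cx2, cx3, cx4⟩ := hch x xD
    obtain ⟨cy1, cy2, cy3, cy4⟩ := hch y yD
    have ht : x.1 none = y.1 none + M * P.T := by linarith
    have dU := fd_shift yD P.perU M (y.1 none)
    have dV := fd_shift yD P.perV M (y.1 none)
    have dG := d1_shift P.sG (fun t => P.perG t _ yD) M (y.1 none)
    rw [← ht] at dU dV dG
    rw [eD] at cx1 cx2 x1
    unfold d1 at cx1 cy1
    unfold d2 at cx2 cy2
    rw [dU, dV] at cx1 cx2
    rw [dG] at x1
    have e2 : (a : ℝ) * d2 P.U (y.1 none, y.1 (some 1)) + b * d2 P.V (y.1 none, y.1 (some 1)) =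
        x.2 (some 1) - y.2 (some 1) := by
      unfold d2
      rw [← ha, ← hb', ← cx2, ← cy2]
      ring
    have e1 : (a : ℝ) * d1 P.U (y.1 none, y.1 (some 1)) + b * d1 P.V (y.1 none, y.1 (some 1)) =
        x.2 none - y.2 none + (∑ j, x.1 (lg j) * deriv (wv j) (x.1 none) -
          ∑ j, y.1 (lg j) * deriv (wv j) (y.1 none)) := by
      unfold d1
      rw [← ha, ← hb']
      linear_combination cx1 - cy1
    have l2 : |(a : ℝ) * d2 P.U (y.1 none, y.1 (some 1)) + b * d2 P.V (y.1 none, y.1 (some 1))| <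
        1 := by
      rw [e2, abs_lt]
      constructor <;> linarith [(x3 1).1, (x3 1).2, (y3 1).1, (y3 1).2]
    have fin : (∑ j, x.1 (lg j) * deriv (wv j) (x.1 none) =
        ∑ j, y.1 (lg j) * deriv (wv j) (y.1 none)) → a = 0 ∧ b = 0 := fun h => by
      refine P.lat _ _ yD a b ?_ l2
      rw [e1, h, sub_self, add_zero, abs_lt]
      constructor <;> linarith
    have hev : Even (a + b) := by
      by_cases hzn : ∃ k : ℤ, |y.1 none - k * P.T| < P.z
      · obtain ⟨k, hk⟩ := hzn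
        have sU := fd_shift yD P.perU k (y.1 none - k * P.T)
        have sV := fd_shift yD P.perV k (y.1 none - k * P.T)
        rw [sub_add_cancel] at sU sV
        obtain ⟨n, h1, h2⟩ := (P.zlat _ _ yD hk).2.2 a b (by
          unfold d2 at l2 ⊢
          rwa [← sU, ← sV])
        rw [h1, h2, ← mul_add]
        exact P.even.mul_left n
      · have z1 : ∀ (j : Fin m) (n : ℤ), deriv (wv j) (y.1 none + n * P.T) = 0 := fun j n => by
          by_contra hne
          obtain ⟨k, hk1, hk2⟩ := hwd j _ hne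
          refine hzn ⟨k * 2 ^ (j : ℕ) - n, ?_⟩
          push_cast
          rw [abs_lt]
          constructor <;> linarith
        have z2 : ∀ j : Fin m, deriv (wv j) (y.1 none) = 0 := fun j => by simpa using z1 j 0
        obtain ⟨h1, h2⟩ := fin (by simp only [ht, z1, z2, mul_zero])
        rw [h1, h2]
        exact ⟨0, rfl⟩
    have step : ∀ (j : Fin m) (N : ℤ), M = 2 ^ (j : ℕ) * N →
        Even N ∧ x.2 (lg j) = y.2 (lg j) ∧ deriv (wv j) (x.1 none) = deriv (wv j) (y.1 none) := by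
      intro j N hN
      have e : x.1 none = y.1 none + N * (2 ^ (j : ℕ) * P.T) := by
        rw [ht, hN]
        push_cast
        ring
      have s1 := shift_int (hwp j) N
      obtain ⟨c, hc'⟩ := hc j
      rw [cx4, cy4, e, s1] at hc'
      have e3 : x.2 (lg j) - y.2 (lg j) = ((2 * c - a - b - N : ℤ) : ℝ) := by
        push_cast
        linarith
      have e4 := int_zero (x3 j.succ.succ) (y3 j.succ.succ) e3
      rw [e4] at e3
      refine ⟨?_, by simpa [sub_eq_zero] using e3, by rw [e]; exact deriv_shift s1 _⟩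
      obtain ⟨r, hr⟩ := hev
      exact ⟨c - r, by omega⟩
    have dv : ∀ n, n ≤ m → ∃ N : ℤ, M = 2 ^ n * N := by
      intro n
      induction n with
      | zero => exact fun _ => ⟨M, by simp⟩
      | succ n ih =>
        intro hn
        obtain ⟨N, hN⟩ := ih (by omega)
        obtain ⟨r, hr⟩ := (step ⟨n, by omega⟩ N hN).1
        exact ⟨r, by rw [hN, hr]; ring⟩
    have all : ∀ j : Fin m,
        x.2 (lg j) = y.2 (lg j) ∧ deriv (wv j) (x.1 none) = deriv (wv j) (y.1 none) := fun j => by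
      obtain ⟨N, hN⟩ := dv j j.2.le
      exact (step j N hN).2
    have hsum : ∑ j, x.1 (lg j) * deriv (wv j) (x.1 none) =
        ∑ j, y.1 (lg j) * deriv (wv j) (y.1 none) :=
      Finset.sum_congr rfl fun j _ => by rw [bl j, (all j).2]
    obtain ⟨a0, b0'⟩ := fin hsum
    rw [a0, b0', hsum] at e1
    rw [a0, b0'] at e2
    simp only [Int.cast_zero, zero_mul, add_zero, sub_self] at e1 e2
    obtain ⟨N, hN⟩ := dv m le_rfl
    refine ⟨⟨N, by rw [hM, hN]; push_cast; ring⟩, ?_, ?_⟩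
    · funext j
      refine Fin.cases b0 (fun j => ?_) j
      exact Fin.cases eD (fun j => bl j) j
    · funext i
      refine idx_cases (p := fun i => x.2 i = y.2 i) (by linarith) ?_ (by linarith)
        (fun j => (all j).1) i
      show x.2 (some 0) = y.2 (some 0)
      rw [← cx3, ← cy3, h0]
  · rintro x ⟨xD, -, -, x2, -⟩ hx0
    have c1 : Continuous fun y : Ph (Option (Fin (m + 2))) => y.1 (some 1) :=
      (continuous_apply _).comp continuous_fst
    have c2 : Continuous fun y : Ph (Option (Fin (m + 2))) => |y.1 none| :=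
      ((continuous_apply _).comp continuous_fst).abs
    have o1 : ∀ᶠ y : Ph (Option (Fin (m + 2))) in 𝓝 x, y.1 (some 1) ∈ Ioo 0 hi :=
      c1.continuousAt.preimage_mem_nhds (isOpen_Ioo.mem_nhds xD)
    have o2 : ∀ᶠ y : Ph (Option (Fin (m + 2))) in 𝓝 x, |y.1 none| < P.z :=
      c2.continuousAt.eventually_lt continuousAt_const (x2 hx0)
    filter_upwards [o1, o2] with y yD yz
    obtain ⟨w, hw⟩ : ∃ w : Ph (Option (Fin (m + 2))), w = y + (0, Pi.single none P.ρ0) := ⟨_, rfl⟩
    have w1 : w.1 = y.1 := by rw [hw]; simp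
    have w2 : ∀ i, w.2 i = y.2 i + (Pi.single none P.ρ0 : Option (Fin (m + 2)) → ℝ) i :=
      fun i => by rw [hw]; rfl
    obtain ⟨cy1, cy2, cy3, cy4⟩ := hch y yD
    obtain ⟨cw1, cw2, cw3, cw4⟩ := hch w (by rw [w1]; exact yD)
    rw [w1] at cw1 cw2 cw4
    rw [w2, Pi.single_eq_same] at cw1
    rw [w2, Pi.single_eq_of_ne (Option.some_ne_none _), add_zero] at cw2 cw3
    obtain ⟨z1, z2, -⟩ := P.zlat _ _ yD yz
    have hdet := P.det (y.1 none) _ yD
    obtain ⟨s1, s2⟩ := solve2 (x := (F w).2 none - (F y).2 none - P.k1)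
      (y := (F w).2 (some 1) - (F y).2 (some 1) - P.k2)
      (a := d1 P.U (y.1 none, y.1 (some 1))) (b := d1 P.V (y.1 none, y.1 (some 1)))
      (c := d2 P.U (y.1 none, y.1 (some 1))) (d := d2 P.V (y.1 none, y.1 (some 1)))
      (by rwa [mul_comm (d2 P.U _)]) (by linear_combination cw1 - cy1 - z1)
      (by linear_combination cw2 - cy2 - z2)
    rw [← hw]
    refine Prod.ext ?_ ?_
    · rw [Prod.fst_add, add_zero, hF1, hF1, w1]
    · funext i
      refine idx_cases (p := fun i => (F w).2 i = (F y).2 i +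
        ((Pi.single none (P.k1 : ℝ) : Option (Fin (m + 2)) → ℝ) i +
          (Pi.single (some 1) (P.k2 : ℝ) : Option (Fin (m + 2)) → ℝ) i)) ?_ ?_ ?_ (fun j => ?_) i
      · simp only [Pi.single_eq_same, Pi.single_eq_of_ne (Option.some_ne_none _).symm]
        linarith
      · simp only [Pi.single_eq_of_ne (Option.some_ne_none _), Pi.single_eq_of_ne zero_ne_one']
        linarith
      · simp only [Pi.single_eq_same, Pi.single_eq_of_ne (Option.some_ne_none _)]
        linarith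
      · simp only [Pi.single_eq_of_ne (lg_ne_none _), Pi.single_eq_of_ne (lg_ne_one _)]
        rw [cw4, cy4, w2, Pi.single_eq_of_ne (lg_ne_none _)]
        ring

end Vale.Agent.P209
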