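import Vale.Agent.P209.Basic

/-! P209: the invariant front. -/

open Set Filter Topology Function MeasureTheory
open scoped Real ContDiff

noncomputable section
namespace Vale.Agent.P209

namespace Min

variable {d : ℕ} {lam x : ℝ} {q p : (Fin (d + 1) → ℝ) → ℝ}

theorem zero_le (h : Cls lam x q) {s : Fin (d + 1) → ℝ} (hs : 0 ≤ s) : q 0 ≤ q s := by
  have key : ∀ A : Finset (Fin (d + 1)), q 0 ≤ q (∑ i ∈ A, Pi.single i (s i)) := by
    intro A
    induction A using Finset.induction_on with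
    | empty => simp
    | insert i A hi ih =>
      rw [Finset.sum_insert hi, add_comm (Pi.single i (s i) : Fin (d + 1) → ℝ)]
      exact ih.trans (h.mono _ (Finset.sum_nonneg fun j _ => Pi.single_nonneg.2 (hs j)) i _ (hs i))
  have := key Finset.univ
  rwa [Finset.univ_sum_single] at this

theorem lb (h : Cls lam x q) : LB q := ⟨q 0, fun _ hs => zero_le h hs⟩

theorem cls_add (h : Cls 1 x q) (h' : Cls 0 x p) : Cls 1 x fun s => q s + p s :=
  ⟨fun s hs i δ hδ => add_le_add (h.mono s hs i δ hδ) (h'.mono s hs i δ hδ),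
    fun s hs i j hij δ hδ => add_le_add (h.ord s hs i j hij δ hδ) (h'.ord s hs i j hij δ hδ),
    fun s hs k j hj δ hδ hx => by linarith [h.dd s hs k j hj δ hδ hx, h'.dd s hs k j hj δ hδ hx],
    fun s hs δ hδ hx => by linarith [h.dlast s hs δ hδ hx, h'.dlast s hs δ hδ hx]⟩

theorem cls_min (h : Cls 1 x q) (h' : Cls 1 x p) : Cls 1 x fun s => min (q s) (p s) :=
  ⟨fun s hs i δ hδ => min_le_min (h.mono s hs i δ hδ) (h'.mono s hs i δ hδ),
    fun s hs i j hij δ hδ => min_le_min (h.ord s hs i j hij δ hδ) (h'.ord s hs i j hij δ hδ),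
    fun s hs k j hj δ hδ hx => (min_le_min (h.dd s hs k j hj δ hδ hx)
      (h'.dd s hs k j hj δ hδ hx)).trans_eq (min_add_add_right _ _ _),
    fun s hs δ hδ hx => (min_le_min (h.dlast s hs δ hδ hx) (h'.dlast s hs δ hδ hx)).trans_eq
      (min_add_add_right _ _ _)⟩

theorem cls_mul (h : Cls 0 x q) {M : ℝ} (hM : 0 ≤ M) : Cls 1 x fun s => M * q s :=
  ⟨fun s hs i δ hδ => mul_le_mul_of_nonneg_left (h.mono s hs i δ hδ) hM,
    fun s hs i j hij δ hδ => mul_le_mul_of_nonneg_left (h.ord s hs i j hij δ hδ) hM,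
    fun s hs k j hj δ hδ hx => by
      have := mul_le_mul_of_nonneg_left (h.dd s hs k j hj δ hδ hx) hM
      rw [zero_mul, add_zero] at this
      linarith,
    fun s hs δ hδ hx => by
      have := mul_le_mul_of_nonneg_left (h.dlast s hs δ hδ hx) hM
      rw [zero_mul, add_zero] at this
      linarith⟩

theorem lip_add (h : LipE q) (h' : LipE p) : LipE fun s => q s + p s := by
  obtain ⟨a, ha⟩ := h
  obtain ⟨b, hb⟩ := h'
  refine ⟨a + b, fun s t hs ht => ?_⟩
  rw [add_sub_add_comm, add_mul]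
  exact (abs_add_le _ _).trans (add_le_add (ha s t hs ht) (hb s t hs ht))

theorem lip_min (h : LipE q) (h' : LipE p) : LipE fun s => min (q s) (p s) := by
  obtain ⟨a, ha⟩ := h
  obtain ⟨b, hb⟩ := h'
  refine ⟨max a b, fun s t hs ht => (abs_min_sub_min_le_max _ _ _ _).trans (max_le ?_ ?_)⟩
  · exact (ha s t hs ht).trans (mul_le_mul_of_nonneg_right (le_max_left _ _) (norm_nonneg _))
  · exact (hb s t hs ht).trans (mul_le_mul_of_nonneg_right (le_max_right _ _) (norm_nonneg _))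

theorem lip_mul (h : LipE q) (M : ℝ) : LipE fun s => M * q s := by
  obtain ⟨a, ha⟩ := h
  refine ⟨|M| * a, fun s t hs ht => ?_⟩
  rw [← mul_sub, abs_mul, mul_assoc]
  exact mul_le_mul_of_nonneg_left (ha s t hs ht) (abs_nonneg _)

theorem cont (h : LipE q) : ContinuousOn q (orth d) := by
  obtain ⟨a, ha⟩ := h
  exact (LipschitzOnWith.of_dist_le' (K := a) fun s hs t ht => by
    rw [Real.dist_eq, dist_eq_norm]
    exact ha s t hs ht).continuousOn

theorem meas_orth : MeasurableSet (orth d) := measurableSet_Ici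

theorem mvs_cons (r : ℝ) (rs : List ℝ) (q : (Fin (d + 1) → ℝ) → ℝ) :
    mvs (r :: rs) q = mvs rs (mv 1 r q) := rfl

theorem props (h0 : Core0Stmt) (h1 : Core1Stmt) (h2 : Core2Stmt) (hV : VolStmt) (hS : SimplexStmt)
    (rs : List ℝ) (hr : ∀ r ∈ rs, 0 ≤ r ∧ r ≤ x) : ∀ q : (Fin (d + 1) → ℝ) → ℝ, Cls 1 x q → LipE q →
      Cls 1 x (mvs rs q) ∧ LipE (mvs rs q) ∧ (∀ s, 0 ≤ s → q s ≤ mvs rs q s) ∧
      (∀ s, 0 ≤ s → mvs rs q s ≤ max (q s) (q 0 + rs.sum)) ∧
      (∀ p, Cls 1 x p → (∀ s, 0 ≤ s → q s ≤ p s) → ∀ s, 0 ≤ s → mvs rs q s ≤ mvs rs p s) ∧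
      ∫⁻ s in orth d, ENNReal.ofReal (mvs rs q s - q s)
        ≤ ENNReal.ofReal (rs.map fun r : ℝ => r ^ (d + 2) / (d + 2).factorial).sum := by
  induction rs with
  | nil =>
    intro q hq hl
    exact ⟨hq, hl, fun _ _ => le_rfl, fun _ _ => le_max_left _ _, fun p _ h => h, by simp [mvs]⟩
  | cons r rs ih =>
    intro q hq hl
    obtain ⟨r0, rx⟩ := hr r (by simp)
    have hr' : ∀ t ∈ rs, 0 ≤ t ∧ t ≤ x := fun t ht => hr t (by simp [ht])
    have hS0 : 0 ≤ rs.sum := List.sum_nonneg fun t ht => (hr' t ht).1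
    have c1 := h2 d 1 r x q zero_le_one r0 rx hq
    have l1 : LipE (mv 1 r q) := (h0 d 1 r zero_le_one).2.2.2 q (lb hq) hl _
    obtain ⟨k1, k2, -⟩ := h1 d 1 r x q zero_le_one r0 rx hq (d + 1)
    obtain ⟨i1, i2, i3, i4, i5, i6⟩ := ih hr' _ c1 l1
    rw [mvs_cons]
    refine ⟨i1, i2, fun s hs => (k1 s hs).trans (i3 s hs), fun s hs => (i4 s hs).trans ?_,
      fun p hp h => i5 _ (h2 d 1 r x p zero_le_one r0 rx hp) fun s hs => ?_, ?_⟩
    · rw [List.sum_cons]
      refine max_le ((k2 s hs).trans (max_le_max le_rfl (by linarith))) (le_max_of_le_right ?_)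
      have : mv 1 r q 0 ≤ q 0 + r := (k2 0 le_rfl).trans (max_le (by linarith) (by linarith))
      linarith
    · have := (h0 d 1 r zero_le_one).2.2.1 q p 0 (lb hq) (lb hp)
        (fun s hs => by rw [add_zero]; exact h s hs) (d + 1) s hs
      rwa [add_zero] at this
    · have v1 := hV d 1 r x q zero_le_one r0 rx hq hl
      simp only [one_mul] at v1
      rw [hS d r r0] at v1
      have hm : AEMeasurable (fun s => ENNReal.ofReal (mv 1 r q s - q s))
          (volume.restrict (orth d)) :=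
        (((cont l1).sub (cont hl)).aemeasurable meas_orth).ennreal_ofReal
      rw [List.map_cons, List.sum_cons, ENNReal.ofReal_add (by positivity)
        (List.sum_nonneg fun t ht => by
          obtain ⟨u, hu, rfl⟩ := List.mem_map.1 ht
          have := (hr' u hu).1
          positivity)]
      refine le_trans ?_ (add_le_add v1 i6)
      rw [← lintegral_add_left' hm]
      refine lintegral_mono fun s => le_trans (le_of_eq ?_) ENNReal.ofReal_add_le
      congr 1
      ring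

/-- the value at the corner tends to minus infinity -/
theorem decay {B V : ℝ} {Γ : (Fin (d + 1) → ℝ) → ℝ} {Q : ℕ → (Fin (d + 1) → ℝ) → ℝ} (hV : 0 ≤ V)
    (lΓ : LipE Γ) (nΓ : ∀ s, 0 ≤ s → Γ s ≤ 0) (hB : ∀ s, 0 ≤ s → Γ s < 0 → ∑ j, s j ≤ B)
    (hv : ENNReal.ofReal V < ∫⁻ s in orth d, ENNReal.ofReal (-Γ s)) (lQ : ∀ n, LipE (Q n))
    (mQ : ∀ n s, 0 ≤ s → Q n 0 ≤ Q n s) (h0 : ∀ s, 0 ≤ s → Q 0 s ≤ 0)
    (hge : ∀ n s, 0 ≤ s → Q n s + Γ s ≤ Q (n + 1) s)
    (hle : ∀ n, ∫⁻ s in orth d, ENNReal.ofReal (Q (n + 1) s - (Q n s + Γ s)) ≤ ENNReal.ofReal V) :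
    ∃ c : ℝ, 0 < c ∧ ∀ n : ℕ, Q n 0 ≤ -(n * c) := by
  obtain ⟨K, hK⟩ : ∃ K : Set (Fin (d + 1) → ℝ), K = orth d ∩ {s | ∑ j, s j ≤ B} := ⟨_, rfl⟩
  have hKo : K ⊆ orth d := hK ▸ inter_subset_left
  have cK : IsCompact K := by
    refine (isCompact_Icc (a := 0) (b := fun _ => B)).of_isClosed_subset ?_ fun s hs => ?_
    · rw [hK]
      exact isClosed_Ici.inter (isClosed_le (by fun_prop) continuous_const)
    · rw [hK] at hs
      exact ⟨hs.1, fun i => (Finset.single_le_sum (fun j _ => hs.1 j) (Finset.mem_univ i)).trans hs.2⟩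
  have mK := cK.measurableSet
  have int : ∀ {g : (Fin (d + 1) → ℝ) → ℝ}, ContinuousOn g (orth d) → IntegrableOn g K :=
    fun h => (h.mono hKo).integrableOn_compact cK
  have e1 : ∀ {g : (Fin (d + 1) → ℝ) → ℝ}, ContinuousOn g (orth d) → (∀ s, 0 ≤ s → 0 ≤ g s) →
      ENNReal.ofReal (∫ s in K, g s) = ∫⁻ s in K, ENNReal.ofReal (g s) := fun h h' =>
    ofReal_integral_eq_lintegral_ofReal (int h)
      ((ae_restrict_iff' mK).2 (Eventually.of_forall fun s hs => h' s (hKo hs)))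
  have v1 : V < ∫ s in K, -Γ s := by
    rw [← ENNReal.ofReal_lt_ofReal_iff_of_nonneg hV,
      e1 (g := fun s => -Γ s) (cont lΓ).neg fun s hs => neg_nonneg.2 (nΓ s hs),
      ← lintegral_indicator mK]
    refine hv.trans_le (le_trans (setLIntegral_mono' meas_orth fun s hs => ?_)
      (setLIntegral_le_lintegral (orth d) _))
    by_cases h : s ∈ K
    · rw [indicator_of_mem h]
    · rw [ENNReal.ofReal_of_nonpos]
      · exact bot_le
      · by_contra h'
        exact h (hK ▸ ⟨hs, hB s hs (by linarith)⟩)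
  rw [integral_neg] at v1
  have v2 : ∀ n, ∫ s in K, Q (n + 1) s ≤ (∫ s in K, Q n s) - (-(∫ s in K, Γ s) - V) := fun n => by
    have c1 := cont (lip_add (lQ n) lΓ)
    have := (e1 (g := fun s => Q (n + 1) s - (Q n s + Γ s)) ((cont (lQ (n + 1))).sub c1)
      fun s hs => sub_nonneg.2 (hge n s hs)).trans_le
      ((lintegral_mono_set hKo).trans (hle n))
    rw [ENNReal.ofReal_le_ofReal_iff hV, integral_sub (int (cont (lQ _))) (int c1),
      integral_add (int (cont (lQ _))) (int (cont lΓ))] at this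
    linarith
  obtain ⟨v, hv'⟩ : ∃ v, v = -(∫ s in K, Γ s) - V := ⟨_, rfl⟩
  rw [← hv'] at v2
  have v0 : 0 < v := by linarith
  have v3 : ∀ n : ℕ, ∫ s in K, Q n s ≤ -(n * v) := fun n => by
    induction n with
    | zero => simpa using setIntegral_nonpos mK fun s hs => h0 s (hKo hs)
    | succ n ih =>
      push_cast
      linarith [v2 n]
  have v4 : ∀ n : ℕ, volume.real K * Q n 0 ≤ -(n * v) := fun n => by
    refine le_trans ?_ (v3 n)
    have := setIntegral_mono_on (int (g := fun _ => Q n 0) continuousOn_const) (int (cont (lQ n)))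
      mK fun s hs => mQ n s (hKo hs)
    rwa [setIntegral_const, smul_eq_mul] at this
  have m0 : 0 < volume.real K := by
    refine lt_of_le_of_ne measureReal_nonneg fun h => ?_
    have := v4 1
    rw [← h] at this
    simp only [zero_mul, Nat.cast_one, one_mul] at this
    linarith
  refine ⟨v / volume.real K, div_pos v0 m0, fun n => ?_⟩
  rw [← mul_div_assoc, ← neg_div, le_div_iff₀ m0, mul_comm]
  exact v4 n

end Min

open Min in
theorem minS (h0 : Core0Stmt) (h1 : Core1Stmt) (h2 : Core2Stmt) (hV : VolStmt) (hS : SimplexStmt) :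
    MinStmt := by
  intro d x B rs Γ hr cΓ lΓ nΓ hΓ hB hv
  have P := props (d := d) h0 h1 h2 hV hS rs hr
  have hS0 : 0 ≤ rs.sum := List.sum_nonneg fun t ht => (hr t ht).1
  obtain ⟨γ, hγ⟩ : ∃ γ, γ = -Γ 0 / 2 := ⟨_, rfl⟩
  have γ0 : 0 < γ := by linarith
  obtain ⟨M, hM⟩ : ∃ M, M = (rs.sum + 1) / γ := ⟨_, rfl⟩
  have M0 : 0 < M := by rw [hM]; positivity
  have Mγ : M * γ = rs.sum + 1 := by rw [hM, div_mul_cancel₀ _ γ0.ne']
  have MΓ : M * Γ 0 = -(2 * (rs.sum + 1)) := by rw [← Mγ, hγ]; ring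
  obtain ⟨Q, Q0, Q1⟩ : ∃ Q : ℕ → (Fin (d + 1) → ℝ) → ℝ, (Q 0 = fun s => M * Γ s) ∧
      ∀ n, Q (n + 1) = mvs rs fun s => Q n s + Γ s :=
    ⟨fun n => Nat.rec (fun s => M * Γ s) (fun _ q => mvs rs fun s => q s + Γ s) n, rfl, fun _ => rfl⟩
  have cQ : ∀ n, Cls 1 x (Q n) ∧ LipE (Q n) := fun n => by
    induction n with
    | zero => exact Q0 ▸ ⟨cls_mul cΓ M0.le, lip_mul lΓ M⟩
    | succ n ih =>
      obtain ⟨a, b, -⟩ := P _ (cls_add ih.1 cΓ) (lip_add ih.2 lΓ)
      exact Q1 n ▸ ⟨a, b⟩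
  have PQ := fun n => P _ (cls_add (cQ n).1 cΓ) (lip_add (cQ n).2 lΓ)
  simp only [← Q1] at PQ
  have q00 : Q 0 0 = -(2 * (rs.sum + 1)) := by rw [Q0]; exact MΓ
  have q0 : ∀ s, 0 ≤ s → Q 0 s ≤ 0 := fun s hs => by
    rw [Q0]
    exact mul_nonpos_of_nonneg_of_nonpos M0.le (nΓ s hs)
  obtain ⟨c, c0, hc⟩ := decay (List.sum_nonneg fun t ht => by
      obtain ⟨u, hu, rfl⟩ := List.mem_map.1 ht
      have := (hr u hu).1
      positivity) lΓ nΓ hB hv (fun n => (cQ n).2) (fun n s hs => zero_le (cQ n).1 hs) q0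
    (fun n => (PQ n).2.2.1) fun n => (PQ n).2.2.2.2.2
  have up : ∀ n s, 0 ≤ s → Q (n + 1) s ≤ max (Q n s + Γ s) (Q n 0 + rs.sum) := fun n s hs =>
    ((PQ n).2.2.2.1 s hs).trans (max_le_max le_rfl (by linarith))
  have b1 : ∀ n s, 0 ≤ s → Q n s ≤ rs.sum := fun n s hs => by
    induction n with
    | zero => exact (q0 s hs).trans hS0
    | succ n ih =>
      have h3 : 0 ≤ n * c := by positivity
      exact (up n s hs).trans (max_le (by linarith [nΓ s hs]) (by linarith [hc n]))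
  obtain ⟨N, hN⟩ := exists_nat_ge ((rs.sum + 2 * (rs.sum + 1)) / c)
  obtain ⟨k, hk⟩ := exists_nat_ge ((rs.sum + 2 * (rs.sum + 1)) / γ)
  rw [div_le_iff₀ c0] at hN
  rw [div_le_iff₀ γ0] at hk
  have b2 : ∀ s, 0 ≤ s → Γ s ≤ -γ → ∀ j : ℕ, Q (N + j) s ≤ max (rs.sum - j * γ) (Q 0 0) := by
    intro s hs h j
    induction j with
    | zero => exact le_max_of_le_left (by simpa using b1 N s hs)
    | succ j ih =>
      refine (up (N + j) s hs).trans (max_le ?_ (le_max_of_le_right ?_))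
      · rcases le_max_iff.1 ih with h3 | h3
        · exact le_max_of_le_left (by push_cast; linarith)
        · exact le_max_of_le_right (by linarith)
      · have h3 := hc (N + j)
        have h4 : 0 ≤ j * c := by positivity
        push_cast at h3
        linarith
  have b3 : ∀ s, 0 ≤ s → Q 1 s ≤ Q 0 s ∨ Q (N + k + 1) s ≤ Q 0 s := fun s hs => by
    rcases le_or_gt (Q 0 0 + rs.sum) (Q 0 s) with h | h
    · exact Or.inl ((up 0 s hs).trans (max_le (by linarith [nΓ s hs]) h))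
    · have h3 : M * Γ s ≤ M * -γ := by
        have : Q 0 s = M * Γ s := by rw [Q0]
        linarith
      refine Or.inr ((b2 s hs (le_of_mul_le_mul_left h3 M0) (k + 1)).trans
        (le_trans (max_le ?_ le_rfl) (zero_le (cQ 0).1 hs)))
      push_cast
      linarith
  obtain ⟨R, R0, R1⟩ : ∃ R : ℕ → (Fin (d + 1) → ℝ) → ℝ, R 0 = Q 0 ∧
      ∀ n, R (n + 1) = fun s => min (R n s) (Q (n + 1) s) :=
    ⟨fun n => Nat.rec (Q 0) (fun n q => fun s => min (q s) (Q (n + 1) s)) n, rfl, fun _ => rfl⟩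
  have cR : ∀ n, Cls 1 x (R n) ∧ LipE (R n) := fun n => by
    induction n with
    | zero => exact R0 ▸ cQ 0
    | succ n ih => exact R1 n ▸ ⟨cls_min ih.1 (cQ _).1, lip_min ih.2 (cQ _).2⟩
  have RQ : ∀ n s, ∀ m ≤ n, R n s ≤ Q m s := fun n s => by
    induction n with
    | zero => exact fun m hm => by rw [Nat.le_zero.1 hm, R0]
    | succ n ih =>
      intro m hm
      rw [R1]
      rcases Nat.le_succ_iff.1 hm with h | h
      · exact (min_le_left _ _).trans (ih m h)
      · exact h ▸ min_le_right _ _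
  have QR : ∀ n s (y : ℝ), (∀ m ≤ n, y ≤ Q m s) → y ≤ R n s := fun n s y => by
    induction n with
    | zero => exact fun h => R0 ▸ h 0 le_rfl
    | succ n ih =>
      intro h
      rw [R1]
      exact le_min (ih fun m hm => h m (Nat.le_succ_of_le hm)) (h _ le_rfl)
  have cf := cls_add (cR (N + k)).1 cΓ
  have lf := lip_add (cR (N + k)).2 lΓ
  refine ⟨_, cf, lf, fun s hs => ?_, fun s hs h => ?_⟩
  · have b4 : ∀ m ≤ N + k, mvs rs (fun s => R (N + k) s + Γ s) s ≤ Q (m + 1) s := fun m hm => by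
      rw [Q1]
      exact (P _ cf lf).2.2.2.2.1 _ (cls_add (cQ m).1 cΓ)
        (fun t _ => add_le_add (RQ _ t m hm) le_rfl) s hs
    rw [add_sub_cancel_right]
    refine QR _ s _ fun m hm => ?_
    rcases m with _ | m
    · rcases b3 s hs with h | h
      · exact (b4 0 (Nat.zero_le _)).trans h
      · exact (b4 _ le_rfl).trans h
    · exact b4 m (Nat.le_of_succ_le hm)
  · by_contra h'
    have e : Γ s = 0 := le_antisymm (nΓ s hs) (not_lt.1 h')
    have b5 : ∀ m, 0 ≤ Q m s := fun m => by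
      induction m with
      | zero => simp [Q0, e]
      | succ m ih => linarith [(PQ m).2.2.1 s hs]
    have b6 := QR (N + k) s 0 fun m _ => b5 m
    have b7 := RQ (N + k) 0 0 (Nat.zero_le _)
    linarith

end Vale.Agent.P209
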