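import Vale.Agent.P209.Basic

open Set Filter Topology Function
open scoped Real ContDiff

noncomputable section
namespace Vale.Agent.P209

namespace Pol

theorem area_comp {φ ψ : ℝ × ℝ → ℝ × ℝ} {z : ℝ × ℝ} (hφ : Area φ (ψ z)) (hψ : Area ψ z) :
    Area (φ ∘ ψ) z := by
  refine ⟨hφ.1.comp z hψ.1, ?_⟩
  rw [fderiv_comp z (hφ.1.differentiableAt (by simp)) (hψ.1.differentiableAt (by simp))]
  have e : ∀ v : ℝ × ℝ, fderiv ℝ φ (ψ z) v =
      v.1 • fderiv ℝ φ (ψ z) (1, 0) + v.2 • fderiv ℝ φ (ψ z) (0, 1) := fun v => by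
    rw [← map_smul, ← map_smul, ← map_add]
    simp
  simp only [ContinuousLinearMap.comp_apply]
  rw [e (fderiv ℝ ψ z (1, 0)), e (fderiv ℝ ψ z (0, 1))]
  simp only [Prod.fst_add, Prod.snd_add, Prod.smul_fst, Prod.smul_snd, smul_eq_mul]
  linear_combination ((fderiv ℝ ψ z (1, 0)).1 * (fderiv ℝ ψ z (0, 1)).2 -
    (fderiv ℝ ψ z (1, 0)).2 * (fderiv ℝ ψ z (0, 1)).1) * hφ.2 + hψ.2

theorem pol_norm {z : ℝ × ℝ} (hz : 0 < z.1) : π * ((pol z).1 ^ 2 + (pol z).2 ^ 2) = z.1 := by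
  have h := Real.pi_pos
  simp only [pol, mul_pow]
  rw [← mul_add, Real.cos_sq_add_sin_sq, mul_one, Real.sq_sqrt (by positivity)]
  field_simp

theorem pol_area {z : ℝ × ℝ} (hz : 0 < z.1) : Area pol z := by
  have hp := Real.pi_pos
  have h0 : z.1 / π ≠ 0 := by positivity
  have hs : 0 < √(z.1 / π) := Real.sqrt_pos.2 (by positivity)
  constructor
  · have h1 : ContDiffAt ℝ ∞ (fun w : ℝ × ℝ => √(w.1 / π)) z :=
      (contDiffAt_fst.div_const _).sqrt h0
    have h2 : ContDiffAt ℝ ∞ (fun w : ℝ × ℝ => 2 * π * w.2) z :=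
      contDiffAt_const.mul contDiffAt_snd
    exact (h1.mul h2.cos).prodMk (h1.mul h2.sin)
  · have h1 : HasFDerivAt (fun w : ℝ × ℝ => √(w.1 / π)) _ z :=
      (((hasDerivAt_id z.1).div_const π).sqrt h0).comp_hasFDerivAt z
        (hasFDerivAt_fst (𝕜 := ℝ) (p := z))
    have h2 : HasFDerivAt (fun w : ℝ × ℝ => 2 * π * w.2) _ z :=
      (hasFDerivAt_snd (𝕜 := ℝ) (p := z)).const_mul (2 * π)
    have h3 : HasFDerivAt pol _ z := (h1.mul h2.cos).prodMk (h1.mul h2.sin)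
    rw [h3.fderiv]
    simp only [ContinuousLinearMap.prod_apply, add_apply, smul_apply, ContinuousLinearMap.coe_fst',
      ContinuousLinearMap.coe_snd', smul_eq_mul, id, mul_zero, mul_one, zero_add, add_zero]
    have k := Real.cos_sq_add_sin_sq (2 * π * z.2)
    generalize Real.cos (2 * π * z.2) = c at k
    generalize Real.sin (2 * π * z.2) = s at k
    field_simp
    linear_combination k

end Pol

theorem polS : PolStmt := by
  refine ⟨fun z hz => ⟨Pol.pol_area hz, Pol.pol_norm hz⟩, fun z w hz hw h => ?_⟩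
  have h1 : z.1 = w.1 := by rw [← Pol.pol_norm hz, ← Pol.pol_norm hw, h]
  refine ⟨h1, ?_⟩
  have hp := Real.pi_pos
  have hs : √(w.1 / π) ≠ 0 := (Real.sqrt_pos.2 (by positivity)).ne'
  simp only [pol, h1, Prod.mk.injEq] at h
  obtain ⟨k, hk⟩ := Real.Angle.angle_eq_iff_two_pi_dvd_sub.1
    (Real.Angle.cos_sin_inj (mul_left_cancel₀ hs h.1) (mul_left_cancel₀ hs h.2))
  refine ⟨k, mul_left_cancel₀ (show 2 * π ≠ 0 by positivity) ?_⟩
  rw [mul_sub, hk]

theorem tgtS (hP : PairsStmt) (hPol : PolStmt) : TgtStmt := by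
  intro ι _ _ a b
  refine ⟨pairs fun _ => pol, fun x hx => hP ι _ x fun i => (hPol.1 _ (hx.1 i)).1, fun x hx => ?_,
    fun x hx y hy h => ?_⟩
  · have e : cap (pairs (fun _ => pol) x) = ∑ i, x.1 i := by
      rw [cap, Finset.mul_sum]
      exact Finset.sum_congr rfl fun i _ => (hPol.1 (x.1 i, x.2 i) (hx.1 i)).2
    rw [mem_ofPred_eq, e]
    exact hx.2
  · have k := fun i => hPol.2 (x.1 i, x.2 i) (y.1 i, y.2 i) (hx.1 i) (hy.1 i)
      (Prod.ext (congrFun (congrArg Prod.fst h) i) (congrFun (congrArg Prod.snd h) i))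
    exact ⟨funext fun i => (k i).1, fun i => (k i).2⟩

theorem cutS (hPol : PolStmt) (hChi : ChiStmt) : CutStmt := by
  intro ε hε
  obtain ⟨χ, h1, h2, h3⟩ := hChi ε hε
  refine ⟨χ ∘ pol, fun z hz => ⟨Pol.area_comp (h1 _) (hPol.1 z hz).1, ?_⟩,
    fun z w hz hw h => hPol.2 z w hz hw (h2 h)⟩
  have k := h3 (pol z)
  rwa [(hPol.1 z hz).2] at k

theorem srcS (hP : PairsStmt) (hChi : ChiStmt) : SrcStmt := by
  intro ι _ _ r ε hε
  obtain ⟨χ, h1, h2, h3⟩ := hChi (ε / (Fintype.card ι + 1)) (by positivity)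
  refine ⟨pairs fun _ => χ, fun x _ => hP ι _ x fun i => h1 _, fun x hx => ⟨fun i => (h3 _).1, ?_⟩,
    fun x _ y _ h => ?_⟩
  · have k : ∑ i, (pairs (fun _ => χ) x).1 i ≤
        ∑ i, (π * (x.1 i ^ 2 + x.2 i ^ 2) + ε / (Fintype.card ι + 1)) :=
      Finset.sum_le_sum fun i _ => (h3 (x.1 i, x.2 i)).2.1.le
    rw [Finset.sum_add_distrib, ← Finset.mul_sum, Finset.sum_const, Finset.card_univ,
      nsmul_eq_mul] at k
    have k1 : cap x < r := hx
    have k2 : (Fintype.card ι : ℝ) * (ε / (Fintype.card ι + 1)) ≤ ε := by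
      rw [← mul_div_assoc, div_le_iff₀ (by positivity)]
      nlinarith
    rw [cap] at k1
    linarith
  · have k : ∀ i, (x.1 i, x.2 i) = (y.1 i, y.2 i) := fun i => h2 (Prod.ext (congrFun h.1 i) (by
      obtain ⟨k, hk⟩ := h.2 i
      obtain ⟨-, -, a1, a2⟩ := h3 (x.1 i, x.2 i)
      obtain ⟨-, -, b1, b2⟩ := h3 (y.1 i, y.2 i)
      change (χ (x.1 i, x.2 i)).2 - (χ (y.1 i, y.2 i)).2 = k at hk
      have c1 : (k : ℝ) < (1 : ℤ) := by push_cast; linarith
      have c2 : ((-1 : ℤ) : ℝ) < k := by push_cast; linarith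
      obtain rfl : k = 0 := by
        rw [Int.cast_lt] at c1 c2
        omega
      rwa [Int.cast_zero, sub_eq_zero] at hk))
    exact Prod.ext (funext fun i => congrArg Prod.fst (k i)) (funext fun i => congrArg Prod.snd (k i))

end Vale.Agent.P209
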