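import Vale.Agent.P209.Basic

open Set Filter Topology Function
open scoped Real ContDiff

noncomputable section
namespace Vale.Agent.P209

namespace RealF

variable {d : ℕ}

theorem approx {E : Type} [NormedAddCommGroup E] [NormedSpace ℝ E] [FiniteDimensional ℝ E]
    (g : E → ℝ) (L : ℝ) (h : ∀ a b, g a ≤ g b + L * ‖a - b‖) {ε : ℝ} (hε : 0 < ε) :
    ∃ A : E → ℝ, ContDiff ℝ ∞ A ∧ ∀ a, |A a - g a| < ε := by
  have hl := LipschitzWith.of_le_add_mul' L (f := g) fun a b => by rw [dist_eq_norm]; exact h a b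
  obtain ⟨A, hA, h'⟩ := hl.uniformContinuous.exists_contDiff_dist_le hε
  exact ⟨A, hA, fun a => by rw [← Real.dist_eq]; exact h' a⟩

/-- positive part -/
def pp (s : Fin (d + 1) → ℝ) : Fin (d + 1) → ℝ := fun j => max (s j) 0

theorem pp_nonneg (s : Fin (d + 1) → ℝ) : 0 ≤ pp s := fun _ => le_max_right _ _

theorem pp_eq {s : Fin (d + 1) → ℝ} (h : 0 ≤ s) : pp s = s := funext fun j => max_eq_left (h j)

theorem pp_norm (s t : Fin (d + 1) → ℝ) : ‖pp s - pp t‖ ≤ ‖s - t‖ :=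
  (pi_norm_le_iff_of_nonneg (norm_nonneg _)).2 fun j =>
    (abs_max_sub_max_le_abs _ _ _).trans (norm_le_pi_norm (s - t) j)

theorem cs_norm (z w : Option (Fin (d + 1)) → ℝ) : ‖cs z - cs w‖ ≤ ‖z - w‖ :=
  (pi_norm_le_iff_of_nonneg (norm_nonneg _)).2 fun j => norm_le_pi_norm (z - w) (some j)

theorem upd_norm (s t : Fin (d + 1) → ℝ) (k : Fin (d + 1)) (u : ℝ) :
    ‖update s k u - update t k u‖ ≤ ‖s - t‖ :=
  (pi_norm_le_iff_of_nonneg (norm_nonneg _)).2 fun j => by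
    by_cases h : j = k
    · subst h; simp
    · simpa [update_of_ne h] using norm_le_pi_norm (s - t) j

theorem upd_add (s : Fin (d + 1) → ℝ) (k : Fin (d + 1)) (u δ : ℝ) :
    update s k (u + δ) = update s k u + Pi.single k δ := by
  funext j
  by_cases h : j = k
  · subst h; simp
  · simp [update_of_ne h, Pi.single_eq_of_ne h]

theorem upd_nonneg {s : Fin (d + 1) → ℝ} (h : 0 ≤ s) (k : Fin (d + 1)) {u : ℝ} (hu : 0 ≤ u) :
    0 ≤ update s k u := fun j => by
  by_cases e : j = k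
  · subst e; simpa using hu
  · simpa [update_of_ne e] using h j

theorem cs_upd (z : Option (Fin (d + 1)) → ℝ) (k : Fin (d + 1)) (u : ℝ) :
    cs (update z (some k) u) = update (cs z) k u := by
  funext j
  by_cases h : j = k
  · subst h; simp [cs]
  · simp [cs, h]

theorem cs_upd_none (z : Option (Fin (d + 1)) → ℝ) (u : ℝ) : cs (update z none u) = cs z := by
  funext j; simp [cs]

theorem contDiff_cs : ContDiff ℝ ∞ (cs : (Option (Fin (d + 1)) → ℝ) → _) :=
  contDiff_pi.2 fun j => contDiff_apply ℝ ℝ (some j)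

theorem lip_pos {q : (Fin (d + 1) → ℝ) → ℝ} (h : LipE q) :
    ∃ Λ : ℝ, 0 < Λ ∧ ∀ s t, 0 ≤ s → 0 ≤ t → q s ≤ q t + Λ * ‖s - t‖ := by
  obtain ⟨Λ, h⟩ := h
  refine ⟨|Λ| + 1, by positivity, fun s t hs ht => ?_⟩
  have := (le_abs_self _).trans (h s t hs ht)
  nlinarith [le_abs_self Λ, norm_nonneg (s - t)]

theorem lip_step {q : (Fin (d + 1) → ℝ) → ℝ} {Λ : ℝ}
    (h : ∀ s t, 0 ≤ s → 0 ≤ t → q s ≤ q t + Λ * ‖s - t‖) {s : Fin (d + 1) → ℝ} (hs : 0 ≤ s)
    (k : Fin (d + 1)) {u δ : ℝ} (hu : 0 ≤ u) (hδ : 0 ≤ δ) :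
    q (update s k (u + δ)) ≤ q (update s k u) + Λ * δ ∧
      q (update s k u) ≤ q (update s k (u + δ)) + Λ * δ := by
  have n : ‖update s k (u + δ) - update s k u‖ = δ := by
    rw [upd_add, add_sub_cancel_left, Pi.norm_single, Real.norm_of_nonneg hδ]
  have a := h _ _ (upd_nonneg hs k (add_nonneg hu hδ)) (upd_nonneg hs k hu)
  have b := h _ _ (upd_nonneg hs k hu) (upd_nonneg hs k (add_nonneg hu hδ))
  rw [norm_sub_rev] at b
  rw [n] at a b
  exact ⟨a, b⟩

theorem zero_le {q : (Fin (d + 1) → ℝ) → ℝ}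
    (h : ∀ s : Fin (d + 1) → ℝ, 0 ≤ s → ∀ (i : Fin (d + 1)) (δ : ℝ), 0 ≤ δ →
      q s ≤ q (s + Pi.single i δ)) {s : Fin (d + 1) → ℝ} (hs : 0 ≤ s) : q 0 ≤ q s := by
  have key : ∀ F : Finset (Fin (d + 1)), q 0 ≤ q (∑ j ∈ F, Pi.single j (s j)) := by
    intro F
    induction F using Finset.induction_on with
    | empty => simp
    | insert a F ha ih =>
      rw [Finset.sum_insert ha, add_comm (Pi.single a (s a) : Fin (d + 1) → ℝ)]
      exact ih.trans (h _ (Finset.sum_nonneg fun j _ => Pi.single_nonneg.2 (hs j)) a _ (hs a))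
  have := key Finset.univ
  rwa [Finset.univ_sum_single] at this

theorem sum_single (s : Fin (d + 1) → ℝ) (i : Fin (d + 1)) (δ : ℝ) :
    ∑ j, (s + Pi.single i δ : Fin (d + 1) → ℝ) j = ∑ j, s j + δ := by
  simp [Finset.sum_add_distrib]

/-- the tilted front -/
def tilt (μ : ℝ) (q : (Fin (d + 1) → ℝ) → ℝ) (s : Fin (d + 1) → ℝ) : ℝ := q s + μ * ∑ j, s j

theorem tilt_cls {μ x : ℝ} (hμ : 0 ≤ μ) {q : (Fin (d + 1) → ℝ) → ℝ} (h : Cls 1 x q) :
    Cls (1 + μ) x (tilt μ q) := by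
  refine ⟨fun s hs i δ hδ => ?_, fun s hs i j hij δ hδ => ?_, fun s hs k j hj δ hδ hx => ?_,
    fun s hs δ hδ hx => ?_⟩
  · have := h.mono s hs i δ hδ
    simp only [tilt, sum_single]; nlinarith
  · have := h.ord s hs i j hij δ hδ
    simp only [tilt, sum_single]; linarith
  · have := h.dd s hs k j hj δ hδ hx
    simp only [tilt, sum_single]; nlinarith
  · have := h.dlast s hs δ hδ hx
    simp only [tilt, sum_single]; nlinarith

theorem tilt_lip {μ : ℝ} (hμ : 0 ≤ μ) {q : (Fin (d + 1) → ℝ) → ℝ} (h : LipE q) :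
    LipE (tilt μ q) := by
  obtain ⟨Λ, h⟩ := h
  refine ⟨Λ + μ * (d + 1), fun s t hs ht => ?_⟩
  have a : |∑ j, s j - ∑ j, t j| ≤ (d + 1) * ‖s - t‖ := by
    rw [← Finset.sum_sub_distrib]
    refine (Finset.abs_sum_le_sum_abs _ _).trans ?_
    refine (Finset.sum_le_sum fun j _ => norm_le_pi_norm (s - t) j).trans ?_
    simp
  have e : tilt μ q s - tilt μ q t = (q s - q t) + μ * (∑ j, s j - ∑ j, t j) := by
    simp only [tilt]; ring
  have b := mul_le_mul_of_nonneg_left a hμ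
  rw [e]
  refine (abs_add_le _ _).trans ?_
  rw [abs_mul, abs_of_nonneg hμ]
  linarith [h s t hs ht]

/-- strictly increasing in every coordinate -/
def Str (μ : ℝ) (Q : (Fin (d + 1) → ℝ) → ℝ) : Prop :=
  ∀ s : Fin (d + 1) → ℝ, 0 ≤ s → ∀ (i : Fin (d + 1)) (δ : ℝ), 0 ≤ δ →
    Q s + μ * δ ≤ Q (s + Pi.single i δ)

theorem Str.upd {μ : ℝ} {Q : (Fin (d + 1) → ℝ) → ℝ} (h : Str μ Q) {s : Fin (d + 1) → ℝ}
    (hs : 0 ≤ s) (k : Fin (d + 1)) {u v : ℝ} (hu : 0 ≤ u) (huv : u ≤ v) :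
    Q (update s k u) + μ * (v - u) ≤ Q (update s k v) := by
  have := h _ (upd_nonneg hs k hu) k (v - u) (sub_nonneg.2 huv)
  rwa [← upd_add, add_sub_cancel] at this

theorem tilt_str {μ x : ℝ} {q : (Fin (d + 1) → ℝ) → ℝ} (h : Cls 1 x q) : Str μ (tilt μ q) := by
  intro s hs i δ hδ
  have := h.mono s hs i δ hδ
  simp only [tilt, sum_single]; linarith

/-- The extent of the fibre of the front in the coordinate `k`. -/
theorem exists_ext {μ : ℝ} (hμ : 0 < μ) {Q : (Fin (d + 1) → ℝ) → ℝ} (hS : Str μ Q) (hL : LipE Q)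
    (k : Fin (d + 1)) : ∃ (a : (Option (Fin (d + 1)) → ℝ) → ℝ) (L : ℝ),
      (∀ z w, a z ≤ a w + L * ‖z - w‖) ∧ (∀ z u, a (update z (some k) u) = a z) ∧
      (∀ z, 0 ≤ a z) ∧
      (∀ z u, 0 ≤ u → Q (update (pp (cs z)) k u) < z none → u ≤ a z) ∧
      ∀ z u, 0 ≤ u → u < a z → Q (update (pp (cs z)) k u) < z none := by
  obtain ⟨Λ, hΛ, hL⟩ := lip_pos hL
  let Φ : (Option (Fin (d + 1)) → ℝ) → Set ℝ := fun z =>
    {u | u = 0 ∨ (0 ≤ u ∧ Q (update (pp (cs z)) k u) < z none)}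
  have bdd : ∀ z, BddAbove (Φ z) := fun z => by
    refine ⟨max 0 ((z none - Q (update (pp (cs z)) k 0)) / μ), ?_⟩
    rintro u (rfl | ⟨h1, h2⟩)
    · exact le_max_left _ _
    · refine le_trans ?_ (le_max_right _ _)
      have := hS.upd (pp_nonneg (cs z)) k le_rfl h1
      rw [le_div_iff₀ hμ]; linarith
  have ne : ∀ z, (Φ z).Nonempty := fun z => ⟨0, Or.inl rfl⟩
  have a0 : ∀ z, 0 ≤ sSup (Φ z) := fun z => le_csSup (bdd z) (Or.inl rfl)
  have a1 : ∀ z u, 0 ≤ u → Q (update (pp (cs z)) k u) < z none → u ≤ sSup (Φ z) :=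
    fun z u h1 h2 => le_csSup (bdd z) (Or.inr ⟨h1, h2⟩)
  refine ⟨fun z => sSup (Φ z), (Λ + 1) / μ, fun z w => csSup_le (ne z) ?_, fun z u => ?_, a0, a1,
    fun z u h1 h2 => ?_⟩
  · have c0 : 0 ≤ (Λ + 1) / μ * ‖z - w‖ := by positivity
    rintro u (rfl | ⟨h1, h2⟩)
    · linarith [a0 w]
    · rcases le_total u ((Λ + 1) / μ * ‖z - w‖) with h | h
      · linarith [a0 w]
      · have h3 := sub_nonneg.2 h
        have k1 := hS.upd (pp_nonneg (cs z)) k h3 (sub_le_self u c0)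
        have k2 := hL _ _ (upd_nonneg (pp_nonneg (cs w)) k h3) (upd_nonneg (pp_nonneg (cs z)) k h3)
        have k3 : ‖update (pp (cs w)) k (u - (Λ + 1) / μ * ‖z - w‖) -
            update (pp (cs z)) k (u - (Λ + 1) / μ * ‖z - w‖)‖ ≤ ‖z - w‖ := by
          rw [norm_sub_rev]
          exact (upd_norm _ _ _ _).trans ((pp_norm _ _).trans (cs_norm _ _))
        have k4 := mul_le_mul_of_nonneg_left k3 hΛ.le
        have k5 : z none - w none ≤ ‖z - w‖ := (le_abs_self _).trans (norm_le_pi_norm (z - w) none)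
        have k6 : μ * (u - (u - (Λ + 1) / μ * ‖z - w‖)) = (Λ + 1) * ‖z - w‖ := by
          field_simp; ring
        have := a1 w _ h3 (by linarith)
        linarith
  · have : ∀ v, update (pp (cs (update z (some k) u))) k v = update (pp (cs z)) k v := fun v => by
      funext j
      by_cases h : j = k
      · subst h; simp
      · simp [update_of_ne h, pp, cs_upd]
    simp only [Φ, this, update_of_ne (Option.some_ne_none k).symm]
  · obtain ⟨v, hv, h3⟩ := exists_lt_of_lt_csSup (ne z) h2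
    rcases hv with rfl | ⟨_, h5⟩
    · linarith
    · have := hS.upd (pp_nonneg (cs z)) k h1 h3.le
      nlinarith

/-- the region between the floor and the `k`-th front, with a margin -/
def KK (Q p : (Fin (d + 1) → ℝ) → ℝ) (η : ℝ) : Set (Option (Fin (d + 1)) → ℝ) :=
  {z | (∀ j, 0 < z (some j)) ∧ Q (cs z) < z none - η ∧ z none + η ≤ p (cs z)}

theorem step (hM : RuleMStmt) {μ η : ℝ} (hμ : 0 < μ) (hη : 0 < η)
    {Q p p' : (Fin (d + 1) → ℝ) → ℝ} (hS : Str μ Q) (hQ : LipE Q) (hp : LipE p) (k : Fin (d + 1))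
    (hw : ∀ s, 0 ≤ s → ∀ τ, p' s < τ →
      ∃ u, 0 ≤ u ∧ p (update s k u) < τ ∧ Q (update s k (u + s k)) < τ)
    (hU : ∀ s : Fin (d + 1) → ℝ, 0 ≤ s → ∀ δ : ℝ, 0 ≤ δ →
      p (s + Pi.single k δ) ≤ max (p s) (Q (s + Pi.single k δ))) :
    ∃ η' : ℝ, 0 < η' ∧ Emb (tor (KK Q p η)) Lat (tor (KK Q p' η')) Lat := by
  obtain ⟨a, L, aL, aI, a0, a1, a2⟩ := exists_ext hμ hS hQ k
  obtain ⟨Λ₁, hΛ₁, hQ'⟩ := lip_pos hQ
  obtain ⟨Λ₂, hΛ₂, hp'⟩ := lip_pos hp
  obtain ⟨κ, hκ, κ1, κ2⟩ : ∃ κ : ℝ, 0 < κ ∧ Λ₁ * κ ≤ η / 2 ∧ Λ₂ * κ ≤ η / 2 := by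
    have e : (Λ₁ + Λ₂) * (η / (2 * (Λ₁ + Λ₂))) = η / 2 := by field_simp
    have p : 0 < η / (2 * (Λ₁ + Λ₂)) := by positivity
    exact ⟨_, p, by nlinarith, by nlinarith⟩
  obtain ⟨η', h0, e1, e2⟩ : ∃ η' : ℝ, 0 < η' ∧ η' ≤ η / 2 ∧ η' ≤ μ * (κ / 6) :=
    ⟨min (η / 2) (μ * (κ / 6)), by positivity, min_le_left _ _, min_le_right _ _⟩
  obtain ⟨A₁, sA, hA⟩ := approx (fun z => a z - κ / 4) L (fun z w => by linarith [aL z w])
    (ε := κ / 12) (by positivity)
  have sU : ContDiff ℝ ∞ fun z : Option (Fin (d + 1)) → ℝ => update z (some k) 0 :=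
    contDiff_pi.2 fun j => by
      by_cases h : j = some k
      · subst h; simpa using contDiff_const
      · simpa [update_of_ne h] using contDiff_apply ℝ ℝ j
  have hE := (hM _ (some k) (fun z => A₁ (update z (some k) 0)) (KK Q p η) (κ / 6)
    (by positivity) (sA.comp sU) (fun z u => by simp) fun z hz => hz.1 k).1
  refine ⟨η', h0, hE.mono_tor ?_⟩
  rintro y ⟨u, ⟨z1, z2, z3⟩, y1, y2⟩
  have hu : 0 < u := by simpa using z1 k
  have hA' := abs_lt.1 (hA (update y (some k) 0))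
  rw [aI] at hA'
  rw [cs_upd, update_of_ne (Option.some_ne_none k).symm] at z2 z3
  have t0 : 0 ≤ update (cs y) k u := by
    rw [← cs_upd]; exact fun j => (z1 j).le
  have pe : ∀ v, update (pp (cs y)) k v = update (cs y) k v := fun v => by
    funext j
    by_cases h : j = k
    · subst h; simp
    · have := t0 j
      rw [update_of_ne h] at this
      simp only [update_of_ne h, pp]
      exact max_eq_left this
  have l1 := (lip_step hQ' t0 k hu.le hκ.le).1
  have l2 := (lip_step hp' t0 k hu.le hκ.le).2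
  simp only [update_idem] at l1 l2
  have b1 : u + κ ≤ a y := a1 y _ (by positivity) (by rw [pe]; linarith)
  have yk : 0 < y (some k) := by linarith [hA'.1]
  have ypos : ∀ j, 0 < y (some j) := fun j => by
    by_cases h : j = k
    · rw [h]; exact yk
    · have := z1 j
      rwa [update_of_ne (fun e => h (Option.some.inj e))] at this
  have s0 : 0 ≤ cs y := fun j => (ypos j).le
  have sk : cs y k = y (some k) := rfl
  refine ⟨ypos, ?_, ?_⟩
  · have c1 := a2 y (y (some k) + κ / 6) (by positivity) (by linarith [hA'.2])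
    have c2 := hS.upd s0 k yk.le (le_add_of_nonneg_right (by positivity : 0 ≤ κ / 6))
    rw [pe] at c1
    rw [← sk, update_eq_self, add_sub_cancel_left, sk] at c2
    linarith
  · by_contra hc
    obtain ⟨u', h1, h2, h3⟩ := hw _ s0 _ (not_le.1 hc)
    have b2 : u + κ < u' := by
      by_contra hb
      have := hU _ (upd_nonneg s0 k h1) (u + κ - u') (sub_nonneg.2 (not_lt.1 hb))
      rw [← upd_add, add_sub_cancel] at this
      rcases le_max_iff.1 this with h | h <;> linarith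
    have v0 : a y < u' + y (some k) - κ / 6 := by linarith [hA'.1]
    have v1 : 0 ≤ u' + y (some k) - κ / 6 := (a0 y).trans v0.le
    have c2 := hS.upd s0 k v1 (sub_le_self _ (by positivity : 0 ≤ κ / 6))
    rw [sub_sub_cancel] at c2
    rw [sk] at h3
    have := a1 y _ v1 (by rw [pe]; linarith)
    linarith

end RealF

open RealF in
theorem typeBS (hS : SrcStmt) (hM : RuleMStmt) : TypeBStmt := by
  intro d ρ r f hρ hf
  obtain ⟨Λ, hΛ, hL⟩ := lip_pos hf
  have hε : 0 < (r - ρ) / 4 := by linarith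
  obtain ⟨A, sA, hA⟩ := approx (fun s => f (pp s) + (r - ρ) / 8) Λ (fun s t => by
    have := hL _ _ (pp_nonneg s) (pp_nonneg t)
    have := mul_le_mul_of_nonneg_left (pp_norm s t) hΛ.le
    linarith) (ε := (r - ρ) / 8) (by linarith)
  have h1 := hS (Option (Fin (d + 1))) ρ _ hε
  have h2 := (hM _ none (fun z => A (cs z))
    {μ | (∀ i, 0 < μ i) ∧ ∑ i, μ i < ρ + (r - ρ) / 4} _ hε (sA.comp contDiff_cs)
    (fun z u => by simp only [cs_upd_none]) fun z hz => hz.1 none).2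
  refine (h1.trans h2).mono_tor ?_
  rintro y ⟨u, ⟨z1, z2⟩, y1, y2⟩
  have ypos : ∀ j, 0 < y (some j) := fun j => by simpa using z1 (some j)
  have hA' := abs_lt.1 (hA (cs y))
  rw [pp_eq (s := cs y) fun j => (ypos j).le] at hA'
  have e : ∑ i, update y none u i = u + ∑ j, cs y j := by
    rw [Fintype.sum_option]; simp [cs]
  rw [e] at z2
  exact ⟨ypos, by linarith [hA'.1], by linarith [hA'.2]⟩

open RealF in
theorem realS (h0 : Core0Stmt) (h1 : Core1Stmt) (hB : TypeBStmt) (hM : RuleMStmt) : RealStmt := by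
  intro d ρ r x B η q hρ hr hx hη hq hL hb
  have r0 : 0 < r := hρ.trans hr
  have B0 : 0 ≤ B := by simpa using hb 0 le_rfl (by linarith)
  obtain ⟨μ, hμ, eμ⟩ : ∃ μ : ℝ, 0 < μ ∧ μ * (B + r) = η / 2 :=
    ⟨η / (2 * (B + r)), by positivity, by field_simp⟩
  have l0 : 0 ≤ 1 + μ := by positivity
  have cQ := tilt_cls hμ.le hq
  have lQ := tilt_lip hμ.le hL
  have sQ : Str μ (tilt μ q) := tilt_str hq
  have bq : LB q := ⟨q 0, fun s hs => RealF.zero_le hq.mono hs⟩
  have bQ : LB (tilt μ q) := ⟨tilt μ q 0, fun s hs => RealF.zero_le cQ.mono hs⟩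
  obtain ⟨-, c2, -, c4⟩ := h0 d (1 + μ) r l0
  obtain ⟨-, c2', -, -⟩ := h0 d 1 r zero_le_one
  have c1 := h1 d (1 + μ) r x _ l0 r0.le hx cQ
  have main : ∀ k : ℕ, k ≤ d + 1 → ∃ η' : ℝ, 0 < η' ∧ Emb (ballO (Option (Fin (d + 1))) ρ) Eq
      (tor (KK (tilt μ q) (chain (1 + μ) r (tilt μ q) k) η')) Lat := by
    intro k
    induction k with
    | zero =>
      intro _
      refine ⟨(r - ρ) / 4, by linarith, (hB d ρ ((ρ + r) / 2) (fun s => tilt μ q s + (r - ρ) / 4)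
        (by linarith) ?_).mono_tor ?_⟩
      · obtain ⟨Λ, h⟩ := lQ
        exact ⟨Λ, fun s t hs ht => by rw [add_sub_add_right_eq_sub]; exact h s t hs ht⟩
      · rintro z ⟨z1, z2, z3⟩
        refine ⟨z1, by linarith, ?_⟩
        have m1 := le_max_left (r - ∑ j, cs z j) 0
        have m2 := mul_nonneg hμ.le (le_max_right (r - ∑ j, cs z j) 0)
        simp only [chain, job]
        linarith
    | succ k ih =>
      intro hk
      obtain ⟨η', h', hE⟩ := ih (by omega)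
      obtain ⟨η'', h'', hE'⟩ := step hM hμ h' sQ lQ (c4 _ bQ lQ k) ⟨k, hk⟩
        (fun s hs τ h => (c2 _ bQ ⟨k, hk⟩ s hs τ).1 h)
        fun s hs δ hδ => (c1 k).2.2.1 s hs ⟨k, hk⟩ le_rfl δ hδ
      exact ⟨η'', h'', hE.trans hE'⟩
  have cmp : ∀ k : ℕ, k ≤ d + 1 → ∀ s, 0 ≤ s → ∀ t, t ≤ q 0 + r + 1 → chain 1 r q k s < t →
      chain (1 + μ) r (tilt μ q) k s < t + η / 2 := by
    intro k
    induction k with
    | zero =>
      intro _ s hs t ht h
      simp only [chain, job, tilt] at h ⊢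
      have m1 := le_max_right (r - ∑ j, s j) 0
      have m2 : max (r - ∑ j, s j) 0 ≤ r :=
        max_le (sub_le_self _ (Finset.sum_nonneg fun j _ => hs j)) r0.le
      have m3 := hb s hs (by linarith)
      nlinarith [mul_le_mul_of_nonneg_left m2 hμ.le, mul_le_mul_of_nonneg_left m3 hμ.le]
    | succ k ih =>
      intro hk s hs t ht h
      obtain ⟨u, hu, k1, k2⟩ := (c2' _ bq ⟨k, hk⟩ s hs t).1 h
      refine (c2 _ bQ ⟨k, hk⟩ s hs _).2 ⟨u, hu, ih (by omega) _ (upd_nonneg hs _ hu) t ht k1, ?_⟩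
      have m3 := hb _ (upd_nonneg hs _ (add_nonneg hu (hs _))) (k2.trans_le ht)
      simp only [tilt]
      nlinarith [mul_le_mul_of_nonneg_left m3 hμ.le, mul_pos hμ r0]
  obtain ⟨η', h', hE⟩ := main (d + 1) le_rfl
  refine hE.mono_tor ?_
  rintro z ⟨z1, z2, z3⟩
  have s0 : 0 ≤ cs z := fun j => (z1 j).le
  have m1 := mul_nonneg hμ.le (Finset.sum_nonneg fun j (_ : j ∈ Finset.univ) => s0 j)
  have m2 := mul_nonneg hμ.le B0
  have t0 : tilt μ q 0 = q 0 := by simp [tilt]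
  have up : z none < q 0 + r + μ * r := by
    have := z3.trans ((c1 (d + 1)).2.1 _ s0)
    rw [t0] at this
    rcases le_max_iff.1 this with h | h <;> linarith
  refine ⟨z1, ?_, ?_, by linarith⟩
  · simp only [tilt] at z2
    linarith
  · by_contra hc
    have := cmp (d + 1) le_rfl _ s0 (z none - η / 2) (by linarith)
      (by have : chain 1 r q (d + 1) (cs z) + η ≤ z none := not_lt.1 hc
          linarith)
    linarith

end Vale.Agent.P209
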