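import Vale.Agent.P209.Basic

/-! P209: volume of the simplex, the angle function and the smooth positive part. -/

open Set Filter Topology Function MeasureTheory
open scoped Real ContDiff

noncomputable section
namespace Vale.Agent.P209

namespace Simplex

theorem one (a : ℕ) (c : ℝ) :
    ∫⁻ t in Ici (0 : ℝ), ENNReal.ofReal (max (c - t) 0 ^ (a + 1))
      = ENNReal.ofReal (max c 0 ^ (a + 2) / (a + 2)) := by
  rcases le_or_gt c 0 with hc | hc
  · rw [setLIntegral_congr_fun measurableSet_Ici (g := fun _ => 0) fun t ht => by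
      simp [max_eq_right (show c - t ≤ 0 by linarith [mem_Ici.1 ht])]]
    simp [max_eq_right hc]
  rw [← setLIntegral_congr Ioi_ae_eq_Ici, ← Ioc_union_Ioi_eq_Ioi hc.le,
    lintegral_union measurableSet_Ioi Ioc_disjoint_Ioi_same,
    setLIntegral_congr_fun measurableSet_Ioi (g := fun _ => 0) fun t ht => by
      simp [max_eq_right (show c - t ≤ 0 by linarith [mem_Ioi.1 ht])],
    setLIntegral_congr_fun measurableSet_Ioc (g := fun t => ENNReal.ofReal ((c - t) ^ (a + 1)))
      fun t ht => by simp only [max_eq_left (sub_nonneg.2 ht.2)],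
    lintegral_zero, add_zero, ← ofReal_integral_eq_lintegral_ofReal,
    ← intervalIntegral.integral_of_le hc.le,
    intervalIntegral.integral_comp_sub_left (fun x => x ^ (a + 1)) c, integral_pow,
    max_eq_left hc.le]
  · congr 1
    push_cast
    ring
  · exact (Continuous.integrableOn_Icc (by fun_prop)).mono_set Ioc_subset_Icc_self
  · exact (ae_restrict_iff' measurableSet_Ioc).2
      (Eventually.of_forall fun t ht => pow_nonneg (sub_nonneg.2 ht.2) _)

theorem all (n : ℕ) : ∀ (a : ℕ) (c : ℝ),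
    ∫⁻ s in {s : Fin n → ℝ | 0 ≤ s}, ENNReal.ofReal (max (c - ∑ j, s j) 0 ^ (a + 1))
      = ENNReal.ofReal (max c 0 ^ (a + 1 + n) * (a + 1).factorial / (a + 1 + n).factorial) := by
  induction n with
  | zero =>
    intro a c
    have h : {s : Fin 0 → ℝ | 0 ≤ s} = univ := eq_univ_of_forall fun s i => i.elim0
    rw [h, Measure.restrict_univ, volume_pi, Measure.pi_of_empty, lintegral_dirac, add_zero,
      mul_div_cancel_right₀ _ (by positivity)]
    simp
  | succ n ih =>
    intro a c
    have hp := (volume_preserving_piFinSuccAbove (fun _ : Fin (n + 1) => ℝ) 0).symm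
    rw [← hp.setLIntegral_comp_preimage_emb (MeasurableEquiv.measurableEmbedding _)]
    have h : (MeasurableEquiv.piFinSuccAbove (fun _ : Fin (n + 1) => ℝ) 0).symm ⁻¹' {s | 0 ≤ s}
        = Ici (0 : ℝ) ×ˢ {s : Fin n → ℝ | 0 ≤ s} := by
      ext ⟨t, s⟩
      simp [MeasurableEquiv.piFinSuccAbove_symm_apply, Fin.insertNthEquiv, Pi.le_def,
        Fin.forall_fin_succ]
    have e : ∀ p : ℝ × (Fin n → ℝ),
        ∑ j, (MeasurableEquiv.piFinSuccAbove (fun _ : Fin (n + 1) => ℝ) 0).symm p j
          = p.1 + ∑ j, p.2 j := fun p => by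
      simp [MeasurableEquiv.piFinSuccAbove_symm_apply, Fin.insertNthEquiv, Fin.sum_univ_succ]
    simp only [h, e]
    rw [Measure.volume_eq_prod, ← Measure.prod_restrict, lintegral_prod_symm _ (by fun_prop)]
    have e2 : ∀ s : Fin n → ℝ, ∫⁻ t in Ici (0 : ℝ),
        ENNReal.ofReal (max (c - (t + ∑ j, s j)) 0 ^ (a + 1))
        = ENNReal.ofReal (max (c - ∑ j, s j) 0 ^ (a + 1 + 1)) * ENNReal.ofReal (1 / (a + 2)) := by
      intro s
      rw [← ENNReal.ofReal_mul (by positivity), mul_one_div, ← one a (c - ∑ j, s j)]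
      simp only [sub_sub, add_comm]
    simp only [e2]
    rw [lintegral_mul_const _ (by fun_prop), ih, ← ENNReal.ofReal_mul (by positivity)]
    congr 1
    rw [show a + 1 + 1 + n = a + 1 + (n + 1) by ring, Nat.factorial_succ (a + 1)]
    push_cast
    field_simp
    ring

end Simplex

theorem simplexS : SimplexStmt := by
  intro d r hr
  have := Simplex.all (d + 1) 0 r
  simp only [zero_add, pow_one, Nat.factorial_one, Nat.cast_one, mul_one, max_eq_left hr,
    show 1 + (d + 1) = d + 2 by ring] at this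
  exact this

theorem thetaS (hS : StairStmt) : ThetaStmt := by
  intro ε M h0 h1
  have hM : 0 < |M| + 1 := by positivity
  have hw : 0 < ε / (2 * (|M| + 1)) := by positivity
  have hw1 : 2 * (ε / (2 * (|M| + 1))) < 1 := by
    rw [← mul_div_assoc, div_lt_one (by positivity)]
    nlinarith [abs_nonneg M]
  have he : ε / (2 * (ε / (2 * (|M| + 1)))) = |M| + 1 := by field_simp
  generalize ε / (2 * (|M| + 1)) = w at hw hw1 he
  obtain ⟨S, hs, hp, hd, z0, z1, -, -⟩ := hS 1 (-w) w (by linarith) (by linarith)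
  have hD := hs.differentiable (by simp)
  obtain ⟨ξ, -, hξ⟩ := exists_deriv_eq_slope S (show -w < w by linarith)
    hD.continuous.continuousOn hD.differentiableOn
  rw [z0 (-w) ⟨by linarith, le_rfl⟩, z1 w ⟨le_rfl, by linarith⟩] at hξ
  have hder : ∀ θ, deriv (fun θ => (1 - ε) * θ + ε * (S (θ + ξ) - S ξ)) θ
      = (1 - ε) + ε * deriv S (θ + ξ) := fun θ => by
    have h2 := ((hasDerivAt_id' θ).const_mul (1 - ε)).add
      ((((hD (θ + ξ)).hasDerivAt.comp_add_const θ ξ).sub_const (S ξ)).const_mul ε)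
    rw [mul_one] at h2
    exact h2.deriv
  refine ⟨fun θ => (1 - ε) * θ + ε * (S (θ + ξ) - S ξ), by fun_prop, by simp, fun θ => ?_,
    fun θ => ?_, ?_⟩
  · simp only [add_right_comm θ 1 ξ, hp]
    ring
  · rw [hder]
    exact le_add_of_nonneg_right (mul_nonneg h0.le (hd _))
  · rw [hder, zero_add, hξ, sub_zero, mul_one_div, show w - -w = 2 * w by ring, he]
    linarith [le_abs_self M]

theorem foldFnS : FoldFnStmt := by
  intro κ hκ
  have hp : ∀ x : ℝ, 0 < x ^ 2 + κ ^ 2 := fun x => by positivity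
  have h1 : ∀ x : ℝ, |x| ≤ √(x ^ 2 + κ ^ 2) := fun x => Real.abs_le_sqrt (by nlinarith)
  have hd : ∀ x : ℝ, deriv (fun x => (x + √(x ^ 2 + κ ^ 2)) / 2) x
      = (1 + x / √(x ^ 2 + κ ^ 2)) / 2 := fun x => by
    have h2 := ((hasDerivAt_id' x).add
      (((hasDerivAt_pow 2 x).add_const (κ ^ 2)).sqrt (hp x).ne')).div_const 2
    refine h2.deriv.trans ?_
    have := (Real.sqrt_pos.2 (hp x)).ne'
    field_simp
    norm_num
    ring
  have h3 : ∀ x : ℝ, |x / √(x ^ 2 + κ ^ 2)| ≤ 1 := fun x => by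
    rw [abs_div, abs_of_pos (Real.sqrt_pos.2 (hp x)), div_le_one (Real.sqrt_pos.2 (hp x))]
    exact h1 x
  refine ⟨fun x => (x + √(x ^ 2 + κ ^ 2)) / 2, ?_, fun x => ?_, fun x => ?_, fun x => ?_,
    fun x => ?_, fun x => ?_⟩
  · exact (contDiff_id.add (ContDiff.sqrt (by fun_prop) fun x => (hp x).ne')).div_const 2
  · simp only [neg_sq]
    ring
  · linarith [h1 x, neg_abs_le x]
  · have h4 : √(x ^ 2 + κ ^ 2) ≤ |x| + κ := Real.sqrt_le_iff.2
      ⟨by positivity, by nlinarith [sq_abs x, abs_nonneg x]⟩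
    rcases le_total x 0 with h | h
    · rw [abs_of_nonpos h] at h4
      rw [max_eq_right h]
      linarith
    · rw [abs_of_nonneg h] at h4
      rw [max_eq_left h]
      linarith
  · rw [hd]
    linarith [(abs_le.1 (h3 x)).1]
  · rw [hd]
    linarith [(abs_le.1 (h3 x)).2]

end Vale.Agent.P209
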