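import Vale.Agent.P209.Basic

/-! The volume between the old and the new front does not exceed the volume of the job. -/

open Set Filter Topology Function MeasureTheory
open scoped Real ContDiff

noncomputable section
namespace Vale.Agent.P209
namespace Vol

/-- the one-dimensional estimate -/
theorem oneD {Φ Q : Set ℝ} (h0 : ∀ u ∈ Φ, 0 ≤ u) (hdown : ∀ u ∈ Φ, ∀ v, 0 ≤ v → v ≤ u → v ∈ Φ)
    (hQ : Q ⊆ Φ) : volume {x | x ∈ Φ ∧ ∀ u ∈ Q, u + x ∉ Φ} ≤ volume (Φ \ Q) := by
  rcases Q.eq_empty_or_nonempty with hE | hne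
  · subst hE
    apply measure_mono
    intro x hx
    exact ⟨hx.1, fun h => h⟩
  have hbd : BddBelow Q := ⟨0, fun u hu => h0 u (hQ hu)⟩
  have h1 : Ico 0 (sInf Q) ⊆ Φ \ Q := by
    intro v hv
    obtain ⟨u, hu⟩ := hne
    refine ⟨hdown u (hQ hu) v hv.1 (hv.2.le.trans (csInf_le hbd hu)), fun hvQ => ?_⟩
    exact absurd (csInf_le hbd hvQ) (not_le.2 hv.2)
  have key : ∀ x, (x ∈ Φ ∧ ∀ u ∈ Q, u + x ∉ Φ) → ∀ y, y ∈ Φ → y - x ≤ sInf Q := by
    intro x hx y hy
    refine le_csInf hne fun u hu => ?_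
    by_contra hlt
    push Not at hlt
    exact hx.2 u hu (hdown y hy (u + x) (add_nonneg (h0 u (hQ hu)) (h0 x hx.1)) (by linarith))
  have h2 : volume {x | x ∈ Φ ∧ ∀ u ∈ Q, u + x ∉ Φ} ≤ ENNReal.ofReal (sInf Q) := by
    refine (Real.volume_le_diam _).trans (Metric.ediam_le fun x hx y hy => ?_)
    rw [edist_dist, Real.dist_eq]
    apply ENNReal.ofReal_le_ofReal
    rw [abs_le]
    have a1 := key x hx y hy.1
    have a2 := key y hy x hx.1
    constructor <;> linarith
  refine h2.trans ?_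
  have h3 := measure_mono (μ := volume) h1
  rwa [Real.volume_Ico, sub_zero] at h3

variable {d : ℕ}

theorem lb_of_cls {lam x : ℝ} {q : (Fin (d + 1) → ℝ) → ℝ} (hq : Cls lam x q) : LB q := by
  refine ⟨q 0, fun s hs => ?_⟩
  have key : ∀ S : Finset (Fin (d + 1)), q 0 ≤ q (∑ i ∈ S, Pi.single i (s i)) := by
    intro S
    induction S using Finset.induction_on with
    | empty => simp
    | insert a S ha ih =>
      rw [Finset.sum_insert ha, add_comm (Pi.single a (s a) : Fin (d + 1) → ℝ)]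
      refine ih.trans (hq.mono _ ?_ a (s a) (hs a))
      exact Finset.sum_nonneg fun i _ => Pi.single_nonneg.2 (hs i)
  simpa [Finset.univ_sum_single] using key Finset.univ

theorem contOn_of_lip {q : (Fin (d + 1) → ℝ) → ℝ} (hq : LipE q) : ContinuousOn q (orth d) := by
  obtain ⟨Λ, hΛ⟩ := hq
  have : LipschitzOnWith (Real.toNNReal Λ) q (orth d) := by
    refine LipschitzOnWith.of_dist_le_mul fun s hs t ht => ?_
    rw [Real.dist_eq, dist_eq_norm]
    refine (hΛ s t hs ht).trans (mul_le_mul_of_nonneg_right ?_ (norm_nonneg _))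
    exact Real.le_coe_toNNReal Λ
  exact this.continuousOn

theorem cont_clamp {q : (Fin (d + 1) → ℝ) → ℝ} (hq : LipE q) : Continuous fun s => q (s ⊔ 0) :=
  (contOn_of_lip hq).comp_continuous
    (continuous_pi fun i => (continuous_apply i).max continuous_const)
    fun _ => (le_sup_right : (0 : Fin (d + 1) → ℝ) ≤ _)

theorem meas_orth : MeasurableSet (orth d) := (isClosed_Ici (a := (0 : Fin (d + 1) → ℝ))).measurableSet

/-- the region between two fronts -/
def reg (q p : (Fin (d + 1) → ℝ) → ℝ) : Set ((Fin (d + 1) → ℝ) × ℝ) :=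
  {z | 0 ≤ z.1 ∧ q z.1 < z.2 ∧ z.2 ≤ p z.1}

theorem meas_reg {q p : (Fin (d + 1) → ℝ) → ℝ} (hq : LipE q) (hp : LipE p) :
    MeasurableSet (reg q p) := by
  have e : reg q p = (Prod.fst ⁻¹' orth d) ∩ ({z | q (z.1 ⊔ 0) < z.2} ∩ {z | z.2 ≤ p (z.1 ⊔ 0)}) := by
    ext z
    simp only [reg, orth, mem_ofPred_eq, mem_inter_iff, mem_preimage]
    constructor
    · rintro ⟨h0, h1, h2⟩
      rw [sup_eq_left.2 h0]
      exact ⟨h0, h1, h2⟩
    · rintro ⟨h0, h1, h2⟩
      rw [sup_eq_left.2 h0] at h1 h2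
      exact ⟨h0, h1, h2⟩
  rw [e]
  refine (measurable_fst meas_orth).inter (MeasurableSet.inter ?_ ?_)
  · exact measurableSet_lt ((cont_clamp hq).measurable.comp measurable_fst) measurable_snd
  · exact measurableSet_le measurable_snd ((cont_clamp hp).measurable.comp measurable_fst)

theorem lint_eq {q p : (Fin (d + 1) → ℝ) → ℝ} (hq : LipE q) (hp : LipE p) :
    ∫⁻ s in orth d, ENNReal.ofReal (p s - q s)
      = ∫⁻ τ : ℝ, volume ((fun s => (s, τ)) ⁻¹' reg q p) := by
  rw [← Measure.prod_apply_symm (meas_reg hq hp), Measure.prod_apply (meas_reg hq hp),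
    ← lintegral_indicator meas_orth]
  refine lintegral_congr fun s => ?_
  by_cases hs : 0 ≤ s
  · have e : Prod.mk s ⁻¹' reg q p = Ioc (q s) (p s) := by
      ext τ
      simp [reg, hs]
    rw [e, Real.volume_Ioc, indicator_of_mem (show s ∈ orth d from hs)]
  · have e : Prod.mk s ⁻¹' reg q p = ∅ := by
      ext τ
      simp [reg, hs]
    rw [e, measure_empty, indicator_of_notMem (show s ∉ orth d from hs)]

theorem vol_le_of_fibre (k : Fin (d + 1)) {A B : Set (Fin (d + 1) → ℝ)} (hA : MeasurableSet A)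
    (hB : MeasurableSet B)
    (h : ∀ x : Fin (d + 1) → ℝ, volume ((fun u => update x k u) ⁻¹' A)
      ≤ volume ((fun u => update x k u) ⁻¹' B)) : volume A ≤ volume B := by
  rw [← lintegral_indicator_one hA, ← lintegral_indicator_one hB, volume_pi]
  refine lintegral_le_of_lmarginal_le {k} (measurable_one.indicator hA)
    (measurable_one.indicator hB) fun x => ?_
  rw [lmarginal_singleton, lmarginal_singleton]
  have e : ∀ C : Set (Fin (d + 1) → ℝ), MeasurableSet C →
      ∫⁻ u, C.indicator (1 : (Fin (d + 1) → ℝ) → ENNReal) (update x k u)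
        = volume ((fun u => update x k u) ⁻¹' C) := by
    intro C hC
    rw [← lintegral_indicator_one (measurable_update x hC)]
    rfl
  simp only
  rw [e A hA, e B hB]
  exact h x

theorem step (h0 : Core0Stmt) (h1 : Core1Stmt) {lam r x : ℝ} {q : (Fin (d + 1) → ℝ) → ℝ}
    (hl : 0 ≤ lam) (hr : 0 ≤ r) (hrx : r ≤ x) (hq : Cls lam x q) (hL : LipE q)
    (k : Fin (d + 1)) :
    ∫⁻ s in orth d, ENNReal.ofReal (chain lam r q (k + 1) s - q s)
      ≤ ∫⁻ s in orth d, ENNReal.ofReal (chain lam r q k s - q s) := by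
  obtain ⟨-, hunf, -, hlip⟩ := h0 d lam r hl
  have hLB := lb_of_cls hq
  have hge := (h1 d lam r x q hl hr hrx hq k).1
  rw [lint_eq hL (hlip q hLB hL _), lint_eq hL (hlip q hLB hL _)]
  refine lintegral_mono fun τ => ?_
  refine vol_le_of_fibre k (measurable_prodMk_right (meas_reg hL (hlip q hLB hL _)))
    (measurable_prodMk_right (meas_reg hL (hlip q hLB hL _))) fun y => ?_
  have hup : ∀ u v : ℝ, 0 ≤ update y k u → 0 ≤ v → 0 ≤ update y k v := by
    intro u v hu hv
    rw [le_update_iff] at hu ⊢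
    exact ⟨hv, hu.2⟩
  have hnn : ∀ u : ℝ, 0 ≤ update y k u → 0 ≤ u := fun u hu => (le_update_iff.1 hu).1
  have h := oneD (Φ := {u | 0 ≤ update y k u ∧ q (update y k u) < τ})
    (Q := {u | 0 ≤ update y k u ∧ chain lam r q k (update y k u) < τ})
    (fun u hu => hnn u hu.1) (fun u hu v hv hvu => ?_) (fun u hu => ⟨hu.1, ?_⟩)
  · refine le_trans (measure_mono ?_) (h.trans (measure_mono ?_))
    · rintro u ⟨hu0, hu1, hu2⟩
      refine ⟨⟨hu0, hu1⟩, fun v hv hvu => ?_⟩
      have := (hunf q hLB k (update y k u) hu0 τ).2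
        ⟨v, hnn v hv.1, by rw [update_idem]; exact hv.2, by
          rw [update_idem, update_self]; exact hvu.2⟩
      exact absurd hu2 (not_le.2 this)
    · rintro u ⟨⟨hu0, hu1⟩, hu2⟩
      refine ⟨hu0, hu1, ?_⟩
      by_contra hlt
      exact hu2 ⟨hu0, not_le.1 hlt⟩
  · refine ⟨hup u v hu.1 hv, lt_of_le_of_lt ?_ hu.2⟩
    have hm := hq.mono _ (hup u v hu.1 hv) k (u - v) (by linarith)
    have e : update y k v + Pi.single k (u - v) = update y k u := by
      funext j
      by_cases hj : j = k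
      · subst hj; simp
      · simp [hj]
    rwa [e] at hm
  · exact lt_of_le_of_lt (hge _ hu.1) hu.2

end Vol

theorem volS (h0 : Core0Stmt) (h1 : Core1Stmt) : VolStmt := by
  intro d lam r x q hl hr hrx hq hL
  have key : ∀ k : ℕ, k ≤ d + 1 → ∫⁻ s in orth d, ENNReal.ofReal (chain lam r q k s - q s)
      ≤ ∫⁻ s in orth d, ENNReal.ofReal (lam * max (r - ∑ j, s j) 0) := by
    intro k
    induction k with
    | zero =>
      intro _
      refine le_of_eq (lintegral_congr fun s => ?_)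
      simp [chain, job]
    | succ k ih =>
      intro hk
      exact (Vol.step h0 h1 hl hr hrx hq hL ⟨k, hk⟩).trans (ih (by omega))
  exact key (d + 1) le_rfl

end Vale.Agent.P209
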