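import Vale.Agent.P209.Basic

open Set Filter Topology Function
open scoped Real ContDiff

noncomputable section
namespace Vale.Agent.P209
namespace Wrap

variable {d : ℕ}

abbrev J (d : ℕ) : Type := Option (Fin (d + 1))

/-- maps that keep the cross-section coordinates -/
def mp (N P : Ph (J d) → ℝ) (R : Ph (J d) → Fin (d + 1) → ℝ) (y : Ph (J d)) : Ph (J d) :=
  (fun o => o.elim (N y) (cs y.1), fun o => o.elim (P y) fun j => y.2 (some j) + R y j)

theorem symp_mp (hE : ExactStmt) {N P S : Ph (J d) → ℝ} {R : Ph (J d) → Fin (d + 1) → ℝ}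
    {x : Ph (J d)} (hN : ContDiffAt ℝ ∞ N x) (hP : ContDiffAt ℝ ∞ P x)
    (hR : ∀ j, ContDiffAt ℝ ∞ (fun y => R y j) x) (hS : ContDiffAt ℝ ∞ S x)
    (h : ∀ᶠ y in 𝓝 x, ∀ v : Ph (J d), P y * fderiv ℝ N y v + ∑ j, R y j * cs v.1 j =
      y.2 none * v.1 none + fderiv ℝ S y v) : SympAt (mp N P R) x := by
  have hF : ContDiffAt ℝ ∞ (mp N P R) x := by
    refine ContDiffAt.prodMk (contDiffAt_pi.2 ?_) (contDiffAt_pi.2 ?_) <;> rintro (_ | j)
    · exact hN
    · exact (by fun_prop : ContDiffAt ℝ ∞ (fun y : Ph (J d) => y.1 (some j)) x)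
    · exact hP
    · exact (by fun_prop : ContDiffAt ℝ ∞ (fun y : Ph (J d) => y.2 (some j)) x).add (hR j)
  refine hE _ _ S x hF hS ?_
  filter_upwards [h, (hF.of_le (m := 1) (by simp)).eventually (by simp)] with y hy hd v
  have h1 := fun o => ((hasFDerivAt_apply o _).comp y
    (hd.differentiableAt (by simp)).hasFDerivAt.fst).fderiv
  have e1 : (fderiv ℝ (mp N P R) y v).1 none = fderiv ℝ N y v :=
    (congrArg (fun L : Ph (J d) →L[ℝ] ℝ => L v) (h1 none)).symm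
  have e2 : ∀ j, (fderiv ℝ (mp N P R) y v).1 (some j) = v.1 (some j) := fun j =>
    congrArg (fun L : Ph (J d) →L[ℝ] ℝ => L v) ((h1 (some j)).symm.trans
      ((hasFDerivAt_apply (𝕜 := ℝ) (some j) y.1).comp (f := Prod.fst) y hasFDerivAt_fst).fderiv)
  have := hy v
  simp only [Fintype.sum_option, e1, e2, mp, Option.elim, add_mul, Finset.sum_add_distrib, cs]
    at this ⊢
  linarith

theorem sum_single {E : Type} [NormedAddCommGroup E] [NormedSpace ℝ E] (L : E →L[ℝ] ℝ)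
    (A : (Fin (d + 1) → ℝ) →L[ℝ] E) (w : Fin (d + 1) → ℝ) :
    ∑ j, L (A (Pi.single j 1)) * w j = L (A w) := by
  conv_rhs => rw [← Finset.univ_sum_single w, map_sum, map_sum]
  refine Finset.sum_congr rfl fun j _ => ?_
  rw [mul_comm, ← smul_eq_mul, ← map_smul, ← map_smul, ← Pi.single_smul, smul_eq_mul, mul_one]

/-- the cross-section as a linear map -/
def csL : Ph (J d) →L[ℝ] (Fin (d + 1) → ℝ) :=
  ContinuousLinearMap.pi fun j => (ContinuousLinearMap.proj (some j)).comp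
    (ContinuousLinearMap.fst ℝ (J d → ℝ) (J d → ℝ))

theorem has_cs (y : Ph (J d)) : HasFDerivAt (fun y : Ph (J d) => cs y.1) csL y :=
  (csL (d := d)).hasFDerivAt

@[fun_prop]
theorem sm_cs0 : ContDiff ℝ ∞ (cs : (J d → ℝ) → _) := by
  unfold cs
  fun_prop

theorem sm_cs : ContDiff ℝ ∞ fun y : Ph (J d) => cs y.1 := (csL (d := d)).contDiff

theorem per_int {g : ℝ → ℝ} {T L : ℝ} (h : ∀ t, g (t + T) = g t + L) (k : ℤ) (t : ℝ) :
    g (t + k * T) = g t + k * L := by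
  induction k using Int.induction_on with
  | zero => simp
  | succ k ih =>
    push_cast at ih ⊢
    rw [add_mul, one_mul, ← add_assoc, h, ih]
    ring
  | pred k ih =>
    push_cast at ih ⊢
    have := h (t + (-k - 1) * T)
    rw [show t + (-k - 1) * T + T = t + -k * T by ring, ih] at this
    linarith

theorem per_deriv {g : ℝ → ℝ} {T L : ℝ} (h : ∀ t, g (t + T) = g t + L) (k : ℤ) (t : ℝ) :
    deriv g (t + k * T) = deriv g t := by
  rw [← deriv_comp_add_const]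
  simp only [per_int h k, deriv_add_const]

theorem exists_Q {f : (Fin (d + 1) → ℝ) → ℝ} (hf : LipE f) {η : ℝ} (hη : 0 < η) :
    ∃ Q : (Fin (d + 1) → ℝ) → ℝ, ContDiff ℝ ∞ Q ∧ ∀ s, 0 ≤ s → f s - η < Q s ∧ Q s < f s := by
  obtain ⟨Λ, hΛ⟩ := hf
  have hl : LipschitzWith (Real.toNNReal |Λ|) fun s : Fin (d + 1) → ℝ => f (s ⊔ 0) - η / 2 := by
    refine LipschitzWith.of_dist_le' fun s t => ?_
    rw [dist_sub_right, Real.dist_eq, dist_eq_norm]
    refine (hΛ _ _ le_sup_right le_sup_right).trans (mul_le_mul (le_abs_self _)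
      ((pi_norm_le_iff_of_nonneg (norm_nonneg _)).2 fun j => ?_) (norm_nonneg _) (abs_nonneg _))
    exact (abs_max_sub_max_le_abs _ _ _).trans (norm_le_pi_norm (s - t) j)
  obtain ⟨Q, h1, h2⟩ := hl.uniformContinuous.exists_contDiff_dist_le (half_pos hη)
  refine ⟨Q, h1, fun s hs => ?_⟩
  have := h2 s
  rw [sup_eq_left.2 hs, Real.dist_eq, abs_lt] at this
  constructor <;> linarith [this.1, this.2]

/-- the intermediate domain -/
def mid (C0 : Set (Fin (d + 1) → ℝ)) (ϑ : ℝ → ℝ) (Q l : (Fin (d + 1) → ℝ) → ℝ) : Set (Ph (J d)) :=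
  {x | cs x.1 ∈ C0 ∧ ∃ θ, ϑ θ = x.2 none ∧
    0 < x.1 none * deriv ϑ θ + (Real.cos (2 * π * θ) - 1) * Q (cs x.1) ∧
    x.1 none * deriv ϑ θ + (Real.cos (2 * π * θ) - 1) * Q (cs x.1) < l (cs x.1)}

theorem step1 (hE : ExactStmt) {C0 : Set (Fin (d + 1) → ℝ)} {ϑ : ℝ → ℝ}
    {Q l : (Fin (d + 1) → ℝ) → ℝ} (hQ : ContDiff ℝ ∞ Q) (hϑ : ContDiff ℝ ∞ ϑ)
    (hp : ∀ θ, ϑ (θ + 1) = ϑ θ + 1) (hd : ∀ θ, 0 < deriv ϑ θ) :
    Emb (tor {y | cs y ∈ C0 ∧ 0 < y none - Q (cs y) ∧ y none - Q (cs y) < l (cs y)}) Lat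
      (mid C0 ϑ Q l) Lat := by
  have s1 : ContDiff ℝ ∞ (deriv ϑ) := hϑ.iterate_deriv 1
  have s2 : ContDiff ℝ ∞ fun y : Ph (J d) => Q (cs y.1) := hQ.comp sm_cs
  have s3 : ContDiff ℝ ∞ fun y : Ph (J d) => y.2 none := by fun_prop
  have sN : ContDiff ℝ ∞ fun y : Ph (J d) =>
      (y.1 none - Real.cos (2 * π * y.2 none) * Q (cs y.1)) / deriv ϑ (y.2 none) :=
    ContDiff.div (by fun_prop) (s1.comp s3) fun y => (hd _).ne'
  refine ⟨mp (fun y => (y.1 none - Real.cos (2 * π * y.2 none) * Q (cs y.1)) / deriv ϑ (y.2 none))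
    (fun y => ϑ (y.2 none)) fun y j => Real.sin (2 * π * y.2 none) / (2 * π) *
      fderiv ℝ Q (cs y.1) (Pi.single j 1), fun x _ => ?_, fun x hx => ?_, fun x _ y _ h => ?_⟩
  · generalize hN : (fun y : Ph (J d) =>
      (y.1 none - Real.cos (2 * π * y.2 none) * Q (cs y.1)) / deriv ϑ (y.2 none)) = N at sN
    refine symp_mp hE (S := fun y => ϑ (y.2 none) * N y - y.2 none * y.1 none +
      Real.sin (2 * π * y.2 none) / (2 * π) * Q (cs y.1)) sN.contDiffAt (hϑ.comp s3).contDiffAt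
      (fun j => ContDiff.contDiffAt (ContDiff.mul (by fun_prop)
        (((hQ.fderiv_right (m := ∞) (by simp)).comp sm_cs).clm_apply contDiff_const)))
      (ContDiff.contDiffAt (by fun_prop)) (Eventually.of_forall fun y v => ?_)
    have a1 := (hasFDerivAt_apply (𝕜 := ℝ) none y.2).comp y hasFDerivAt_snd
    have a2 := (hasFDerivAt_apply (𝕜 := ℝ) none y.1).comp y hasFDerivAt_fst
    have a3 := (hϑ.differentiable (by simp) (y.2 none)).hasDerivAt.comp_hasFDerivAt y a1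
    have a4 := (hQ.differentiable (by simp) (cs y.1)).hasFDerivAt.comp y (has_cs y)
    have a5 := (sN.differentiable (by simp) y).hasFDerivAt
    have a6 := (((hasDerivAt_id' (y.2 none)).const_mul (2 * π)).sin.div_const
      (2 * π)).comp_hasFDerivAt y a1
    have e : fderiv ℝ (fun y : Ph (J d) => ϑ (y.2 none) * N y - y.2 none * y.1 none +
        Real.sin (2 * π * y.2 none) / (2 * π) * Q (cs y.1)) y = _ :=
      (((a3.mul a5).sub (a1.mul a2)).add (a6.mul a4)).fderiv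
    have e1 := sum_single (fderiv ℝ Q (cs y.1)) (ContinuousLinearMap.id ℝ _) (cs v.1)
    have e2 : deriv ϑ (y.2 none) * N y = y.1 none - Real.cos (2 * π * y.2 none) * Q (cs y.1) := by
      rw [← hN]
      exact mul_div_cancel₀ _ (hd _).ne'
    have e3 : csL v = cs v.1 := rfl
    have := Real.pi_pos.ne'
    rw [e]
    simp only [mul_assoc (_ / _), ← Finset.mul_sum] at e1 ⊢
    simp [e3] at e1 ⊢
    rw [e1]
    field_simp
    linear_combination (-2 * π * v.2 none) * e2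
  · have e : (x.1 none - Real.cos (2 * π * x.2 none) * Q (cs x.1)) / deriv ϑ (x.2 none) *
        deriv ϑ (x.2 none) + (Real.cos (2 * π * x.2 none) - 1) * Q (cs x.1) =
        x.1 none - Q (cs x.1) := by
      rw [div_mul_cancel₀ _ (hd _).ne']
      ring
    exact ⟨hx.1, x.2 none, rfl, hx.2.1.trans_eq e.symm, e.trans_lt hx.2.2⟩
  · obtain ⟨k, hk⟩ := h.2 none
    have e1 : x.2 none = y.2 none + k * 1 := (strictMono_of_deriv_pos hd).injective (by
      rw [per_int hp]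
      exact sub_eq_iff_eq_add'.1 (hk.trans (mul_one _).symm))
    have e2 : cs x.1 = cs y.1 := funext fun j => congrFun h.1 (some j)
    have e3 : 2 * π * x.2 none = 2 * π * y.2 none + k * (2 * π) := by rw [e1]; ring
    refine ⟨funext ?_, ?_⟩ <;> rintro (_ | j)
    · have := congrFun h.1 none
      simp only [mp, Option.elim, e2, e3, Real.cos_add_int_mul_two_pi] at this
      rw [e1, per_deriv hp, div_left_inj' (hd _).ne'] at this
      linarith
    · exact congrFun e2 j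
    · exact ⟨k, by rw [e1]; ring⟩
    · obtain ⟨k', hk'⟩ := h.2 (some j)
      simp only [mp, Option.elim, e2, e3, Real.sin_add_int_mul_two_pi] at hk'
      exact ⟨k', by linarith⟩

theorem has_d1 {G : ℝ × (Fin (d + 1) → ℝ) → ℝ} (hG : ContDiff ℝ ∞ G) (s : Fin (d + 1) → ℝ)
    (t : ℝ) : HasDerivAt (fun t => G (t, s)) (d1 G (t, s)) t :=
  (hG.differentiable (by simp) (t, s)).hasFDerivAt.comp_hasDerivAt t
    ((hasDerivAt_id t).prodMk (hasDerivAt_const t s))

theorem step2 (hE : ExactStmt) (hF : FloorStmt) (hI : InvStmt) {C : Set (Fin (d + 1) → ℝ)}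
    {G : ℝ × (Fin (d + 1) → ℝ) → ℝ} {T z ρ0 : ℝ} {Lh : (Fin (d + 1) → ℝ) → ℝ} {Δ : Set (J d → ℝ)}
    (hC : IsOpen C) (hG : ContDiff ℝ ∞ G) (hT : 0 < T) (hρ : 0 < ρ0)
    (hd : ∀ s ∈ C, ∀ t, 0 < d1 G (t, s)) (hp : ∀ s ∈ C, ∀ t, G (t + T, s) = G (t, s) + Lh s)
    (hz : ∀ s ∈ C, ∀ t, |t| < z → G (t, s) = ρ0 * t) (hg : Geo C G T z ρ0 Δ) {B : Set (Ph (J d))}
    (b1 : ∀ x ∈ B, cs x.1 ∈ C) (b2 : ∀ x ∈ B, ∀ k : ℤ, x - (0, Pi.single none (k : ℝ)) ∈ B)
    (b3 : ∀ x ∈ B, x.2 none = 0 → |x.1 none| < ρ0 * z)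
    (b4 : ∀ x ∈ B, ∀ y ∈ B, cs x.1 = cs y.1 → x.2 none = y.2 none →
      |x.1 none - y.1 none| < Lh (cs y.1)) : Emb B Lat (tor Δ) Lat := by
  have mono : ∀ s ∈ C, StrictMono fun t => G (t, s) := fun s hs =>
    strictMono_of_deriv_pos fun t => (has_d1 hG s t).deriv.symm ▸ hd s hs t
  obtain ⟨ti, hti⟩ := hI d G C hC hG hd fun s hs τ => by
    have hL : 0 < Lh s := by
      have := mono s hs (lt_add_of_pos_right 0 hT)
      simp only [hp s hs] at this
      linarith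
    obtain ⟨k, hk⟩ := exists_int_ge (|τ - G (0, s)| / Lh s)
    rw [div_le_iff₀ hL, abs_le] at hk
    have e := fun k => per_int (g := fun t => G (t, s)) (hp s hs) k 0
    refine mem_range_of_exists_le_of_exists_ge (f := fun t => G (t, s)) (by fun_prop)
      ⟨0 + (-k : ℤ) * T, ?_⟩ ⟨0 + k * T, ?_⟩ <;> rw [e] <;> push_cast <;> linarith [hk.1, hk.2]
  obtain ⟨F, v, f1, f2, f3, f4⟩ := hg
  obtain ⟨N, hN⟩ : ∃ N : Ph (J d) → ℝ, N = fun y => ti (y.1 none, cs y.1) := ⟨_, rfl⟩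
  have sN : ∀ x : Ph (J d), cs x.1 ∈ C → ContDiffAt ℝ ∞ N x := fun x hx =>
    hN ▸ (hti (x.1 none, cs x.1) hx).1.comp x
      (ContDiff.contDiffAt (ContDiff.prodMk (by fun_prop) sm_cs))
  have gN : ∀ x : Ph (J d), cs x.1 ∈ C → G (N x, cs x.1) = x.1 none := fun x hx =>
    hN ▸ (hti (x.1 none, cs x.1) hx).2
  have evC : ∀ x : Ph (J d), cs x.1 ∈ C → ∀ᶠ y : Ph (J d) in 𝓝 x, cs y.1 ∈ C := fun x hx =>
    sm_cs.continuous.continuousAt.eventually (hC.mem_nhds hx)
  obtain ⟨H, hH⟩ : ∃ H, H = mp N (fun y => y.2 none * d1 G (N y, cs y.1))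
    fun y j => y.2 none * fderiv ℝ G (N y, cs y.1) (0, Pi.single j 1) := ⟨_, rfl⟩
  have sH : ∀ x : Ph (J d), cs x.1 ∈ C → SympAt H x := fun x hx => by
    have sD : ∀ w, ContDiffAt ℝ ∞ (fun y : Ph (J d) => y.2 none * fderiv ℝ G (N y, cs y.1) w) x :=
      fun w => ContDiffAt.mul (by fun_prop) (((hG.fderiv_right (m := ∞) (by simp)).contDiffAt.comp x
        ((sN x hx).prodMk sm_cs.contDiffAt)).clm_apply contDiffAt_const)
    rw [hH]
    refine symp_mp hE (S := fun _ => 0) (sN x hx) (sD _) (fun j => sD _) contDiffAt_const ?_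
    filter_upwards [evC x hx] with y hy w
    have a1 := (hG.differentiable (by simp) (N y, cs y.1)).hasFDerivAt.comp y
      (((sN y hy).differentiableAt (by simp)).hasFDerivAt.prodMk (has_cs y))
    have a2 := ((hasFDerivAt_apply (𝕜 := ℝ) none y.1).comp y hasFDerivAt_fst).congr_of_eventuallyEq
      ((evC y hy).mono gN)
    have e : fderiv ℝ G (N y, cs y.1) (fderiv ℝ N y w, cs w.1) = w.1 none :=
      congrArg (fun L : Ph (J d) →L[ℝ] ℝ => L w) (a1.unique a2)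
    have e1 := sum_single (fderiv ℝ G (N y, cs y.1)) (ContinuousLinearMap.inr ℝ ℝ _) (cs w.1)
    have e2 : ((fderiv ℝ N y w, cs w.1) : ℝ × (Fin (d + 1) → ℝ)) =
        fderiv ℝ N y w • (1, 0) + (0, cs w.1) := by simp
    rw [e2, map_add, map_smul, smul_eq_mul] at e
    simp only [mul_assoc, ← Finset.mul_sum, ContinuousLinearMap.inr_apply] at e1 ⊢
    rw [e1, ← e, d1]
    simp
    ring
  have zN : ∀ x ∈ B, x.2 none = 0 → |N x| < z := fun x hx h0 => by
    have h1 : |x.1 none / ρ0| < z := by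
      rw [abs_div, abs_of_pos hρ, div_lt_iff₀' hρ]
      exact b3 x hx h0
    rw [(mono _ (b1 x hx)).injective (a₂ := x.1 none / ρ0) ((gN x (b1 x hx)).trans
      ((hz _ (b1 x hx) _ h1).trans (mul_div_cancel₀ _ hρ.ne')).symm)]
    exact h1
  have mH : ∀ x ∈ {x ∈ B | 0 ≤ x.2 none ∧ x.2 none < 1}, H x ∈ W0 C G z := by
    rintro x ⟨hx, h0, h1⟩
    have := hd _ (b1 x hx) (N x)
    rw [hH]
    exact ⟨b1 x hx, mul_nonneg h0 this.le, mul_lt_of_lt_one_left this h1,
      fun h => zN x hx ((mul_eq_zero.1 h).resolve_right this.ne')⟩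
  refine (hF _ none {x ∈ B | 0 ≤ x.2 none ∧ x.2 none < 1} Δ (F ∘ H) v
    (fun x hx => (f1 _ (mH x hx)).comp (sH x (b1 x hx.1))) (fun x hx => f2 (mH x hx))
    (fun x hx y hy h => ?_) fun x hx h0 => ?_).mono (fun x hx => ⟨b2 x hx _, ?_⟩) subset_rfl
  · obtain ⟨⟨k, r1⟩, r2, r3, r4⟩ := f3 _ (mH x hx) _ (mH y hy) h
    have c1 := b1 y hy.1
    rw [hH] at r1 r2 r3 r4
    have e1 : cs x.1 = cs y.1 := r2
    have e2 : N x = N y + k * T := sub_eq_iff_eq_add'.1 r1
    have e3 : x.2 none = y.2 none := by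
      have := per_deriv (g := fun t => G (t, cs y.1)) (hp _ c1) k (N y)
      rw [(has_d1 hG _ _).deriv, (has_d1 hG _ _).deriv] at this
      simp only [mp, Option.elim, e1, e2, this] at r3
      exact mul_right_cancel₀ (hd _ c1 _).ne' r3
    have e4 : x.1 none - y.1 none = k * Lh (cs y.1) := by
      rw [← gN x (b1 x hx.1), ← gN y c1, e1, e2, per_int (g := fun t => G (t, cs y.1)) (hp _ c1)]
      ring
    have e5 := b4 x hx.1 y hy.1 e1 e3
    have e6 := (abs_nonneg _).trans_lt e5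
    rw [e4, abs_mul, abs_of_pos e6, mul_lt_iff_lt_one_left e6] at e5
    obtain rfl : k = 0 := Int.abs_lt_one_iff.1 (by exact_mod_cast e5)
    rw [Int.cast_zero, zero_mul] at e2 e4
    refine ⟨funext ?_, ?_⟩ <;> rintro (_ | j)
    · exact sub_eq_zero.1 e4
    · exact congrFun e1 j
    · exact ⟨0, by rw [e3, sub_self, Int.cast_zero]⟩
    · obtain ⟨k', hk'⟩ := r4 j
      simp only [mp, Option.elim, e1, e2, e3, add_zero] at hk'
      exact ⟨k', by linarith⟩
  · have c1 := b1 x hx.1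
    filter_upwards [(sH x c1).continuousAt.eventually
      (f4 _ (mH x hx) (by rw [hH]; exact mul_eq_zero_of_left h0 _)), evC x c1,
      (sN x c1).continuousAt.abs.eventually (gt_mem_nhds (zN x hx.1 h0))] with y h1 h2 h3
    have a : HasFDerivAt G (ρ0 • ContinuousLinearMap.fst ℝ ℝ (Fin (d + 1) → ℝ)) (N y, cs y.1) := by
      refine (hasFDerivAt_fst.const_mul ρ0).congr_of_eventuallyEq ?_
      filter_upwards [continuousAt_snd.eventually (hC.mem_nhds h2),
        continuousAt_fst.abs.eventually (gt_mem_nhds (a := z) h3)] with p p1 p2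
      exact hz _ p1 _ p2
    rw [comp_apply, comp_apply, ← h1]
    refine congrArg F ?_
    have n1 : N (y + (0, Pi.single none 1)) = N y := by simp [hN]
    rw [hH]
    refine Prod.ext (funext ?_) (funext ?_) <;> rintro (_ | j) <;>
      simp [mp, n1, d1, a.fderiv, cs, add_mul]
  · simpa using Int.fract_lt_one _

end Wrap

open Wrap in
theorem wrapS (hE : ExactStmt) (hP : PairsStmt) (hF : FloorStmt) (hT : ThetaStmt) (hI : InvStmt) :
    WrapStmt := by
  intro d C C0 G T z ρ0 ε η M Lh l f Δ hC hC0 hs hG hT0 hz hρ hε hε1 hη hd hp hzone hf hl hg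
  obtain ⟨Q, hQ, hQ'⟩ := exists_Q hf hη
  obtain ⟨ϑ, t1, t2, t3, t4, t5⟩ := hT ε ((M + η) / (ρ0 * z)) hε hε1
  have t6 : ∀ θ, 0 < deriv ϑ θ := fun θ => (sub_pos.2 hε1).trans_le (t4 θ)
  have inj := (strictMono_of_deriv_pos t6).injective
  refine ((step1 hE (C0 := C0) (l := fun s => l s + η) hQ t1 t3 t6).mono (fun x hx => ?_)
    subset_rfl).trans (step2 hE hF hI hC hG hT0 hρ hd hp hzone hg (fun x hx => hC0 hx.1)
      ?_ ?_ ?_)
  · obtain ⟨h1, h2, h3⟩ := hx
    obtain ⟨q1, q2⟩ := hQ' _ (hs _ h1)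
    exact ⟨h1, by linarith, by linarith⟩
  · rintro x ⟨h1, θ, h2, h3⟩ k
    have e : 2 * π * (θ + (-k : ℤ) * 1) = 2 * π * θ + (-k : ℤ) * (2 * π) := by ring
    refine ⟨by simpa using h1, θ + (-k : ℤ) * 1, ?_, ?_⟩
    · rw [per_int t3, h2]
      simp [sub_eq_add_neg]
    · rw [per_deriv t3, e, Real.cos_add_int_mul_two_pi]
      simpa using h3
  · rintro x ⟨h1, θ, h2, h3, h4⟩ h0
    obtain rfl : θ = 0 := inj (h2.trans (h0.trans t2.symm))
    rw [mul_zero, Real.cos_zero, sub_self, zero_mul, add_zero] at h3 h4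
    rw [div_le_iff₀ (mul_pos hρ hz)] at t5
    rw [abs_of_pos ((mul_pos_iff_of_pos_right (t6 0)).1 h3)]
    refine lt_of_mul_lt_mul_right ?_ (t6 0).le
    linarith [(hl _ h1).1]
  · rintro x ⟨-, θ, h2, h3, h4⟩ y ⟨g1, θ', g2, g3, g4⟩ e1 e2
    obtain rfl : θ = θ' := inj (h2.trans (e2.trans g2.symm))
    rw [e1] at h3 h4
    have h5 := (hl _ g1).2
    have h6 : 0 < Lh (cs y.1) := (mul_pos_iff_of_pos_left (sub_pos.2 hε1)).1 (by linarith)
    have h7 := mul_le_mul_of_nonneg_right (t4 θ) h6.le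
    rw [abs_lt]
    constructor <;> refine lt_of_mul_lt_mul_right ?_ (t6 θ).le <;> linarith

end Vale.Agent.P209
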