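import Vale.Agent.P209.CaseA
import Vale.Agent.P209.CaseB
import Vale.Agent.P209.Chi
import Vale.Agent.P209.Core01
import Vale.Agent.P209.Core2
import Vale.Agent.P209.Cot
import Vale.Agent.P209.Dyn
import Vale.Agent.P209.Exact
import Vale.Agent.P209.Final
import Vale.Agent.P209.Five
import Vale.Agent.P209.Fold
import Vale.Agent.P209.Geo
import Vale.Agent.P209.Glue
import Vale.Agent.P209.Inv
import Vale.Agent.P209.Lift
import Vale.Agent.P209.Min
import Vale.Agent.P209.Pol
import Vale.Agent.P209.Real
import Vale.Agent.P209.RuleM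
import Vale.Agent.P209.Simplex
import Vale.Agent.P209.Vol
import Vale.Agent.P209.Wrap

noncomputable section
namespace Vale.Agent.P209

theorem cotA : CotStmt := cotS exactS
theorem cutA : CutStmt := cutS polS chiS
theorem tgtA : TgtStmt := tgtS pairsS polS
theorem srcA : SrcStmt := srcS pairsS chiS
theorem ruleMA : RuleMStmt := ruleMS cutA cotA pairsS
theorem core1A : Core1Stmt := core1S core0S
theorem core2A : Core2Stmt := core2S core0S core1A
theorem volA : VolStmt := volS core0S core1A
theorem thetaA : ThetaStmt := thetaS stairS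
theorem minA : MinStmt := minS core0S core1A core2A volA simplexS
theorem typeBA : TypeBStmt := typeBS srcA ruleMA
theorem realA : RealStmt := realS core0S core1A typeBA ruleMA
theorem dynA : DynStmt := dynS core0S core1A core2A minA typeBA realA simplexS
theorem wrapA : WrapStmt := wrapS exactS pairsS floorS thetaA invS
theorem fiveA : FiveStmt := fiveS stairS convexS
theorem foldA : FoldStmt := foldS exactS cotA
theorem liftA : LiftStmt := liftS cotA stairS
theorem geoA : GeoStmt := geoS cutA pairsS cotA exactS liftA foldA foldFnS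
theorem glueA : GlueStmt := glueS dynA wrapA geoA tgtA
theorem caseA : CaseAStmt := caseAS fiveA glueA simplexS
theorem caseB : CaseBStmt := caseBS fiveA glueA foldFnS simplexS

theorem packs_main (n : ℕ) (hn : 3 ≤ n) (k : ℕ) (R : ℝ) (r : Fin k → ℝ) (hR : 0 < R)
    (h0 : ∀ i, 0 < r i) (hs : ∑ i, r i ^ n < R ^ n) (hp : ∀ i j, i < j → r i + r j < R)
    (hc : n = 3 ∨ ∀ i, 2 * r i < R) : Packs n k r R := by
  obtain ⟨m, rfl⟩ : ∃ m, n = m + 3 := ⟨n - 3, by omega⟩
  refine final_of_cases caseA m k R r hR h0 hs hp ?_
  rcases hc with h | h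
  · obtain rfl : m = 0 := by omega
    exact Or.inl (caseBn_zero caseB)
  · exact Or.inr h

end Vale.Agent.P209
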