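import Vale.Agent.P209.Stm3
import Vale.Agent.P209.CaseB

open Set Filter Topology Function MeasureTheory
open scoped Real ContDiff

noncomputable section
namespace Vale.Agent.P209

namespace CaseBnX

variable {d : ℕ}

theorem cont_Sp (i : ℕ) : Continuous fun s : Fin (d + 1) → ℝ => Sp s i := by
  unfold Sp
  refine continuous_finsetSum _ fun j _ => ?_
  split_ifs
  · exact continuous_apply j
  · exact continuous_const

theorem cont_rho (h : ℝ) (i : ℕ) : Continuous fun s : Fin (d + 1) → ℝ => rho pos h s i := by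
  induction i with
  | zero => exact continuous_const
  | succ i ih =>
    have h1 := cont_Sp (d := d) (i + 1)
    simp only [rho, pos]
    fun_prop

theorem cont_Lb (h : ℝ) : Continuous (Lb (d := d) h) := by
  have h1 := cont_rho (d := d) h (d + 1)
  unfold Lb
  fun_prop

theorem cont_Lt (h a : ℝ) : Continuous (Lt (d := d) h a) := by
  have h1 := cont_Lb (d := d) h
  unfold Lt
  fun_prop

theorem tendsto_Lt {h : ℝ} {s : Fin (d + 1) → ℝ} (hs : s 0 < h) :
    Tendsto (fun a => ENNReal.ofReal (Lt h a s)) (𝓝[>] 0) (𝓝 (ENNReal.ofReal (Lb h s))) := by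
  have h1 : Tendsto (fun a : ℝ => ENNReal.ofReal (Lb h s - a)) (𝓝[>] 0)
      (𝓝 (ENNReal.ofReal (Lb h s))) := by
    have hc : Continuous fun a : ℝ => ENNReal.ofReal (Lb h s - a) :=
      ENNReal.continuous_ofReal.comp (by fun_prop)
    simpa using (hc.tendsto 0).mono_left nhdsWithin_le_nhds
  have h2 : ∀ᶠ a in 𝓝 (0 : ℝ), a * (Lb h s - a) < 2 ^ (d + 1) * (h - a - s 0) := by
    have hc : Continuous fun a : ℝ => a * (Lb h s - a) := by fun_prop
    have hc' : Continuous fun a : ℝ => 2 ^ (d + 1) * (h - a - s 0) := by fun_prop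
    refine hc.continuousAt.eventually_lt hc'.continuousAt ?_
    simpa using hs
  refine h1.congr' ?_
  filter_upwards [self_mem_nhdsWithin, mem_nhdsWithin_of_mem_nhds h2] with a ha hb
  have ha0 : 0 < a := ha
  have h3 : Lb h s - a ≤ 2 ^ (d + 1) / a * (h - a - s 0) := by
    rw [div_mul_eq_mul_div, le_div_iff₀ ha0]
    linarith
  rw [Lt, min_eq_left h3]
  rcases le_total (Lb h s - a) 0 with h4 | h4
  · rw [max_eq_right h4, ENNReal.ofReal_of_nonpos h4, ENNReal.ofReal_zero]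
  · rw [max_eq_left h4]

theorem ev_lt {h : ℝ} {v : ENNReal}
    (hv : v < ∫⁻ s in orth d ∩ {s | s 0 < h}, ENNReal.ofReal (Lb h s)) :
    ∀ᶠ a in 𝓝[>] (0 : ℝ), v < ∫⁻ s in orth d, ENNReal.ofReal (Lt h a s) := by
  have hm : MeasurableSet (orth d ∩ {s | s 0 < h}) :=
    CaseB.orth_meas.inter (measurableSet_lt (measurable_pi_apply 0) measurable_const)
  have h1 : ∫⁻ s in orth d ∩ {s | s 0 < h}, ENNReal.ofReal (Lb h s) ≤
      liminf (fun a => ∫⁻ s in orth d ∩ {s | s 0 < h}, ENNReal.ofReal (Lt h a s)) (𝓝[>] 0) := by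
    refine le_trans (le_of_eq ?_) (lintegral_liminf_le fun a =>
      ENNReal.measurable_ofReal.comp (cont_Lt h a).measurable)
    exact setLIntegral_congr_fun hm fun s hs => (tendsto_Lt hs.2).liminf_eq.symm
  filter_upwards [eventually_lt_of_lt_liminf (hv.trans_le h1)] with a ha
  exact ha.trans_le (lintegral_mono_set inter_subset_left)

theorem exists_sel {ι : Type} [Fintype ι] [DecidableEq ι] (r : ι → ℝ) {b : ℝ} (hb : 0 ≤ b)
    (hr : ∀ i, r i ≤ b) {N : ℕ} (hN : 0 < N) : ∃ (S : Finset ι) (x : ℝ), S.card ≤ N ∧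
      (∀ i, i ∉ S → r i ≤ x) ∧ x ≤ b ∧ (x ≤ 0 ∨ (S.card = N ∧ ∀ i ∈ S, x ≤ r i)) := by
  obtain ⟨S, hS, hS'⟩ := CaseB.exists_top r N
  rcases hS with ⟨hu, hc⟩ | hc
  · exact ⟨S, 0, hc, fun i hi => absurd (hu ▸ Finset.mem_univ i) hi, hb, Or.inl le_rfl⟩
  · obtain ⟨j, hj, hmin⟩ := Finset.exists_min_image S r (Finset.card_pos.1 (by omega))
    exact ⟨S, r j, hc.le, fun i hi => hS' i hi j hj, hr j, Or.inr ⟨hc, hmin⟩⟩

end CaseBnX

open CaseBnX in
theorem caseBnS (hG : GlueBStmt) (hV : VolBStmt) (hC : ClsBStmt) (hR : RhoStmt) : CaseBnStmt := by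
  have _ := hR
  intro m hm h ι _ _ ρ h0 hh hρ hs
  have hf : (0 : ℝ) < (m + 1 + 2).factorial := by positivity
  have hs' : ∑ i, ρ i ^ (m + 1 + 2) / (m + 1 + 2).factorial <
      (1 - (1 - h) ^ (m + 1 + 2)) / (m + 1 + 2).factorial := by
    rw [← Finset.sum_div]
    exact div_lt_div_of_pos_right hs hf
  obtain ⟨v, hv1, hv2⟩ := exists_between hs'
  have hv0 : 0 ≤ v := le_trans (Finset.sum_nonneg fun i _ => by
    have := (hρ i).1
    positivity) hv1.le
  have e1 := ev_lt (d := m + 1) (((ENNReal.ofReal_lt_ofReal_iff_of_nonneg hv0).2 hv2).trans_le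
    (hV (m + 1) h h0 hh))
  have e2 : ∀ᶠ a in 𝓝 (0 : ℝ), 2 * a < h := by
    have hc : Continuous fun a : ℝ => 2 * a := by fun_prop
    exact hc.continuousAt.eventually_lt continuousAt_const (by simpa using h0)
  have e3 : ∀ᶠ a in 𝓝 (0 : ℝ), ∀ i, ρ i + a < h - 2 * a := by
    simp only [eventually_all]
    intro i
    have hc : Continuous fun a : ℝ => ρ i + a := by fun_prop
    have hc' : Continuous fun a : ℝ => h - 2 * a := by fun_prop
    exact hc.continuousAt.eventually_lt hc'.continuousAt (by simpa using (hρ i).2)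
  have e4 : ∀ᶠ a in 𝓝 (0 : ℝ),
      ∑ i, (ρ i + a) ^ (m + 1 + 2) / ((m + 1 + 2).factorial : ℝ) < v := by
    have hc : Continuous fun a : ℝ =>
      ∑ i, (ρ i + a) ^ (m + 1 + 2) / ((m + 1 + 2).factorial : ℝ) := by fun_prop
    exact hc.continuousAt.eventually_lt continuousAt_const (by simpa using hv1)
  have e0 : ∀ᶠ a in 𝓝[>] (0 : ℝ), 0 < a := self_mem_nhdsWithin
  obtain ⟨a, ⟨⟨⟨ha, a1⟩, a2⟩, a3⟩, a4⟩ := ((((e0.and e1).and
    (e2.filter_mono nhdsWithin_le_nhds)).and (e3.filter_mono nhdsWithin_le_nhds)).and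
      (e4.filter_mono nhdsWithin_le_nhds)).exists
  have hr : ∀ i, ρ i + a ≤ h - 2 * a := fun i => (a3 i).le
  have hN : 0 < 2 ^ (m + 1 + 2) - 1 := Nat.sub_pos_of_lt (Nat.one_lt_two_pow (by omega))
  obtain ⟨S, x, hc, hx1, hx2, hx3⟩ := exists_sel (fun i => ρ i + a) (by linarith) hr hN
  obtain ⟨c1, c2, c3, c4⟩ := hC (m + 1) h a ι (fun i => ρ i + a) S x ha a2 hh hr hc hx2 hx3
  refine hG (m + 1) h a (by omega) h0 hh ha ι ρ (fun i => ρ i + a) S x (Lt h a)
    (fun i => ⟨(hρ i).1, by linarith⟩) hx1 c1 c2 c3 c4 (fun s _ hL => ?_)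
    ((ENNReal.ofReal_le_ofReal a4.le).trans_lt a1)
  unfold Lt at hL ⊢
  have h3 := (lt_max_iff.1 hL).resolve_right (lt_irrefl 0)
  have h6 : 0 < h - a - s 0 := (mul_pos_iff_of_pos_left (by positivity)).1 (lt_min_iff.1 h3).2
  rw [max_eq_left h3.le]
  exact ⟨by linarith, by linarith [min_le_left (Lb h s - a) (2 ^ (m + 1 + 1) / a * (h - a - s 0))]⟩

end Vale.Agent.P209
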