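import Vale.Agent.P209.Stm3
import Vale.Agent.P209.CaseB

/-! P209: the profile of the shell belongs to the class of fronts. -/

open Set Filter Topology Function
open scoped Real ContDiff

noncomputable section
namespace Vale.Agent.P209

namespace ClsB

open CaseB

variable {d : ℕ} {h a x : ℝ} {ι : Type} {r : ι → ℝ} {S : Finset ι}

theorem pos_mono {u v : ℝ} (huv : u ≤ v) : pos u ≤ pos v := max_le_max huv le_rfl

theorem pos_nonneg (u : ℝ) : 0 ≤ pos u := le_max_right _ _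

theorem one_le_N (d : ℕ) : (1 : ℝ) ≤ 2 ^ (d + 1) := one_le_pow₀ (by norm_num)

theorem Sp_mono {s : Fin (d + 1) → ℝ} (hs : 0 ≤ s) {i j : ℕ} (hij : i ≤ j) : Sp s i ≤ Sp s j := by
  unfold Sp
  refine Finset.sum_le_sum fun k _ => ?_
  by_cases h1 : k.val < i
  · rw [if_pos h1, if_pos (h1.trans_le hij)]
  · rw [if_neg h1]
    split_ifs
    · exact hs k
    · exact le_rfl

theorem Lb_of_rho {s t : Fin (d + 1) → ℝ} (hρ : rho pos h s (d + 1) ≤ rho pos h t (d + 1))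
    (hσ : ∑ j, s j ≤ ∑ j, t j) : Lb h t ≤ Lb h s := by
  have h1 := one_le_N d
  have h2 := mul_le_mul_of_nonneg_left hρ (le_trans zero_le_one h1)
  have h3 := mul_le_mul_of_nonneg_left hσ (show (0 : ℝ) ≤ 2 * 2 ^ (d + 1) - 1 by linarith)
  unfold Lb
  linarith

theorem rho_le (hR : RhoStmt) {s t : Fin (d + 1) → ℝ}
    (hst : ∀ j, j ≤ d + 1 → pos (Sp s j - h) ≤ pos (Sp t j - h)) :
    rho pos h s (d + 1) ≤ rho pos h t (d + 1) := by
  have := (hR d h).2.2.2.2.1 pos pos s t 0 (d + 1) le_rfl fun j hj => by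
    rw [add_zero]; exact hst j hj
  rwa [add_zero] at this

theorem Lt_nonneg (s : Fin (d + 1) → ℝ) : 0 ≤ Lt h a s := le_max_right _ _

theorem Lt_anti (hR : RhoStmt) (ha : 0 < a) {s t : Fin (d + 1) → ℝ}
    (hst : ∀ j, Sp s j ≤ Sp t j) (h0 : s 0 ≤ t 0) : Lt h a t ≤ Lt h a s := by
  have h1 : Lb h t ≤ Lb h s := by
    refine Lb_of_rho (rho_le hR fun j _ => pos_mono (by linarith [hst j])) ?_
    rw [← ((hR d h).1 s).2.1, ← ((hR d h).1 t).2.1]
    exact hst _
  unfold Lt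
  refine max_le_max (min_le_min (by linarith) ?_) le_rfl
  exact mul_le_mul_of_nonneg_left (by linarith) (by positivity)

theorem Lt_single (hR : RhoStmt) (ha : 0 < a) (s : Fin (d + 1) → ℝ) (i : Fin (d + 1)) {u v : ℝ}
    (huv : u ≤ v) : Lt h a (s + Pi.single i v) ≤ Lt h a (s + Pi.single i u) := by
  refine Lt_anti hR ha (fun j => ?_) ?_
  · rw [(hR d h).2.2.1, (hR d h).2.2.1]
    split_ifs <;> linarith
  · simp only [Pi.add_apply, Pi.single_apply]
    split_ifs <;> linarith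

theorem sum_nonneg' {s : Fin (d + 1) → ℝ} (hs : 0 ≤ s) : 0 ≤ ∑ j, s j :=
  Finset.sum_nonneg fun j _ => hs j

theorem Lt_eq (hR : RhoStmt) (ha : 0 < a) (hh : 2 * h < 1) {s : Fin (d + 1) → ℝ} (hs : 0 ≤ s)
    (hu : s 0 ≤ h - 2 * a) : Lt h a s = max (Lb h s - a) 0 := by
  have hN := one_le_N d
  have h2 := ((hR d h).2.2.2.2.2.1 pos s (d + 1) pos_nonneg).1
  have h3 := sum_nonneg' hs
  have h4 := mul_nonneg (le_trans zero_le_one hN) h2
  have h5 := mul_nonneg (show (0 : ℝ) ≤ 2 * 2 ^ (d + 1) - 1 by linarith) h3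
  unfold Lt
  rw [min_eq_left]
  have h1 : 2 ^ (d + 1) / a * a ≤ 2 ^ (d + 1) / a * (h - a - s 0) :=
    mul_le_mul_of_nonneg_left (by linarith) (by positivity)
  rw [div_mul_cancel₀ _ ha.ne'] at h1
  unfold Lb
  linarith

theorem Lt_eq' (hR : RhoStmt) (ha : 0 < a) (hh : 2 * h < 1) {s : Fin (d + 1) → ℝ} (hs : 0 ≤ s)
    (hσ : ∑ j, s j ≤ h - 2 * a) :
    Lt h a s = 2 ^ (d + 1) - 1 + h - a - (2 * 2 ^ (d + 1) - 1) * ∑ j, s j := by
  have hN := one_le_N d
  have h1 : rho pos h s (d + 1) = 0 := (hR d h).2.2.2.2.2.2.2.2 s (d + 1) hs (by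
    rw [((hR d h).1 s).2.1]; linarith)
  have h2 := mul_le_mul_of_nonneg_left hσ (show (0 : ℝ) ≤ 2 * 2 ^ (d + 1) - 1 by linarith)
  have h3 := mul_nonneg (sub_nonneg.2 hN) (show (0 : ℝ) ≤ 1 - 2 * h by linarith)
  have h4 := mul_nonneg (sub_nonneg.2 hN) ha.le
  rw [Lt_eq hR ha hh hs ((zero_le_sum hs).trans hσ), Lb, h1, max_eq_left (by linarith)]
  ring

theorem lipE (hR : RhoStmt) (ha : 0 < a) : LipE (Lt (d := d) h a) := by
  refine ⟨2 ^ (d + 1) * (3 * (d + 1)) + (d + 1) + 2 ^ (d + 1) / a, fun s t _ _ => ?_⟩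
  have h1 : ∀ j, |s j - t j| ≤ ‖s - t‖ := fun j => norm_le_pi_norm (s - t) j
  have h2 : |∑ j, s j - ∑ j, t j| ≤ (d + 1) * ‖s - t‖ := by
    rw [← Finset.sum_sub_distrib]
    refine (Finset.abs_sum_le_sum_abs _ _).trans ((Finset.sum_le_sum fun j _ => h1 j).trans ?_)
    simp
  have h3 := (hR d h).2.2.2.2.2.2.2.1 s t (d + 1)
  have hN : (0 : ℝ) ≤ 2 ^ (d + 1) := by positivity
  have h4 : |Lb h s - a - (Lb h t - a)| ≤ (2 ^ (d + 1) * (3 * (d + 1)) + (d + 1)) * ‖s - t‖ := by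
    obtain ⟨a1, a2⟩ := abs_le.1 h2
    obtain ⟨a3, a4⟩ := abs_le.1 h3
    have b1 := mul_le_mul_of_nonneg_left a1 hN
    have b2 := mul_le_mul_of_nonneg_left a2 hN
    have b3 := mul_le_mul_of_nonneg_left a3 hN
    have b4 := mul_le_mul_of_nonneg_left a4 hN
    unfold Lb
    rw [abs_le]
    constructor <;> linarith
  have h5 : |2 ^ (d + 1) / a * (h - a - s 0) - 2 ^ (d + 1) / a * (h - a - t 0)|
      ≤ 2 ^ (d + 1) / a * ‖s - t‖ := by
    have e : 2 ^ (d + 1) / a * (h - a - s 0) - 2 ^ (d + 1) / a * (h - a - t 0)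
        = -(2 ^ (d + 1) / a * (s 0 - t 0)) := by ring
    rw [e, abs_neg, abs_mul, abs_of_pos (by positivity)]
    exact mul_le_mul_of_nonneg_left (h1 0) (by positivity)
  unfold Lt
  refine (abs_max_sub_max_le_abs _ _ _).trans ((abs_min_sub_min_le_max _ _ _ _).trans ?_)
  rw [add_mul _ (2 ^ (d + 1) / a)]
  exact max_le (h4.trans (le_add_of_nonneg_right (by positivity)))
    (h5.trans (le_add_of_nonneg_left (by positivity)))

theorem card_cast (d : ℕ) : ((2 ^ (d + 2) - 1 : ℕ) : ℝ) = 2 * 2 ^ (d + 1) - 1 := by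
  rw [Nat.cast_sub Nat.one_le_two_pow]
  push_cast
  ring

theorem phi_sub' (hS : S.card ≤ 2 ^ (d + 2) - 1) {σ σ' : ℝ} (hσ : σ ≤ σ') :
    ∑ i ∈ S, max (r i - σ) 0
      ≤ ∑ i ∈ S, max (r i - σ') 0 + (2 * 2 ^ (d + 1) - 1) * (σ' - σ) := by
  have h1 : ∑ i ∈ S, max (r i - σ) 0 ≤ ∑ i ∈ S, (max (r i - σ') 0 + (σ' - σ)) :=
    Finset.sum_le_sum fun i _ => max_le (by linarith [le_max_left (r i - σ') 0])
      (by linarith [le_max_right (r i - σ') 0])
  rw [Finset.sum_add_distrib, Finset.sum_const, nsmul_eq_mul] at h1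
  have h2 : (S.card : ℝ) ≤ 2 * 2 ^ (d + 1) - 1 := by
    rw [← card_cast]; exact_mod_cast hS
  have h3 := mul_le_mul_of_nonneg_right h2 (sub_nonneg.2 hσ)
  linarith

theorem single_nonneg {s : Fin (d + 1) → ℝ} (hs : 0 ≤ s) (i : Fin (d + 1)) {δ : ℝ}
    (hδ : 0 ≤ δ) : 0 ≤ s + Pi.single i δ := add_nonneg hs (Pi.single_nonneg.2 hδ)

theorem cls (hR : RhoStmt) (ha : 0 < a) (hh : 2 * h < 1) (hr : ∀ i, r i ≤ h - 2 * a)
    (hS : S.card ≤ 2 ^ (d + 2) - 1) (hx : x ≤ h - 2 * a)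
    (hx' : x ≤ 0 ∨ (S.card = 2 ^ (d + 2) - 1 ∧ ∀ i ∈ S, x ≤ r i)) :
    Cls 0 x fun s : Fin (d + 1) → ℝ => ∑ i ∈ S, max (r i - ∑ j, s j) 0 - Lt h a s := by
  refine ⟨fun s hs i δ hδ => ?_, fun s hs i j hij δ hδ => ?_, fun s hs k j hkj δ hδ hp => ?_,
    fun s hs δ hδ hp => ?_⟩
  · simp only [sum_single]
    rcases le_total (∑ j, s j) (h - 2 * a) with h1 | h1
    · rw [Lt_eq' hR ha hh hs h1]
      rcases le_total (∑ j, s j + δ) (h - 2 * a) with h2 | h2
      · rw [Lt_eq' hR ha hh (single_nonneg hs i hδ) (by rwa [sum_single]), sum_single]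
        linarith [phi_sub' (r := r) hS (le_add_of_nonneg_right hδ : ∑ j, s j ≤ ∑ j, s j + δ)]
      · have h3 := Lt_single (h := h) hR ha s i (show h - 2 * a - ∑ j, s j ≤ δ by linarith)
        rw [Lt_eq' hR ha hh (single_nonneg hs i (sub_nonneg.2 h1))
          (by rw [sum_single]; linarith), sum_single] at h3
        have h4 := phi_sub' (r := r) hS h1
        rw [phi_zero hr le_rfl] at h4
        linarith [phi_nonneg (r := r) (S := S) (∑ j, s j + δ)]
    · have h3 := Lt_single (h := h) hR ha s i hδ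
      rw [Pi.single_zero, add_zero] at h3
      rw [phi_zero hr h1, phi_zero hr (by linarith)]
      linarith
  · have hj : j ≠ 0 := ((Fin.zero_le i).trans_lt hij).ne'
    have h3 : Lt h a (s + Pi.single i δ) ≤ Lt h a (s + Pi.single j δ) := by
      refine Lt_anti hR ha (fun m => ?_) ?_
      · rw [(hR d h).2.2.1, (hR d h).2.2.1]
        by_cases h1 : (j : ℕ) < m
        · rw [if_pos h1, if_pos (show (i : ℕ) < m from lt_trans hij h1)]
        · rw [if_neg h1]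
          split_ifs <;> linarith
      · rw [single_ne s hj]
        exact le_single s i hδ
    simp only [sum_single]
    linarith
  · have hj : j ≠ 0 := by
      rintro rfl
      simp at hkj
    have h1 : s 0 ≤ ps s k :=
      Finset.single_le_sum (f := s) (fun j _ => hs j)
        (Finset.mem_filter.2 ⟨Finset.mem_univ _, Fin.zero_le k⟩)
    have h2 : Lb h (s + Pi.single j δ) ≤ Lb h (s + Pi.single 0 δ) := by
      refine Lb_of_rho (rho_le hR fun m _ => ?_) (by rw [sum_single, sum_single])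
      rw [(hR d h).2.2.1, (hR d h).2.2.1]
      by_cases h3 : (j : ℕ) < m
      · rw [if_pos h3, if_pos (show ((0 : Fin (d + 1)) : ℕ) < m from
          lt_of_le_of_lt (Nat.zero_le _) h3)]
      · have h4 := Sp_mono hs (show m ≤ k.val + 1 by omega)
        rw [(((hR d h).1 s).2.2 k).2] at h4
        refine le_trans (le_of_eq (max_eq_right ?_)) (pos_nonneg _)
        split_ifs <;> linarith
    simp only [sum_single]
    rw [Lt_eq hR ha hh (single_nonneg hs 0 hδ) (by rw [single_zero]; linarith),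
      Lt_eq hR ha hh (single_nonneg hs j hδ) (by rw [single_ne s hj]; linarith)]
    linarith [max_le_max (sub_le_sub_right h2 a) (le_refl (0 : ℝ))]
  · have h1 := sum_nonneg' hs
    rcases hx' with hx0 | ⟨hc, hx1⟩
    · linarith
    simp only [sum_single]
    rw [Lt_eq' hR ha hh (single_nonneg hs 0 hδ) (by rw [sum_single]; linarith), sum_single,
      Lt_eq' hR ha hh hs (by linarith)]
    have h3 : ∑ i ∈ S, max (r i - (∑ j, s j + δ)) 0 = ∑ i ∈ S, (max (r i - ∑ j, s j) 0 - δ) := by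
      refine Finset.sum_congr rfl fun i hi => ?_
      have h4 := hx1 i hi
      rw [max_eq_left (by linarith), max_eq_left (by linarith)]
      ring
    rw [h3, Finset.sum_sub_distrib, Finset.sum_const, hc, nsmul_eq_mul, card_cast]
    linarith

theorem phi_le (hR : RhoStmt) (ha : 0 < a) (hh : 2 * h < 1) (hr : ∀ i, r i ≤ h - 2 * a)
    (hS : S.card ≤ 2 ^ (d + 2) - 1) (s : Fin (d + 1) → ℝ) (hs : 0 ≤ s) :
    ∑ i ∈ S, max (r i - ∑ j, s j) 0 ≤ Lt h a s := by
  rcases le_total (∑ j, s j) (h - 2 * a) with h3 | h3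
  · have h4 := phi_sub' (r := r) hS h3
    have hN := one_le_N d
    have h5 := mul_nonneg (sub_nonneg.2 hN) (show (0 : ℝ) ≤ 1 - 2 * h by linarith)
    have h6 := mul_nonneg (sub_nonneg.2 hN) ha.le
    rw [phi_zero hr le_rfl] at h4
    rw [Lt_eq' hR ha hh hs h3]
    linarith
  · rw [phi_zero hr h3]
    exact Lt_nonneg _

theorem sum_lt (hR : RhoStmt) (ha : 0 < a) (hh : 2 * h < 1) (hb : 0 ≤ h - 2 * a)
    (hr : ∀ i, r i ≤ h - 2 * a) (hS : S.card ≤ 2 ^ (d + 2) - 1) :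
    ∑ i ∈ S, r i < Lt h a (0 : Fin (d + 1) → ℝ) := by
  have h1 : ∑ i ∈ S, r i ≤ S.card • (h - 2 * a) :=
    Finset.sum_le_card_nsmul _ _ _ fun i _ => hr i
  rw [nsmul_eq_mul] at h1
  have h2 : (S.card : ℝ) ≤ 2 * 2 ^ (d + 1) - 1 := by
    rw [← card_cast]; exact_mod_cast hS
  have h3 := mul_le_mul_of_nonneg_right h2 hb
  have hN := one_le_N d
  have h5 := mul_nonneg (sub_nonneg.2 hN) (show (0 : ℝ) ≤ 1 - 2 * h by linarith)
  have h6 := mul_nonneg (sub_nonneg.2 hN) ha.le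
  rw [Lt_eq' hR ha hh le_rfl (by simpa using hb)]
  simp only [Pi.zero_apply, Finset.sum_const_zero]
  linarith

end ClsB

open ClsB in
theorem clsBS (hR : RhoStmt) : ClsBStmt := fun _ _ _ _ _ _ _ ha ha2 hh hr hS hx hx' =>
  ⟨lipE hR ha, cls hR ha hh hr hS hx hx', phi_le hR ha hh hr hS,
    sum_lt hR ha hh (by linarith) hr hS⟩

end Vale.Agent.P209
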