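import Vale.Agent.P209.Stm3
import Vale.Agent.P209.All

open Set Filter Topology Function
open scoped Real ContDiff

noncomputable section
namespace Vale.Agent.P209
namespace GeoL

variable {d : ℕ}

/-- time and cross-section coordinates -/
def prL (d : ℕ) : (Option (Fin (d + 1)) → ℝ) →L[ℝ] ℝ × (Fin (d + 1) → ℝ) :=
  (ContinuousLinearMap.proj none).prod
    (ContinuousLinearMap.pi fun j => ContinuousLinearMap.proj (some j))

theorem prL_apply (q : Option (Fin (d + 1)) → ℝ) : prL d q = (q none, cs q) := rfl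

def Psi (U V : ℝ × (Fin (d + 1) → ℝ) → ℝ) (q : Option (Fin (d + 1)) → ℝ) :
    Option (Fin (d + 1)) → ℝ :=
  fun i => if i = none then U (prL d q) else if i = some (Fin.last d) then V (prL d q) else q i

theorem ne_last {j : Fin (d + 1)} (hj : j ≠ Fin.last d) :
    (some j : Option (Fin (d + 1))) ≠ some (Fin.last d) := fun h => hj (Option.some_injective _ h)

theorem Psi_none (U V : ℝ × (Fin (d + 1) → ℝ) → ℝ) (q : Option (Fin (d + 1)) → ℝ) :
    Psi U V q none = U (prL d q) := if_pos rfl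

theorem Psi_last (U V : ℝ × (Fin (d + 1) → ℝ) → ℝ) (q : Option (Fin (d + 1)) → ℝ) :
    Psi U V q (some (Fin.last d)) = V (prL d q) := by
  unfold Psi
  rw [if_neg (Option.some_ne_none _), if_pos rfl]

theorem Psi_other (U V : ℝ × (Fin (d + 1) → ℝ) → ℝ) (q : Option (Fin (d + 1)) → ℝ)
    {j : Fin (d + 1)} (hj : j ≠ Fin.last d) : Psi U V q (some j) = q (some j) := by
  unfold Psi
  rw [if_neg (Option.some_ne_none _), if_neg (ne_last hj)]

theorem Psi_eq (U V : ℝ × (Fin (d + 1) → ℝ) → ℝ) (q : Option (Fin (d + 1)) → ℝ) :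
    Psi U V q = pt (U (q none, cs q)) (V (q none, cs q)) (cs q) := by
  funext i
  rcases i with _ | j
  · exact Psi_none U V q
  · by_cases hj : j = Fin.last d
    · rw [hj, Psi_last]
      show _ = update (cs q) (Fin.last d) _ (Fin.last d)
      rw [update_self, prL_apply]
    · rw [Psi_other U V q hj]
      show _ = update (cs q) (Fin.last d) _ j
      rw [update_of_ne hj]
      rfl

theorem Psi_smooth {U V : ℝ × (Fin (d + 1) → ℝ) → ℝ} (hU : ContDiff ℝ ∞ U) (hV : ContDiff ℝ ∞ V) :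
    ContDiff ℝ ∞ (Psi U V) := by
  refine contDiff_pi.2 fun i => ?_
  unfold Psi
  split_ifs
  · exact hU.comp (prL d).contDiff
  · exact hV.comp (prL d).contDiff
  · exact contDiff_apply ℝ ℝ i

theorem fd_comp {U : ℝ × (Fin (d + 1) → ℝ) → ℝ} (hU : ContDiff ℝ ∞ U)
    (q v : Option (Fin (d + 1)) → ℝ) :
    fderiv ℝ (fun q => U (prL d q)) q v = fderiv ℝ U (q none, cs q) (v none, cs v) := by
  have h := ((hU.differentiable (by simp) (prL d q)).hasFDerivAt.comp q (prL d).hasFDerivAt).fderiv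
  have e : (fun q => U (prL d q)) = U ∘ prL d := rfl
  rw [e, h, ContinuousLinearMap.comp_apply, prL_apply v, prL_apply q]

theorem fd_coord {U V : ℝ × (Fin (d + 1) → ℝ) → ℝ} (hU : ContDiff ℝ ∞ U) (hV : ContDiff ℝ ∞ V)
    (q v : Option (Fin (d + 1)) → ℝ) (i : Option (Fin (d + 1))) :
    fderiv ℝ (Psi U V) q v i = fderiv ℝ (fun q => Psi U V q i) q v := by
  have h := ((Psi_smooth hU hV).differentiable (by simp) q).hasFDerivAt
  rw [(hasFDerivAt_pi'.1 h i).fderiv]
  rfl

theorem fd_proj (q v : Option (Fin (d + 1)) → ℝ) (i : Option (Fin (d + 1))) :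
    fderiv ℝ (fun q : Option (Fin (d + 1)) → ℝ => q i) q v = v i := by
  rw [(hasFDerivAt_apply i q).fderiv]
  rfl

theorem fd_Psi {U V : ℝ × (Fin (d + 1) → ℝ) → ℝ} (hU : ContDiff ℝ ∞ U) (hV : ContDiff ℝ ∞ V)
    (q v : Option (Fin (d + 1)) → ℝ) :
    fderiv ℝ (Psi U V) q v none = fderiv ℝ U (q none, cs q) (v none, cs v) ∧
    fderiv ℝ (Psi U V) q v (some (Fin.last d)) = fderiv ℝ V (q none, cs q) (v none, cs v) ∧
    ∀ j, j ≠ Fin.last d → fderiv ℝ (Psi U V) q v (some j) = v (some j) := by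
  refine ⟨?_, ?_, fun j hj => ?_⟩
  · rw [fd_coord hU hV, ← fd_comp hU]
    simp only [Psi_none]
  · rw [fd_coord hU hV, ← fd_comp hV]
    simp only [Psi_last]
  · rw [fd_coord hU hV, ← fd_proj q v]
    simp only [Psi_other _ _ _ hj]

theorem Psi_inj {U V : ℝ × (Fin (d + 1) → ℝ) → ℝ} (hU : ContDiff ℝ ∞ U) (hV : ContDiff ℝ ∞ V)
    {q : Option (Fin (d + 1)) → ℝ}
    (h : d1 U (q none, cs q) * dL V (q none, cs q) - d1 V (q none, cs q) * dL U (q none, cs q)
      ≠ 0) : Injective (fderiv ℝ (Psi U V) q) := by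
  refine (injective_iff_map_eq_zero _).2 fun v hv => ?_
  obtain ⟨h1, h2, h3⟩ := fd_Psi hU hV q v
  rw [hv] at h1 h2 h3
  have e : ((v none, cs v) : ℝ × (Fin (d + 1) → ℝ)) = v none • ((1, 0) : ℝ × (Fin (d + 1) → ℝ)) +
      v (some (Fin.last d)) • ((0, Pi.single (Fin.last d) 1) : ℝ × (Fin (d + 1) → ℝ)) := by
    refine Prod.ext (by simp) (funext fun j => ?_)
    by_cases hj : j = Fin.last d
    · rw [hj]
      simp [cs]
    · have := h3 j hj
      simp only [Pi.zero_apply] at this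
      simp [cs, hj, ← this]
  rw [e, map_add, map_smul, map_smul] at h1 h2
  obtain ⟨a, b⟩ := Lift.solve2 (x := v none) (y := v (some (Fin.last d)))
    (a := d1 U (q none, cs q)) (b := dL U (q none, cs q)) (c := d1 V (q none, cs q))
    (d := dL V (q none, cs q)) h h1.symm h2.symm
  funext i
  rcases i with _ | j
  · exact a
  · by_cases hj : j = Fin.last d
    · rw [hj]
      exact b
    · exact (h3 j hj).symm

theorem cs_single_none (a : ℝ) : cs (Pi.single none a : Option (Fin (d + 1)) → ℝ) = 0 := by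
  funext j
  exact Pi.single_eq_of_ne (Option.some_ne_none _) _

theorem cs_single_some (k : Fin (d + 1)) :
    cs (Pi.single (some k) 1 : Option (Fin (d + 1)) → ℝ) = Pi.single k 1 := by
  funext j
  by_cases hj : j = k
  · rw [hj]
    simp [cs]
  · simp [cs, hj]

theorem char {U V : ℝ × (Fin (d + 1) → ℝ) → ℝ} (hU : ContDiff ℝ ∞ U) (hV : ContDiff ℝ ∞ V)
    {q p Q : Option (Fin (d + 1)) → ℝ}
    (h : ∀ v : Option (Fin (d + 1)) → ℝ, ∑ i, Q i * fderiv ℝ (Psi U V) q v i = ∑ i, p i * v i) :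
    Q none * d1 U (q none, cs q) + Q (some (Fin.last d)) * d1 V (q none, cs q) = p none ∧
    Q none * dL U (q none, cs q) + Q (some (Fin.last d)) * dL V (q none, cs q)
      = p (some (Fin.last d)) ∧
    ∀ j, j ≠ Fin.last d → Q none * fderiv ℝ U (q none, cs q) (0, Pi.single j 1) +
      Q (some (Fin.last d)) * fderiv ℝ V (q none, cs q) (0, Pi.single j 1) + Q (some j)
        = p (some j) := by
  have key : ∀ k : Option (Fin (d + 1)),
      Q none * fderiv ℝ U (q none, cs q)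
          ((Pi.single k 1 : Option (Fin (d + 1)) → ℝ) none, cs (Pi.single k 1)) +
        Q (some (Fin.last d)) * fderiv ℝ V (q none, cs q)
          ((Pi.single k 1 : Option (Fin (d + 1)) → ℝ) none, cs (Pi.single k 1)) +
        ∑ j ∈ Finset.univ.erase (Fin.last d),
          Q (some j) * (Pi.single k 1 : Option (Fin (d + 1)) → ℝ) (some j) = p k := by
    intro k
    have e := h (Pi.single k 1)
    obtain ⟨h1, h2, h3⟩ := fd_Psi hU hV q (Pi.single k 1)
    have e2 : ∑ i, p i * (Pi.single k 1 : Option (Fin (d + 1)) → ℝ) i = p k := by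
      rw [Finset.sum_eq_single k]
      · rw [Pi.single_eq_same, mul_one]
      · intro i _ hi
        rw [Pi.single_eq_of_ne hi, mul_zero]
      · intro hk
        exact absurd (Finset.mem_univ k) hk
    rw [e2, Fintype.sum_option, ← Finset.add_sum_erase _ _ (Finset.mem_univ (Fin.last d)), h1, h2,
      ← add_assoc] at e
    rw [← e]
    refine congrArg _ (Finset.sum_congr rfl fun j hj => ?_)
    rw [h3 j (Finset.ne_of_mem_erase hj)]
  refine ⟨?_, ?_, fun j hj => ?_⟩
  · have e := key none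
    rw [cs_single_none, Pi.single_eq_same, Finset.sum_eq_zero (fun j _ => by
      rw [Pi.single_eq_of_ne (Option.some_ne_none _), mul_zero]), add_zero] at e
    exact e
  · have e := key (some (Fin.last d))
    rw [cs_single_some, Pi.single_eq_of_ne (Option.some_ne_none _).symm,
      Finset.sum_eq_zero (fun j hj => by
        rw [Pi.single_eq_of_ne (ne_last (Finset.ne_of_mem_erase hj)), mul_zero]), add_zero] at e
    exact e
  · have e := key (some j)
    rw [cs_single_some, Pi.single_eq_of_ne (Option.some_ne_none _).symm,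
      Finset.sum_eq_single j, Pi.single_eq_same, mul_one] at e
    · exact e
    · intro i _ hi
      rw [Pi.single_eq_of_ne (fun h => hi (Option.some_injective _ h)), mul_zero]
    · intro hj'
      exact absurd (Finset.mem_erase.2 ⟨hj, Finset.mem_univ j⟩) hj'

theorem d1_eq {G : ℝ × (Fin (d + 1) → ℝ) → ℝ} (hG : ContDiff ℝ ∞ G) (t : ℝ)
    (s : Fin (d + 1) → ℝ) : d1 G (t, s) = deriv (fun u => G (u, s)) t := by
  have h1 : HasDerivAt (fun u : ℝ => ((u, s) : ℝ × (Fin (d + 1) → ℝ))) (1, 0) t :=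
    (hasDerivAt_id t).prodMk (hasDerivAt_const t s)
  exact ((hG.differentiable (by simp) (t, s)).hasFDerivAt.comp_hasDerivAt t h1).deriv.symm

theorem d1_shift {G : ℝ × (Fin (d + 1) → ℝ) → ℝ} (hG : ContDiff ℝ ∞ G) {T c : ℝ}
    {s : Fin (d + 1) → ℝ} (h : ∀ t, G (t + T, s) = G (t, s) + c) (k : ℤ) (t : ℝ) :
    d1 G (t + k * T, s) = d1 G (t, s) := by
  rw [d1_eq hG, d1_eq hG]
  exact Lift.deriv_shift (Lift.shift_int (g := fun u => G (u, s)) h k) t

theorem d1_comp {G : ℝ × (Fin (d + 1) → ℝ) → ℝ} (hG : ContDiff ℝ ∞ G) (ε t : ℝ)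
    (s : Fin (d + 1) → ℝ) :
    d1 (fun p : ℝ × (Fin (d + 1) → ℝ) => G (p.1, fun j => p.2 j + ε)) (t, s)
      = d1 G (t, fun j => s j + ε) := by
  have hG' : ContDiff ℝ ∞ fun p : ℝ × (Fin (d + 1) → ℝ) => G (p.1, fun j => p.2 j + ε) :=
    hG.comp (contDiff_fst.prodMk (contDiff_pi.2 fun j =>
      ((contDiff_apply ℝ ℝ j).comp contDiff_snd).add contDiff_const))
  rw [d1_eq hG', d1_eq hG]

theorem fd_shift {U : ℝ × (Fin (d + 1) → ℝ) → ℝ} {T : ℝ} (h : ∀ t s, U (t + T, s) = U (t, s))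
    (k : ℤ) (t : ℝ) (s : Fin (d + 1) → ℝ) :
    fderiv ℝ U (t + k * T, s) = fderiv ℝ U (t, s) := by
  have e : ((t + k * T, s) : ℝ × (Fin (d + 1) → ℝ)) = (t, s) + (k * T, 0) := by simp
  rw [e, ← fderiv_comp_add_right]
  have e1 : (fun p : ℝ × (Fin (d + 1) → ℝ) => U (p + (k * T, 0))) = U := by
    funext p
    have e2 := Lift.shift_int (g := fun u => U (u, p.2)) (T := T) (c := 0)
      (fun u => by rw [h u p.2, add_zero]) k p.1
    simp only [mul_zero, add_zero] at e2
    have e3 : p + ((k * T, 0) : ℝ × (Fin (d + 1) → ℝ)) = (p.1 + k * T, p.2) := by ext <;> simp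
    rw [e3, e2]
  rw [e1]

theorem fd_zone {C : Set (Fin (d + 1) → ℝ)} (P : Loop2 d C) (hC : IsOpen C) {t : ℝ}
    {s : Fin (d + 1) → ℝ} (hs : s ∈ C) (ht : |t| < P.z) (w : ℝ × (Fin (d + 1) → ℝ)) :
    fderiv ℝ P.V (t, s) w - fderiv ℝ P.U (t, s) w = P.ρ0 * w.1 := by
  have o1 : ∀ᶠ p : ℝ × (Fin (d + 1) → ℝ) in 𝓝 (t, s), p.2 ∈ C :=
    continuous_snd.continuousAt.preimage_mem_nhds (hC.mem_nhds hs)
  have o2 : ∀ᶠ p : ℝ × (Fin (d + 1) → ℝ) in 𝓝 (t, s), |p.1| < P.z :=
    continuous_fst.abs.continuousAt.eventually_lt continuousAt_const ht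
  have h1 : HasFDerivAt (fun p => P.V p - P.U p) (fderiv ℝ P.V (t, s) - fderiv ℝ P.U (t, s))
      (t, s) := (P.sV.differentiable (by simp) _).hasFDerivAt.sub
        (P.sU.differentiable (by simp) _).hasFDerivAt
  have h2 : HasFDerivAt (fun p : ℝ × (Fin (d + 1) → ℝ) => P.ρ0 * p.1)
      (P.ρ0 • ContinuousLinearMap.fst ℝ ℝ (Fin (d + 1) → ℝ)) (t, s) :=
    hasFDerivAt_fst.const_mul P.ρ0
  have h3 : (fun p => P.V p - P.U p) =ᶠ[𝓝 (t, s)] fun p : ℝ × (Fin (d + 1) → ℝ) => P.ρ0 * p.1 := by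
    filter_upwards [o1, o2] with p hp1 hp2
    exact (P.zone p.1 p.2 hp1 hp2).2
  have h4 := h1.unique (h2.congr_of_eventuallyEq h3)
  exact congrArg (fun L : ℝ × (Fin (d + 1) → ℝ) →L[ℝ] ℝ => L w) h4

/-- the cuts at the cross-section coordinates -/
def cu (d : ℕ) (c : ℝ × ℝ → ℝ × ℝ) (i : Option (Fin (d + 1))) : ℝ × ℝ → ℝ × ℝ :=
  i.elim (fun w => w) fun _ => c

/-- the lattice vector of the zone -/
def vz (d : ℕ) (i : Option (Fin (d + 1))) : ℤ :=
  if i = none then -1 else if i = some (Fin.last d) then 1 else 0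

theorem cu_shift (c : ℝ × ℝ → ℝ × ℝ) (ρ : ℝ) (y : Ph (Option (Fin (d + 1)))) :
    pairs (cu d c) (y + (0, Pi.single none ρ)) = pairs (cu d c) y + (0, Pi.single none ρ) := by
  refine Prod.ext (funext fun i => ?_) (funext fun i => ?_)
  · rcases i with _ | j <;> simp [pairs, cu]
  · rcases i with _ | j <;> simp [pairs, cu]

/-- domain of the cotangent lift -/
def AM {C : Set (Fin (d + 1) → ℝ)} (P : Loop2 d C) : Set (Ph (Option (Fin (d + 1)))) :=
  {x | cs x.1 ∈ C ∧ 0 ≤ x.2 none ∧ x.2 none < d1 P.G (x.1 none, cs x.1) ∧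
    ∀ j, 0 < x.2 (some j) ∧ x.2 (some j) < 1}

theorem lift {C : Set (Fin (d + 1) → ℝ)} (P : Loop2 d C) (hC : IsOpen C) :
    ∃ F : Ph (Option (Fin (d + 1))) → Ph (Option (Fin (d + 1))),
      (∀ x, cs x.1 ∈ C → SympAt F x) ∧ (∀ x, (F x).1 = Psi P.U P.V x.1) ∧
      (∀ x ∈ AM P, ∀ y ∈ AM P, Lat (F x) (F y) →
        (∃ k : ℤ, x.1 none - y.1 none = k * P.T) ∧ cs x.1 = cs y.1 ∧ x.2 = y.2) ∧
      ∀ y, cs y.1 ∈ C → |y.1 none| < P.z →
        F (y + (0, Pi.single none P.ρ0)) = F y + (0, fun j => (vz d j : ℝ)) := by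
  obtain ⟨F, hF1, hF2, hF3⟩ := cotA (Option (Fin (d + 1))) (Psi P.U P.V) (fun _ => 0)
  have hinj : ∀ x : Ph (Option (Fin (d + 1))), cs x.1 ∈ C →
      Injective (fderiv ℝ (Psi P.U P.V) x.1) := fun x hx => Psi_inj P.sU P.sV (P.det _ _ hx)
  have hch := fun (x : Ph (Option (Fin (d + 1)))) (hx : cs x.1 ∈ C) =>
    char (Q := (F x).2) (p := x.2) (q := x.1) P.sU P.sV (fun v => by
      have e := hF2 x (hinj x hx) v
      rw [fderiv_fun_const, Pi.zero_apply, zero_apply, add_zero] at e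
      exact e)
  refine ⟨F, fun x hx => hF3 x (Psi_smooth P.sU P.sV).contDiffAt contDiffAt_const (hinj x hx),
    hF1, ?_, ?_⟩
  · rintro x ⟨xC, x0, x1, x3⟩ y ⟨yC, y0, y1, y3⟩ ⟨hb, hl⟩
    rw [hF1, hF1] at hb
    have bU := congrFun hb none
    have bV := congrFun hb (some (Fin.last d))
    rw [Psi_none, Psi_none] at bU
    rw [Psi_last, Psi_last] at bV
    have bo : ∀ j, j ≠ Fin.last d → cs x.1 j = cs y.1 j := fun j hj => by
      have e := congrFun hb (some j)
      rw [Psi_other _ _ _ hj, Psi_other _ _ _ hj] at e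
      exact e
    obtain ⟨eD, M, hM⟩ := P.inj (x.1 none) (y.1 none) _ xC _ yC bo bU bV
    obtain ⟨cx1, cx2, cx3⟩ := hch x xC
    obtain ⟨cy1, cy2, cy3⟩ := hch y yC
    have ht : x.1 none = y.1 none + M * P.T := by linarith
    have dU := fd_shift P.perU M (y.1 none) (cs y.1)
    have dV := fd_shift P.perV M (y.1 none) (cs y.1)
    have dG := d1_shift P.sG (fun t => P.perG t _ yC) M (y.1 none)
    rw [← ht] at dU dV dG
    rw [eD] at cx1 cx2 cx3 x1
    unfold d1 at cx1 cy1
    unfold dL at cx2 cy2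
    rw [dU, dV] at cx1 cx2 cx3
    rw [dG] at x1
    obtain ⟨a, ha⟩ := hl none
    obtain ⟨b, hb'⟩ := hl (some (Fin.last d))
    have e1 : (a : ℝ) * d1 P.U (y.1 none, cs y.1) + b * d1 P.V (y.1 none, cs y.1) =
        x.2 none - y.2 none := by
      unfold d1
      rw [← ha, ← hb']
      linear_combination cx1 - cy1
    have e2 : (a : ℝ) * dL P.U (y.1 none, cs y.1) + b * dL P.V (y.1 none, cs y.1) =
        x.2 (some (Fin.last d)) - y.2 (some (Fin.last d)) := by
      unfold dL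
      rw [← ha, ← hb']
      linear_combination cx2 - cy2
    obtain ⟨a0, b0⟩ := P.lat _ _ yC a b (by
      rw [e1, abs_lt]
      constructor <;> linarith) (by
      rw [e2, abs_lt]
      constructor <;> linarith [(x3 (Fin.last d)).1, (x3 (Fin.last d)).2, (y3 (Fin.last d)).1,
        (y3 (Fin.last d)).2])
    rw [a0, b0, Int.cast_zero, zero_mul, zero_mul, add_zero] at e1 e2
    rw [a0, Int.cast_zero, sub_eq_zero] at ha
    rw [b0, Int.cast_zero, sub_eq_zero] at hb'
    refine ⟨⟨M, hM⟩, eD, funext fun i => ?_⟩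
    rcases i with _ | j
    · linarith
    · by_cases hj : j = Fin.last d
      · rw [hj]
        linarith
      · obtain ⟨l, hl'⟩ := hl (some j)
        have f1 := cx3 j hj
        have f2 := cy3 j hj
        rw [ha, hb'] at f1
        have e3 : x.2 (some j) - y.2 (some j) = l := by linarith
        have e4 := Lift.int_zero (x3 j) (y3 j) e3
        rw [e4, Int.cast_zero] at e3
        linarith
  · intro y yC yz
    obtain ⟨w, hw⟩ : ∃ w : Ph (Option (Fin (d + 1))), w = y + (0, Pi.single none P.ρ0) := ⟨_, rfl⟩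
    have w1 : w.1 = y.1 := by rw [hw]; simp
    have w2 : ∀ i, w.2 i = y.2 i + (Pi.single none P.ρ0 : Option (Fin (d + 1)) → ℝ) i :=
      fun i => by rw [hw]; rfl
    obtain ⟨cy1, cy2, cy3⟩ := hch y yC
    obtain ⟨cw1, cw2, cw3⟩ := hch w (by rw [w1]; exact yC)
    rw [w1] at cw1 cw2 cw3
    rw [w2, Pi.single_eq_same] at cw1
    rw [w2, Pi.single_eq_of_ne (Option.some_ne_none _), add_zero] at cw2
    have z1 : d1 P.V (y.1 none, cs y.1) - d1 P.U (y.1 none, cs y.1) = P.ρ0 * 1 :=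
      fd_zone P hC yC yz _
    have z2 : dL P.V (y.1 none, cs y.1) - dL P.U (y.1 none, cs y.1) = P.ρ0 * 0 :=
      fd_zone P hC yC yz _
    have hdet := P.det (y.1 none) _ yC
    obtain ⟨s1, s2⟩ := Lift.solve2 (x := (F w).2 none - (F y).2 none + 1)
      (y := (F w).2 (some (Fin.last d)) - (F y).2 (some (Fin.last d)) - 1)
      (a := d1 P.U (y.1 none, cs y.1)) (b := d1 P.V (y.1 none, cs y.1))
      (c := dL P.U (y.1 none, cs y.1)) (d := dL P.V (y.1 none, cs y.1))
      (by rwa [mul_comm (dL P.U _)]) (by linear_combination cw1 - cy1 - z1)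
      (by linear_combination cw2 - cy2 - z2)
    rw [← hw]
    refine Prod.ext ?_ (funext fun i => ?_)
    · rw [Prod.fst_add, add_zero, hF1, hF1, w1]
    · show (F w).2 i = (F y).2 i + (vz d i : ℝ)
      rcases i with _ | j
      · have e : vz d none = -1 := if_pos rfl
        rw [e]
        push_cast
        linarith
      · by_cases hj : j = Fin.last d
        · have e : vz d (some (Fin.last d)) = 1 := by
            unfold vz
            rw [if_neg (Option.some_ne_none _), if_pos rfl]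
          rw [hj, e]
          push_cast
          linarith
        · have e : vz d (some j) = 0 := by
            unfold vz
            rw [if_neg (Option.some_ne_none _), if_neg (ne_last hj)]
          have z3 : fderiv ℝ P.V (y.1 none, cs y.1) (0, Pi.single j 1) -
              fderiv ℝ P.U (y.1 none, cs y.1) (0, Pi.single j 1) = P.ρ0 * 0 :=
            fd_zone P hC yC yz _
          have f1 := cw3 j hj
          have f2 := cy3 j hj
          rw [w2, Pi.single_eq_of_ne (Option.some_ne_none _), add_zero] at f1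
          rw [e]
          push_cast
          linear_combination f1 - f2 - z3 -
            fderiv ℝ P.U (y.1 none, cs y.1) (0, Pi.single j 1) * s1 -
            fderiv ℝ P.V (y.1 none, cs y.1) (0, Pi.single j 1) * s2

end GeoL

open GeoL in
theorem geoLS : GeoLStmt := by
  intro d C P Δ ε hε hC hdown hΔ
  obtain ⟨c, hc, hc'⟩ := cutA ε hε
  obtain ⟨F, hF1, hF2, hF3, hF4⟩ := lift P hC
  let W : Set (Ph (Option (Fin (d + 1)))) :=
    W0 {s | (∀ j, 0 < s j) ∧ (fun j => s j + ε) ∈ C} (fun p => P.G (p.1, fun j => p.2 j + ε)) P.z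
  have key : ∀ x ∈ W, pairs (cu d c) x ∈ AM P := by
    rintro x ⟨⟨hs, hsC⟩, hθ0, hθ1, -⟩
    rw [d1_comp P.sG] at hθ1
    have ho : ∀ j : Fin (d + 1), 0 < (c (x.1 (some j), x.2 (some j))).1 ∧
        (c (x.1 (some j), x.2 (some j))).1 < x.1 (some j) + ε ∧
        0 < (c (x.1 (some j), x.2 (some j))).2 ∧ (c (x.1 (some j), x.2 (some j))).2 < 1 :=
      fun j => (hc (x.1 (some j), x.2 (some j)) (hs j)).2
    have hle : cs (pairs (cu d c) x).1 ≤ fun j => cs x.1 j + ε := fun j => (ho j).2.1.le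
    have hY : cs (pairs (cu d c) x).1 ∈ C := hdown _ hsC _ (fun j => (ho j).1) hle
    exact ⟨hY, hθ0, hθ1.trans_le (P.anti _ _ hY _ hsC hle), fun j => (ho j).2.2⟩
  have hsy : ∀ x ∈ W, SympAt (pairs (cu d c)) x := by
    intro x hx
    refine pairsS _ _ _ fun i => ?_
    rcases i with _ | j
    · exact area_id _
    · exact (hc _ (hx.1.1 j)).1
  refine ⟨fun x => F (pairs (cu d c) x), vz d, fun x hx => (hF1 _ (key x hx).1).comp' (hsy x hx),
    fun x hx => ?_, fun x hx y hy hxy => ?_, fun x hx h0 => ?_⟩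
  · show (F (pairs (cu d c) x)).1 ∈ Δ
    rw [hF2, Psi_eq]
    exact hΔ _ _ (key x hx).1
  · obtain ⟨hk, h1, h2⟩ := hF3 _ (key x hx) _ (key y hy) hxy
    have ho : ∀ j : Fin (d + 1),
        x.1 (some j) = y.1 (some j) ∧ ∃ k : ℤ, x.2 (some j) - y.2 (some j) = k := fun j =>
      hc' (x.1 (some j), x.2 (some j)) (y.1 (some j), y.2 (some j)) (hx.1.1 j) (hy.1.1 j)
        (Prod.ext (congrFun h1 j) (congrFun h2 (some j)))
    exact ⟨hk, funext fun j => (ho j).1, congrFun h2 none, fun j => (ho j).2⟩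
  · have c1 : Continuous fun y : Ph (Option (Fin (d + 1))) => cs y.1 :=
      continuous_pi fun j => (continuous_apply (some j)).comp continuous_fst
    have c2 : Continuous fun y : Ph (Option (Fin (d + 1))) => |y.1 none| :=
      ((continuous_apply _).comp continuous_fst).abs
    have o1 : ∀ᶠ y : Ph (Option (Fin (d + 1))) in 𝓝 (pairs (cu d c) x), cs y.1 ∈ C :=
      c1.continuousAt.preimage_mem_nhds (hC.mem_nhds (key x hx).1)
    have o2 : ∀ᶠ y : Ph (Option (Fin (d + 1))) in 𝓝 (pairs (cu d c) x), |y.1 none| < P.z :=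
      c2.continuousAt.eventually_lt continuousAt_const (hx.2.2.2 h0)
    filter_upwards [(hsy x hx).continuousAt.tendsto.eventually (o1.and o2)] with y hy
    rw [cu_shift, hF4 _ hy.1 hy.2]

end Vale.Agent.P209
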