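import Vale.Agent.P209.Stm3
import Vale.Agent.P209.All

open Set Filter Topology Function
open scoped Real ContDiff

noncomputable section
namespace Vale.Agent.P209

namespace GlueB

theorem d1_eq {n : ℕ} {G : ℝ × (Fin n → ℝ) → ℝ} (hG : ContDiff ℝ ∞ G) (c t : ℝ) (s : Fin n → ℝ) :
    d1 (fun p : ℝ × (Fin n → ℝ) => G (p.1, fun j => p.2 j + c)) (t, s)
      = d1 G (t, fun j => s j + c) := by
  have hφ : ContDiff ℝ ∞ fun p : ℝ × (Fin n → ℝ) => G (p.1, fun j => p.2 j + c) :=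
    hG.comp (by fun_prop)
  have a := (hφ.differentiable (by simp) (t, s)).hasFDerivAt.comp_hasDerivAt t
    ((hasDerivAt_id t).prodMk (hasDerivAt_const t s))
  have b := (hG.differentiable (by simp) (t, fun j => s j + c)).hasFDerivAt.comp_hasDerivAt t
    ((hasDerivAt_id t).prodMk (hasDerivAt_const t (fun j => s j + c)))
  exact a.unique b

theorem lb_le (hR : RhoStmt) {d : ℕ} {h : ℝ} (hh : 2 * h < 1) {s : Fin (d + 1) → ℝ} (hs : 0 ≤ s) :
    Lb h s ≤ 2 ^ (d + 1) ∧ (0 < Lb h s → ∑ j, s j ≤ 1) := by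
  have h1 := ((hR d h).2.2.2.2.2.1 pos s (d + 1) fun x => le_max_right _ _).1
  have h2 : 0 ≤ ∑ j, s j := Finset.sum_nonneg fun j _ => hs j
  have h3 : (1 : ℝ) ≤ 2 ^ (d + 1) := one_le_pow₀ (by norm_num)
  unfold Lb
  generalize (2 : ℝ) ^ (d + 1) = N at *
  generalize rho pos h s (d + 1) = R at *
  generalize ∑ j, s j = T at *
  have h4 : 0 ≤ N * R := by positivity
  have h5 : 0 ≤ (N - 1) * T := mul_nonneg (by linarith) h2
  refine ⟨by nlinarith, fun h6 => ?_⟩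
  by_contra hc
  have h7 : 0 ≤ (N - 1) * (T - 1) := mul_nonneg (by linarith) (by linarith)
  nlinarith

theorem lb_shift (hR : RhoStmt) {d : ℕ} (h : ℝ) (s : Fin (d + 1) → ℝ) {c : ℝ} (hc : 0 ≤ c) :
    Lb h s - 3 * 2 ^ (d + 1) * (d + 1) * c ≤ Lb h fun j => s j + c := by
  have h1 := (hR d h).2.2.2.2.2.2.2.1 (fun j => s j + c) s (d + 1)
  have h2 : ‖(fun j => s j + c) - s‖ ≤ c := by
    refine (pi_norm_le_iff_of_nonneg hc).2 fun j => ?_
    simp [abs_of_nonneg hc]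
  have h3 : (0 : ℝ) < 2 ^ (d + 1) := by positivity
  have h4 : (0 : ℝ) < d + 1 := by positivity
  have h5 : rho pos h (fun j => s j + c) (d + 1) - rho pos h s (d + 1) ≤ (d + 1) * c :=
    (le_abs_self _).trans (h1.trans (mul_le_mul_of_nonneg_left h2 h4.le))
  have h6 : ∑ j, (s j + c) = ∑ j, s j + (d + 1) * c := by
    rw [Finset.sum_add_distrib]; simp
  have h7 := mul_le_mul_of_nonneg_left h5 h3.le
  have h8 : 0 ≤ ((d : ℝ) + 1) * c := by positivity
  unfold Lb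
  rw [h6]
  nlinarith

end GlueB

theorem glueBS (hR : RhoStmt) (hL : LoopBStmt) (hG : GeoLStmt) (hC : ChainStmt) : GlueBStmt := by
  intro d h a hd hh hh2 ha ι _ _ ρ r S x L h1 h2 hLip hCl h3 h4 h5 h6
  obtain ⟨C, P, δ, hδ, hCo, hCd, hCq, hCl'⟩ := hL d h (a / 4) hd hh hh2 (by positivity)
  have hN : (1 : ℝ) ≤ 2 ^ (d + 1) := one_le_pow₀ (by norm_num)
  have hd1 : (1 : ℝ) ≤ d + 1 := by linarith [(by positivity : (0 : ℝ) ≤ d)]
  obtain ⟨c, hc0, hc1, hc2⟩ : ∃ c : ℝ, 0 < c ∧ c ≤ a / 4 ∧ 3 * 2 ^ (d + 1) * (d + 1) * c ≤ a / 4 := by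
    refine ⟨a / 4 / (3 * 2 ^ (d + 1) * (d + 1)), by positivity, ?_, le_of_eq ?_⟩
    · exact div_le_self (by positivity) (by nlinarith)
    · field_simp
  obtain ⟨ε, hε0, hε1, hε2⟩ : ∃ ε : ℝ, 0 < ε ∧ ε < 1 ∧ ε * 2 ^ (d + 1) ≤ a / 4 := by
    refine ⟨min (1 / 2) (a / 4 / 2 ^ (d + 1)), by positivity,
      (min_le_left _ _).trans_lt (by norm_num), ?_⟩
    exact (le_div_iff₀ (by positivity)).1 (min_le_right _ _)
  obtain ⟨f, hf, hP⟩ := dynA d ι ρ r S x 1 (a / 8) L h1 h2 (by positivity) hLip hCl h3 h4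
    (fun s hs h0 => (GlueB.lb_le hR hh2 hs).2 (by linarith [(h5 s hs h0).2])) h6
  have key : ∀ s : Fin (d + 1) → ℝ, (∀ j, 0 < s j) → 0 < L s →
      (fun j => s j + c) ∈ C ∧ L s + a / 2 ≤ P.G (P.T, fun j => s j + c) ∧
        L s + a ≤ 2 ^ (d + 1) := by
    intro s hs h0
    have hs' : 0 ≤ s := fun j => (hs j).le
    obtain ⟨a1, a2⟩ := h5 s hs' h0
    have a3 := GlueB.lb_shift hR h s hc0.le
    obtain ⟨a4, a5⟩ := hCl' (fun j => s j + c) (fun j => add_pos (hs j) hc0) (by linarith)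
      (by linarith)
    exact ⟨a4, by linarith, a2.trans (GlueB.lb_le hR hh2 hs').1⟩
  have hE := wrapA d {s | (∀ j, 0 < s j) ∧ (fun j => s j + c) ∈ C}
    {s : Fin (d + 1) → ℝ | (∀ j, 0 < s j) ∧ 0 < L s}
    (fun p => P.G (p.1, fun j => p.2 j + c)) P.T P.z P.ρ0 ε (a / 8) (2 ^ (d + 1))
    (fun s => P.G (P.T, fun j => s j + c)) (fun s => L s + a / 8) f (Qs d h δ d)
    (by
      have a1 : IsOpen {s : Fin (d + 1) → ℝ | ∀ j, 0 < s j} := by
        rw [ofPred_forall]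
        exact isOpen_iInter_of_finite fun j => isOpen_lt continuous_const (continuous_apply j)
      have a2 : IsOpen {s : Fin (d + 1) → ℝ | (fun j => s j + c) ∈ C} :=
        hCo.preimage (by fun_prop)
      exact a1.inter a2)
    (fun s hs => ⟨hs.1, (key s hs.1 hs.2).1⟩)
    (fun s hs j => (hs.1 j).le) (P.sG.comp (by fun_prop)) P.hT P.hz P.hρ hε0 hε1 (by positivity)
    (fun s hs t => by
      rw [GlueB.d1_eq P.sG]
      exact P.wpos t _ hs.2)
    (fun s hs t => P.perG t _ hs.2)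
    (fun s hs t ht => (P.zone t _ hs.2 ht).1) hf
    (fun s hs => by
      obtain ⟨-, a2, a3⟩ := key s hs.1 hs.2
      have a4 := mul_le_mul_of_nonneg_left a2 (sub_pos.2 hε1).le
      have a5 : ε * (L s + a / 2) ≤ ε * 2 ^ (d + 1) :=
        mul_le_mul_of_nonneg_left (by linarith) hε0.le
      exact ⟨by linarith, by linarith⟩)
    (hG d C P (Qs d h δ d) c hc0 hCo hCd hCq)
  refine hP.toPackB ((hE.trans (hC d h δ hδ)).mono (fun y hy => ?_) subset_rfl)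
  obtain ⟨a1, a2, a3, a4⟩ := hy
  exact ⟨⟨a1, a2⟩, a3, by linarith⟩

end Vale.Agent.P209
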