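import Vale.Agent.P209.Stm3
import Vale.Agent.P209.All

/-! Progress along a long side. -/

open Set Filter Topology Function
open scoped Real ContDiff

noncomputable section
namespace Vale.Agent.P209

namespace Lane

theorem exists_fold {κ : ℝ} (h0 : 0 < κ) : ∃ F, ExFold κ F := by
  let g : ℝ → ℝ := fun x => Real.smoothTransition ((x + κ) / (2 * κ))
  have hg : ContDiff ℝ ∞ g :=
    Real.smoothTransition.contDiff.comp ((contDiff_id.add contDiff_const).div_const _)
  have hd : ∀ x, HasDerivAt (fun x => ∫ u in (-κ)..x, g u) (g x) x := fun x =>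
    (hg.continuous.integral_hasStrictDerivAt _ _).hasDerivAt
  have he : deriv (fun x => ∫ u in (-κ)..x, g u) = g := funext fun x => (hd x).deriv
  have hz : ∀ x, x ≤ -κ → g x = 0 := fun x hx =>
    Real.smoothTransition.zero_of_nonpos
      (div_nonpos_of_nonpos_of_nonneg (by linarith) (by linarith))
  refine ⟨fun x => ∫ u in (-κ)..x, g u, ?_, fun x hx => ⟨?_, ?_⟩, fun x hx => ?_, ?_⟩
  · rw [contDiff_infty_iff_deriv, he]
    exact ⟨fun x => (hd x).differentiableAt, hg⟩
  · rw [intervalIntegral.integral_congr (g := fun _ => (0 : ℝ))]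
    · simp
    · intro u hu
      rw [uIcc_of_ge hx] at hu
      exact hz u hu.2
  · rw [he]
    exact hz x hx
  · rw [he]
    exact Real.smoothTransition.one_of_one_le ((one_le_div (by linarith)).2 (by linarith))
  · rw [he]
    exact fun x y hxy => Real.smoothTransition.monotone
      (div_le_div_of_nonneg_right (by linarith) (by linarith))

theorem fold_sub {κ : ℝ} {F : ℝ → ℝ} (h : ExFold κ F) {x y : ℝ} (hx : κ ≤ x) (hy : κ ≤ y) :
    F x - F y = x - y := by
  have hF : Differentiable ℝ F := h.smooth.differentiable (by simp)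
  have key : ∀ z, κ ≤ z → F z - z = F κ - κ := fun z hz =>
    constant_of_has_deriv_right_zero (f := fun u => F u - u) (a := κ) (b := z)
      (hF.continuous.sub continuous_id).continuousOn (fun u hu => by
        have h1 := ((hF u).hasDerivAt.sub (hasDerivAt_id u)).hasDerivWithinAt (s := Ici u)
        rwa [h.hi u hu.1, sub_self] at h1) z ⟨hz, le_rfl⟩
  linarith [key x hx, key y hy]

theorem deriv_zero {g : ℝ → ℝ} (hg : Differentiable ℝ g) {p q c t : ℝ} (hpq : p < q)
    (h : ∀ u, p ≤ u → u ≤ q → g u = c) (h1 : p ≤ t) (h2 : t ≤ q) : HasDerivAt g 0 t := by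
  have h3 : HasDerivWithinAt g 0 (Icc p q) t :=
    (hasDerivWithinAt_const t _ c).congr (fun u hu => h u hu.1 hu.2) (h t h1 h2)
  have h4 := (hg t).hasDerivAt
  rwa [(uniqueDiffOn_Icc hpq t ⟨h1, h2⟩).eq_deriv _ h4.hasDerivWithinAt h3] at h4

/-- the progress function -/
def aa (F S : ℝ → ℝ) (p : ℝ × ℝ × ℝ) : ℝ :=
  (1 - S (p.1 - 2) + S (p.1 - 6)) * (F (p.2.1 + (-3 + 6 * (S p.1 - S (p.1 - 4))))
    - F (p.2.2 + (-3 + 6 * (S p.1 - S (p.1 - 4))))) + S (p.1 - 2) * (p.2.1 - p.2.2)

variable {κ : ℝ} {F S : ℝ → ℝ}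

theorem aa_smooth (hF : ExFold κ F) (hS : Five.St S) : ContDiff ℝ ∞ (aa F S) := by
  have h : ∀ n : ℝ, ContDiff ℝ ∞ fun p : ℝ × ℝ × ℝ => S (p.1 - n) := fun n =>
    (hS.sm n).comp contDiff_fst
  have hv : ContDiff ℝ ∞ fun p : ℝ × ℝ × ℝ => -3 + 6 * (S p.1 - S (p.1 - 4)) :=
    contDiff_const.add (contDiff_const.mul ((hS.smooth.comp contDiff_fst).sub (h 4)))
  exact (((contDiff_const.sub (h 2)).add (h 6)).mul
    ((hF.smooth.comp (contDiff_snd.fst.add hv)).sub
      (hF.smooth.comp (contDiff_snd.snd.add hv)))).add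
    ((h 2).mul (contDiff_snd.fst.sub contDiff_snd.snd))

theorem aa_per (hS : Five.St S) (t α β : ℝ) :
    aa F S (t + 12, α, β) = aa F S (t, α, β) + (α - β) := by
  simp only [aa, hS.per', hS.per, add_sub_add_right_eq_sub]
  ring

theorem aa_hi (hF : ExFold κ F) (h1 : κ ≤ 1) (hS : Five.St S) (t α β : ℝ) (hα : |α| ≤ 2)
    (hβ : |β| ≤ 2) (a : 1 ≤ t) (b : t ≤ 12) : aa F S (t, α, β) = α - β := by
  obtain ⟨a1, a2⟩ := abs_le.1 hα
  obtain ⟨b1, b2⟩ := abs_le.1 hβ
  have e0 : S t = 1 := (hS.hi t a b).1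
  simp only [aa, e0]
  rcases le_total t 4 with c | c
  · rw [(hS.lo (t - 4) (by linarith) (by linarith)).1,
      (hS.lo (t - 6) (by linarith) (by linarith)).1, fold_sub hF (by linarith) (by linarith)]
    ring
  rw [(hS.hi (t - 2) (by linarith) (by linarith)).1]
  rcases le_total t 6 with e | e
  · rw [(hS.lo (t - 6) (by linarith) (by linarith)).1]
    ring
  · rw [(hS.hi (t - 4) (by linarith) (by linarith)).1, (hF.lo _ (by linarith)).1,
      (hF.lo _ (by linarith)).1]
    ring

theorem aa_mid (hS : Five.St S) (t α β : ℝ) (a : -1 ≤ t) (b : t ≤ 2) :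
    aa F S (t, α, β) = F (α + (-3 + 6 * S t)) - F (β + (-3 + 6 * S t)) := by
  simp only [aa]
  rw [(hS.lo (t - 2) (by linarith) (by linarith)).1, (hS.lo (t - 4) (by linarith) (by linarith)).1,
    (hS.lo (t - 6) (by linarith) (by linarith)).1, sub_zero (S t)]
  ring

end Lane

theorem laneS : LaneStmt := by
  intro κ h0 h1
  obtain ⟨F, hF⟩ := Lane.exists_fold h0
  obtain ⟨S, hS⟩ := Five.exists_st stairS
  have hν : ∀ t, HasDerivAt (fun t => -3 + 6 * S t) (6 * deriv S t) t := fun t =>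
    ((hS.diff t).hasDerivAt.const_mul 6).const_add (-3)
  have hlo : ∀ t α β : ℝ, |α| ≤ 2 → |β| ≤ 2 → -11 ≤ t → t ≤ 0 → Lane.aa F S (t, α, β) = 0 :=
    fun t α β hα hβ a b => by
      have h2 := Lane.aa_hi hF h1 hS (t + 12) α β hα hβ (by linarith) (by linarith)
      rw [Lane.aa_per hS] at h2
      linarith
  have hd : ∀ α β : ℝ, Differentiable ℝ fun τ : ℝ => Lane.aa F S (τ, α, β) := fun α β =>
    ((Lane.aa_smooth hF hS).differentiable (by simp)).comp
      (differentiable_id.prodMk (differentiable_const _))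
  have hFd : Differentiable ℝ F := hF.smooth.differentiable (by simp)
  refine ⟨F, fun t => -3 + 6 * S t, Lane.aa F S, hF,
    contDiff_const.add (contDiff_const.mul hS.smooth), fun t => ?_, Lane.aa_smooth hF hS,
    Lane.aa_per hS, hlo, Lane.aa_hi hF h1 hS, Lane.aa_mid hS,
    fun t α β hα hβ a b c => ?_, fun t α β a b => ?_⟩
  · rw [(hν t).deriv]
    linarith [hS.dpos t]
  · rcases c with c | c
    · exact Lane.deriv_zero (hd α β) (by norm_num : (-11 : ℝ) < 0)
        (fun u p q => hlo u α β hα hβ p q) a c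
    · exact Lane.deriv_zero (hd α β) (by norm_num : (1 : ℝ) < 12)
        (fun u p q => Lane.aa_hi hF h1 hS u α β hα hβ p q) c b
  · have h2 := ((hFd _).hasDerivAt.comp t ((hν t).const_add α)).sub
      ((hFd _).hasDerivAt.comp t ((hν t).const_add β))
    rw [(hν t).deriv, mul_sub, mul_comm (6 * _), mul_comm (6 * _)]
    refine h2.congr_of_eventuallyEq ?_
    filter_upwards [Icc_mem_nhds (show -1 < t by linarith) (show t < 2 by linarith)] with u hu
    exact Lane.aa_mid hS u α β hu.1 hu.2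

end Vale.Agent.P209
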