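import Vale.Agent.P209.Stm3
import Vale.Agent.P209.All

/-! The pentagon loops over the cross-section of the shell. -/

open Set Filter Topology Function
open scoped Real ContDiff

noncomputable section
namespace Vale.Agent.P209

namespace LoopB

theorem d1_of {E : Type} [NormedAddCommGroup E] [NormedSpace ℝ E] {F : ℝ × E → ℝ}
    (hF : ContDiff ℝ ∞ F) (t : ℝ) (p : E) : HasDerivAt (fun τ => F (τ, p)) (d1 F (t, p)) t :=
  (hF.differentiable (by simp) (t, p)).hasFDerivAt.comp_hasDerivAt t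
    ((hasDerivAt_id t).prodMk (hasDerivAt_const t p))

theorem dD_of {F : ℝ × ℝ × ℝ → ℝ} (hF : ContDiff ℝ ∞ F) (t A B : ℝ) :
    HasDerivAt (fun u => F (t, A - u, B + u)) (dD F (t, A, B)) 0 := by
  have h1 : HasDerivAt (fun u : ℝ => ((t, A - u, B + u) : ℝ × ℝ × ℝ)) (0, -1, 1) 0 :=
    (hasDerivAt_const 0 t).prodMk (((hasDerivAt_id 0).const_sub A).prodMk
      ((hasDerivAt_id 0).const_add B))
  exact (hF.differentiable (by simp) (t, A, B)).hasFDerivAt.comp_hasDerivAt_of_eq 0 h1 (by simp)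

variable {d : ℕ}

theorem dL_of {F : ℝ × (Fin (d + 1) → ℝ) → ℝ} (hF : ContDiff ℝ ∞ F) (t : ℝ)
    (s : Fin (d + 1) → ℝ) :
    HasDerivAt (fun u => F (t, s + Pi.single (Fin.last d) u)) (dL F (t, s)) 0 := by
  have h0 : HasDerivAt (fun u : ℝ => s + u • (Pi.single (Fin.last d) 1 : Fin (d + 1) → ℝ))
      (Pi.single (Fin.last d) 1) 0 := by
    simpa using ((hasDerivAt_id (0 : ℝ)).smul_const
      (Pi.single (Fin.last d) 1 : Fin (d + 1) → ℝ)).const_add s
  have h1 := (hF.differentiable (by simp) (t, s)).hasFDerivAt.comp_hasDerivAt_of_eq 0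
    ((hasDerivAt_const 0 t).prodMk h0) (by simp)
  have e : ∀ u : ℝ, u • (Pi.single (Fin.last d) 1 : Fin (d + 1) → ℝ) = Pi.single (Fin.last d) u :=
    fun u => by rw [← Pi.single_smul, smul_eq_mul, mul_one]
  simp only [e] at h1
  exact h1

theorem pos_le {c : ℝ} {f : ℝ → ℝ} (hf : IsFold c f) (x : ℝ) : pos x ≤ f x :=
  max_le (by linarith [hf.odd x, hf.nonneg (-x)]) (hf.nonneg x)

theorem mono {c : ℝ} {f : ℝ → ℝ} (hf : IsFold c f) : Monotone f :=
  monotone_of_deriv_nonneg (hf.smooth.differentiable (by simp)) hf.d0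

theorem Sp_mono {s t : Fin (d + 1) → ℝ} (h : s ≤ t) (i : ℕ) : Sp s i ≤ Sp t i :=
  Finset.sum_le_sum fun j _ => by
    split_ifs
    · exact h j
    · exact le_rfl

theorem Sp_eq {s t : Fin (d + 1) → ℝ} (h : ∀ j, j ≠ Fin.last d → s j = t j) {i : ℕ} (hi : i ≤ d) :
    Sp s i = Sp t i :=
  Finset.sum_congr rfl fun j _ => by
    split_ifs with h1
    · exact h j fun e => by
        rw [e, Fin.val_last] at h1
        omega
    · rfl

theorem rho_eq (hR : RhoStmt) (f : ℝ → ℝ) (h : ℝ) {s t : Fin (d + 1) → ℝ}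
    (e : ∀ j, j ≠ Fin.last d → s j = t j) : rho f h s d = rho f h t d := by
  have k := (hR d h).2.2.2.2.1
  refine le_antisymm ?_ ?_
  · simpa using k f f s t 0 d le_rfl fun j hj => by rw [Sp_eq e hj, add_zero]
  · simpa using k f f t s 0 d le_rfl fun j hj => by rw [Sp_eq e hj, add_zero]

theorem Sp_last (hR : RhoStmt) (s : Fin (d + 1) → ℝ) : Sp s d = ∑ j, s j - s (Fin.last d) := by
  obtain ⟨-, h1, h2⟩ := (hR d 0).1 s
  have h3 := (h2 (Fin.last d)).1
  rw [Fin.val_last] at h3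
  linarith

theorem sum_eq {s t : Fin (d + 1) → ℝ} (e : ∀ j, j ≠ Fin.last d → s j = t j) :
    ∑ j, t j = ∑ j, s j + (t (Fin.last d) - s (Fin.last d)) := by
  rw [Fin.sum_univ_castSucc, Fin.sum_univ_castSucc,
    Finset.sum_congr rfl fun j _ => e j.castSucc (Fin.castSucc_lt_last j).ne]
  ring

/-- the parameters of the pentagon above `s` -/
def AB (f : ℝ → ℝ) (h c : ℝ) (s : Fin (d + 1) → ℝ) : ℝ × ℝ :=
  (1 - h - ∑ j, s j, ∑ j, s j - h + rho f h s d + 4 * c)

theorem AB_last (hR : RhoStmt) (f : ℝ → ℝ) (h c : ℝ) {s t : Fin (d + 1) → ℝ}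
    (e : ∀ j, j ≠ Fin.last d → s j = t j) :
    AB f h c t = ((AB f h c s).1 - (t (Fin.last d) - s (Fin.last d)),
      (AB f h c s).2 + (t (Fin.last d) - s (Fin.last d))) := by
  simp only [AB, sum_eq e, rho_eq hR f h e]
  refine Prod.ext ?_ ?_ <;> simp only <;> ring

theorem AB_smooth (hR : RhoStmt) {f : ℝ → ℝ} (hf : ContDiff ℝ ∞ f) (h c : ℝ) :
    ContDiff ℝ ∞ (AB (d := d) f h c) := by
  have h1 := (hR d h).2.2.2.2.2.2.1 f d hf
  have h2 : ContDiff ℝ ∞ fun s : Fin (d + 1) → ℝ => ∑ j, s j := by fun_prop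
  exact (contDiff_const.sub h2).prodMk (((h2.sub contDiff_const).add h1).add contDiff_const)

theorem AB_mono (hR : RhoStmt) {f : ℝ → ℝ} (hf : Monotone f) (h c : ℝ) {s t : Fin (d + 1) → ℝ}
    (e : s ≤ t) : (AB f h c t).1 ≤ (AB f h c s).1 ∧ (AB f h c s).2 ≤ (AB f h c t).2 := by
  have h1 : ∑ j, s j ≤ ∑ j, t j := Finset.sum_le_sum fun j _ => e j
  have h2 := (hR d h).2.2.2.2.1 f f s t 0 d le_rfl fun j _ => by
    rw [add_zero]
    exact hf (by linarith [Sp_mono e j])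
  simp only [AB]
  constructor <;> linarith

/-- a coordinate of the loop -/
def up (f : ℝ → ℝ) (h c : ℝ) (U : ℝ × ℝ × ℝ → ℝ) (p : ℝ × (Fin (d + 1) → ℝ)) : ℝ :=
  p.2 (Fin.last d) + 2 * c + U (p.1, AB f h c p.2)

section
variable (hR : RhoStmt) {f : ℝ → ℝ} (hf : ContDiff ℝ ∞ f) (h c : ℝ) {U : ℝ × ℝ × ℝ → ℝ}
  (hU : ContDiff ℝ ∞ U)
include hR hf hU

theorem comp_smooth :
    ContDiff ℝ ∞ fun p : ℝ × (Fin (d + 1) → ℝ) => U (p.1, AB f h c p.2) :=
  hU.comp (contDiff_fst.prodMk ((AB_smooth hR hf h c).comp contDiff_snd))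

theorem up_smooth : ContDiff ℝ ∞ (up (d := d) f h c U) :=
  ContDiff.add (by fun_prop) (comp_smooth hR hf h c hU)

theorem comp_d1 (t : ℝ) (s : Fin (d + 1) → ℝ) :
    d1 (fun p : ℝ × (Fin (d + 1) → ℝ) => U (p.1, AB f h c p.2)) (t, s) = d1 U (t, AB f h c s) :=
  (d1_of (comp_smooth hR hf h c hU) t s).unique (d1_of hU t (AB f h c s))

theorem up_d1 (t : ℝ) (s : Fin (d + 1) → ℝ) : d1 (up f h c U) (t, s) = d1 U (t, AB f h c s) :=
  (d1_of (up_smooth hR hf h c hU) t s).unique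
    ((d1_of hU t (AB f h c s)).const_add (s (Fin.last d) + 2 * c))

theorem up_dL (t : ℝ) (s : Fin (d + 1) → ℝ) :
    dL (up f h c U) (t, s) = 1 + dD U (t, AB f h c s) := by
  refine (dL_of (up_smooth hR hf h c hU) t s).unique ?_
  have e : (fun u => up f h c U (t, s + Pi.single (Fin.last d) u)) = fun u =>
      s (Fin.last d) + 2 * c + u + U (t, (AB f h c s).1 - u, (AB f h c s).2 + u) := by
    funext u
    rw [up, AB_last hR f h c (s := s) fun j hj => by simp [hj]]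
    simp only [Pi.add_apply, Pi.single_eq_same, add_sub_cancel_left]
    ring
  rw [e]
  exact ((hasDerivAt_id 0).const_add _).add (dD_of hU t _ _)

end

/-- the cross-section -/
def CC (d : ℕ) (f : ℝ → ℝ) (h c M : ℝ) : Set (Fin (d + 1) → ℝ) :=
  {s | (∀ j, 0 < s j) ∧ s 0 + c < h ∧ AB f h c s ∈ PDom M c}

/-- the loops -/
def loop (hR : RhoStmt) {f : ℝ → ℝ} {c : ℝ} (hf : IsFold c f) (h : ℝ) {M : ℝ} (P : Pent M c) :
    Loop2 d (CC d f h c M) where
  T := 12
  z := 1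
  ρ0 := P.ρ0
  G := fun p => P.G (p.1, AB f h c p.2)
  U := up f h c P.U
  V := up f h c P.V
  hT := by norm_num
  hz := one_pos
  hρ := P.hρ
  sG := comp_smooth hR hf.smooth h c P.sG
  sU := up_smooth hR hf.smooth h c P.sU
  sV := up_smooth hR hf.smooth h c P.sV
  perU := fun t s => by simp only [up, P.perU]
  perV := fun t s => by simp only [up, P.perV]
  perG := fun t s hs => P.perG t _ hs.2.2
  zone := fun t s hs ht => by
    obtain ⟨a1, a2⟩ := P.zone t _ hs.2.2 ht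
    refine ⟨a1, ?_⟩
    simp only [up]
    linarith
  wpos := fun t s hs => by
    rw [comp_d1 hR hf.smooth h c P.sG]
    exact P.wpos t _ hs.2.2
  anti := fun t s hs s' hs' e => by
    rw [comp_d1 hR hf.smooth h c P.sG, comp_d1 hR hf.smooth h c P.sG]
    exact P.anti t _ hs.2.2 _ hs'.2.2 (AB_mono hR (mono hf) h c e).1 (AB_mono hR (mono hf) h c e).2
  inj := fun t t' s hs s' hs' e h1 h2 => by
    have k := AB_last hR f h c e
    have h3 := hs'.2.2
    simp only [up] at h1 h2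
    rw [k] at h1 h2 h3
    obtain ⟨a1, a2⟩ := P.inj t t' (AB f h c s).1 (AB f h c s).2 _ hs.2.2 h3
      (by linarith) (by linarith)
    refine ⟨funext fun j => ?_, a2⟩
    by_cases hj : j = Fin.last d
    · rw [hj]
      linarith
    · exact e j hj
  det := fun t s hs => by
    rw [up_d1 hR hf.smooth h c P.sU, up_d1 hR hf.smooth h c P.sV, up_dL hR hf.smooth h c P.sU,
      up_dL hR hf.smooth h c P.sV]
    exact P.det t _ hs.2.2
  lat := fun t s hs => by
    rw [up_d1 hR hf.smooth h c P.sU, up_d1 hR hf.smooth h c P.sV, up_dL hR hf.smooth h c P.sU,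
      up_dL hR hf.smooth h c P.sV, comp_d1 hR hf.smooth h c P.sG]
    exact P.lat t _ hs.2.2

theorem CC_open (hR : RhoStmt) {f : ℝ → ℝ} (hf : ContDiff ℝ ∞ f) (h c M : ℝ) :
    IsOpen (CC d f h c M) := by
  have h1 : IsOpen {s : Fin (d + 1) → ℝ | ∀ j, 0 < s j} := by
    rw [Set.ofPred_forall]
    exact isOpen_iInter_of_finite fun j => isOpen_lt continuous_const (continuous_apply j)
  have h2 : IsOpen (PDom M c) :=
    (isOpen_lt continuous_const continuous_fst).inter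
      ((isOpen_lt continuous_const (continuous_fst.sub (continuous_snd.mul continuous_const))).inter
        (isOpen_lt (continuous_fst.sub continuous_snd) continuous_const))
  exact h1.inter ((isOpen_lt ((continuous_apply 0).add continuous_const) continuous_const).inter
    (h2.preimage (AB_smooth hR hf h c).continuous))

theorem AB_lt (hR : RhoStmt) {f : ℝ → ℝ} {c : ℝ} (hf : IsFold c f) (hc : 0 < c) (h : ℝ)
    {s : Fin (d + 1) → ℝ} (hs : ∀ j, 0 < s j) : (AB f h c s).1 - (AB f h c s).2 < 1 := by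
  have h1 : 0 ≤ ∑ j, s j := Finset.sum_nonneg fun j _ => (hs j).le
  have h2 := ((hR d h).2.2.2.2.2.1 f s d hf.nonneg).1
  simp only [AB]
  linarith

theorem num1 {m sl c U V R ρ ρ' S : ℝ} (hm : 2 ≤ m) (hs : 0 < sl) (hc : 0 < c) (hρ : ρ ≤ ρ')
    (hR : R = 1 - 2 * S - ρ' - 4 * c) (h : m * U - (m - 1) * V ≤ m * R + c) :
    sl + 2 * c + U - (1 - 2 / (2 * m)) * (sl + 2 * c + V) < 1 - 2 * (S - sl) - ρ - c := by
  have m0 : 0 < m := by linarith
  refine lt_of_mul_lt_mul_left ?_ m0.le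
  have e : m * (sl + 2 * c + U - (1 - 2 / (2 * m)) * (sl + 2 * c + V))
      = sl + 2 * c + (m * U - (m - 1) * V) := by
    field_simp
    ring
  rw [e]
  rw [hR] at h
  nlinarith [mul_le_mul_of_nonneg_left hρ m0.le, mul_le_mul_of_nonneg_right hm hs.le,
    mul_le_mul_of_nonneg_right hm hc.le]

theorem mem_Qs (hR : RhoStmt) {f : ℝ → ℝ} {c : ℝ} (hf : IsFold c f) (hc : 0 < c) (h : ℝ) {M : ℝ}
    (P : Pent M c) (hd : 2 ≤ d) (hM : 2 ≤ M) (h2 : (2 : ℝ) ^ d = 2 * M) (t : ℝ)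
    {s : Fin (d + 1) → ℝ} (hs : s ∈ CC d f h c M) :
    pt (up f h c P.U (t, s)) (up f h c P.V (t, s)) s ∈ Qs d h c d := by
  obtain ⟨r1, r2, r3, r4, r5⟩ := P.reg t _ hs.2.2
  have hl := hs.1 (Fin.last d)
  have e0 : ∀ X Y : ℝ, ∀ j, j ≠ Fin.last d → s j = cs (pt X Y s) j := fun X Y j hj => by
    simp [cs, pt, hj]
  have e1 : ∀ X Y : ℝ, pt X Y s none = X := fun _ _ => rfl
  have e2 : ∀ X Y : ℝ, pt X Y s (some (Fin.last d)) = Y := fun _ _ => by simp [pt]
  have e3 := (hR d h).2.2.2.2.1 pos f s s 0 d le_rfl fun j _ => by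
    rw [add_zero]
    exact pos_le hf _
  rw [add_zero] at e3
  have e4 : (AB f h c s).1 - (AB f h c s).2 = 1 - 2 * ∑ j, s j - rho f h s d - 4 * c := by
    simp only [AB]
    ring
  refine ⟨fun j hj => ?_, ?_, ?_, fun _ => ?_, ?_, ?_, ?_⟩
  · have hj' : j ≠ Fin.last d := fun e => by
      rw [e, Fin.val_last] at hj
      omega
    exact (hs.1 j).trans_eq (e0 _ _ j hj')
  · rw [e1]
    simp only [up]
    linarith
  · rw [e2]
    simp only [up]
    linarith
  · have hj' : (0 : Fin (d + 1)) ≠ Fin.last d := fun e => by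
      have := congrArg Fin.val e
      rw [Fin.val_last, Fin.val_zero] at this
      omega
    have := e0 (up f h c P.U (t, s)) (up f h c P.V (t, s)) 0 hj'
    simp only [cs] at this
    rw [← this]
    exact hs.2.1
  · rw [e1, e2, sub_self, add_zero, ← rho_eq hR pos h (e0 _ _), ← Sp_eq (e0 _ _) le_rfl,
      Sp_last hR, h2]
    exact num1 hM hl hc e3 e4 r4
  · rw [e1, e2, sub_self, add_zero, ← rho_eq hR pos h (e0 _ _), ← Sp_eq (e0 _ _) le_rfl,
      Sp_last hR, h2]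
    exact num1 hM hl hc e3 e4 r5
  · rw [e1, e2, sub_self, add_zero, ← Sp_eq (e0 _ _) le_rfl, Sp_last hR]
    simp only [up]
    have : (AB f h c s).1 = 1 - h - ∑ j, s j := rfl
    linarith

theorem Lb_le (hR : RhoStmt) (h : ℝ) {M : ℝ} (hM : 2 ≤ M) (h2 : (2 : ℝ) ^ d = 2 * M)
    (s : Fin (d + 1) → ℝ) :
    Lb h s ≤ (4 * M - 1) * (1 - h - ∑ j, s j) - 4 * M * (∑ j, s j - h + rho pos h s d)
      - 2 * M / (2 * M - 1) * max (∑ j, s j - h + rho pos h s d) 0 := by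
  have h1 := ((hR d h).2.2.2.2.2.1 pos s d fun x => le_max_right x 0).1
  have h3 : max (∑ j, s j - h + rho pos h s d) 0 ≤ rho pos h s d + pos (∑ j, s j - h) :=
    max_le (by linarith [le_max_left (∑ j, s j - h) 0, show pos (∑ j, s j - h) = max _ 0 from rfl])
      (add_nonneg h1 (le_max_right _ _))
  have h4 : (0 : ℝ) < 2 * M - 1 := by linarith
  have h5 := mul_le_mul_of_nonneg_left h3 (show 0 ≤ 2 * M / (2 * M - 1) by positivity)
  have h6 : (2 : ℝ) ^ (d + 1) = 4 * M := by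
    rw [pow_succ, h2]
    ring
  have h7 : Lb h s = (4 * M - 1) * (1 - h - ∑ j, s j) - 4 * M * (∑ j, s j - h + rho pos h s d)
      - 2 * M / (2 * M - 1) * (rho pos h s d + pos (∑ j, s j - h)) := by
    rw [Lb, rho, ((hR d h).1 s).2.1, h6]
    obtain ⟨w, hw⟩ : ∃ w, w = 2 * M - 1 := ⟨_, rfl⟩
    have h9 : (4 * M - 2 : ℝ) = 2 * w := by rw [hw]; ring
    have h8 : M = (w + 1) / 2 := by rw [hw]; ring
    rw [← hw] at h4
    rw [h9, ← hw, h8]
    field_simp
    ring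
  linarith

theorem num2 {m c κ h S ρ ρ' L q : ℝ} (hm : 2 ≤ m) (hc : 0 < c) (c1 : c ≤ 1 - 2 * h)
    (c2 : 40 * m * c ≤ κ) (hq : q = 2 * m / (2 * m - 1)) (ρ0 : 0 ≤ ρ) (ρ2 : ρ' ≤ ρ + c)
    (hL : κ < L) (h1 : L ≤ (4 * m - 1) * (1 - h - S) - 4 * m * (S - h + ρ) - q * max (S - h + ρ) 0) :
    c < 1 - h - S ∧ c < 1 - h - S - (S - h + ρ' + 4 * c) * q ∧
      L - κ ≤ (4 * m - 1) * (1 - h - S) - 4 * m * (S - h + ρ' + 4 * c)
        - q * max (S - h + ρ' + 4 * c) 0 - c := by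
  have h4 : (0 : ℝ) < 2 * m - 1 := by linarith
  have q0 : 0 ≤ q := by
    rw [hq]
    positivity
  have q1 : q ≤ 4 / 3 := by
    rw [hq, div_le_iff₀ h4]
    linarith
  have q2 : (4 * m - 1) * q = 4 * m + q := by
    have := (eq_div_iff h4.ne').1 hq
    linarith
  have mc : 2 * c ≤ m * c := mul_le_mul_of_nonneg_right hm hc.le
  have qc : q * c ≤ 4 / 3 * c := mul_le_mul_of_nonneg_right q1 hc.le
  have k0 : (0 : ℝ) < 4 * m - 1 := by linarith
  refine ⟨?_, ?_, ?_⟩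
  · rcases le_or_gt 0 (S - h + ρ) with h5 | h5
    · refine lt_of_mul_lt_mul_left ?_ k0.le
      nlinarith [mul_nonneg q0 (le_max_right (S - h + ρ) 0), mul_nonneg (by linarith : 0 ≤ m) h5]
    · linarith
  · have h5 : 8 * c < 1 - h - S - (S - h + ρ) * q := by
      refine lt_of_mul_lt_mul_left ?_ k0.le
      have h6 := mul_le_mul_of_nonneg_left (le_max_left (S - h + ρ) 0) q0
      have h7 : (4 * m - 1) * (1 - h - S - (S - h + ρ) * q)
          = (4 * m - 1) * (1 - h - S) - (4 * m + q) * (S - h + ρ) := by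
        rw [← q2]
        ring
      rw [h7]
      nlinarith
    have h6 : (S - h + ρ' + 4 * c) * q ≤ (S - h + ρ + 5 * c) * q :=
      mul_le_mul_of_nonneg_right (by linarith) q0
    nlinarith
  · have h5 : max (S - h + ρ' + 4 * c) 0 ≤ max (S - h + ρ) 0 + 5 * c :=
      max_le (by linarith [le_max_left (S - h + ρ) 0]) (by linarith [le_max_right (S - h + ρ) 0])
    have h6 := mul_le_mul_of_nonneg_left h5 q0
    have h7 : m * ρ' ≤ m * (ρ + c) := mul_le_mul_of_nonneg_left ρ2 (by linarith)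
    nlinarith

end LoopB

open LoopB in
theorem loopBS (hR : RhoStmt) (hP : PentStmt) : LoopBStmt := by
  intro d h κ hd h0 h1 hκ
  obtain ⟨M, hM, h2⟩ : ∃ M : ℕ, 2 ≤ M ∧ (2 : ℝ) ^ d = 2 * M := by
    obtain ⟨e, rfl⟩ := Nat.exists_eq_add_of_le' hd
    refine ⟨2 * 2 ^ e, by linarith [Nat.one_le_two_pow (n := e)], ?_⟩
    push_cast
    ring
  have hM' : (2 : ℝ) ≤ M := by exact_mod_cast hM
  obtain ⟨c, hc, c1, c2⟩ : ∃ c : ℝ, 0 < c ∧ c ≤ 1 - 2 * h ∧ 40 * M * c ≤ κ := by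
    refine ⟨min (1 - 2 * h) (κ / (40 * M)), lt_min (by linarith) (by positivity),
      min_le_left _ _, ?_⟩
    rw [mul_comm, ← le_div_iff₀ (by positivity)]
    exact min_le_right _ _
  obtain ⟨f, hf⟩ := foldFnS c hc
  obtain ⟨P⟩ := hP M c hM hc
  refine ⟨CC d f h c M, loop hR hf h P, c, hc, CC_open hR hf.smooth h c M,
    fun s hs Y hY e => ?_, fun t s hs => mem_Qs hR hf hc h P hd hM' h2 t hs,
    fun s hs s0 hL => ?_⟩
  · obtain ⟨a1, a2⟩ := AB_mono hR (mono hf) h c e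
    obtain ⟨b1, b2, -⟩ := hs.2.2
    have q0 : (0 : ℝ) ≤ 2 * M / (2 * M - 1) := div_nonneg (by positivity) (by linarith)
    refine ⟨hY, by linarith [hs.2.1, e 0], b1.trans_le a1, ?_, AB_lt hR hf hc h hY⟩
    linarith [mul_le_mul_of_nonneg_right a2 q0]
  · have ρ0 := ((hR d h).2.2.2.2.2.1 pos s d fun x => le_max_right x 0).1
    have ρ2 := (hR d h).2.2.2.2.1 f pos s s c d hc.le fun j _ => hf.le _
    obtain ⟨a1, a2, a3⟩ := num2 hM' hc c1 c2 rfl ρ0 ρ2 hL (Lb_le hR h hM' h2 s)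
    have hs' : s ∈ CC d f h c M := ⟨hs, by nlinarith, a1, a2, AB_lt hR hf hc h hs⟩
    exact ⟨hs', a3.trans (P.len _ hs'.2.2)⟩

end Vale.Agent.P209
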