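import Vale.Agent.P209.Stm3

/-! P209: smoothness, periodicity and values of the pentagon loops. -/

open Set Filter Topology Function
open scoped Real ContDiff

noncomputable section
namespace Vale.Agent.P209
namespace PentA

theorem fold_diff {κ : ℝ} {F : ℝ → ℝ} (h : ExFold κ F) {x y : ℝ} (hxy : y ≤ x) :
    0 ≤ F x - F y ∧ F x - F y ≤ x - y := by
  have hd : Differentiable ℝ F := h.smooth.differentiable (by simp)
  have h0 : ∀ z, 0 ≤ deriv F z := fun z => by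
    have := h.mono (min_le_left z (-κ))
    rwa [(h.lo _ (min_le_right _ _)).2] at this
  have h1 : ∀ z, deriv F z ≤ 1 := fun z => by
    have := h.mono (le_max_left z κ)
    rwa [h.hi _ (le_max_right _ _)] at this
  have m1 : Monotone F := monotone_of_deriv_nonneg hd h0
  have m2 : Monotone fun z => z - F z :=
    monotone_of_deriv_nonneg (differentiable_id.sub hd) fun z => by
      have : HasDerivAt (fun z => z - F z) (1 - deriv F z) z :=
        (hasDerivAt_id z).sub (hd z).hasDerivAt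
      rw [this.deriv]
      linarith [h1 z]
  have a1 := m1 hxy
  have a2 := m2 hxy
  dsimp only at a2
  constructor <;> linarith

theorem lane_mem {κ : ℝ} {F ν : ℝ → ℝ} {a : ℝ × ℝ × ℝ → ℝ} (h : IsLane κ F ν a) {t α β : ℝ}
    (hα : |α| ≤ 2) (hβ : |β| ≤ 2) (hab : β ≤ α) (h1 : -11 ≤ t) (h2 : t ≤ 12) :
    0 ≤ a (t, α, β) ∧ a (t, α, β) ≤ α - β := by
  rcases le_total t 0 with c | c
  · rw [h.lo t α β hα hβ h1 c]
    exact ⟨le_rfl, by linarith⟩
  rcases le_total t 1 with c' | c'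
  · rw [h.mid t α β (by linarith) (by linarith)]
    have := fold_diff h.fold (x := α + ν t) (y := β + ν t) (by linarith)
    exact ⟨this.1, by linarith [this.2]⟩
  · rw [h.hi t α β hα hβ c' h2]
    exact ⟨by linarith, le_rfl⟩

theorem red {g : ℝ → ℝ} (hg : ∀ t, g (t + 12) = g t) (t : ℝ) :
    g t = g (toIcoMod (show (0 : ℝ) < 12 by norm_num) (-1) t) := by
  have hp : Function.Periodic g 12 := hg
  rw [← self_sub_toIcoDiv_zsmul]
  exact (hp.sub_zsmul_eq _).symm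

/-- the five inequalities along the pentagon -/
theorem five {M ψ lb lc x y u3 u5 u7 : ℝ} (hM : 2 ≤ M) (hψ : 0 ≤ ψ) (hb : 0 ≤ lb) (hc : 0 ≤ lc)
    (hx : 0 ≤ x ∧ x ≤ lc + lb) (hy : 0 ≤ y ∧ y ≤ lc + lb) (h3 : 0 ≤ u3 ∧ u3 ≤ lb)
    (h5 : 0 ≤ u5 ∧ u5 ≤ lc) (h7 : 0 ≤ u7 ∧ u7 ≤ lb)
    (h : (u3 = 0 ∧ u5 = 0 ∧ u7 = 0 ∧ y = 0) ∨ (x = lc + lb ∧ u5 = 0 ∧ u7 = 0 ∧ y = 0) ∨
      (x = lc + lb ∧ u3 = lb ∧ u7 = 0 ∧ y = 0) ∨ (x = lc + lb ∧ u3 = lb ∧ u5 = lc ∧ y = 0) ∨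
      (x = lc + lb ∧ u3 = lb ∧ u5 = lc ∧ u7 = lb)) {U V : ℝ}
    (hU : U = M * (lc + lb + ψ) - M * x + u5 + u7 + (M - 1) * y)
    (hV : V = M * (lc + lb + ψ) - (M - 1) * x - u3 - u5 + M * y) :
    0 ≤ U ∧ 0 ≤ V ∧ lc + 2 * M * ψ ≤ U + V ∧ M * U - (M - 1) * V ≤ M * (lc + lb + ψ) ∧
      M * V - (M - 1) * U ≤ M * (lc + lb + ψ) := by
  obtain ⟨m, rfl⟩ : ∃ m, M = m + 2 := ⟨M - 2, by ring⟩
  have hm : 0 ≤ m := by linarith
  have a1 := mul_nonneg hm hψ
  have a2 := mul_nonneg hm hb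
  have a3 := mul_nonneg hm hc
  have a4 := mul_nonneg hm hx.1
  have a5 := mul_le_mul_of_nonneg_left hx.2 hm
  have a6 := mul_nonneg hm hy.1
  have a7 := mul_le_mul_of_nonneg_left hy.2 hm
  have a8 := mul_nonneg hm h3.1
  have a9 := mul_le_mul_of_nonneg_left h3.2 hm
  have a10 := mul_nonneg hm h5.1
  have a11 := mul_le_mul_of_nonneg_left h5.2 hm
  have a12 := mul_nonneg hm h7.1
  have a13 := mul_le_mul_of_nonneg_left h7.2 hm
  obtain ⟨x1, x2⟩ := hx
  obtain ⟨y1, y2⟩ := hy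
  obtain ⟨b1, b2⟩ := h3
  obtain ⟨c1, c2⟩ := h5
  obtain ⟨d1, d2⟩ := h7
  subst hU hV
  rcases h with ⟨rfl, rfl, rfl, rfl⟩ | ⟨rfl, rfl, rfl, rfl⟩ | ⟨rfl, e, rfl, rfl⟩ |
    ⟨rfl, e, e', rfl⟩ | ⟨rfl, e, e', e''⟩
  · refine ⟨?_, ?_, ?_, ?_, ?_⟩ <;> linarith
  · refine ⟨?_, ?_, ?_, ?_, ?_⟩ <;> linarith
  · rw [e]
    refine ⟨?_, ?_, ?_, ?_, ?_⟩ <;> linarith
  · rw [e, e']
    refine ⟨?_, ?_, ?_, ?_, ?_⟩ <;> linarith
  · rw [e, e', e'']
    refine ⟨?_, ?_, ?_, ?_, ?_⟩ <;> linarith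

variable (P : PData)

theorem two_le : (2 : ℝ) ≤ P.M := by exact_mod_cast P.hM

theorem f_eq (B : ℝ) : P.f B = (2 * P.M - 1) * P.ψ B := by
  have := two_le P
  unfold PData.ψ
  rw [mul_div_cancel₀ _ (by linarith)]

theorem sum_eq (A B : ℝ) : A - B - P.ψ B = P.lc A B + P.lb B := by
  unfold PData.lc PData.lb
  rw [f_eq P B]
  ring

theorem ψ_le (B : ℝ) :
    2 * P.M * P.ψ B ≤ 2 * P.M / (2 * P.M - 1) * max B 0 + 2 * P.e := by
  have h1 := two_le P
  have h2 := P.hf.le B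
  have h3 := P.he
  have h4 : 2 * (P.M : ℝ) / (2 * P.M - 1) ≤ 2 := by
    rw [div_le_iff₀ (by linarith)]
    linarith
  have h5 : 0 ≤ 2 * (P.M : ℝ) / (2 * P.M - 1) := div_nonneg (by linarith) (by linarith)
  have h6 : 2 * P.M * P.ψ B = 2 * P.M / (2 * P.M - 1) * P.f B := by
    unfold PData.ψ
    ring
  have h7 := mul_le_mul_of_nonneg_left h2 h5
  nlinarith

theorem sm_ψ : ContDiff ℝ ∞ fun p : ℝ × ℝ × ℝ => P.ψ p.2.2 :=
  (P.hf.smooth.comp (contDiff_snd.comp contDiff_snd)).div_const _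

theorem sm_lb : ContDiff ℝ ∞ fun p : ℝ × ℝ × ℝ => P.lb p.2.2 :=
  (P.hf.smooth.comp (contDiff_snd.comp contDiff_snd)).sub (contDiff_snd.comp contDiff_snd)

theorem sm_lc : ContDiff ℝ ∞ fun p : ℝ × ℝ × ℝ => P.lc p.2.1 p.2.2 :=
  (contDiff_fst.comp contDiff_snd).sub (contDiff_const.mul (sm_ψ P))

theorem sm_R : ContDiff ℝ ∞ fun p : ℝ × ℝ × ℝ => p.2.1 - p.2.2 :=
  (contDiff_fst.comp contDiff_snd).sub (contDiff_snd.comp contDiff_snd)

theorem sm_a1 (c : ℝ) : ContDiff ℝ ∞ (P.a1 c) :=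
  P.ha.smooth.comp ((contDiff_fst.sub contDiff_const).prodMk
    ((sm_R.sub contDiff_const).prodMk ((sm_ψ P).add contDiff_const)))

theorem sm_a5 (c : ℝ) : ContDiff ℝ ∞ (P.a5 c) :=
  P.ha.smooth.comp ((contDiff_fst.sub contDiff_const).prodMk
    (((sm_ψ P).neg.sub contDiff_const).prodMk (sm_R.neg.add contDiff_const)))

theorem sm_S (n : ℝ) : ContDiff ℝ ∞ fun p : ℝ × ℝ × ℝ => P.S (p.1 - n) :=
  P.hS.smooth.comp (contDiff_fst.sub contDiff_const)

theorem a1_per (c t : ℝ) (p : ℝ × ℝ) :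
    P.a1 c (t + 12, p) = P.a1 c (t, p) + (p.1 - p.2 - P.ψ p.2 - 2 * c) := by
  unfold PData.a1
  dsimp only
  rw [show t + 12 - 1 = t - 1 + 12 by ring, P.ha.per]
  ring

theorem a5_per (c t : ℝ) (p : ℝ × ℝ) :
    P.a5 c (t + 12, p) = P.a5 c (t, p) + (p.1 - p.2 - P.ψ p.2 - 2 * c) := by
  unfold PData.a5
  dsimp only
  rw [show t + 12 - 9 = t - 9 + 12 by ring, P.ha.per]
  ring

end PentA

open PentA in
theorem pent0S : Pent0Stmt := by
  intro P
  have sX : ContDiff ℝ ∞ fun p : ℝ × ℝ × ℝ => P.X p.1 := P.hT.sX.comp contDiff_fst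
  have sY : ContDiff ℝ ∞ fun p : ℝ × ℝ × ℝ => P.Y p.1 := P.hT.sY.comp contDiff_fst
  refine ⟨?_, ?_, ?_, fun t p => ⟨?_, ?_⟩, fun p => ⟨P.k * 12 + (2 * P.M - 1) *
    (2 * (p.1 - p.2 - P.ψ p.2 - 2 * (2 * P.e))) + 2 * P.lb p.2 + P.lc p.1 p.2, fun t => ?_⟩,
    fun p hp => ⟨?_, ?_, ?_, sum_eq P _ _⟩⟩
  · exact (((((contDiff_const.mul sm_R).add (contDiff_const.mul sX)).sub
      (contDiff_const.mul (sm_a1 P 0))).add ((sm_S P 5).mul (sm_lc P))).add
      ((sm_S P 7).mul (sm_lb P))).add (contDiff_const.mul (sm_a5 P 0))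
  · exact (((((contDiff_const.mul sm_R).add (contDiff_const.mul sY)).sub
      (contDiff_const.mul (sm_a1 P 0))).sub ((sm_S P 3).mul (sm_lb P))).sub
      ((sm_S P 5).mul (sm_lc P))).add (contDiff_const.mul (sm_a5 P 0))
  · exact ((((contDiff_const.mul contDiff_fst).add
      (contDiff_const.mul ((sm_a1 P _).add (sm_a5 P _)))).add ((sm_S P 3).mul (sm_lb P))).add
      ((sm_S P 5).mul (sm_lc P))).add ((sm_S P 7).mul (sm_lb P))
  · unfold PData.U
    rw [a1_per, a5_per, sum_eq]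
    dsimp only
    rw [P.hT.pX, P.hS.per', P.hS.per']
    ring
  · unfold PData.V
    rw [a1_per, a5_per, sum_eq]
    dsimp only
    rw [P.hT.pY, P.hS.per', P.hS.per']
    ring
  · unfold PData.G
    rw [a1_per, a5_per]
    dsimp only
    rw [P.hS.per', P.hS.per', P.hS.per']
    ring
  · obtain ⟨h1, h2, -⟩ := hp
    have h3 := ψ_le P p.2
    have h4 := two_le P
    have h5 := P.heκ
    have h6 := P.he
    have h7 : 2 * (P.M : ℝ) / (2 * P.M - 1) * max p.2 0 ≤ p.1 - P.κ := by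
      rcases le_total p.2 0 with c | c
      · rw [max_eq_right c]
        linarith
      · rw [max_eq_left c]
        linarith
    unfold PData.lc
    nlinarith
  · have h1 := P.hf.odd p.2
    have h2 := P.hf.nonneg (-p.2)
    unfold PData.lb
    linarith
  · have h1 := two_le P
    exact div_nonneg (P.hf.nonneg _) (by linarith)

open PentA in
theorem pentAS (h0 : Pent0Stmt) : PentAStmt := by
  intro P p hp
  obtain ⟨-, -, -, hper, -, hd⟩ := h0 P
  obtain ⟨d1, d2, d3, d4⟩ := hd p hp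
  obtain ⟨-, -, p3⟩ := hp
  have hM := two_le P
  have he := P.he
  have he1 := P.he1
  have heκ := P.heκ
  have hk := P.hk
  have e1 : P.e ≤ 1 / 40 := by nlinarith
  have ab : ∀ x : ℝ, -2 ≤ x → x ≤ 2 → |x| ≤ 2 := fun x a b => abs_le.2 ⟨a, b⟩
  have b1 : ∀ c, 0 ≤ c → c ≤ 1 → |p.1 - p.2 - c| ≤ 2 := fun c _ _ =>
    ab _ (by linarith) (by linarith)
  have b2 : ∀ c, 0 ≤ c → c ≤ 1 → |P.ψ p.2 + c| ≤ 2 := fun c _ _ =>
    ab _ (by linarith) (by linarith)
  have b3 : ∀ c, 0 ≤ c → c ≤ 1 → |-P.ψ p.2 - c| ≤ 2 := fun c _ _ =>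
    ab _ (by linarith) (by linarith)
  have b4 : ∀ c, 0 ≤ c → c ≤ 1 → |-(p.1 - p.2) + c| ≤ 2 := fun c _ _ =>
    ab _ (by linarith) (by linarith)
  have lo1 : ∀ c t, 0 ≤ c → c ≤ 1 → -10 ≤ t → t ≤ 1 → P.a1 c (t, p) = 0 := fun c t c0 c1 t0 t1 =>
    P.ha.lo _ _ _ (b1 c c0 c1) (b2 c c0 c1) (by dsimp only; linarith) (by dsimp only; linarith)
  have lo5 : ∀ c t, 0 ≤ c → c ≤ 1 → -2 ≤ t → t ≤ 9 → P.a5 c (t, p) = 0 := fun c t c0 c1 t0 t1 =>
    P.ha.lo _ _ _ (b3 c c0 c1) (b4 c c0 c1) (by dsimp only; linarith) (by dsimp only; linarith)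
  have hi1 : ∀ c t, 0 ≤ c → c ≤ 1 → 2 ≤ t → t ≤ 13 →
      P.a1 c (t, p) = P.lc p.1 p.2 + P.lb p.2 - 2 * c := fun c t c0 c1 t0 t1 =>
    (P.ha.hi _ _ _ (b1 c c0 c1) (b2 c c0 c1) (by dsimp only; linarith)
      (by dsimp only; linarith)).trans (by linarith)
  have hi5 : ∀ c t, 0 ≤ c → c ≤ 1 → 10 ≤ t → t ≤ 21 →
      P.a5 c (t, p) = P.lc p.1 p.2 + P.lb p.2 - 2 * c := fun c t c0 c1 t0 t1 =>
    (P.ha.hi _ _ _ (b3 c c0 c1) (b4 c c0 c1) (by dsimp only; linarith)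
      (by dsimp only; linarith)).trans (by linarith)
  have s0 : ∀ t n : ℝ, -11 ≤ t - n → t - n ≤ 0 → P.S (t - n) = 0 := fun t n a b =>
    (P.hS.lo _ a b).1
  have s1 : ∀ t n : ℝ, 1 ≤ t - n → t - n ≤ 12 → P.S (t - n) = 1 := fun t n a b =>
    (P.hS.hi _ a b).1
  refine ⟨?_, fun t ht => ?_, fun t0 => ?_⟩
  · unfold PData.G
    rw [hi1 _ _ (by linarith) (by linarith) (by norm_num) (by norm_num),
      hi5 _ _ (by linarith) (by linarith) (by norm_num) (by norm_num)]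
    dsimp only
    rw [s1 12 3 (by norm_num) (by norm_num), s1 12 5 (by norm_num) (by norm_num),
      s1 12 7 (by norm_num) (by norm_num), ← d4]
    have h3 := ψ_le P p.2
    have h4 := mul_nonneg (Nat.cast_nonneg (α := ℝ) P.M) he.le
    unfold PData.lc PData.lb
    rw [f_eq P]
    linarith
  · obtain ⟨t1, t2⟩ := abs_lt.1 ht
    have hz := P.hT.zone t ht
    unfold PData.G PData.U PData.V
    rw [lo1 _ _ (by linarith) (by linarith) (by linarith) (by linarith),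
      lo5 _ _ (by linarith) (by linarith) (by linarith) (by linarith),
      lo1 0 _ le_rfl zero_le_one (by linarith) (by linarith),
      lo5 0 _ le_rfl zero_le_one (by linarith) (by linarith)]
    dsimp only
    rw [s0 t 3 (by linarith) (by linarith), s0 t 5 (by linarith) (by linarith),
      s0 t 7 (by linarith) (by linarith)]
    exact ⟨by ring, by linear_combination P.k * hz⟩
  · rw [red (g := fun t => P.U (t, p)) (fun t => (hper t p).1) t0,
      red (g := fun t => P.V (t, p)) (fun t => (hper t p).2) t0]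
    obtain ⟨t1, t2⟩ := toIcoMod_mem_Ico (show (0 : ℝ) < 12 by norm_num) (-1) t0
    generalize toIcoMod (show (0 : ℝ) < 12 by norm_num) (-1) t0 = t at t1 t2
    have hc : 0 ≤ P.lc p.1 p.2 := by linarith
    have m1 : 0 ≤ P.a1 0 (t, p) ∧ P.a1 0 (t, p) ≤ P.lc p.1 p.2 + P.lb p.2 := by
      have := lane_mem P.ha (t := t - 1) (b1 0 le_rfl zero_le_one) (b2 0 le_rfl zero_le_one)
        (by linarith) (by linarith) (by linarith)
      exact ⟨this.1, this.2.trans (by linarith)⟩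
    have m5 : 0 ≤ P.a5 0 (t, p) ∧ P.a5 0 (t, p) ≤ P.lc p.1 p.2 + P.lb p.2 := by
      have := lane_mem P.ha (t := t - 9) (b3 0 le_rfl zero_le_one) (b4 0 le_rfl zero_le_one)
        (by linarith) (by linarith) (by linarith)
      exact ⟨this.1, this.2.trans (by linarith)⟩
    have ms : ∀ n l : ℝ, 0 ≤ l → -11 ≤ t - n → t - n ≤ 12 →
        0 ≤ P.S (t - n) * l ∧ P.S (t - n) * l ≤ l := fun n l hl a b =>
      ⟨mul_nonneg (P.hS.mid _ a b).1 hl, mul_le_of_le_one_left hl (P.hS.mid _ a b).2⟩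
    have z0 : ∀ n l : ℝ, -11 ≤ t - n → t - n ≤ 0 → P.S (t - n) * l = 0 := fun n l a b => by
      rw [s0 t n a b, zero_mul]
    have z1 : ∀ n l : ℝ, 1 ≤ t - n → t - n ≤ 12 → P.S (t - n) * l = l := fun n l a b => by
      rw [s1 t n a b, one_mul]
    have x1 : 2 ≤ t → P.a1 0 (t, p) = P.lc p.1 p.2 + P.lb p.2 := fun a => by
      rw [hi1 0 t le_rfl zero_le_one a (by linarith)]
      ring
    have y0 : t ≤ 9 → P.a5 0 (t, p) = 0 := fun a => lo5 0 t le_rfl zero_le_one (by linarith) a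
    have hR : p.1 - p.2 = P.lc p.1 p.2 + P.lb p.2 + P.ψ p.2 := by linarith
    have hA : p.1 = P.lc p.1 p.2 + 2 * P.M * P.ψ p.2 := by
      unfold PData.lc
      ring
    obtain ⟨k1, k2, k3, k4, k5⟩ := five hM d3 d2 hc m1 m5
      (ms 3 _ d2 (by linarith) (by linarith)) (ms 5 _ hc (by linarith) (by linarith))
      (ms 7 _ d2 (by linarith) (by linarith))
      (by
        rcases le_total t 2 with c1 | c1
        · exact Or.inl ⟨z0 _ _ (by linarith) (by linarith), z0 _ _ (by linarith) (by linarith),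
            z0 _ _ (by linarith) (by linarith), y0 (by linarith)⟩
        rcases le_total t 4 with c2 | c2
        · exact Or.inr (Or.inl ⟨x1 c1, z0 _ _ (by linarith) (by linarith),
            z0 _ _ (by linarith) (by linarith), y0 (by linarith)⟩)
        rcases le_total t 6 with c3 | c3
        · exact Or.inr (Or.inr (Or.inl ⟨x1 c1, z1 _ _ (by linarith) (by linarith),
            z0 _ _ (by linarith) (by linarith), y0 (by linarith)⟩))
        rcases le_total t 8 with c4 | c4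
        · exact Or.inr (Or.inr (Or.inr (Or.inl ⟨x1 c1, z1 _ _ (by linarith) (by linarith),
            z1 _ _ (by linarith) (by linarith), y0 (by linarith)⟩)))
        · exact Or.inr (Or.inr (Or.inr (Or.inr ⟨x1 c1, z1 _ _ (by linarith) (by linarith),
            z1 _ _ (by linarith) (by linarith), z1 _ _ (by linarith) (by linarith)⟩))))
      (U := P.U (t, p) - P.k * P.X t) (V := P.V (t, p) - P.k * P.Y t)
      (by
        unfold PData.U
        dsimp only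
        rw [← hR]
        ring)
      (by
        unfold PData.V
        dsimp only
        rw [← hR]
        ring)
    rw [← hR] at k4 k5
    rw [← hA] at k3
    obtain ⟨q1, q2⟩ := P.hT.bd t
    obtain ⟨q3, q4⟩ := abs_le.1 q1
    obtain ⟨q5, q6⟩ := abs_le.1 q2
    have r1 := mul_le_mul_of_nonneg_left q3 hk.le
    have r2 := mul_le_mul_of_nonneg_left q4 hk.le
    have r3 := mul_le_mul_of_nonneg_left q5 hk.le
    have r4 := mul_le_mul_of_nonneg_left q6 hk.le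
    have r5 := P.hkb
    rw [mul_neg] at r1 r3
    generalize P.k * P.X t = a at *
    generalize P.k * P.Y t = b at *
    generalize P.k * P.b = w at *
    have w0 : 0 ≤ w := by linarith
    have hm : (0 : ℝ) ≤ P.M - 2 := by linarith
    have u0 := mul_nonneg hm w0
    have u1 := mul_le_mul_of_nonneg_left r1 hm
    have u2 := mul_le_mul_of_nonneg_left r2 hm
    have u3 := mul_le_mul_of_nonneg_left r3 hm
    have u4 := mul_le_mul_of_nonneg_left r4 hm
    refine ⟨?_, ?_, ?_, ?_, ?_⟩ <;> linarith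

end Vale.Agent.P209
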