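import Vale.Agent.P209.Stm3

/-! P209: direction, determinant and lattice condition for the pentagon loops. -/

open Set Filter Topology Function
open scoped Real ContDiff

noncomputable section
namespace Vale.Agent.P209
namespace PentB

open Five

theorem int_zero {n : ℤ} {c g : ℝ} (hc : 0 < c) (h : |(n : ℝ) * c| < g) (hg : g ≤ c) : n = 0 := by
  rw [abs_mul, abs_of_pos hc] at h
  have h1 : |(n : ℝ)| < 1 := by nlinarith [abs_nonneg (n : ℝ)]
  have h2 : |n| < 1 := by exact_mod_cast h1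
  exact Int.abs_lt_one_iff.1 h2

theorem one_le_abs {n : ℤ} (h : n ≠ 0) : (1 : ℝ) ≤ |(n : ℝ)| := by
  exact_mod_cast Int.one_le_abs h

/-- along a side -/
theorem side (e1 e2 x y : ℤ) (hxy : x * e1 + y * e2 = 1) {E1 E2 Xd Yd k m g Ut Vt W1 W2 : ℝ}
    (hE1 : E1 = e1) (hE2 : E2 = e2) (hR : Ray Xd Yd E1 E2) (hk : 0 < k) (hm : 0 ≤ m)
    (hU : Ut = k * Xd + m * E1) (hV : Vt = k * Yd + m * E2) (hd : 1 ≤ E1 * W2 - E2 * W1)
    (hg : g ≤ k + m ∨ (|W1| = 1 ∧ W2 = -W1 ∧ g ≤ |E1 + E2| * (k + m))) :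
    Good Ut Vt W1 W2 g Xd Yd := by
  obtain ⟨σ, hσ, rfl, rfl⟩ := hR
  have hs : k + m ≤ k * σ + m := by nlinarith
  have hs0 : 0 < k * σ + m := by linarith
  have hU' : Ut = (k * σ + m) * E1 := by rw [hU]; ring
  have hV' : Vt = (k * σ + m) * E2 := by rw [hV]; ring
  refine ⟨⟨(k * σ + m) / σ, by positivity, ?_, ?_⟩, ?_, fun a b h1 h2 => ?_⟩
  · rw [hU']
    field_simp
  · rw [hV']
    field_simp
  · have : Ut * W2 - Vt * W1 = (k * σ + m) * (E1 * W2 - E2 * W1) := by rw [hU', hV']; ring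
    rw [this]
    positivity
  rcases hg with hg | ⟨w1, w2, hg⟩
  · have n0 : a * e1 + b * e2 = 0 := by
      refine int_zero hs0 (lt_of_eq_of_lt (congrArg _ ?_) h1) (hg.trans hs)
      rw [hU', hV', hE1, hE2]
      push_cast
      ring
    have ha : a = -(b * x - a * y) * e2 := by linear_combination x * n0 - a * hxy
    have hb : b = (b * x - a * y) * e1 := by linear_combination y * n0 - b * hxy
    have c0 : b * x - a * y = 0 := by
      by_contra hc
      have h3 := one_le_abs hc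
      have ha' : (a : ℝ) = -((b * x - a * y : ℤ) : ℝ) * E2 := by rw [hE2]; exact_mod_cast ha
      have hb' : (b : ℝ) = ((b * x - a * y : ℤ) : ℝ) * E1 := by rw [hE1]; exact_mod_cast hb
      have h4 : (a : ℝ) * W1 + b * W2 = ((b * x - a * y : ℤ) : ℝ) * (E1 * W2 - E2 * W1) := by
        linear_combination W1 * ha' + W2 * hb'
      rw [h4, abs_mul, abs_of_pos (show 0 < E1 * W2 - E2 * W1 by linarith)] at h2
      nlinarith
    rw [c0] at ha hb
    exact ⟨by simpa using ha, by simpa using hb⟩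
  · have hab : a - b = 0 := by
      refine int_zero one_pos (g := 1) ?_ le_rfl
      have h3 : (a : ℝ) * W1 + b * W2 = ((a - b : ℤ) : ℝ) * W1 := by
        rw [w2]
        push_cast
        ring
      rw [h3, abs_mul, w1] at h2
      rwa [abs_mul, abs_one]
    obtain rfl : a = b := by omega
    have h3 : (a : ℝ) * Ut + a * Vt = a * ((E1 + E2) * (k * σ + m)) := by rw [hU', hV']; ring
    rw [h3, abs_mul, abs_mul, abs_of_pos hs0] at h1
    have h4 := mul_le_mul_of_nonneg_left hs (abs_nonneg (E1 + E2))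
    have h5 : 0 ≤ |E1 + E2| * (k * σ + m) := by positivity
    have h6 : a = 0 := by
      by_contra hc
      have := one_le_abs hc
      nlinarith
    exact ⟨h6, h6⟩

/-- at a corner -/
theorem corner (e1 e2 f1 f2 : ℤ) {E1 E2 F1 F2 Xd Yd k g Ut Vt W1 W2 : ℝ} (hE1 : E1 = e1)
    (hE2 : E2 = e2) (hF1 : F1 = f1) (hF2 : F2 = f2) (hC : Cone Xd Yd E1 E2 F1 F2) (hk : 0 < k)
    (hU : Ut = k * Xd) (hV : Vt = k * Yd) (hg : g = k) (hΔ : 0 < E1 * F2 - E2 * F1)
    (hd : 1 ≤ E1 * W2 - E2 * W1) (hd' : 1 ≤ F1 * W2 - F2 * W1)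
    (h : ∀ a b : ℤ, a ≠ 0 ∨ b ≠ 0 → E1 * F2 - E2 * F1 ≤
      (E1 * W2 - E2 * W1) * |a * F1 + b * F2| + (F1 * W2 - F2 * W1) * |a * E1 + b * E2|) :
    Good Ut Vt W1 W2 g Xd Yd := by
  obtain ⟨p, q, hp, hq, hpq, hX, hY⟩ := hC
  refine ⟨⟨k, hk, hU, hV⟩, ?_, fun a b h1 h2 => ?_⟩
  · have : Ut * W2 - Vt * W1 = k * (p * (E1 * W2 - E2 * W1) + q * (F1 * W2 - F2 * W1)) := by
      rw [hU, hV, hX, hY]; ring
    rw [this]
    refine mul_pos hk ?_
    nlinarith
  by_contra hab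
  have h3 := h a b (by tauto)
  have hα : (a : ℝ) * E1 + b * E2 = ((a * e1 + b * e2 : ℤ) : ℝ) := by rw [hE1, hE2]; push_cast; ring
  have hβ : (a : ℝ) * F1 + b * F2 = ((a * f1 + b * f2 : ℤ) : ℝ) := by rw [hF1, hF2]; push_cast; ring
  have h4 : (a : ℝ) * Ut + b * Vt = k * (p * (a * E1 + b * E2) + q * (a * F1 + b * F2)) := by
    rw [hU, hV, hX, hY]; ring
  have h5 : (E1 * F2 - E2 * F1) * (a * W1 + b * W2) =
      (E1 * W2 - E2 * W1) * (a * F1 + b * F2) - (F1 * W2 - F2 * W1) * (a * E1 + b * E2) := by ring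
  rw [h4, hg, abs_mul, abs_of_pos hk, mul_lt_iff_lt_one_right hk, abs_lt] at h1
  rw [abs_lt] at h2
  have h6 := mul_lt_mul_of_pos_left h2.1 hΔ
  have h7 := mul_lt_mul_of_pos_left h2.2 hΔ
  rw [hα, hβ] at h1 h3 h5
  generalize a * e1 + b * e2 = α at h1 h3 h5
  generalize a * f1 + b * f2 = β at h1 h3 h5
  have hc : (1 ≤ α ∧ 1 ≤ β) ∨ (α ≤ -1 ∧ β ≤ -1) ∨ (α ≤ 0 ∧ 0 ≤ β) ∨ (0 ≤ α ∧ β ≤ 0) := by omega
  rcases hc with ⟨c1, c2⟩ | ⟨c1, c2⟩ | ⟨c1, c2⟩ | ⟨c1, c2⟩
  · have d1 : (1 : ℝ) ≤ α := by exact_mod_cast c1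
    have d2 : (1 : ℝ) ≤ β := by exact_mod_cast c2
    nlinarith [h1.2]
  · have d1 : (α : ℝ) ≤ -1 := by exact_mod_cast c1
    have d2 : (β : ℝ) ≤ -1 := by exact_mod_cast c2
    nlinarith [h1.1]
  · have d1 : (α : ℝ) ≤ 0 := by exact_mod_cast c1
    have d2 : (0 : ℝ) ≤ β := by exact_mod_cast c2
    rw [abs_of_nonpos d1, abs_of_nonneg d2] at h3
    linarith
  · have d1 : (0 : ℝ) ≤ α := by exact_mod_cast c1
    have d2 : (β : ℝ) ≤ 0 := by exact_mod_cast c2
    rw [abs_of_nonneg d1, abs_of_nonpos d2] at h3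
    linarith

/-- corners where both determinants dominate -/
theorem corner' (e1 e2 f1 f2 : ℤ) {E1 E2 F1 F2 Xd Yd k g Ut Vt W1 W2 : ℝ} (hE1 : E1 = e1)
    (hE2 : E2 = e2) (hF1 : F1 = f1) (hF2 : F2 = f2) (hC : Cone Xd Yd E1 E2 F1 F2) (hk : 0 < k)
    (hU : Ut = k * Xd) (hV : Vt = k * Yd) (hg : g = k) (hΔ : 1 ≤ E1 * F2 - E2 * F1)
    (hd : E1 * F2 - E2 * F1 ≤ E1 * W2 - E2 * W1) (hd' : E1 * F2 - E2 * F1 ≤ F1 * W2 - F2 * W1) :
    Good Ut Vt W1 W2 g Xd Yd := by
  refine corner e1 e2 f1 f2 hE1 hE2 hF1 hF2 hC hk hU hV hg (by linarith) (hΔ.trans hd)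
    (hΔ.trans hd') fun a b hab => ?_
  have hα : (a : ℝ) * E1 + b * E2 = ((a * e1 + b * e2 : ℤ) : ℝ) := by rw [hE1, hE2]; push_cast; ring
  have hβ : (a : ℝ) * F1 + b * F2 = ((a * f1 + b * f2 : ℤ) : ℝ) := by rw [hF1, hF2]; push_cast; ring
  have p1 := abs_nonneg ((a : ℝ) * E1 + b * E2)
  have p2 := abs_nonneg ((a : ℝ) * F1 + b * F2)
  by_cases h1 : a * e1 + b * e2 = 0
  · by_cases h2 : a * f1 + b * f2 = 0
    · exfalso
      rw [h1, Int.cast_zero] at hα
      rw [h2, Int.cast_zero] at hβ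
      have ha : (a : ℝ) * (E1 * F2 - E2 * F1) = 0 := by linear_combination F2 * hα - E2 * hβ
      have hb : (b : ℝ) * (E1 * F2 - E2 * F1) = 0 := by linear_combination E1 * hβ - F1 * hα
      have h0 : E1 * F2 - E2 * F1 ≠ 0 := by linarith
      rcases hab with hab | hab
      · exact hab (by exact_mod_cast (mul_eq_zero.1 ha).resolve_right h0)
      · exact hab (by exact_mod_cast (mul_eq_zero.1 hb).resolve_right h0)
    · have := one_le_abs h2
      rw [← hβ] at this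
      nlinarith
  · have := one_le_abs h1
    rw [← hα] at this
    nlinarith

theorem long_aux {M d w : ℝ} (hM : 1 ≤ M) (hd : 1 ≤ d) {a b : ℤ} (hab : a ≠ 0 ∨ b ≠ 0)
    (hw : b = 0 → |w| = |(a : ℝ)| * M) : M ≤ (2 * M - 1) * |(b : ℝ)| + d * |w| := by
  have p1 := abs_nonneg w
  by_cases hb : b = 0
  · have := one_le_abs (hab.resolve_right fun h => h hb)
    rw [hw hb, hb]
    simp only [Int.cast_zero, abs_zero, mul_zero, zero_add]
    nlinarith [mul_nonneg (abs_nonneg (a : ℝ)) (show 0 ≤ M by linarith)]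
  · have := one_le_abs hb
    nlinarith

/-- the data of a lane at time `τ` -/
def LaneD (τ s s' m α' β' : ℝ) : Prop :=
  (τ ≤ 0 → s = 0 ∧ s' = 0 ∧ m = 0) ∧ (1 ≤ τ → s = 0 ∧ s' = 0 ∧ m = α' - β') ∧
    0 ≤ s ∧ (s' = 0 ∨ (s' ≤ s ∧ m = α'))

theorem lane {κ : ℝ} {F ν : ℝ → ℝ} {a : ℝ × ℝ × ℝ → ℝ} (h : IsLane κ F ν a) (hκ : 0 < κ)
    (hκ1 : 2 * κ ≤ 1) {α β : ℝ → ℝ} {α' β' τ α0 β0 α1 β1 : ℝ} (hα : HasDerivAt α α' 0)
    (hβ : HasDerivAt β β' 0) (e1 : α0 = α 0) (e2 : β0 = β 0) (e3 : α1 = α0 - 2 * κ)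
    (e4 : β1 = β0 + 2 * κ) (h1 : |α0| ≤ 1) (h2 : |β0| ≤ 1) (h3 : β0 + 4 * κ ≤ α0)
    (t1 : -11 ≤ τ) (t2 : τ ≤ 12) :
    LaneD τ (deriv (fun t => a (t, α0, β0)) τ) (deriv (fun t => a (t, α1, β1)) τ)
      (deriv (fun u => a (τ, α u, β u)) 0) α' β' := by
  subst e1 e2 e3 e4
  obtain ⟨a1, a2⟩ := abs_le.1 h1
  obtain ⟨b1, b2⟩ := abs_le.1 h2
  have a3 : |α 0| ≤ 2 := by linarith
  have b3 : |β 0| ≤ 2 := by linarith
  have a4 : |α 0 - 2 * κ| ≤ 2 := abs_le.2 ⟨by linarith, by linarith⟩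
  have b4 : |β 0 + 2 * κ| ≤ 2 := abs_le.2 ⟨by linarith, by linarith⟩
  have ev : ∀ᶠ u in 𝓝 (0 : ℝ), |α u| ≤ 2 ∧ |β u| ≤ 2 :=
    (hα.continuousAt.abs.eventually_le_const (by linarith)).and
      (hβ.continuousAt.abs.eventually_le_const (by linarith))
  have out : τ ≤ 0 ∨ 1 ≤ τ → deriv (fun t => a (t, α 0, β 0)) τ = 0 ∧
      deriv (fun t => a (t, α 0 - 2 * κ, β 0 + 2 * κ)) τ = 0 := fun c =>
    ⟨(h.dout τ _ _ a3 b3 t1 t2 c).deriv, (h.dout τ _ _ a4 b4 t1 t2 c).deriv⟩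
  refine ⟨fun c => ⟨(out (Or.inl c)).1, (out (Or.inl c)).2, ?_⟩,
    fun c => ⟨(out (Or.inr c)).1, (out (Or.inr c)).2, ?_⟩, ?_⟩
  · exact ((hasDerivAt_const (0 : ℝ) (0 : ℝ)).congr_of_eventuallyEq
      (ev.mono fun u hu => h.lo τ _ _ hu.1 hu.2 t1 c)).deriv
  · exact ((hα.fun_sub hβ).congr_of_eventuallyEq
      (ev.mono fun u hu => h.hi τ _ _ hu.1 hu.2 c t2)).deriv
  by_cases c : τ ≤ 0 ∨ 1 ≤ τ
  · exact ⟨(out c).1.ge, Or.inl (out c).2⟩
  have c1 : 0 ≤ τ := by
    by_contra c1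
    exact c (Or.inl (not_le.1 c1).le)
  have c2 : τ ≤ 1 := by
    by_contra c2
    exact c (Or.inr (not_le.1 c2).le)
  have hF : Differentiable ℝ F := h.fold.smooth.differentiable (by simp)
  have hm : deriv (fun u => a (τ, α u, β u)) 0
      = deriv F (α 0 + ν τ) * α' - deriv F (β 0 + ν τ) * β' := by
    simp only [h.mid τ _ _ (by linarith) (by linarith)]
    exact (((hF _).hasDerivAt.comp (0 : ℝ) (hα.add_const (ν τ))).fun_sub
      ((hF _).hasDerivAt.comp (0 : ℝ) (hβ.add_const (ν τ)))).deriv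
  have hν := h.dν τ
  have mono := h.fold.mono
  rw [(h.dmid τ _ _ c1 c2).deriv, (h.dmid τ _ _ c1 c2).deriv, hm]
  refine ⟨mul_nonneg hν (sub_nonneg.2 (mono (by linarith))), ?_⟩
  rcases le_total (α 0 - 2 * κ + ν τ) (-κ) with d1 | d1
  · left
    rw [(h.fold.lo _ d1).2, (h.fold.lo (β 0 + 2 * κ + ν τ) (by linarith)).2, sub_self, mul_zero]
  rcases le_total κ (β 0 + 2 * κ + ν τ) with d2 | d2
  · left
    rw [h.fold.hi _ d2, h.fold.hi (α 0 - 2 * κ + ν τ) (by linarith), sub_self, mul_zero]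
  · right
    refine ⟨mul_le_mul_of_nonneg_left (sub_le_sub (mono (by linarith)) (mono (by linarith))) hν, ?_⟩
    rw [h.fold.hi (α 0 + ν τ) (by linarith), (h.fold.lo (β 0 + ν τ) (by linarith)).2]
    ring

theorem d1_eq' {F : ℝ × ℝ × ℝ → ℝ} (hF : ContDiff ℝ ∞ F) {t v : ℝ} {p : ℝ × ℝ}
    (h : HasDerivAt (fun s => F (s, p)) v t) : d1 F (t, p) = v := by
  have h1 := (hF.differentiable (by simp) (t, p)).hasFDerivAt.comp_hasDerivAt t
    ((hasDerivAt_id t).prodMk (hasDerivAt_const t p))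
  exact h1.unique h

theorem line (t A B : ℝ) :
    HasDerivAt (fun u : ℝ => ((t, A - u, B + u) : ℝ × ℝ × ℝ)) (0, -1, 1) 0 :=
  (hasDerivAt_const 0 t).prodMk (((hasDerivAt_id' 0).const_sub A).prodMk
    ((hasDerivAt_id' 0).const_add B))

theorem has_dD {F : ℝ × ℝ × ℝ → ℝ} (hF : ContDiff ℝ ∞ F) (t A B : ℝ) :
    HasDerivAt (fun u => F (t, A - u, B + u)) (dD F (t, A, B)) 0 :=
  (hF.differentiable (by simp) (t, A, B)).hasFDerivAt.comp_hasDerivAt_of_eq 0 (line t A B)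
    (by simp)

theorem d1_per {F : ℝ × ℝ × ℝ → ℝ} (hF : ContDiff ℝ ∞ F) {p : ℝ × ℝ} {c : ℝ}
    (h : ∀ t, F (t + 12, p) = F (t, p) + c) (t : ℝ) : d1 F (t + 12, p) = d1 F (t, p) := by
  have hd : ∀ t, HasDerivAt (fun s => F (s, p)) (deriv (fun s => F (s, p)) t) t := fun t =>
    ((hF.differentiable (by simp)).comp (differentiable_id.prodMk
      (differentiable_const p)) t).hasDerivAt
  rw [d1_eq' hF (hd _), d1_eq' hF (hd _), ← deriv_comp_add_const, funext h, deriv_add_const]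

theorem dD_per {F : ℝ × ℝ × ℝ → ℝ} (hF : ContDiff ℝ ∞ F) (h : ∀ t p, F (t + 12, p) = F (t, p))
    (t A B : ℝ) : dD F (t + 12, A, B) = dD F (t, A, B) := by
  have h1 := has_dD hF (t + 12) A B
  simp only [h] at h1
  exact h1.unique (has_dD hF t A B)

variable (P : PData)

/-- speed of the first lane -/
def s1 (c t A B : ℝ) : ℝ := deriv (fun τ => P.a (τ, A - B - c, P.ψ B + c)) (t - 1)
/-- speed of the second lane -/
def s5 (c t A B : ℝ) : ℝ := deriv (fun τ => P.a (τ, -P.ψ B - c, -(A - B) + c)) (t - 9)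
/-- depth derivative of the first lane -/
def m1 (t A B : ℝ) : ℝ :=
  deriv (fun u => P.a (t - 1, A - u - (B + u) - 0, P.ψ (B + u) + 0)) 0
/-- depth derivative of the second lane -/
def m5 (t A B : ℝ) : ℝ :=
  deriv (fun u => P.a (t - 9, -P.ψ (B + u) - 0, -(A - u - (B + u)) + 0)) 0
/-- derivative of `ψ` -/
def gg (B : ℝ) : ℝ := deriv P.f B / (2 * P.M - 1)

theorem a_diff : Differentiable ℝ P.a := P.ha.smooth.differentiable (by simp)

theorem a_t (α β n t : ℝ) : HasDerivAt (fun s => P.a (s - n, α, β))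
    (deriv (fun τ => P.a (τ, α, β)) (t - n)) t :=
  HasDerivAt.comp_sub_const (f := fun τ => P.a (τ, α, β)) t n
    ((a_diff P).comp (differentiable_id.prodMk (differentiable_const _)) (t - n)).hasDerivAt

theorem f_u (B : ℝ) : HasDerivAt (fun u => P.f (B + u)) (deriv P.f B) 0 :=
  HasDerivAt.comp_const_add B 0
    (by simpa using (P.hf.smooth.differentiable (by simp) B).hasDerivAt)

theorem ψ_u (B : ℝ) : HasDerivAt (fun u => P.ψ (B + u)) (gg P B) 0 := (f_u P B).div_const _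

theorem R_u (A B : ℝ) : HasDerivAt (fun u : ℝ => A - u - (B + u)) (-2) 0 :=
  (((hasDerivAt_id' 0).const_sub A).fun_sub ((hasDerivAt_id' 0).const_add B)).congr_deriv
    (by norm_num)

theorem M_ge : (2 : ℝ) ≤ P.M := by exact_mod_cast P.hM

theorem lb_u (B : ℝ) : HasDerivAt (fun u => P.lb (B + u)) ((2 * P.M - 1) * gg P B - 1) 0 := by
  refine ((f_u P B).fun_sub ((hasDerivAt_id' 0).const_add B)).congr_deriv ?_
  have := M_ge P
  rw [gg, mul_div_cancel₀ _ (by linarith)]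

theorem lc_u (A B : ℝ) :
    HasDerivAt (fun u => P.lc (A - u) (B + u)) (-1 - 2 * P.M * gg P B) 0 :=
  ((hasDerivAt_id' 0).const_sub A).fun_sub ((ψ_u P B).const_mul _)

theorem a1_u (t A B : ℝ) : HasDerivAt (fun u => P.a1 0 (t, A - u, B + u)) (m1 P t A B) 0 :=
  (((a_diff P) _).comp (0 : ℝ) ((differentiableAt_const (t - 1)).prodMk
    (((R_u A B).sub_const 0).differentiableAt.prodMk
      ((ψ_u P B).add_const 0).differentiableAt))).hasDerivAt

theorem a5_u (t A B : ℝ) : HasDerivAt (fun u => P.a5 0 (t, A - u, B + u)) (m5 P t A B) 0 :=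
  (((a_diff P) _).comp (0 : ℝ) ((differentiableAt_const (t - 9)).prodMk
    (((ψ_u P B).fun_neg.sub_const 0).differentiableAt.prodMk
      ((R_u A B).fun_neg.add_const 0).differentiableAt))).hasDerivAt

theorem a1_t (c t A B : ℝ) : HasDerivAt (fun s => P.a1 c (s, A, B)) (s1 P c t A B) t :=
  a_t P (A - B - c) (P.ψ B + c) 1 t

theorem a5_t (c t A B : ℝ) : HasDerivAt (fun s => P.a5 c (s, A, B)) (s5 P c t A B) t :=
  a_t P (-P.ψ B - c) (-(A - B) + c) 9 t

theorem U_t (hU : ContDiff ℝ ∞ P.U) (t A B : ℝ) : d1 P.U (t, A, B) =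
    P.k * deriv P.X t - P.M * s1 P 0 t A B + deriv P.S (t - 5) * P.lc A B
      + deriv P.S (t - 7) * P.lb B + (P.M - 1) * s5 P 0 t A B := by
  refine d1_eq' hU ?_
  simp only [PData.U]
  exact (((((((P.hT.sX.differentiable (by simp) t).hasDerivAt.const_mul P.k).const_add
    (P.M * (A - B))).fun_sub ((a1_t P 0 t A B).const_mul _)).fun_add
    ((P.hS.has 5 t).mul_const _)).fun_add ((P.hS.has 7 t).mul_const _)).fun_add
    ((a5_t P 0 t A B).const_mul _))

theorem V_t (hV : ContDiff ℝ ∞ P.V) (t A B : ℝ) : d1 P.V (t, A, B) =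
    P.k * deriv P.Y t - (P.M - 1) * s1 P 0 t A B - deriv P.S (t - 3) * P.lb B
      - deriv P.S (t - 5) * P.lc A B + P.M * s5 P 0 t A B := by
  refine d1_eq' hV ?_
  simp only [PData.V]
  exact (((((((P.hT.sY.differentiable (by simp) t).hasDerivAt.const_mul P.k).const_add
    (P.M * (A - B))).fun_sub ((a1_t P 0 t A B).const_mul _)).fun_sub
    ((P.hS.has 3 t).mul_const _)).fun_sub ((P.hS.has 5 t).mul_const _)).fun_add
    ((a5_t P 0 t A B).const_mul _))

theorem G_t (hG : ContDiff ℝ ∞ P.G) (t A B : ℝ) : d1 P.G (t, A, B) =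
    P.k + (2 * P.M - 1) * (s1 P (2 * P.e) t A B + s5 P (2 * P.e) t A B)
      + deriv P.S (t - 3) * P.lb B + deriv P.S (t - 5) * P.lc A B
      + deriv P.S (t - 7) * P.lb B := by
  refine d1_eq' hG ?_
  simp only [PData.G]
  exact (((((hasDerivAt_const_mul P.k).fun_add
    (((a1_t P _ t A B).fun_add (a5_t P _ t A B)).const_mul _)).fun_add
    ((P.hS.has 3 t).mul_const _)).fun_add ((P.hS.has 5 t).mul_const _)).fun_add
    ((P.hS.has 7 t).mul_const _))

theorem U_D (hU : ContDiff ℝ ∞ P.U) (t A B : ℝ) : dD P.U (t, A, B) =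
    P.M * (-2) - P.M * m1 P t A B + P.S (t - 5) * (-1 - 2 * P.M * gg P B)
      + P.S (t - 7) * ((2 * P.M - 1) * gg P B - 1) + (P.M - 1) * m5 P t A B := by
  refine (has_dD hU t A B).unique ?_
  simp only [PData.U]
  exact (((((((R_u A B).const_mul _).add_const (P.k * P.X t)).fun_sub
    ((a1_u P t A B).const_mul _)).fun_add ((lc_u P A B).const_mul _)).fun_add
    ((lb_u P B).const_mul _)).fun_add ((a5_u P t A B).const_mul _))

theorem V_D (hV : ContDiff ℝ ∞ P.V) (t A B : ℝ) : dD P.V (t, A, B) =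
    P.M * (-2) - (P.M - 1) * m1 P t A B - P.S (t - 3) * ((2 * P.M - 1) * gg P B - 1)
      - P.S (t - 5) * (-1 - 2 * P.M * gg P B) + P.M * m5 P t A B := by
  refine (has_dD hV t A B).unique ?_
  simp only [PData.V]
  exact (((((((R_u A B).const_mul _).add_const (P.k * P.Y t)).fun_sub
    ((a1_u P t A B).const_mul _)).fun_sub ((lb_u P B).const_mul _)).fun_sub
    ((lc_u P A B).const_mul _)).fun_add ((a5_u P t A B).const_mul _))

theorem lanes {t A B : ℝ} (h1 : 4 * P.e ≤ A - B - P.ψ B) (h2 : 0 ≤ P.ψ B) (h3 : A - B < 1)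
    (t1 : -1 ≤ t) (t2 : t ≤ 11) :
    LaneD (t - 1) (s1 P 0 t A B) (s1 P (2 * P.e) t A B) (m1 P t A B) (-2) (gg P B) ∧
    LaneD (t - 9) (s5 P 0 t A B) (s5 P (2 * P.e) t A B) (m5 P t A B) (-gg P B) (- -2) := by
  have hM := M_ge P
  have he := P.he
  have he1 : 2 * P.e ≤ 1 := by nlinarith [P.he1]
  exact ⟨lane P.ha he he1 ((R_u A B).sub_const 0) ((ψ_u P B).add_const 0) (by simp) (by simp)
      (by ring) (by ring) (abs_le.2 ⟨by linarith, by linarith⟩)
      (abs_le.2 ⟨by linarith, by linarith⟩) (by linarith) (by linarith) (by linarith),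
    lane P.ha he he1 ((ψ_u P B).fun_neg.sub_const 0) ((R_u A B).fun_neg.add_const 0) (by simp)
      (by simp) (by ring) (by ring) (abs_le.2 ⟨by linarith, by linarith⟩)
      (abs_le.2 ⟨by linarith, by linarith⟩) (by linarith) (by linarith) (by linarith)⟩

/-- the pointwise conditions in terms of the lane data -/
theorem alg {t g k lb lc s1 s1' m1 s5 s5' m5 : ℝ} (hk : 0 < k) (hg : 0 ≤ g) (hb : 0 ≤ lb)
    (hc : 0 ≤ lc) (L1 : LaneD (t - 1) s1 s1' m1 (-2) g) (L5 : LaneD (t - 9) s5 s5' m5 (-g) (- -2))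
    (t1 : -1 ≤ t) (t2 : t ≤ 11) :
    Good (k * deriv P.X t - P.M * s1 + deriv P.S (t - 5) * lc + deriv P.S (t - 7) * lb
        + (P.M - 1) * s5)
      (k * deriv P.Y t - (P.M - 1) * s1 - deriv P.S (t - 3) * lb - deriv P.S (t - 5) * lc
        + P.M * s5)
      (1 + (P.M * (-2) - P.M * m1 + P.S (t - 5) * (-1 - 2 * P.M * g)
        + P.S (t - 7) * ((2 * P.M - 1) * g - 1) + (P.M - 1) * m5))
      (1 + (P.M * (-2) - (P.M - 1) * m1 - P.S (t - 3) * ((2 * P.M - 1) * g - 1)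
        - P.S (t - 5) * (-1 - 2 * P.M * g) + P.M * m5))
      (k + (2 * P.M - 1) * (s1' + s5') + deriv P.S (t - 3) * lb + deriv P.S (t - 5) * lc
        + deriv P.S (t - 7) * lb) (deriv P.X t) (deriv P.Y t) := by
  have hM := M_ge P
  have hT := P.hT
  have hMg : 0 ≤ (P.M : ℝ) * g := by positivity
  have lo : ∀ n : ℝ, t ≤ n → n ≤ 10 → P.S (t - n) = 0 ∧ deriv P.S (t - n) = 0 := fun n c d =>
    P.hS.lo _ (by linarith) (by linarith)
  have hi : ∀ n : ℝ, n + 1 ≤ t → 0 ≤ n → P.S (t - n) = 1 ∧ deriv P.S (t - n) = 0 := fun n c d =>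
    P.hS.hi _ (by linarith) (by linarith)
  have ab : |(P.M : ℝ) - 1 + P.M| = 2 * P.M - 1 := by
    rw [abs_of_nonneg (by linarith)]
    ring
  have ab' : |-(P.M : ℝ) + (1 - P.M)| = 2 * P.M - 1 := by
    rw [abs_of_nonpos (by linarith)]
    ring
  rcases le_total t 9 with c9 | c9
  · obtain ⟨rfl, rfl, rfl⟩ := L5.1 (by linarith)
    rcases le_total t 7 with c7 | c7
    · obtain ⟨u7, d7⟩ := lo 7 c7 (by norm_num)
      rw [u7, d7]
      rcases le_total t 5 with c5 | c5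
      · obtain ⟨u5, d5⟩ := lo 5 c5 (by norm_num)
        rw [u5, d5]
        rcases le_total t 3 with c3 | c3
        · obtain ⟨u3, d3⟩ := lo 3 c3 (by norm_num)
          rw [u3, d3]
          rcases le_total t 2 with c2 | c2
          · refine side (-P.M) (1 - P.M) (-1) 1 (by ring) (by push_cast; ring) (by push_cast; ring)
              (hT.r1 t t1 c2) hk L1.2.2.1 (by ring) (by ring) (by linarith) ?_
            rcases L1.2.2.2 with rfl | ⟨h1, rfl⟩
            · exact Or.inl (by linarith [L1.2.2.1])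
            · refine Or.inr ⟨by rw [abs_eq zero_le_one]; left; ring, by ring, ?_⟩
              rw [ab']
              nlinarith
          · obtain ⟨rfl, rfl, rfl⟩ := L1.2.1 (by linarith)
            refine corner (-P.M) (1 - P.M) 0 (-1) (by push_cast; ring) (by push_cast; ring)
              (by simp) (by simp) (hT.c1 t c2 c3) hk (by ring) (by ring) (by ring) (by linarith)
              (by linarith) (by linarith) fun a b hab => ?_
            have h1 := long_aux (M := P.M) (d := 1 + P.M * g) (w := a * -P.M + b * (1 - P.M))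
              (by linarith) (by linarith) hab fun h => by
                rw [h, Int.cast_zero, zero_mul, add_zero, abs_mul, abs_neg, Nat.abs_cast]
            rw [show (a : ℝ) * 0 + b * -1 = -b by ring, abs_neg]
            linarith
        · obtain ⟨rfl, rfl, rfl⟩ := L1.2.1 (by linarith)
          rcases le_total t 4 with c4 | c4
          · exact side 0 (-1) 0 (-1) (by ring) (by simp) (by simp) (hT.r2 t c3 c4) hk
              (mul_nonneg (P.hS.dpos (t - 3)) hb) (by ring) (by ring) (by linarith)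
              (Or.inl (by linarith))
          · obtain ⟨u3, d3⟩ := hi 3 (by linarith) (by norm_num)
            rw [u3, d3]
            exact corner' 0 (-1) 1 (-1) (by simp) (by simp) (by simp) (by simp) (hT.c2 t c4 c5) hk
              (by ring) (by ring) (by ring) (by linarith) (by linarith) (by linarith)
      · obtain ⟨rfl, rfl, rfl⟩ := L1.2.1 (by linarith)
        obtain ⟨u3, d3⟩ := hi 3 (by linarith) (by norm_num)
        rw [u3, d3]
        rcases le_total t 6 with c6 | c6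
        · exact side 1 (-1) 1 0 (by ring) (by simp) (by simp) (hT.r3 t c5 c6) hk
            (mul_nonneg (P.hS.dpos (t - 5)) hc) (by ring) (by ring) (by linarith)
            (Or.inl (by linarith))
        · obtain ⟨u5, d5⟩ := hi 5 (by linarith) (by norm_num)
          rw [u5, d5]
          exact corner' 1 (-1) 1 0 (by simp) (by simp) (by simp) (by simp) (hT.c3 t c6 c7) hk
            (by ring) (by ring) (by ring) (by linarith) (by linarith) (by linarith)
    · obtain ⟨rfl, rfl, rfl⟩ := L1.2.1 (by linarith)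
      obtain ⟨u3, d3⟩ := hi 3 (by linarith) (by norm_num)
      obtain ⟨u5, d5⟩ := hi 5 (by linarith) (by norm_num)
      rw [u3, d3, u5, d5]
      rcases le_total t 8 with c8 | c8
      · exact side 1 0 1 0 (by ring) (by simp) (by simp) (hT.r4 t c7 c8) hk
          (mul_nonneg (P.hS.dpos (t - 7)) hb) (by ring) (by ring) (by linarith)
          (Or.inl (by linarith))
      · obtain ⟨u7, d7⟩ := hi 7 (by linarith) (by norm_num)
        rw [u7, d7]
        refine corner 1 0 (P.M - 1) P.M (by simp) (by simp) (by push_cast; ring)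
          (by push_cast; ring) (hT.c4 t c8 c9) hk (by ring) (by ring) (by ring) (by linarith)
          (by linarith) (by linarith) fun a b hab => ?_
        have h1 := long_aux (M := P.M) (d := 1 + P.M * g) (w := a * (P.M - 1) + b * P.M)
          (by linarith) (by linarith) hab.symm fun h => by
            rw [h, Int.cast_zero, zero_mul, zero_add, abs_mul, Nat.abs_cast]
        rw [show (a : ℝ) * 1 + b * 0 = a by ring]
        linarith
  · obtain ⟨rfl, rfl, rfl⟩ := L1.2.1 (by linarith)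
    obtain ⟨u3, d3⟩ := hi 3 (by linarith) (by norm_num)
    obtain ⟨u5, d5⟩ := hi 5 (by linarith) (by norm_num)
    obtain ⟨u7, d7⟩ := hi 7 (by linarith) (by norm_num)
    rw [u3, d3, u5, d5, u7, d7]
    rcases le_total t 10 with c10 | c10
    · refine side (P.M - 1) P.M (-1) 1 (by ring) (by push_cast; ring) (by push_cast; ring)
        (hT.r5 t c9 c10) hk L5.2.2.1 (by ring) (by ring) (by linarith) ?_
      rcases L5.2.2.2 with rfl | ⟨h1, rfl⟩
      · exact Or.inl (by linarith [L5.2.2.1])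
      · refine Or.inr ⟨by rw [abs_eq zero_le_one]; right; ring, by ring, ?_⟩
        rw [ab]
        nlinarith
    · obtain ⟨rfl, rfl, rfl⟩ := L5.2.1 (by linarith)
      exact corner' (P.M - 1) P.M (-P.M) (1 - P.M) (by push_cast; ring) (by push_cast; ring)
        (by push_cast; ring) (by push_cast; ring) (hT.c5 t c10 t2) hk (by ring) (by ring) (by ring)
        (by linarith) (by linarith) (by linarith)

end PentB

open PentB in
theorem pentBS (h0 : Pent0Stmt) : PentBStmt := by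
  rintro P ⟨A, B⟩ hp t
  obtain ⟨sU, sV, sG, per, perG, dom⟩ := h0 P
  obtain ⟨b1, b2, b3, b4⟩ := dom _ hp
  obtain ⟨c, hc⟩ := perG (A, B)
  have hM := M_ge P
  have he := P.he
  have hP : Periodic (fun t => (∃ u : ℝ, 0 < u ∧ d1 P.U (t, A, B) = u * Real.cos (P.φ t) ∧
      d1 P.V (t, A, B) = u * Real.sin (P.φ t)) ∧
      0 < d1 P.U (t, A, B) * (1 + dD P.V (t, A, B)) - d1 P.V (t, A, B) * (1 + dD P.U (t, A, B)) ∧
      ∀ a b : ℤ, |a * d1 P.U (t, A, B) + b * d1 P.V (t, A, B)| < d1 P.G (t, A, B) →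
        |a * (1 + dD P.U (t, A, B)) + b * (1 + dD P.V (t, A, B))| < 1 → a = 0 ∧ b = 0) 12 :=
    fun t => by
      simp only [d1_per sU (p := (A, B)) (c := 0) fun t => by rw [(per t _).1, add_zero],
        d1_per sV (p := (A, B)) (c := 0) fun t => by rw [(per t _).2, add_zero], d1_per sG hc,
        dD_per sU fun t p => (per t p).1, dD_per sV fun t p => (per t p).2, P.hT.pφ,
        Real.cos_add_two_pi, Real.sin_add_two_pi]
  obtain ⟨τ, ⟨t1, t2⟩, e⟩ := hP.exists_mem_Ico (by norm_num) t (-1)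
  refine e.mpr ?_
  obtain ⟨L1, L5⟩ := lanes P (t := τ) (A := A) (B := B) (by simp only at b1 b2 b4; linarith) b3
    hp.2.2 t1 (by linarith)
  obtain ⟨⟨r, hr, g1, g2⟩, g3, g4⟩ := alg P P.hk
    (div_nonneg (P.hf.d0 B) (by linarith) : 0 ≤ gg P B) b2 (le_trans (by linarith) b1) L1 L5 t1
    (by linarith)
  obtain ⟨u, hu, h1, h2⟩ := P.hT.dir τ
  rw [U_t P sU, V_t P sV, G_t P sG, U_D P sU, V_D P sV]
  exact ⟨⟨r * u, mul_pos hr hu, by rw [g1, h1, mul_assoc], by rw [g2, h2, mul_assoc]⟩, g3, g4⟩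

end Vale.Agent.P209
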