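import Vale.Agent.P209.Stm3
import Vale.Agent.P209.All

/-! P209: widths of the pentagon loops, and the assembly of the loops. -/

open Set Filter Topology Function
open scoped Real ContDiff

noncomputable section
namespace Vale.Agent.P209

namespace PentW

theorem has_d1 {F : ℝ × ℝ × ℝ → ℝ} (hF : ContDiff ℝ ∞ F) (t : ℝ) (p : ℝ × ℝ) :
    HasDerivAt (fun s => F (s, p)) (d1 F (t, p)) t :=
  (hF.differentiable (by simp) (t, p)).hasFDerivAt.comp_hasDerivAt t
    ((hasDerivAt_id t).prodMk (hasDerivAt_const t p))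

theorem has_dD {F : ℝ × ℝ × ℝ → ℝ} (hF : ContDiff ℝ ∞ F) (t A B D : ℝ) :
    HasDerivAt (fun s => F (t, A - s, B + s)) (dD F (t, A - D, B + D)) D :=
  (hF.differentiable (by simp) (t, A - D, B + D)).hasFDerivAt.comp_hasDerivAt D
    ((hasDerivAt_const D t).prodMk
      (((hasDerivAt_id D).const_sub A).prodMk ((hasDerivAt_id D).const_add B)))

/-- the speed along a long side -/
theorem lane_has {κ : ℝ} {F ν : ℝ → ℝ} {a : ℝ × ℝ × ℝ → ℝ} (h : IsLane κ F ν a) (t : ℝ) :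
    ∃ c w : ℝ, 0 ≤ c ∧ ∀ α β, |α| ≤ 2 → |β| ≤ 2 →
      HasDerivAt (fun τ => a (τ, α, β)) (c * (deriv F (α + w) - deriv F (β + w))) t := by
  have h12 : (0 : ℝ) < 12 := by norm_num
  obtain ⟨n, hn⟩ : ∃ n : ℤ, t - n * 12 ∈ Ico (0 : ℝ) 12 := by
    refine ⟨toIcoDiv h12 0 t, ?_⟩
    have := toIcoMod_mem_Ico h12 0 t
    rwa [zero_add, toIcoMod, zsmul_eq_mul] at this
  have red : ∀ α β v, HasDerivAt (fun τ => a (τ, α, β)) v (t - n * 12) →
      HasDerivAt (fun τ => a (τ, α, β)) v t := fun α β v hv => by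
    have hp : Periodic (fun τ => a (τ, α, β) - τ * ((α - β) / 12)) 12 := fun τ => by
      simp only [h.per]
      ring
    have e : (fun τ => a (τ, α, β)) = fun τ => a (τ - n * 12, α, β) + n * (α - β) := by
      funext τ
      linarith [hp.sub_int_mul_eq (x := τ) n]
    rw [e]
    exact (hv.comp_sub_const t (n * 12)).add_const _
  rcases le_total (t - n * 12) 1 with h1 | h1
  · exact ⟨deriv ν (t - n * 12), ν (t - n * 12), h.dν _, fun α β _ _ =>
      red α β _ (h.dmid _ α β hn.1 h1)⟩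
  · refine ⟨0, 0, le_rfl, fun α β hα hβ => red α β _ ?_⟩
    rw [zero_mul]
    exact h.dout _ α β hα hβ (by linarith) hn.2.le (Or.inr h1)

variable (P : PData)

theorem M_ge : (2 : ℝ) ≤ P.M := by exact_mod_cast P.hM

theorem psi_mono {B B' : ℝ} (h : B ≤ B') : P.ψ B ≤ P.ψ B' := by
  have h1 : Monotone P.f :=
    monotone_of_deriv_nonneg (P.hf.smooth.differentiable (by simp)) P.hf.d0
  have := M_ge P
  exact div_le_div_of_nonneg_right (h1 h) (by linarith)

theorem lb_anti {B B' : ℝ} (h : B ≤ B') : P.lb B' ≤ P.lb B := by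
  have hd := P.hf.smooth.differentiable (by simp)
  have h1 : Antitone fun x => P.f x - x :=
    antitone_of_deriv_nonpos (hd.sub differentiable_id) fun x => by
      rw [((hd x).hasDerivAt.fun_sub (hasDerivAt_id' x)).deriv]
      linarith [P.hf.d1 x]
  exact h1 h

theorem d1G (h0 : Pent0Stmt) (t : ℝ) : ∃ c w c' w' : ℝ, 0 ≤ c ∧ 0 ≤ c' ∧
    ∀ p ∈ PDom P.M P.κ, d1 P.G (t, p) = P.k + (2 * P.M - 1) *
      (c * (deriv P.F (p.1 - p.2 - 2 * P.e + w) - deriv P.F (P.ψ p.2 + 2 * P.e + w)) +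
        c' * (deriv P.F (-P.ψ p.2 - 2 * P.e + w') - deriv P.F (-(p.1 - p.2) + 2 * P.e + w')))
      + deriv P.S (t - 3) * P.lb p.2 + deriv P.S (t - 5) * P.lc p.1 p.2
      + deriv P.S (t - 7) * P.lb p.2 := by
  obtain ⟨c, w, hc, h1⟩ := lane_has P.ha (t - 1)
  obtain ⟨c', w', hc', h2⟩ := lane_has P.ha (t - 9)
  refine ⟨c, w, c', w', hc, hc', fun p hp => ?_⟩
  obtain ⟨-, -, sG, -, -, h3⟩ := h0 P
  obtain ⟨b1, b2, b3, b4⟩ := h3 p hp
  have b5 := hp.2.2
  have he := P.he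
  have d1 := (h1 (p.1 - p.2 - 2 * P.e) (P.ψ p.2 + 2 * P.e) (abs_le.2 ⟨by linarith, by linarith⟩)
    (abs_le.2 ⟨by linarith, by linarith⟩)).comp_sub_const t 1
  have d2 := (h2 (-P.ψ p.2 - 2 * P.e) (-(p.1 - p.2) + 2 * P.e)
    (abs_le.2 ⟨by linarith, by linarith⟩) (abs_le.2 ⟨by linarith, by linarith⟩)).comp_sub_const t 9
  exact (has_d1 sG t p).unique (((((hasDerivAt_const_mul P.k).fun_add
    ((d1.fun_add d2).const_mul (2 * (P.M : ℝ) - 1))).fun_add
    ((P.hS.has 3 t).mul_const (P.lb p.2))).fun_add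
    ((P.hS.has 5 t).mul_const (P.lc p.1 p.2))).fun_add ((P.hS.has 7 t).mul_const (P.lb p.2)))

/-- injectivity of a family of convex loops moving inwards -/
theorem inj_of (hC : ConvexStmt) {I : Set ℝ} (hI : Convex ℝ I) {T : ℝ} {U V : ℝ → ℝ → ℝ}
    {φ : ℝ → ℝ} {Ut Vt UD VD : ℝ → ℝ → ℝ} (hT : 0 < T) (hφ : Continuous φ) (hm : Monotone φ)
    (hp : ∀ t, φ (t + T) = φ t + 2 * π) (pU : ∀ t D, U (t + T) D = U t D)
    (pV : ∀ t D, V (t + T) D = V t D) (dU : ∀ t D, HasDerivAt (fun s => U s D) (Ut t D) t)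
    (dV : ∀ t D, HasDerivAt (fun s => V s D) (Vt t D) t)
    (dU' : ∀ t D, HasDerivAt (fun s => U t s) (UD t D) D)
    (dV' : ∀ t D, HasDerivAt (fun s => V t s) (VD t D) D)
    (hg : ∀ t, ∀ D ∈ I, (∃ u, 0 < u ∧ Ut t D = u * Real.cos (φ t) ∧
      Vt t D = u * Real.sin (φ t)) ∧ 0 < Ut t D * VD t D - Vt t D * UD t D)
    (t D t' D' : ℝ) (hD : D ∈ I) (hD' : D' ∈ I) (e1 : U t D = U t' D')
    (e2 : V t D = V t' D') : D = D' ∧ ∃ k : ℤ, t - t' = k * T := by
  have cv : ∀ D ∈ I, (∀ s t, 0 ≤ -Real.sin (φ t) * (U s D - U t D)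
      + Real.cos (φ t) * (V s D - V t D)) ∧
      ∀ s t, U s D = U t D → V s D = V t D → ∃ k : ℤ, s - t = k * T := fun D hD => by
    choose u hu h1 h2 using fun t => (hg t D hD).1
    exact hC T (fun s => U s D) (fun s => V s D) u φ hT (fun t => pU t D) (fun t => pV t D)
      (fun t => h1 t ▸ dU t D) (fun t => h2 t ▸ dV t D) hu hφ hm hp
  have mono : ∀ t, StrictMonoOn (fun D => -Real.sin (φ t) * U t D + Real.cos (φ t) * V t D)
      I := fun t => by
    have hd : ∀ D, HasDerivAt (fun D => -Real.sin (φ t) * U t D + Real.cos (φ t) * V t D)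
        (-Real.sin (φ t) * UD t D + Real.cos (φ t) * VD t D) D := fun D =>
      ((dU' t D).const_mul _).fun_add ((dV' t D).const_mul _)
    refine strictMonoOn_of_deriv_pos hI
      (fun D _ => (hd D).continuousAt.continuousWithinAt) fun D hD => ?_
    obtain ⟨⟨u, hu, h1, h2⟩, h3⟩ := hg t D (interior_subset hD)
    rw [(hd D).deriv]
    rw [h1, h2] at h3
    refine (mul_pos_iff_of_pos_left hu).1 ?_
    linarith
  have key : ∀ t D t' D', D ∈ I → D' ∈ I → U t D = U t' D' →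
      V t D = V t' D' → ¬ D < D' := fun t D t' D' hD hD' e1 e2 hlt => by
    have a := mono t hD hD' hlt
    have b := (cv D' hD').1 t' t
    rw [← e1, ← e2] at b
    simp only at a
    linarith
  have hDD : D = D' := le_antisymm (not_lt.1 (key t' D' t D hD' hD e1.symm e2.symm))
    (not_lt.1 (key t D t' D' hD hD' e1 e2))
  subst hDD
  exact ⟨rfl, (cv D hD).2 t t' e1 e2⟩

theorem conv (M κ A B : ℝ) (hM : 2 ≤ M) : Convex ℝ {D : ℝ | (A - D, B + D) ∈ PDom M κ} := by
  have hc : 0 ≤ 2 * M / (2 * M - 1) := div_nonneg (by linarith) (by linarith)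
  refine (Set.ordConnected_def.2 ?_ : Set.OrdConnected _).convex
  rintro x ⟨-, -, x3⟩ y ⟨y1, y2, -⟩ z ⟨hxz, hzy⟩
  have := mul_le_mul_of_nonneg_right hzy hc
  simp only at x3 y1 y2
  refine ⟨?_, ?_, ?_⟩ <;> simp only <;> linarith

end PentW

open PentW in
theorem pentWS (h0 : Pent0Stmt) : PentWStmt := by
  intro P p hp t
  obtain ⟨c, w, c', w', hc, hc', hd⟩ := d1G P h0 t
  obtain ⟨b1, b2, b3, b4⟩ := (h0 P).2.2.2.2.2 p hp
  have hM := M_ge P
  have hM' : (0 : ℝ) ≤ 2 * P.M - 1 := by linarith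
  have hF := P.ha.fold.mono
  have he := P.he
  have s3 := P.hS.dpos (t - 3)
  have s5 := P.hS.dpos (t - 5)
  have s7 := P.hS.dpos (t - 7)
  refine ⟨?_, fun p' hp' h1 h2 => ?_⟩
  · have a1 := mul_nonneg hc (sub_nonneg.2
      (hF (show P.ψ p.2 + 2 * P.e + w ≤ p.1 - p.2 - 2 * P.e + w by linarith)))
    have a2 := mul_nonneg hc' (sub_nonneg.2
      (hF (show -(p.1 - p.2) + 2 * P.e + w' ≤ -P.ψ p.2 - 2 * P.e + w' by linarith)))
    have a3 := mul_nonneg hM' (add_nonneg a1 a2)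
    have a4 := mul_nonneg s3 b2
    have a5 := mul_nonneg s5 (show 0 ≤ P.lc p.1 p.2 by linarith)
    have a6 := mul_nonneg s7 b2
    rw [hd p hp]
    linarith [P.hk]
  · have m1 := psi_mono P h2
    have m2 := lb_anti P h2
    have m3 : P.lc p'.1 p'.2 ≤ P.lc p.1 p.2 := by
      have := mul_le_mul_of_nonneg_left m1 (show (0 : ℝ) ≤ 2 * P.M by linarith)
      unfold PData.lc
      linarith
    have a1 := mul_le_mul_of_nonneg_left (sub_le_sub
      (hF (show p'.1 - p'.2 - 2 * P.e + w ≤ p.1 - p.2 - 2 * P.e + w by linarith))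
      (hF (show P.ψ p.2 + 2 * P.e + w ≤ P.ψ p'.2 + 2 * P.e + w by linarith))) hc
    have a2 := mul_le_mul_of_nonneg_left (sub_le_sub
      (hF (show -P.ψ p'.2 - 2 * P.e + w' ≤ -P.ψ p.2 - 2 * P.e + w' by linarith))
      (hF (show -(p.1 - p.2) + 2 * P.e + w' ≤ -(p'.1 - p'.2) + 2 * P.e + w' by linarith))) hc'
    have a3 := mul_le_mul_of_nonneg_left (add_le_add a1 a2) hM'
    have a4 := mul_le_mul_of_nonneg_left m2 s3
    have a5 := mul_le_mul_of_nonneg_left m3 s5
    have a6 := mul_le_mul_of_nonneg_left m2 s7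
    rw [hd p hp, hd p' hp']
    linarith

open PentW in
theorem pentS (hT : TimeStmt) (hL : LaneStmt) (h0 : Pent0Stmt) (hA : PentAStmt) (hW : PentWStmt)
    (hB : PentBStmt) : PentStmt := by
  intro M κ hM hκ
  have hM' : (2 : ℝ) ≤ M := by exact_mod_cast hM
  have hM0 : (0 : ℝ) < M := by linarith
  have hm : 0 < min κ 1 := lt_min hκ one_pos
  have he : 0 < min κ 1 / (20 * M) := by positivity
  have e20 : 20 * M * (min κ 1 / (20 * M)) = min κ 1 := by field_simp
  have he1 : min κ 1 / (20 * M) ≤ 1 := by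
    rw [div_le_one (by positivity)]
    linarith [min_le_right κ 1]
  obtain ⟨b, X, Y, φ, hb, hX⟩ := hT M hM'
  obtain ⟨F, ν, a, ha⟩ := hL _ he he1
  obtain ⟨f, hf⟩ := foldFnS _ he
  obtain ⟨S, hS⟩ := Five.exists_st stairS
  let P : PData := ⟨M, κ, min κ 1 / (20 * M), κ / (2 * M * b), b, S, X, Y, φ, f, F, ν, a, hM, he,
    e20.trans_le (min_le_right _ _), e20.trans_le (min_le_left _ _), by positivity,
    le_of_eq (by field_simp), hS, hX, hf, ha⟩
  obtain ⟨sU, sV, sG, hper, hG, -⟩ := h0 P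
  refine ⟨⟨P.k, P.G, P.U, P.V, P.hk, sG, sU, sV, fun t p => (hper t p).1, fun t p => (hper t p).2,
    fun t p hp => ?_, fun p hp => (hA P p hp).1, fun t p hp ht => (hA P p hp).2.1 t ht,
    fun t p hp => (hW P p hp t).1, fun t p hp => (hW P p hp t).2, fun t t' A B D h1 h2 e1 e2 => ?_,
    fun t p hp => (hB P p hp t).2.1.ne', fun t p hp => (hB P p hp t).2.2,
    fun t p hp => (hA P p hp).2.2 t⟩⟩
  · obtain ⟨c, hc⟩ := hG p
    have h1 := hc 0
    rw [zero_add, ((hA P p hp).2.1 0 (by norm_num)).1, mul_zero, zero_add] at h1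
    rw [hc, h1]
  · have := inj_of convexS (conv M κ A B hM') (T := 12)
      (U := fun s D => D + P.U (s, A - D, B + D)) (V := fun s D => D + P.V (s, A - D, B + D))
      (Ut := fun s D => d1 P.U (s, A - D, B + D)) (Vt := fun s D => d1 P.V (s, A - D, B + D))
      (UD := fun s D => 1 + dD P.U (s, A - D, B + D))
      (VD := fun s D => 1 + dD P.V (s, A - D, B + D)) (by norm_num) hX.cφ hX.mφ hX.pφ
      (fun s D => by rw [(hper s _).1]) (fun s D => by rw [(hper s _).2])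
      (fun s D => (has_d1 sU s _).const_add D) (fun s D => (has_d1 sV s _).const_add D)
      (fun s D => (hasDerivAt_id' D).fun_add (has_dD sU s A B D))
      (fun s D => (hasDerivAt_id' D).fun_add (has_dD sV s A B D))
      (fun s D hD => ⟨(hB P _ hD s).1, (hB P _ hD s).2.1⟩) t 0 t' D
      (by simpa using h1) h2 (by simpa using e1) (by simpa using e2)
    exact ⟨this.1.symm, this.2⟩

end Vale.Agent.P209
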