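import Vale.Agent.P209.Stm3
import Vale.Agent.P209.All

/-! Partial sums, the deficit, the shear and the shake. -/

open Set Filter Topology Function
open scoped Real ContDiff

noncomputable section
namespace Vale.Agent.P209

namespace Rho
variable {d : ℕ}

theorem sp_zero (s : Fin (d + 1) → ℝ) : Sp s 0 = 0 := by simp [Sp]

theorem sp_add (s t : Fin (d + 1) → ℝ) (i : ℕ) : Sp (s + t) i = Sp s i + Sp t i := by
  unfold Sp
  rw [← Finset.sum_add_distrib]
  refine Finset.sum_congr rfl fun j _ => ?_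
  split_ifs <;> simp

theorem sp_single (k : Fin (d + 1)) (u : ℝ) (i : ℕ) :
    Sp (Pi.single k u : Fin (d + 1) → ℝ) i = if (k : ℕ) < i then u else 0 := by
  unfold Sp
  rw [Finset.sum_eq_single k]
  · simp
  · intro j _ hj
    simp [Pi.single_eq_of_ne hj]
  · simp

theorem sp_add_single (s : Fin (d + 1) → ℝ) (k : Fin (d + 1)) (u : ℝ) (i : ℕ) :
    Sp (s + Pi.single k u) i = if (k : ℕ) < i then Sp s i + u else Sp s i := by
  rw [sp_add, sp_single]
  split_ifs <;> simp

theorem sp_update (s : Fin (d + 1) → ℝ) (k : Fin (d + 1)) (u : ℝ) (i : ℕ) :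
    Sp (update s k u) i = if (k : ℕ) < i then Sp s i - s k + u else Sp s i := by
  have h : update s k u = s + Pi.single k (u - s k) := by
    funext j
    rcases eq_or_ne j k with rfl | hj
    · simp
    · simp [update_of_ne hj, Pi.single_eq_of_ne hj]
  rw [h, sp_add_single]
  split_ifs <;> ring

theorem sp_succ (s : Fin (d + 1) → ℝ) (k : Fin (d + 1)) :
    Sp s (k.val + 1) = Sp s k.val + s k := by
  have h : s k = ∑ j, if j = k then s j else 0 := by simp
  unfold Sp
  rw [h, ← Finset.sum_add_distrib]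
  refine Finset.sum_congr rfl fun j _ => ?_
  rcases lt_trichotomy j k with hj | rfl | hj
  · have h1 : j.val < k.val := hj
    rw [if_pos (by omega), if_pos h1, if_neg hj.ne, add_zero]
  · simp
  · have h1 : k.val < j.val := hj
    rw [if_neg (by omega), if_neg (by omega), if_neg hj.ne', add_zero]

theorem sp_mono {s : Fin (d + 1) → ℝ} (hs : 0 ≤ s) (i : ℕ) : Sp s i ≤ Sp s (i + 1) := by
  refine Finset.sum_le_sum fun j _ => ?_
  have h0 : 0 ≤ s j := hs j
  split_ifs with h1 h2
  · exact le_rfl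
  · omega
  · exact h0
  · exact le_rfl

theorem sp_lip (s t : Fin (d + 1) → ℝ) (i : ℕ) : Sp s i ≤ Sp t i + (d + 1) * ‖s - t‖ := by
  have h : ((d : ℝ) + 1) * ‖s - t‖ = ∑ _j : Fin (d + 1), ‖s - t‖ := by simp
  unfold Sp
  rw [h, ← Finset.sum_add_distrib]
  refine Finset.sum_le_sum fun j _ => ?_
  have h1 := (abs_le.1 (norm_le_pi_norm (s - t) j)).2
  rw [Pi.sub_apply] at h1
  split_ifs
  · linarith
  · rw [zero_add]
    exact norm_nonneg _

theorem sp_smooth (i : ℕ) : ContDiff ℝ ∞ fun s : Fin (d + 1) → ℝ => Sp s i := by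
  refine ContDiff.sum fun j _ => ?_
  split_ifs
  · exact contDiff_apply ℝ ℝ j
  · exact contDiff_const

theorem rho_one (f : ℝ → ℝ) (h : ℝ) (s : Fin (d + 1) → ℝ) : rho f h s 1 = 0 := by
  norm_num [rho]

theorem four_le (i : ℕ) : (4 : ℝ) ≤ 2 ^ (i + 1 + 1) := by
  have h : (1 : ℝ) ≤ 2 ^ i := one_le_pow₀ one_le_two
  rw [pow_succ, pow_succ]
  linarith

theorem rho_le {f g : ℝ → ℝ} {h c : ℝ} {s t : Fin (d + 1) → ℝ} (i : ℕ)
    (H : ∀ j, j ≤ i + 1 → f (Sp s j - h) ≤ g (Sp t j - h) + c) :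
    rho f h s (i + 1) ≤ rho g h t (i + 1) + c * (1 - 2 / 2 ^ (i + 1)) := by
  induction i with
  | zero => simp [rho_one]
  | succ i ih =>
    have h1 := ih fun j hj => H j (by omega)
    have h2 := H (i + 1 + 1) le_rfl
    have h4 := four_le i
    have e : (2 : ℝ) / 2 ^ (i + 1) = 4 / 2 ^ (i + 1 + 1) := by
      rw [pow_succ 2 (i + 1)]
      field_simp
      norm_num
    rw [e] at h1
    rw [rho, rho.eq_2 g]
    generalize (2 : ℝ) ^ (i + 1 + 1) = n at h1 h4 ⊢
    have h5 := mul_le_mul_of_nonneg_left h1 (by linarith : 0 ≤ n - 1)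
    have h6 : c * (1 - 2 / n) = ((n - 1) * (c * (1 - 4 / n)) + c) / (n - 2) := by
      have : n - 2 ≠ 0 := by linarith
      have : n ≠ 0 := by linarith
      field_simp
      ring
    rw [h6, ← add_div]
    exact div_le_div_of_nonneg_right (by linarith) (by linarith)

theorem rho_le' {f g : ℝ → ℝ} {h c : ℝ} {s t : Fin (d + 1) → ℝ} (i : ℕ) (hc : 0 ≤ c)
    (H : ∀ j, j ≤ i → f (Sp s j - h) ≤ g (Sp t j - h) + c) : rho f h s i ≤ rho g h t i + c := by
  cases i with
  | zero => simpa [rho] using hc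
  | succ i =>
    have h1 : (0 : ℝ) ≤ c * (2 / 2 ^ (i + 1)) := by positivity
    linarith [rho_le i H]

theorem rho_step {f : ℝ → ℝ} (hf : ∀ x, 0 ≤ f x) (h : ℝ) (s : Fin (d + 1) → ℝ) (i : ℕ)
    (h0 : 0 ≤ rho f h s i) : rho f h s i ≤ rho f h s (i + 1) := by
  cases i with
  | zero => rw [rho_one]; exact le_rfl
  | succ i =>
    have h4 := four_le i
    rw [rho.eq_2 f h s (i + 1), le_div_iff₀ (by linarith)]
    linarith [hf (Sp s (i + 1 + 1) - h)]

theorem rho_nonneg {f : ℝ → ℝ} (hf : ∀ x, 0 ≤ f x) (h : ℝ) (s : Fin (d + 1) → ℝ) (i : ℕ) :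
    0 ≤ rho f h s i := by
  induction i with
  | zero => exact le_rfl
  | succ i ih => exact ih.trans (rho_step hf h s i ih)

theorem rho_lip (h : ℝ) (s t : Fin (d + 1) → ℝ) (i : ℕ) :
    rho pos h s i ≤ rho pos h t i + (d + 1) * ‖s - t‖ := by
  have h0 : 0 ≤ ((d : ℝ) + 1) * ‖s - t‖ := by positivity
  refine rho_le' i h0 fun j _ => ?_
  have h1 : Sp t j - h ≤ pos (Sp t j - h) := le_max_left _ _
  have h2 : 0 ≤ pos (Sp t j - h) := le_max_right _ _
  exact max_le (by linarith [sp_lip s t j]) (by linarith)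

end Rho

theorem rhoS : RhoStmt := by
  intro d h
  refine ⟨fun s => ⟨Rho.sp_zero s, ?_, fun k => ⟨Rho.sp_succ s k, ?_⟩⟩, Rho.sp_update,
    Rho.sp_add_single, fun f s => Rho.rho_one f h s, fun f g s t c i hc H => Rho.rho_le' i hc H,
    fun f s i hf => ⟨Rho.rho_nonneg hf h s i, Rho.rho_step hf h s i (Rho.rho_nonneg hf h s i)⟩,
    fun f i hf => ?_, fun s t i => ?_, fun s i hs hi => ?_⟩
  · exact Finset.sum_congr rfl fun j _ => if_pos j.2
  · unfold Sp ps
    rw [Finset.sum_filter]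
    refine Finset.sum_congr rfl fun j _ => ?_
    exact if_congr (Nat.lt_succ_iff.trans Fin.le_def.symm) rfl rfl
  · induction i with
    | zero => exact contDiff_const
    | succ i ih =>
      exact ((contDiff_const.mul ih).add
        (hf.comp ((Rho.sp_smooth (i + 1)).sub contDiff_const))).div_const _
  · have h1 := Rho.rho_lip h s t i
    have h2 := Rho.rho_lip h t s i
    rw [norm_sub_rev] at h2
    exact abs_le.2 ⟨by linarith, by linarith⟩
  · induction i with
    | zero => rfl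
    | succ i ih =>
      rw [rho, ih ((Rho.sp_mono hs i).trans hi), pos, max_eq_right (by linarith)]
      simp

theorem shearS : ShearStmt := by
  intro ι _ _ k a K ha
  let sw : Ph ι →ₗ[ℝ] Ph ι := (LinearEquiv.prodComm ℝ (ι → ℝ) (ι → ℝ)).toLinearMap
  let L : Ph ι →L[ℝ] Ph ι :=
    LinearMap.toContinuousLinearMap (sw ∘ₗ GeoA.shear k (fun i => -(a i : ℝ)) ∘ₗ sw)
  have h1 : ∀ x i, (L x).1 i = x.1 i + a i * x.1 k := fun x i => by
    show x.1 i - -(a i : ℝ) * x.1 k = _
    ring
  have h2 : ∀ x i, (L x).2 i = x.2 i + if i = k then ∑ j, -(a j : ℝ) * x.2 j else 0 :=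
    fun x i => rfl
  have hs : ∀ u v : Ph ι, om (sw u) (sw v) = -om u v := fun u v => by
    unfold om
    rw [← Finset.sum_neg_distrib]
    refine Finset.sum_congr rfl fun i _ => ?_
    show u.2 i * v.1 i - u.1 i * v.2 i = _
    ring
  have hk : ∀ x, (L x).1 k = x.1 k := fun x => by rw [h1, ha]; simp
  refine ⟨L, fun x _ => ⟨L.contDiff.contDiffAt, fun u v => ?_⟩, fun x hx => ?_,
    fun x _ y _ h => ⟨funext fun i => ?_, ?_⟩⟩
  · rw [L.fderiv]
    show om (sw (GeoA.shear k _ (sw u))) (sw (GeoA.shear k _ (sw v))) = _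
    rw [hs, GeoA.om_shear k _ (by simp [ha]), hs, neg_neg]
  · have e : (fun i => (L x).1 i - a i * (L x).1 k) = x.1 := funext fun i => by
      rw [hk, h1]
      ring
    show (fun i => (L x).1 i - a i * (L x).1 k) ∈ K
    rw [e]
    exact hx
  · have h3 := congrFun h.1 i
    have h4 := congrFun h.1 k
    rw [hk, hk] at h4
    rw [h1, h1, h4] at h3
    linarith
  · choose m hm using h.2
    have h3 : ∀ i, i ≠ k → x.2 i - y.2 i = m i := fun i hi => by
      have := hm i
      rwa [h2, h2, if_neg hi, if_neg hi, add_zero, add_zero] at this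
    intro i
    rcases eq_or_ne i k with rfl | hi
    · refine ⟨m i + ∑ j, a j * m j, ?_⟩
      have h4 := hm i
      rw [h2, h2, if_pos rfl, if_pos rfl] at h4
      have h5 : ∑ j, -(a j : ℝ) * y.2 j - ∑ j, -(a j : ℝ) * x.2 j = ∑ j, (a j : ℝ) * m j := by
        rw [← Finset.sum_sub_distrib]
        refine Finset.sum_congr rfl fun j _ => ?_
        rcases eq_or_ne j i with rfl | hj
        · simp [ha]
        · rw [← h3 j hj]
          ring
      push_cast
      linarith
    · exact ⟨m i, h3 i hi⟩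

theorem shakeS : ShakeStmt := by
  intro ι _ _ k b K ε hε hb hbk hK
  obtain ⟨A, hA, hd⟩ := (hb.add (uniformContinuous_const (b := ε / 4))).exists_contDiff_dist_le
    (ε := ε / 4) (by positivity)
  refine (ruleMA ι k (fun x => A (update x k 0)) K (ε / 2) (by positivity) ?_
    (fun x u => by rw [update_idem]) hK).2.mono_tor ?_
  · refine hA.comp (contDiff_pi.2 fun i => ?_)
    rcases eq_or_ne i k with rfl | hi
    · simpa using contDiff_const
    · simpa [update_of_ne hi] using contDiff_apply ℝ ℝ i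
  · rintro y ⟨u, h1, h2, h3⟩
    have h4 := hd (update y k 0)
    simp only [Real.dist_eq, hbk] at h4
    have h5 := abs_lt.1 h4
    exact ⟨u, h1, by linarith [h5.1], by linarith [h5.2]⟩

end Vale.Agent.P209
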