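import Vale.Agent.P209.Stm3
import Vale.Agent.P209.All

/-! One shake of the shell, and the chain of all shakes. -/

open Set Filter Topology Function
open scoped Real ContDiff

noncomputable section
namespace Vale.Agent.P209

namespace Step

theorem uc_max {α : Type} [UniformSpace α] {f g : α → ℝ} (hf : UniformContinuous f)
    (hg : UniformContinuous g) : UniformContinuous fun x => max (f x) (g x) :=
  (lipschitzWith_max.uniformContinuous).comp (hf.prodMk hg)

theorem uc_mul {α : Type} [UniformSpace α] (c : ℝ) {f : α → ℝ} (hf : UniformContinuous f) :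
    UniformContinuous fun x => c * f x := Real.uniformContinuous_const_mul.comp hf

theorem uc_Sp {d : ℕ} (i : ℕ) : UniformContinuous fun s : Fin (d + 1) → ℝ => Sp s i := by
  have h : ∀ T : Finset (Fin (d + 1)), UniformContinuous fun s : Fin (d + 1) → ℝ =>
      ∑ j ∈ T, if j.val < i then s j else 0 := fun T => by
    induction T using Finset.induction_on with
    | empty => simpa using uniformContinuous_const
    | insert a T ha ih =>
      simp only [Finset.sum_insert ha]
      refine UniformContinuous.add ?_ ih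
      split_ifs
      · exact Pi.uniformContinuous_proj _ a
      · exact uniformContinuous_const
  exact h Finset.univ

theorem uc_cs {d : ℕ} : UniformContinuous (cs : (Option (Fin (d + 1)) → ℝ) → Fin (d + 1) → ℝ) :=
  uniformContinuous_pi.2 fun j => Pi.uniformContinuous_proj _ (some j)

theorem uc_rho (hR : RhoStmt) {d : ℕ} (h : ℝ) (i : ℕ) :
    UniformContinuous fun s : Fin (d + 1) → ℝ => rho pos h s i := by
  have h8 := (hR d h).2.2.2.2.2.2.2.1
  refine (LipschitzWith.of_dist_le_mul (K := d + 1) fun s t => ?_).uniformContinuous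
  rw [Real.dist_eq, dist_eq_norm]
  exact_mod_cast h8 s t i

theorem Sp_congr {d : ℕ} {s t : Fin (d + 1) → ℝ} {i : ℕ}
    (h : ∀ j : Fin (d + 1), j.val < i → s j = t j) : Sp s i = Sp t i :=
  Finset.sum_congr rfl fun j _ => by
    split_ifs with hj
    · exact h j hj
    · rfl

theorem rho_congr {d : ℕ} (h : ℝ) {s t : Fin (d + 1) → ℝ} (i : ℕ)
    (e : ∀ j : Fin (d + 1), j.val < i → s j = t j) : rho pos h s i = rho pos h t i := by
  induction i with
  | zero => rfl
  | succ i ih =>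
    rw [rho, rho, ih fun j hj => e j (hj.trans (Nat.lt_succ_self i)), Sp_congr e]

theorem Sp_diff {d : ℕ} {s t : Fin (d + 1) → ℝ} {i n : ℕ} (hin : i ≤ n)
    (h : ∀ j : Fin (d + 1), i ≤ j.val → j.val < n → s j = t j) :
    Sp s n - Sp s i = Sp t n - Sp t i := by
  simp only [Sp, ← Finset.sum_sub_distrib]
  refine Finset.sum_congr rfl fun j _ => ?_
  by_cases h1 : j.val < i
  · simp only [if_pos h1, if_pos (h1.trans_le hin), sub_self]
  · by_cases h2 : j.val < n
    · simp only [if_neg h1, if_pos h2, h j (not_lt.1 h1) h2]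
    · simp only [if_neg h1, if_neg h2]

theorem aux {w X Y Z T : ℝ} (h0 : 0 ≤ w) (h1 : w < 1) (H4 : X - w * Y + Z < T)
    (H5 : Y - w * X + Z < T) : w * X - (2 * w - 1) * Y + Z < T := by
  have h2 : (1 + w) * (w * X - (2 * w - 1) * Y + Z - T) < 0 := by
    have a1 := mul_nonneg h0 (sub_pos.2 H4).le
    have a2 := mul_pos (sub_pos.2 h1) (sub_pos.2 H5)
    nlinarith
  have h3 : 0 < 1 + w := by linarith
  nlinarith

theorem side {P v X τ B δ : ℝ} (hP : 1 ≤ P) (hv : P * v = 1) (hB : B ≤ v * X - 3 / 2 * (v * δ))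
    (ht : τ < B + δ * v / 2) : δ < X - P * τ := by
  have h1 : τ < v * (X - δ) := by linarith
  have h2 := mul_lt_mul_of_pos_left h1 (one_pos.trans_le hP)
  rw [← mul_assoc, hv, one_mul] at h2
  linarith

theorem low {P v X Y Z S u h ρ ρ' δ τ : ℝ} (hP : 1 ≤ P) (hv : P * v = 1)
    (H4 : X - (1 - v) * Y + Z < 1 - 2 * (S + u) - ρ' - 3 * δ)
    (Hρ : S + u - h + (2 * P - 1) * ρ - (2 * P - 2) * ρ' + δ * (7 - 4 * P) ≤ 0) (hδ : 0 < δ)
    (ht : τ < X - (1 - 2 * v) * Y + 2 * u + Z - (1 - 2 * S - ρ - δ) + δ * v / 2) :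
    (2 * P - 1) * τ < X + Y + Z + u + S + h - 1 - δ := by
  have hv0 : 0 < v := by
    by_contra hc
    have := mul_nonneg (zero_le_one.trans hP) (neg_nonneg.2 (not_lt.1 hc))
    linarith
  have a1 := mul_lt_mul_of_pos_left ht (show 0 < 2 * P - 1 by linarith)
  have a2 := mul_le_mul_of_nonneg_left H4.le (show 0 ≤ 2 * P - 2 by linarith)
  have e1 : P * v * Y = Y := by rw [hv, one_mul]
  have e2 : P * v * δ = δ := by rw [hv, one_mul]
  have a3 := mul_pos hδ hv0
  nlinarith

theorem arith {P v X Y Z S u h ρ ρ' δ τ B : ℝ} (hP : 1 ≤ P) (hv : P * v = 1) (hδ : 0 < δ)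
    (H1 : 3 * δ < X) (H2 : 3 * δ < Y)
    (H4 : X - (1 - v) * Y + Z < 1 - 2 * (S + u) - ρ' - 3 * δ)
    (H5 : Y - (1 - v) * X + Z < 1 - 2 * (S + u) - ρ' - 3 * δ)
    (H6 : 1 - h - (S + u) + 3 * δ < X + Y + Z) (hρ : ρ ≤ ρ')
    (Hρ : S + u - h + (2 * P - 1) * ρ - (2 * P - 2) * ρ' + δ * (7 - 4 * P) ≤ 0)
    (hB : B = 0 ∨ B = X - (1 - 2 * v) * Y + 2 * u + Z - (1 - 2 * S - ρ - δ) ∨
      B = Y - (1 - 2 * v) * X + 2 * u + Z - (1 - 2 * S - ρ - δ))
    (ht : τ < B + δ * v / 2) :
    δ < X - P * τ ∧ δ < Y - P * τ ∧ (2 * P - 1) * τ < X + Y + Z + u + S + h - 1 - δ := by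
  have hv0 : 0 < v := by
    by_contra hc
    have := mul_nonneg (zero_le_one.trans hP) (neg_nonneg.2 (not_lt.1 hc))
    linarith
  have hv1 : v ≤ 1 := by nlinarith
  have a3 := mul_pos hδ hv0
  have a4 : v * δ ≤ δ := by nlinarith
  have A1 := aux (w := 1 - v) (by linarith) (by linarith) H4 H5
  have A2 := aux (w := 1 - v) (by linarith) (by linarith) H5 H4
  rcases hB with rfl | rfl | rfl
  · refine ⟨side hP hv ?_ ht, side hP hv ?_ ht, ?_⟩
    · nlinarith
    · nlinarith
    · have a1 := mul_lt_mul_of_pos_left ht (show 0 < 2 * P - 1 by linarith)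
      have e2 : P * v * δ = δ := by rw [hv, one_mul]
      nlinarith
  · refine ⟨side hP hv ?_ ht, side hP hv ?_ ht, low hP hv H4 Hρ hδ ht⟩
    · nlinarith
    · nlinarith
  · refine ⟨side hP hv ?_ ht, side hP hv ?_ ht, ?_⟩
    · nlinarith
    · nlinarith
    · have := low hP hv H5 Hρ hδ ht
      linarith

/-- the integer shear vector -/
def av (d i : ℕ) : Option (Fin (d + 1)) → ℤ :=
  fun o => if o = none ∨ o = some (Fin.last d) then 2 ^ i else 0

/-- the lower function of the shake -/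
def bf (d : ℕ) (h δ : ℝ) (i : ℕ) (y : Option (Fin (d + 1)) → ℝ) : ℝ :=
  max 0 (max
    (y none - (1 - 2 / 2 ^ i) * y (some (Fin.last d)) + (Sp (cs y) d - Sp (cs y) (i + 1))
      - (1 - 2 * Sp (cs y) i - rho pos h (cs y) i - δ))
    (y (some (Fin.last d)) - (1 - 2 / 2 ^ i) * y none + (Sp (cs y) d - Sp (cs y) (i + 1))
      - (1 - 2 * Sp (cs y) i - rho pos h (cs y) i - δ)))

theorem uc_bf (hR : RhoStmt) (d : ℕ) (h δ : ℝ) (i : ℕ) : UniformContinuous (bf d h δ i) := by
  have p : ∀ o : Option (Fin (d + 1)), UniformContinuous fun y : Option (Fin (d + 1)) → ℝ => y o :=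
    fun o => Pi.uniformContinuous_proj _ o
  have s : ∀ n, UniformContinuous fun y : Option (Fin (d + 1)) → ℝ => Sp (cs y) n :=
    fun n => (uc_Sp n).comp uc_cs
  have r : UniformContinuous fun y : Option (Fin (d + 1)) → ℝ =>
      1 - 2 * Sp (cs y) i - rho pos h (cs y) i - δ :=
    ((uniformContinuous_const.sub (uc_mul 2 (s i))).sub ((uc_rho hR h i).comp uc_cs)).sub
      uniformContinuous_const
  exact uc_max uniformContinuous_const (uc_max
    ((((p none).sub (uc_mul _ (p _))).add ((s d).sub (s (i + 1)))).sub r)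
    ((((p _).sub (uc_mul _ (p none))).add ((s d).sub (s (i + 1)))).sub r))

theorem bf_eq {d : ℕ} (h δ : ℝ) {i : ℕ} (hi : i < d) {y : Option (Fin (d + 1)) → ℝ}
    {s : Fin (d + 1) → ℝ} (e : ∀ j : Fin (d + 1), j.val < d → j.val ≠ i → y (some j) = s j) :
    bf d h δ i y = max 0 (max
      (y none - (1 - 2 / 2 ^ i) * y (some (Fin.last d)) + (Sp s d - Sp s (i + 1))
        - (1 - 2 * Sp s i - rho pos h s i - δ))
      (y (some (Fin.last d)) - (1 - 2 / 2 ^ i) * y none + (Sp s d - Sp s (i + 1))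
        - (1 - 2 * Sp s i - rho pos h s i - δ))) := by
  have e1 : ∀ j : Fin (d + 1), j.val < i → cs y j = s j := fun j hj => e j (hj.trans hi) hj.ne
  rw [bf, Sp_congr e1, rho_congr h i e1,
    Sp_diff (s := cs y) (t := s) hi fun j h1 h2 => e j h2 (by omega)]

theorem core (hR : RhoStmt) {d : ℕ} {h δ : ℝ} {i : ℕ} (hδ : 0 < δ) (hi : i < d)
    {y z w : Option (Fin (d + 1)) → ℝ} {t u : ℝ} (hw : w ∈ Qs d h (3 * δ) (i + 1))
    (yk : y (some ⟨i, by omega⟩) = t) (wk : w (some ⟨i, by omega⟩) = u)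
    (yw : ∀ j : Fin (d + 1), j.val < d → j.val ≠ i → y (some j) = w (some j))
    (zw : ∀ j : Fin (d + 1), j.val < d → j.val ≠ i → z (some j) = w (some j))
    (z0 : z none = w none + 2 ^ i * u) (z1 : z (some (Fin.last d)) = w (some (Fin.last d)) + 2 ^ i * u)
    (y0 : y none = w none - 2 ^ i * (t - u))
    (y1 : y (some (Fin.last d)) = w (some (Fin.last d)) - 2 ^ i * (t - u))
    (lo : bf d h δ i z < t) (up : t < bf d h δ i z + u + δ / 2 ^ (i + 1)) : y ∈ Qs d h δ i := by
  obtain ⟨w1, w2, w3, w4, w5, w6, w7⟩ := hw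
  obtain ⟨R1, -, -, R4, -, R6, -⟩ := hR d h
  have hP : (1 : ℝ) ≤ 2 ^ i := one_le_pow₀ one_le_two
  obtain ⟨v, hv⟩ : ∃ v : ℝ, v = 1 / 2 ^ i := ⟨_, rfl⟩
  have hv' : (2 : ℝ) ^ i * v = 1 := by rw [hv]; field_simp
  have f1 : (2 : ℝ) / 2 ^ (i + 1) = v := by rw [hv, pow_succ]; field_simp
  have f2 : (2 : ℝ) / 2 ^ i = 2 * v := by rw [hv]; field_simp
  have f3 : δ / 2 ^ (i + 1) = δ * v / 2 := by rw [hv, pow_succ]; field_simp
  have s1 : Sp (cs w) (i + 1) = Sp (cs w) i + u := by
    have := ((R1 (cs w)).2.2 ⟨i, by omega⟩).1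
    rw [← wk]
    exact this
  have s2 : Sp (cs y) (i + 1) = Sp (cs y) i + t := by
    have := ((R1 (cs y)).2.2 ⟨i, by omega⟩).1
    rw [← yk]
    exact this
  have e1 : ∀ j : Fin (d + 1), j.val < i → cs y j = cs w j := fun j hj => yw j (hj.trans hi) hj.ne
  have s3 : Sp (cs y) i = Sp (cs w) i := Sp_congr e1
  have s4 : rho pos h (cs y) i = rho pos h (cs w) i := rho_congr h i e1
  have s5 : Sp (cs y) d - Sp (cs y) (i + 1) = Sp (cs w) d - Sp (cs w) (i + 1) :=
    Sp_diff hi fun j h1 h2 => yw j h2 (by omega)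
  obtain ⟨Z, hZ⟩ : ∃ Z, Z = Sp (cs w) d - Sp (cs w) (i + 1) := ⟨_, rfl⟩
  have s6 : Sp (cs y) d - Sp (cs y) i = Z + t := by linarith
  rw [bf_eq h δ hi (s := cs w) zw, z0, z1, f2, ← hZ] at lo up
  rw [f1, ← hZ, s1] at w5 w6
  rw [← hZ, s1] at w7
  rw [f3] at up
  have hρ := (R6 pos (cs w) i fun x => le_max_right x 0).2
  have Hρ : Sp (cs w) i + u - h + (2 * 2 ^ i - 1) * rho pos h (cs w) i -
      (2 * 2 ^ i - 2) * rho pos h (cs w) (i + 1) + δ * (7 - 4 * 2 ^ i) ≤ 0 := by
    rcases Nat.eq_zero_or_pos i with rfl | hi0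
    · have a1 : w (some 0) = u := wk
      have a2 := w4 Nat.one_pos
      rw [(R1 (cs w)).1, show rho pos h (cs w) 0 = 0 from rfl]
      norm_num
      linarith
    · have a1 : (2 : ℝ) ≤ 2 ^ i := by
        calc (2 : ℝ) = 2 ^ 1 := (pow_one 2).symm
          _ ≤ 2 ^ i := pow_le_pow_right₀ one_le_two hi0
      have a2 : (2 * 2 ^ i - 2) * rho pos h (cs w) (i + 1) =
          (2 * 2 ^ i - 1) * rho pos h (cs w) i + pos (Sp (cs w) i + u - h) := by
        rw [rho, s1, pow_succ, mul_comm (2 ^ i : ℝ) 2, mul_div_cancel₀]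
        linarith
      have a3 : Sp (cs w) i + u - h ≤ pos (Sp (cs w) i + u - h) := le_max_left _ _
      nlinarith
  have e2 : 2 ^ i * v * u = u := by rw [hv', one_mul]
  have e3 : 2 ^ i * v * t = t := by rw [hv', one_mul]
  obtain ⟨B1, hB1⟩ : ∃ B1, B1 = w none + 2 ^ i * u - (1 - 2 * v) *
    (w (some (Fin.last d)) + 2 ^ i * u) + Z - (1 - 2 * Sp (cs w) i - rho pos h (cs w) i - δ) :=
    ⟨_, rfl⟩
  obtain ⟨B2, hB2⟩ : ∃ B2, B2 = w (some (Fin.last d)) + 2 ^ i * u - (1 - 2 * v) *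
    (w none + 2 ^ i * u) + Z - (1 - 2 * Sp (cs w) i - rho pos h (cs w) i - δ) := ⟨_, rfl⟩
  rw [← hB1, ← hB2] at lo up
  obtain ⟨b1, b2, b3⟩ := arith (τ := t - u) hP hv' hδ w2 w3 w5 w6 w7 hρ Hρ
    (B := max 0 (max B1 B2)) (by
      rcases max_choice 0 (max B1 B2) with c | c
      · exact Or.inl c
      · rw [c]
        rcases max_choice B1 B2 with c' | c'
        · exact Or.inr (Or.inl (by rw [c', hB1]; linarith))
        · exact Or.inr (Or.inr (by rw [c', hB2]; linarith)))
    (by linarith)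
  rw [max_lt_iff, max_lt_iff] at lo
  obtain ⟨l1, l2, l3⟩ := lo
  rw [hB1] at l2
  rw [hB2] at l3
  refine ⟨fun j hj => ?_, y0 ▸ b1, y1 ▸ b2, fun hi0 => ?_, ?_, ?_, ?_⟩
  · by_cases hji : j.val = i
    · have e : j = ⟨i, by omega⟩ := Fin.ext hji
      rw [e, yk]
      exact l1
    · rw [yw j hj hji]
      exact w1 j hj
  · rw [yw 0 (hi0.trans hi) hi0.ne]
    have := w4 (Nat.succ_pos i)
    linarith
  · rw [s6, s3, s4, y0, y1, f2]
    linarith
  · rw [s6, s3, s4, y0, y1, f2]
    linarith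
  · rw [s6, s3, y0, y1]
    linarith

end Step

open Step

theorem stepS (hR : RhoStmt) (h1 : ShearStmt) (h2 : ShakeStmt) : StepStmt := by
  intro d h δ i hδ hi
  obtain ⟨k, hk⟩ : ∃ k : Fin (d + 1), k = ⟨i, by omega⟩ := ⟨_, rfl⟩
  have hki : k.val = i := by rw [hk]
  have a0 : ∀ j : Fin (d + 1), j.val < d → av d i (some j) = 0 := fun j hj =>
    if_neg fun c => by
      rcases c with c | c
      · exact absurd c (Option.some_ne_none j)
      · rw [Option.some.inj c] at hj
        exact lt_irrefl _ hj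
  have a1 : av d i none = 2 ^ i := if_pos (Or.inl rfl)
  have a2 : av d i (some (Fin.last d)) = 2 ^ i := if_pos (Or.inr rfl)
  have ak : av d i (some k) = 0 := a0 k (hki ▸ hi)
  have n1 : ∀ j : Fin (d + 1), j.val ≠ i → some j ≠ some k := fun j hj c =>
    hj (by rw [Option.some.inj c, hki])
  have n2 : some (Fin.last d) ≠ some k := n1 _ hi.ne'
  have E1 := h1 _ (some k) (av d i) (Qs d h (3 * δ) (i + 1)) ak
  have E2 := h2 _ (some k) (bf d h δ i) {y | (fun o => y o - av d i o * y (some k)) ∈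
    Qs d h (3 * δ) (i + 1)} (δ / 2 ^ (i + 1)) (by positivity) (uc_bf hR d h δ i)
    (fun x u => by
      rw [bf_eq h δ hi (s := cs x) fun j _ hj => update_of_ne (n1 j hj) _ _,
        update_of_ne (Option.some_ne_none k).symm, update_of_ne n2]
      rfl)
    (fun x hx => by
      have := hx.1 k (hki ▸ hi)
      simpa only [ak, Int.cast_zero, zero_mul, sub_zero] using this)
  have E3 := h1 _ (some k) (fun o => -av d i o) {y | ∃ u, update y (some k) u ∈
    {y : Option (Fin (d + 1)) → ℝ | (fun o => y o - av d i o * y (some k)) ∈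
      Qs d h (3 * δ) (i + 1)} ∧ bf d h δ i y < y (some k) ∧
      y (some k) < bf d h δ i y + u + δ / 2 ^ (i + 1)} (by simp only [ak, neg_zero])
  refine ((E1.trans E2).trans E3).mono_tor fun y hy => ?_
  obtain ⟨u, hw, lo, up⟩ := hy
  rw [mem_ofPred_eq] at hw
  simp only [ak, neg_zero, Int.cast_zero, zero_mul, sub_zero] at lo up
  refine core hR hδ hi hw (t := y (some k)) (u := u) (by rw [hk]) ?_ (fun j hj hji => ?_)
    (fun j hj hji => ?_) ?_ ?_ ?_ ?_ lo up
  · rw [← hk]
    simp only [ak, update_self, Int.cast_zero, zero_mul, sub_zero]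
  · simp only [a0 j hj, update_of_ne (n1 j hji), neg_zero, Int.cast_zero, zero_mul, sub_zero]
  · simp only [a0 j hj, update_of_ne (n1 j hji), neg_zero, Int.cast_zero, zero_mul, sub_zero]
  · simp only [a1, update_of_ne (Option.some_ne_none k).symm, update_self]
    push_cast
    ring
  · simp only [a2, update_of_ne n2, update_self]
    push_cast
    ring
  · simp only [a1, update_of_ne (Option.some_ne_none k).symm, update_self]
    push_cast
    ring
  · simp only [a2, update_of_ne n2, update_self]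
    push_cast
    ring

theorem chainS (hR : RhoStmt) (hS : StepStmt) : ChainStmt := by
  intro d h δ hδ
  have key : ∀ e : ℝ, 0 < e → ∀ i, i ≤ d →
      Emb (tor (Qs d h (3 ^ i * e) i)) Lat (tor (Qs d h e 0)) Lat := fun e he i => by
    induction i with
    | zero =>
      intro _
      rw [pow_zero, one_mul]
      exact Emb.refl_of_subset subset_rfl
    | succ i ih =>
      intro hi
      have := hS d h (3 ^ i * e) i (by positivity) hi
      rw [← mul_assoc, ← pow_succ'] at this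
      exact this.trans (ih (Nat.le_of_succ_le hi))
  have he : 0 < δ / 3 ^ d := by positivity
  have E := key _ he d le_rfl
  rw [mul_div_cancel₀ δ (by positivity)] at E
  refine (E.mono_tor fun y hy => ?_).trans (tgtA _ (1 - h) 1)
  obtain ⟨y1, y2, y3, -, y5, -, y7⟩ := hy
  obtain ⟨r1, r2, r3⟩ := (hR d h).1 (cs y)
  have r4 : Sp (cs y) (d + 1) = Sp (cs y) d + y (some (Fin.last d)) := (r3 (Fin.last d)).1
  have r5 : ∑ o, y o = y none + ∑ j, cs y j := Fintype.sum_option y
  rw [r1, show rho pos h (cs y) 0 = 0 from rfl] at y5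
  rw [r1] at y7
  norm_num at y5
  refine ⟨fun o => ?_, by linarith, by linarith⟩
  rcases o with _ | j
  · exact he.trans y2
  · rcases lt_or_eq_of_le (Nat.le_of_lt_succ j.2) with c | c
    · exact y1 j c
    · obtain rfl : j = Fin.last d := Fin.ext c
      exact he.trans y3

end Vale.Agent.P209
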