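import Vale.Agent.P209.Stm3
import Vale.Agent.P209.Inv

/-! P209: the thin closed convex curve with five prescribed side directions. -/

open Set Filter Topology Function
open scoped Real ContDiff

noncomputable section
namespace Vale.Agent.P209
namespace Time
open Five

theorem cone_of {r a a' al al' φ e1 e2 f1 f2 : ℝ} (ha : 0 < a) (ha' : 0 < a') (har : a ≤ r)
    (har' : a' ≤ r) (h1 : al ≤ φ) (h2 : φ ≤ al') (h3 : al < al') (h4 : al' < al + π)
    (he1 : e1 = a * Real.cos al) (he2 : e2 = a * Real.sin al) (hf1 : f1 = a' * Real.cos al')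
    (hf2 : f2 = a' * Real.sin al') : Cone (r * Real.cos φ) (r * Real.sin φ) e1 e2 f1 f2 := by
  obtain ⟨x, hx⟩ : ∃ x, x = al' - φ := ⟨_, rfl⟩
  obtain ⟨y, hy⟩ : ∃ y, y = φ - al := ⟨_, rfl⟩
  have e1' : al' = φ + x := by linarith
  have e2' : al = φ - y := by linarith
  have hx0 : 0 ≤ x := by linarith
  have hy0 : 0 ≤ y := by linarith
  have hxy : x + y < π := by linarith
  have hxy0 : 0 < x + y := by linarith
  have sD : 0 < Real.sin (x + y) := Real.sin_pos_of_pos_of_lt_pi hxy0 hxy
  have sx : 0 ≤ Real.sin x := Real.sin_nonneg_of_nonneg_of_le_pi hx0 (by linarith)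
  have sy : 0 ≤ Real.sin y := Real.sin_nonneg_of_nonneg_of_le_pi hy0 (by linarith)
  have hs : Real.sin (x + y) ≤ Real.sin x + Real.sin y := by
    rw [Real.sin_add]
    nlinarith [Real.cos_le_one x, Real.cos_le_one y]
  have hr : 0 < r := by linarith
  refine ⟨r * Real.sin x / (a * Real.sin (x + y)), r * Real.sin y / (a' * Real.sin (x + y)),
    by positivity, by positivity, ?_, ?_, ?_⟩
  · have p1 : Real.sin x / Real.sin (x + y) ≤ r * Real.sin x / (a * Real.sin (x + y)) := by
      rw [div_le_div_iff₀ sD (by positivity)]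
      nlinarith [mul_nonneg (mul_nonneg sx sD.le) (sub_nonneg.2 har)]
    have p2 : Real.sin y / Real.sin (x + y) ≤ r * Real.sin y / (a' * Real.sin (x + y)) := by
      rw [div_le_div_iff₀ sD (by positivity)]
      nlinarith [mul_nonneg (mul_nonneg sy sD.le) (sub_nonneg.2 har')]
    have p3 : 1 ≤ Real.sin x / Real.sin (x + y) + Real.sin y / Real.sin (x + y) := by
      rw [← add_div, le_div_iff₀ sD]
      linarith
    linarith
  · rw [he1, hf1, e1', e2']
    have hD := sD.ne'
    field_simp
    rw [Real.sin_add, Real.cos_add, Real.cos_sub]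
    ring
  · rw [he2, hf2, e1', e2']
    have hD := sD.ne'
    field_simp
    rw [Real.sin_add, Real.sin_add, Real.sin_sub]
    ring

theorem exists_beta {M : ℝ} (hM : 2 ≤ M) : ∃ r β : ℝ, 2 ≤ r ∧ 0 < β ∧ β < π / 4 ∧
    r * Real.cos β = M ∧ r * Real.sin β = M - 1 := by
  have hq : 0 < (M - 1) / M := div_pos (by linarith) (by linarith)
  have hq1 : (M - 1) / M < 1 := by
    rw [div_lt_one (by linarith)]
    linarith
  have hb0 : 0 < Real.arctan ((M - 1) / M) := Real.arctan_pos.2 hq
  have hb1 : Real.arctan ((M - 1) / M) < π / 4 := by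
    rw [← Real.arctan_one]
    exact Real.arctan_strictMono hq1
  have hc := Real.cos_arctan_pos ((M - 1) / M)
  have ht := Real.tan_arctan ((M - 1) / M)
  rw [Real.tan_eq_sin_div_cos] at ht
  generalize Real.arctan ((M - 1) / M) = β at hb0 hb1 hc ht
  have hM0 : M ≠ 0 := by linarith
  refine ⟨M / Real.cos β, β, ?_, hb0, hb1, by field_simp, ?_⟩
  · rw [le_div_iff₀ hc]
    nlinarith [Real.cos_le_one β]
  · have e : M / Real.cos β * Real.sin β = M * (Real.sin β / Real.cos β) := by ring
    rw [e, ht]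
    field_simp

/-- the direction of motion -/
def ang (S : ℝ → ℝ) (β t : ℝ) : ℝ := β - π + (π / 2 - β) * S (t - 2) + π / 4 * S (t - 4)
  + π / 4 * S (t - 6) + (π / 2 - β) * S (t - 8) + (π / 2 + 2 * β) * S (t - 10)

variable {S : ℝ → ℝ} {β : ℝ}

theorem ang_smooth (h : St S) : ContDiff ℝ ∞ (ang S β) :=
  ((((contDiff_const.add (contDiff_const.mul (h.sm 2))).add (contDiff_const.mul (h.sm 4))).add
    (contDiff_const.mul (h.sm 6))).add (contDiff_const.mul (h.sm 8))).add
    (contDiff_const.mul (h.sm 10))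

theorem ang_mono (h : St S) (h0 : 0 < β) (h1 : β < π / 4) : Monotone (ang S β) := fun s t hst => by
  have hp := Real.pi_pos
  have e : ∀ n : ℝ, S (s - n) ≤ S (t - n) := fun n => h.mono (by linarith)
  have a1 : 0 ≤ π / 2 - β := by linarith
  have a2 : 0 ≤ π / 2 + 2 * β := by linarith
  unfold ang
  gcongr <;> exact e _

theorem ang_per (h : St S) (t : ℝ) : ang S β (t + 12) = ang S β t + 2 * π := by
  simp only [ang, h.per']
  ring

theorem ang_perInt (h : St S) (k : ℤ) (t : ℝ) :
    ang S β (t + k * 12) = ang S β t + k * (2 * π) := by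
  have e1 : ∀ n : ℝ, S (t + k * 12 - n) = S (t - n) + k := fun n => by
    rw [← h.perInt, add_sub_right_comm]
  simp only [ang, e1]
  ring

theorem ang1 (h : St S) {t : ℝ} (a : -1 ≤ t) (b : t ≤ 2) : ang S β t = β - π := by
  rw [ang, (h.lo (t - 2) (by linarith) (by linarith)).1, (h.lo (t - 4) (by linarith) (by linarith)).1,
    (h.lo (t - 6) (by linarith) (by linarith)).1, (h.lo (t - 8) (by linarith) (by linarith)).1,
    (h.lo (t - 10) (by linarith) (by linarith)).1]
  ring

theorem ang2 (h : St S) {t : ℝ} (a : 3 ≤ t) (b : t ≤ 4) : ang S β t = -(π / 2) := by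
  rw [ang, (h.hi (t - 2) (by linarith) (by linarith)).1, (h.lo (t - 4) (by linarith) (by linarith)).1,
    (h.lo (t - 6) (by linarith) (by linarith)).1, (h.lo (t - 8) (by linarith) (by linarith)).1,
    (h.lo (t - 10) (by linarith) (by linarith)).1]
  ring

theorem ang3 (h : St S) {t : ℝ} (a : 5 ≤ t) (b : t ≤ 6) : ang S β t = -(π / 4) := by
  rw [ang, (h.hi (t - 2) (by linarith) (by linarith)).1, (h.hi (t - 4) (by linarith) (by linarith)).1,
    (h.lo (t - 6) (by linarith) (by linarith)).1, (h.lo (t - 8) (by linarith) (by linarith)).1,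
    (h.lo (t - 10) (by linarith) (by linarith)).1]
  ring

theorem ang4 (h : St S) {t : ℝ} (a : 7 ≤ t) (b : t ≤ 8) : ang S β t = 0 := by
  rw [ang, (h.hi (t - 2) (by linarith) (by linarith)).1, (h.hi (t - 4) (by linarith) (by linarith)).1,
    (h.hi (t - 6) (by linarith) (by linarith)).1, (h.lo (t - 8) (by linarith) (by linarith)).1,
    (h.lo (t - 10) (by linarith) (by linarith)).1]
  ring

theorem ang5 (h : St S) {t : ℝ} (a : 9 ≤ t) (b : t ≤ 10) : ang S β t = π / 2 - β := by
  rw [ang, (h.hi (t - 2) (by linarith) (by linarith)).1, (h.hi (t - 4) (by linarith) (by linarith)).1,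
    (h.hi (t - 6) (by linarith) (by linarith)).1, (h.hi (t - 8) (by linarith) (by linarith)).1,
    (h.lo (t - 10) (by linarith) (by linarith)).1]
  ring

theorem ang6 (h : St S) : ang S β 11 = β + π := by
  rw [ang, (h.hi (11 - 2) (by linarith) (by linarith)).1, (h.hi (11 - 4) (by linarith) (by linarith)).1,
    (h.hi (11 - 6) (by linarith) (by linarith)).1, (h.hi (11 - 8) (by linarith) (by linarith)).1,
    (h.hi (11 - 10) (by linarith) (by linarith)).1]
  ring

/-- the derivative of the stair vanishes off its climbing window -/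
theorem d0 (h : St S) {t n : ℝ} (a : -1 ≤ t) (b : t ≤ 11) (h1 : 0 ≤ n) (h2 : n ≤ 10)
    (c : t ≤ n ∨ n + 1 ≤ t) : deriv S (t - n) = 0 := by
  rcases c with c | c
  · exact (h.lo _ (by linarith) (by linarith)).2
  · exact (h.hi _ (by linarith) (by linarith)).2

theorem key0 (h : St S) {t n v : ℝ} (g : ℝ → ℝ) (a : -1 ≤ t) (b : t ≤ 11) (h1 : 0 ≤ n)
    (h2 : n ≤ 10) (hv : n ≤ t → t ≤ n + 1 → g (ang S β t) = v) :
    deriv S (t - n) * g (ang S β t) = deriv S (t - n) * v := by
  rcases le_total t n with c | c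
  · rw [d0 h a b h1 h2 (Or.inl c), zero_mul, zero_mul]
  · rcases le_total t (n + 1) with c' | c'
    · rw [hv c c']
    · rw [d0 h a b h1 h2 (Or.inr c'), zero_mul, zero_mul]

theorem key (h : St S) {n v : ℝ} (g : ℝ → ℝ) (hg : ∀ (x : ℝ) (k : ℤ), g (x + k * (2 * π)) = g x)
    (h1 : 0 ≤ n) (h2 : n ≤ 10) (hv : ∀ t, n ≤ t → t ≤ n + 1 → g (ang S β t) = v) (t : ℝ) :
    deriv S (t - n) * g (ang S β t) = deriv S (t - n) * v := by
  obtain ⟨k, s, a, b, rfl⟩ : ∃ (k : ℤ) (s : ℝ), -1 ≤ s ∧ s ≤ 11 ∧ t = s + k * 12 := by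
    have h1 := Int.floor_le ((t + 1) / 12)
    have h2 := Int.lt_floor_add_one ((t + 1) / 12)
    exact ⟨⌊(t + 1) / 12⌋, t - ⌊(t + 1) / 12⌋ * 12, by linarith, by linarith, by ring⟩
  have e2 : deriv S (s + k * 12 - n) = deriv S (s - n) := by
    rw [← h.dperInt k (s - n), add_sub_right_comm]
  rw [e2, ang_perInt h, hg]
  exact key0 h g a b h1 h2 (hv s)

/-- a closed curve from a periodic velocity and three correcting kicks -/
theorem closed (h : St S) {f : ℝ → ℝ} (hf : ContDiff ℝ ∞ f) (hp : ∀ t, f (t + 12) = f t) :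
    ∃ I : ℝ, ∀ k1 k3 k5 : ℝ, I + k1 + k3 + k5 = 0 → ∃ (X : ℝ → ℝ) (b : ℝ), ContDiff ℝ ∞ X ∧
      0 < b ∧ (∀ t, HasDerivAt X
        (f t + k1 * deriv S (t - 1) + k3 * deriv S (t - 5) + k5 * deriv S (t - 9)) t) ∧
      (∀ t, X (t + 12) = X t) ∧ (∀ t, |X t| ≤ b) ∧ X 0 = 0 := by
  obtain ⟨F, I, h1, h2, h3⟩ := prim hf hp
  refine ⟨I, fun k1 k3 k5 hk => ?_⟩
  have hs : ContDiff ℝ ∞ fun t => F t - F 0 + k1 * S (t - 1) + k3 * S (t - 5) + k5 * S (t - 9) :=
    (((h1.sub contDiff_const).add (contDiff_const.mul (h.sm 1))).add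
      (contDiff_const.mul (h.sm 5))).add (contDiff_const.mul (h.sm 9))
  have hper : Periodic (fun t => F t - F 0 + k1 * S (t - 1) + k3 * S (t - 5) + k5 * S (t - 9)) 12 :=
    fun t => by
      simp only [h3, h.per']
      linarith
  obtain ⟨b, hb0, hb⟩ :=
    (hper.isBounded_of_continuous (by norm_num) hs.continuous).exists_pos_norm_le
  refine ⟨_, b, hs, hb0, fun t => ((((h2 t).sub_const (F 0)).fun_add
    ((h.has 1 t).const_mul _)).fun_add ((h.has 5 t).const_mul _)).fun_add
    ((h.has 9 t).const_mul _), hper, fun t => hb _ ⟨t, rfl⟩, ?_⟩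
  rw [(h.lo (0 - 1) (by norm_num) (by norm_num)).1, (h.lo (0 - 5) (by norm_num) (by norm_num)).1,
    (h.lo (0 - 9) (by norm_num) (by norm_num)).1]
  ring

theorem dir_aux (h : St S) {M r c1 c3 c5 : ℝ} (hr0 : 0 < r) (p1 : 0 ≤ c1) (p3 : 0 ≤ c3)
    (p5 : 0 ≤ c5) (C1 : r * Real.cos (β - π) = -M) (S1 : r * Real.sin (β - π) = 1 - M)
    (C3 : √2 * Real.cos (-(π / 4)) = 1) (S3 : √2 * Real.sin (-(π / 4)) = -1)
    (C5 : r * Real.cos (π / 2 - β) = M - 1) (S5 : r * Real.sin (π / 2 - β) = M) (t : ℝ) :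
    ∃ u : ℝ, 0 < u ∧ r * Real.cos (ang S β t) + c1 * (-M) * deriv S (t - 1)
      + c3 * 1 * deriv S (t - 5) + c5 * (M - 1) * deriv S (t - 9) = u * Real.cos (ang S β t) ∧
      r * Real.sin (ang S β t) + c1 * (1 - M) * deriv S (t - 1)
      + c3 * (-1) * deriv S (t - 5) + c5 * M * deriv S (t - 9) = u * Real.sin (ang S β t) := by
  have gc : ∀ (c x : ℝ) (k : ℤ), c * Real.cos (x + k * (2 * π)) = c * Real.cos x :=
    fun c x k => by rw [Real.cos_add_int_mul_two_pi]
  have gs : ∀ (c x : ℝ) (k : ℤ), c * Real.sin (x + k * (2 * π)) = c * Real.sin x :=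
    fun c x k => by rw [Real.sin_add_int_mul_two_pi]
  have k1 := key (β := β) (n := 1) (v := -M) h (fun x => r * Real.cos x) (gc r) (by norm_num)
    (by norm_num) (fun t a a' => by rw [ang1 h (by linarith) (by linarith), C1]) t
  have k1' := key (β := β) (n := 1) (v := 1 - M) h (fun x => r * Real.sin x) (gs r) (by norm_num)
    (by norm_num) (fun t a a' => by rw [ang1 h (by linarith) (by linarith), S1]) t
  have k3 := key (β := β) (n := 5) (v := 1) h (fun x => √2 * Real.cos x) (gc _) (by norm_num)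
    (by norm_num) (fun t a a' => by rw [ang3 h (by linarith) (by linarith), C3]) t
  have k3' := key (β := β) (n := 5) (v := -1) h (fun x => √2 * Real.sin x) (gs _) (by norm_num)
    (by norm_num) (fun t a a' => by rw [ang3 h (by linarith) (by linarith), S3]) t
  have k5 := key (β := β) (n := 9) (v := M - 1) h (fun x => r * Real.cos x) (gc r) (by norm_num)
    (by norm_num) (fun t a a' => by rw [ang5 h (by linarith) (by linarith), C5]) t
  have k5' := key (β := β) (n := 9) (v := M) h (fun x => r * Real.sin x) (gs r) (by norm_num)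
    (by norm_num) (fun t a a' => by rw [ang5 h (by linarith) (by linarith), S5]) t
  have e1 := h.dpos (t - 1)
  have e5 := h.dpos (t - 5)
  have e9 := h.dpos (t - 9)
  refine ⟨r + c1 * r * deriv S (t - 1) + c3 * √2 * deriv S (t - 5) + c5 * r * deriv S (t - 9),
    by positivity, ?_, ?_⟩
  · linear_combination -c1 * k1 - c3 * k3 - c5 * k5
  · linear_combination -c1 * k1' - c3 * k3' - c5 * k5'

end Time

open Time Five in
theorem timeS : TimeStmt := by
  intro M hM
  obtain ⟨S, h⟩ := exists_st stairS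
  obtain ⟨r, β, hr, hb0, hb1, hc, hs⟩ := exists_beta hM
  have hp := Real.pi_pos
  have sa : ContDiff ℝ ∞ (ang S β) := ang_smooth h
  obtain ⟨I, hI⟩ := closed h (f := fun t => r * Real.cos (ang S β t))
    (contDiff_const.mul sa.cos) (fun t => by simp only [ang_per h, Real.cos_add_two_pi])
  obtain ⟨J, hJ⟩ := closed h (f := fun t => r * Real.sin (ang S β t))
    (contDiff_const.mul sa.sin) (fun t => by simp only [ang_per h, Real.sin_add_two_pi])
  obtain ⟨c1, c3, c5, p1, p3, p5, eI, eJ⟩ : ∃ c1 c3 c5 : ℝ, 0 ≤ c1 ∧ 0 ≤ c3 ∧ 0 ≤ c5 ∧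
      I + c1 * (-M) + c3 * 1 + c5 * (M - 1) = 0 ∧ J + c1 * (1 - M) + c3 * (-1) + c5 * M = 0 := by
    have hM1 : 2 * M - 1 ≠ 0 := by linarith
    obtain ⟨α, hα⟩ : ∃ α : ℝ, α * (2 * M - 1) = I + J := ⟨(I + J) / (2 * M - 1), by field_simp⟩
    refine ⟨α + (|α| + |M * α - I|), M * α - I + (|α| + |M * α - I|), |α| + |M * α - I|,
      ?_, ?_, by positivity, by ring, by linear_combination -hα⟩
    · linarith [neg_abs_le α, abs_nonneg (M * α - I)]
    · linarith [neg_abs_le (M * α - I), abs_nonneg α]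
  obtain ⟨X, b, sX, hb, dX, pX, bX, X0⟩ := hI _ _ _ eI
  obtain ⟨Y, b', sY, hb', dY, pY, bY, Y0⟩ := hJ _ _ _ eJ
  have q2 : (1 : ℝ) ≤ √2 := Real.one_le_sqrt.2 (by norm_num)
  have q2' : √2 ≤ 2 := by
    rw [Real.sqrt_le_left (by norm_num)]
    norm_num
  have qq : √2 * √2 = 2 := Real.mul_self_sqrt (by norm_num)
  have C1 : r * Real.cos (β - π) = -M := by
    rw [Real.cos_sub_pi]
    linarith
  have S1 : r * Real.sin (β - π) = 1 - M := by
    rw [Real.sin_sub_pi]
    linarith
  have C3 : √2 * Real.cos (-(π / 4)) = 1 := by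
    rw [Real.cos_neg, Real.cos_pi_div_four]
    linarith
  have S3 : √2 * Real.sin (-(π / 4)) = -1 := by
    rw [Real.sin_neg, Real.sin_pi_div_four]
    linarith
  have C5 : r * Real.cos (π / 2 - β) = M - 1 := by
    rw [Real.cos_pi_div_two_sub, hs]
  have S5 : r * Real.sin (π / 2 - β) = M := by
    rw [Real.sin_pi_div_two_sub, hc]
  have C6 : r * Real.cos (β + π) = -M := by
    rw [Real.cos_add_pi]
    linarith
  have S6 : r * Real.sin (β + π) = 1 - M := by
    rw [Real.sin_add_pi]
    linarith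
  have mono := ang_mono h hb0 hb1
  have dX' : ∀ t, deriv X t = r * Real.cos (ang S β t) + c1 * (-M) * deriv S (t - 1)
    + c3 * 1 * deriv S (t - 5) + c5 * (M - 1) * deriv S (t - 9) := fun t => (dX t).deriv
  have dY' : ∀ t, deriv Y t = r * Real.sin (ang S β t) + c1 * (1 - M) * deriv S (t - 1)
    + c3 * (-1) * deriv S (t - 5) + c5 * M * deriv S (t - 9) := fun t => (dY t).deriv
  have z : ∀ t, -1 ≤ t → t ≤ 11 → (t ≤ 1 ∨ 1 + 1 ≤ t) → (t ≤ 5 ∨ 5 + 1 ≤ t) →
      (t ≤ 9 ∨ 9 + 1 ≤ t) →
      deriv X t = r * Real.cos (ang S β t) ∧ deriv Y t = r * Real.sin (ang S β t) := by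
    intro t a a' u1 u5 u9
    rw [dX', dY', d0 h a a' (by norm_num) (by norm_num) u1, d0 h a a' (by norm_num) (by norm_num) u5,
      d0 h a a' (by norm_num) (by norm_num) u9]
    constructor <;> ring
  refine ⟨max b b', X, Y, ang S β, lt_max_of_lt_left hb, sX, sY, pX, pY,
    fun t => ⟨(bX t).trans (le_max_left _ _), (bY t).trans (le_max_right _ _)⟩, sa.continuous,
    mono, ang_per h, fun t => ?_, fun t ht => ?_, fun t a a' => ?_, fun t a a' => ?_,
    fun t a a' => ?_, fun t a a' => ?_, fun t a a' => ?_, fun t a a' => ?_, fun t a a' => ?_,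
    fun t a a' => ?_, fun t a a' => ?_, fun t a a' => ?_⟩
  · rw [dX', dY']
    exact dir_aux h (by linarith) p1 p3 p5 C1 S1 C3 S3 C5 S5 t
  · have hd : ∀ s ∈ Ioo (-1 : ℝ) 1, HasDerivAt (fun s => Y s - X s - s) 0 s := by
      intro s hs
      have e := ((dY s).fun_sub (dX s)).fun_sub (hasDerivAt_id' s)
      have e1 := (dX s).deriv
      have e2 := (dY s).deriv
      obtain ⟨z1, z2⟩ := z s hs.1.le (by linarith [hs.2]) (Or.inl hs.2.le)
        (Or.inl (by linarith [hs.2])) (Or.inl (by linarith [hs.2]))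
      rw [← e1, ← e2, z1, z2, ang1 h hs.1.le (by linarith [hs.2]), C1, S1] at e
      have e3 : 1 - M - -M - 1 = 0 := by ring
      rwa [e3] at e
    have := isOpen_Ioo.is_const_of_deriv_eq_zero isPreconnected_Ioo
      (fun s hs => (hd s hs).differentiableAt.differentiableWithinAt)
      (fun s hs => (hd s hs).deriv) (x := t) (y := 0) (abs_lt.1 ht) ⟨by norm_num, by norm_num⟩
    simp only [X0, Y0] at this
    linarith
  · have e1 := h.dpos (t - 1)
    refine ⟨1 + c1 * deriv S (t - 1), by nlinarith [mul_nonneg p1 e1], ?_, ?_⟩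
    · rw [dX', ang1 h a a', C1, d0 h a (by linarith) (n := 5) (by norm_num) (by norm_num)
        (Or.inl (by linarith)), d0 h a (by linarith) (n := 9) (by norm_num) (by norm_num)
        (Or.inl (by linarith))]
      ring
    · rw [dY', ang1 h a a', S1, d0 h a (by linarith) (n := 5) (by norm_num) (by norm_num)
        (Or.inl (by linarith)), d0 h a (by linarith) (n := 9) (by norm_num) (by norm_num)
        (Or.inl (by linarith))]
      ring
  · obtain ⟨z1, z2⟩ := z t (by linarith) (by linarith) (Or.inr (by linarith))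
      (Or.inl (by linarith)) (Or.inl (by linarith))
    rw [z1, z2]
    have l1 := mono a
    have l2 := mono a'
    rw [ang1 h (by norm_num) le_rfl] at l1
    rw [ang2 h le_rfl (by norm_num)] at l2
    exact cone_of (a := r) (a' := 1) (by linarith) one_pos le_rfl (by linarith) l1 l2
      (by linarith) (by linarith) C1.symm S1.symm (by simp) (by simp)
  · obtain ⟨z1, z2⟩ := z t (by linarith) (by linarith) (Or.inr (by linarith))
      (Or.inl (by linarith)) (Or.inl (by linarith))
    rw [z1, z2, ang2 h a a']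
    exact ⟨r, by linarith, by simp, by simp⟩
  · obtain ⟨z1, z2⟩ := z t (by linarith) (by linarith) (Or.inr (by linarith))
      (Or.inl (by linarith)) (Or.inl (by linarith))
    rw [z1, z2]
    have l1 := mono a
    have l2 := mono a'
    rw [ang2 h (by norm_num) le_rfl] at l1
    rw [ang3 h le_rfl (by norm_num)] at l2
    exact cone_of (a := 1) (a' := √2) one_pos (by linarith) (by linarith) (by linarith) l1 l2
      (by linarith) (by linarith) (by simp) (by simp) C3.symm S3.symm
  · have e5 := h.dpos (t - 5)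
    refine ⟨r * (√2 / 2) + c3 * deriv S (t - 5), by nlinarith [mul_nonneg p3 e5], ?_, ?_⟩
    · rw [dX', ang3 h a a', d0 h (by linarith) (by linarith) (n := 1) (by norm_num) (by norm_num)
        (Or.inr (by linarith)), d0 h (by linarith) (by linarith) (n := 9) (by norm_num)
        (by norm_num) (Or.inl (by linarith)), Real.cos_neg, Real.cos_pi_div_four]
      ring
    · rw [dY', ang3 h a a', d0 h (by linarith) (by linarith) (n := 1) (by norm_num) (by norm_num)
        (Or.inr (by linarith)), d0 h (by linarith) (by linarith) (n := 9) (by norm_num)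
        (by norm_num) (Or.inl (by linarith)), Real.sin_neg, Real.sin_pi_div_four]
      ring
  · obtain ⟨z1, z2⟩ := z t (by linarith) (by linarith) (Or.inr (by linarith))
      (Or.inr (by linarith)) (Or.inl (by linarith))
    rw [z1, z2]
    have l1 := mono a
    have l2 := mono a'
    rw [ang3 h (by norm_num) le_rfl] at l1
    rw [ang4 h le_rfl (by norm_num)] at l2
    exact cone_of (a := √2) (a' := 1) (by linarith) one_pos (by linarith) (by linarith) l1 l2
      (by linarith) (by linarith) C3.symm S3.symm (by simp) (by simp)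
  · obtain ⟨z1, z2⟩ := z t (by linarith) (by linarith) (Or.inr (by linarith))
      (Or.inr (by linarith)) (Or.inl (by linarith))
    rw [z1, z2, ang4 h a a']
    exact ⟨r, by linarith, by simp, by simp⟩
  · obtain ⟨z1, z2⟩ := z t (by linarith) (by linarith) (Or.inr (by linarith))
      (Or.inr (by linarith)) (Or.inl (by linarith))
    rw [z1, z2]
    have l1 := mono a
    have l2 := mono a'
    rw [ang4 h (by norm_num) le_rfl] at l1
    rw [ang5 h le_rfl (by norm_num)] at l2
    exact cone_of (a := 1) (a' := r) one_pos (by linarith) (by linarith) le_rfl l1 l2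
      (by linarith) (by linarith) (by simp) (by simp) C5.symm S5.symm
  · have e9 := h.dpos (t - 9)
    refine ⟨1 + c5 * deriv S (t - 9), by nlinarith [mul_nonneg p5 e9], ?_, ?_⟩
    · rw [dX', ang5 h a a', C5, d0 h (by linarith) (by linarith) (n := 1) (by norm_num)
        (by norm_num) (Or.inr (by linarith)), d0 h (by linarith) (by linarith) (n := 5)
        (by norm_num) (by norm_num) (Or.inr (by linarith))]
      ring
    · rw [dY', ang5 h a a', S5, d0 h (by linarith) (by linarith) (n := 1) (by norm_num)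
        (by norm_num) (Or.inr (by linarith)), d0 h (by linarith) (by linarith) (n := 5)
        (by norm_num) (by norm_num) (Or.inr (by linarith))]
      ring
  · obtain ⟨z1, z2⟩ := z t (by linarith) (by linarith) (Or.inr (by linarith))
      (Or.inr (by linarith)) (Or.inr (by linarith))
    rw [z1, z2]
    have l1 := mono a
    have l2 := mono a'
    rw [ang5 h (by norm_num) le_rfl] at l1
    rw [ang6 h] at l2
    exact cone_of (a := r) (a' := r) (by linarith) (by linarith) le_rfl le_rfl l1 l2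
      (by linarith) (by linarith) C5.symm S5.symm C6.symm S6.symm

end Vale.Agent.P209
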