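import Vale.Agent.P209.Stm3

/-! P209: the volume under the length function of the shell. -/

open Set Filter Topology Function MeasureTheory
open scoped Real ContDiff ENNReal

noncomputable section
namespace Vale.Agent.P209

namespace VolB

def Lr : (e : ℕ) → ℝ → ℝ → ℝ → (Fin e → ℝ) → ℝ
  | 0, n, R, A, _ => n * R - A
  | e + 1, n, R, A, s =>
    Lr e (2 * n) (R - 2 * s 0 - pos (A - R + s 0) / (2 * n - 2)) (A - s 0) (Fin.tail s)

def V (e : ℕ) (n R A : ℝ) : ℝ :=
  if A ≤ R then (n * R ^ (e + 1) - A ^ (e + 1)) / (e + 1).factorial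
  else (n - 1) * pos ((n * R - A) / (n - 1)) ^ (e + 1) / (e + 1).factorial

theorem cont (e : ℕ) : ∀ n : ℝ,
    Continuous fun p : ℝ × ℝ × (Fin e → ℝ) => Lr e n p.1 p.2.1 p.2.2 := by
  induction e with
  | zero => intro n; simp only [Lr]; fun_prop
  | succ e ih =>
    intro n
    have h : Continuous fun p : ℝ × ℝ × (Fin (e + 1) → ℝ) =>
        ((p.1 - 2 * p.2.2 0 - pos (p.2.1 - p.1 + p.2.2 0) / (2 * n - 2), p.2.1 - p.2.2 0,
          Fin.tail p.2.2) : ℝ × ℝ × (Fin e → ℝ)) := by
      unfold pos Fin.tail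
      fun_prop
    exact (ih (2 * n)).comp h

theorem meas (e : ℕ) (n R A : ℝ) :
    Measurable fun s : Fin e → ℝ => ENNReal.ofReal (Lr e n R A s) :=
  ((cont e n).comp (continuous_const.prodMk (continuous_const.prodMk continuous_id)) :
    Continuous fun s : Fin e → ℝ => Lr e n R A s).measurable.ennreal_ofReal

theorem split (e : ℕ) (I : Set ℝ) (g : (Fin (e + 1) → ℝ) → ℝ≥0∞) (hg : Measurable g) :
    ∫⁻ u in I, ∫⁻ t in {t : Fin e → ℝ | 0 ≤ t}, g (Fin.cons u t)
      = ∫⁻ s in {s : Fin (e + 1) → ℝ | s 0 ∈ I ∧ 0 ≤ Fin.tail s}, g s := by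
  have hp := (volume_preserving_piFinSuccAbove (fun _ : Fin (e + 1) => ℝ) 0).symm
  rw [← hp.setLIntegral_comp_preimage_emb (MeasurableEquiv.measurableEmbedding _)]
  have e1 : ∀ p : ℝ × (Fin e → ℝ),
      (MeasurableEquiv.piFinSuccAbove (fun _ : Fin (e + 1) => ℝ) 0).symm p = Fin.cons p.1 p.2 :=
    fun p => by simp [MeasurableEquiv.piFinSuccAbove_symm_apply, Fin.insertNthEquiv]
  have h : (MeasurableEquiv.piFinSuccAbove (fun _ : Fin (e + 1) => ℝ) 0).symm ⁻¹'
      {s | s 0 ∈ I ∧ 0 ≤ Fin.tail s} = I ×ˢ {s : Fin e → ℝ | 0 ≤ s} := by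
    ext ⟨t, s⟩
    simp only [mem_preimage, e1, mem_ofPred_eq, Fin.cons_zero, Fin.tail_cons, mem_prod]
  rw [h, Measure.volume_eq_prod, ← Measure.prod_restrict,
    lintegral_prod (fun p => g ((MeasurableEquiv.piFinSuccAbove
      (fun _ : Fin (e + 1) => ℝ) 0).symm p)) (hg.comp (MeasurableEquiv.measurable _)).aemeasurable]
  simp only [e1]

theorem seg {a b : ℝ} (hab : a ≤ b) {F f : ℝ → ℝ} (hF : ∀ u, HasDerivAt F (f u) u)
    (hf : Continuous f) {w : ℝ → ℝ≥0∞} (hw : ∀ u ∈ Ioo a b, ENNReal.ofReal (f u) ≤ w u) :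
    ENNReal.ofReal (F b - F a) ≤ ∫⁻ u in Ioo a b, w u := by
  have h1 : Continuous fun u => max (f u) 0 := by fun_prop
  have h2 : F b - F a ≤ ∫ u in Ioo a b, max (f u) 0 := by
    rw [← intervalIntegral.integral_eq_sub_of_hasDerivAt (fun u _ => hF u)
      (hf.intervalIntegrable a b), ← integral_Ioc_eq_integral_Ioo,
      ← intervalIntegral.integral_of_le hab]
    exact intervalIntegral.integral_mono_on hab (hf.intervalIntegrable a b)
      (h1.intervalIntegrable a b) fun u _ => le_max_left _ _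
  refine (ENNReal.ofReal_le_ofReal h2).trans ?_
  rw [ofReal_integral_eq_lintegral_ofReal (h1.integrableOn_Icc.mono_set Ioo_subset_Icc_self)
    (Eventually.of_forall fun u => le_max_right _ _)]
  refine setLIntegral_mono' measurableSet_Ioo fun u hu => le_trans (le_of_eq ?_) (hw u hu)
  rw [ENNReal.ofReal_max, ENNReal.ofReal_zero, max_eq_left (zero_le)]

theorem dpow (m : ℕ) (k g c u : ℝ) :
    HasDerivAt (fun u => k * (g - c * u) ^ (m + 1) / (m + 1).factorial)
      (-(k * c) * (g - c * u) ^ m / m.factorial) u := by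
  have h := ((((hasDerivAt_id' u).const_mul c).const_sub g).pow (m + 1)).const_mul k
    |>.div_const ((m + 1).factorial : ℝ)
  refine h.congr_deriv ?_
  rw [Nat.factorial_succ]
  push_cast
  have : (m.factorial : ℝ) ≠ 0 := by positivity
  field_simp

/-- the first piece -/
theorem head (e : ℕ) {n R A a : ℝ} (ha : 0 ≤ a) {w : ℝ → ℝ≥0∞}
    (hw : ∀ u ∈ Ioo 0 a, ENNReal.ofReal
      ((2 * n * (R - 2 * u) ^ (e + 1) - (A - u) ^ (e + 1)) / (e + 1).factorial) ≤ w u) :
    ENNReal.ofReal ((n * R ^ (e + 2) - A ^ (e + 2)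
      - (n * (R - 2 * a) ^ (e + 2) - (A - a) ^ (e + 2))) / (e + 2).factorial)
      ≤ ∫⁻ u in Ioo 0 a, w u := by
  have h := seg ha (fun u => (dpow (e + 1) (-n) R 2 u).add (dpow (e + 1) 1 A 1 u)) (by fun_prop)
    (w := w) fun u hu => le_trans (le_of_eq (by congr 1; simp only [one_mul]; ring)) (hw u hu)
  refine le_trans (le_of_eq ?_) h
  congr 1
  simp only [Pi.add_apply, one_mul, mul_zero, sub_zero]
  ring

/-- the second piece -/
theorem tail (e : ℕ) {n R A a : ℝ} (hn : 2 ≤ n) (ha : R - A ≤ a)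
    (hg : 0 ≤ (n * R - A) / (n - 1) - (2 * n - 1) / (n - 1) * a) :
    ENNReal.ofReal ((n - 1) * ((n * R - A) / (n - 1) - (2 * n - 1) / (n - 1) * a) ^ (e + 2)
      / (e + 2).factorial) ≤ ∫⁻ u in Ioi a,
        ENNReal.ofReal (V e (2 * n) (R - 2 * u - pos (A - R + u) / (2 * n - 2)) (A - u)) := by
  have h1 : 0 < n - 1 := by linarith
  have h2 : 0 < 2 * n - 1 := by linarith
  have h3 : 0 < 2 * n - 2 := by linarith
  obtain ⟨g, hg'⟩ : ∃ g, g = (n * R - A) / (n - 1) := ⟨_, rfl⟩
  obtain ⟨c, hc⟩ : ∃ c, c = (2 * n - 1) / (n - 1) := ⟨_, rfl⟩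
  have hc0 : 0 < c := by rw [hc]; positivity
  rw [← hg', ← hc] at hg ⊢
  have hab : a ≤ g / c := by rw [le_div_iff₀ hc0]; linarith
  have h := seg hab (fun u => dpow (e + 1) (-(n - 1)) g c u) (by fun_prop)
    (w := fun u => ENNReal.ofReal
      (V e (2 * n) (R - 2 * u - pos (A - R + u) / (2 * n - 2)) (A - u))) fun u hu => by
      have a1 : 0 < A - R + u := by linarith [hu.1]
      have a2 : 0 < (A - R + u) / (2 * n - 2) := by positivity
      have a3 : (2 * n * (R - 2 * u - (A - R + u) / (2 * n - 2)) - (A - u)) / (2 * n - 1)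
          = g - c * u := by
        rw [hg', hc, show 2 * n - 2 = 2 * (n - 1) by ring]
        field_simp
        ring
      have a4 : 0 ≤ g - c * u := by
        have := (lt_div_iff₀ hc0).1 hu.2
        linarith
      have a5 : (n - 1) * c = 2 * n - 1 := by rw [hc]; field_simp
      rw [V, pos, max_eq_left a1.le, if_neg (by linarith), a3, pos, max_eq_left a4,
        neg_mul (n - 1) c, neg_neg, a5]
  refine le_trans (le_of_eq ?_) (h.trans (lintegral_mono_set Ioo_subset_Ioi_self))
  congr 1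
  rw [mul_div_cancel₀ _ hc0.ne', sub_self]
  ring

theorem one (e : ℕ) {n R A : ℝ} (hn : 2 ≤ n) (hR : R ≤ 2 * A) :
    ENNReal.ofReal (V (e + 1) n R A) ≤ ∫⁻ u in Ici (0 : ℝ),
      ENNReal.ofReal (V e (2 * n) (R - 2 * u - pos (A - R + u) / (2 * n - 2)) (A - u)) := by
  have h1 : 0 < n - 1 := by linarith
  by_cases h : A ≤ R
  · have b1 : (n * R - A) / (n - 1) - (2 * n - 1) / (n - 1) * (R - A) = 2 * A - R := by
      field_simp
      ring
    have b2 := tail e hn (le_refl (R - A)) (by rw [b1]; linarith)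
    have b3 := head e (n := n) (R := R) (A := A) (sub_nonneg.2 h) (w := fun u => ENNReal.ofReal
      (V e (2 * n) (R - 2 * u - pos (A - R + u) / (2 * n - 2)) (A - u))) fun u hu => by
        rw [V, pos, max_eq_right (by linarith [hu.2]), zero_div, sub_zero,
          if_pos (by linarith [hu.2])]
    rw [b1] at b2
    rw [show R - 2 * (R - A) = 2 * A - R by ring, show A - (R - A) = 2 * A - R by ring] at b3
    have b4 := (ENNReal.ofReal_add_le.trans (add_le_add b3 b2)).trans_eq (lintegral_union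
      measurableSet_Ioi (Ioc_disjoint_Ioi_same.mono_left Ioo_subset_Ioc_self)).symm
    refine le_trans (le_of_eq ?_) (b4.trans (lintegral_mono_set ?_))
    · rw [V, if_pos h]
      congr 1
      ring
    · rintro u (hu | hu)
      · exact hu.1.le
      · exact (sub_nonneg.2 h).trans (le_of_lt hu)
  · rw [V, if_neg h, pos]
    rcases le_total ((n * R - A) / (n - 1)) 0 with hg | hg
    · rw [max_eq_right hg]
      simp
    · have b2 := tail e hn (a := 0) (R := R) (A := A) (by linarith) (by simpa using hg)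
      rw [mul_zero, sub_zero] at b2
      rw [max_eq_left hg]
      exact b2.trans (lintegral_mono_set Ioi_subset_Ici_self)

theorem all (e : ℕ) : ∀ n R A : ℝ, 2 ≤ n → R ≤ 2 * A →
    ENNReal.ofReal (V e n R A)
      ≤ ∫⁻ s in {s : Fin e → ℝ | 0 ≤ s}, ENNReal.ofReal (Lr e n R A s) := by
  induction e with
  | zero =>
    intro n R A hn _
    have h : {s : Fin 0 → ℝ | 0 ≤ s} = univ := eq_univ_of_forall fun s i => i.elim0
    have h1 : 0 < n - 1 := by linarith
    rw [h, Measure.restrict_univ, volume_pi, Measure.pi_of_empty, lintegral_dirac, Lr, V]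
    simp only [zero_add, pow_one, Nat.factorial_one, Nat.cast_one, div_one]
    split_ifs
    · exact le_rfl
    · rw [pos, mul_max_of_nonneg _ _ h1.le, mul_div_cancel₀ _ h1.ne', mul_zero,
        ENNReal.ofReal_max, ENNReal.ofReal_zero, max_eq_left (zero_le)]
  | succ e ih =>
    intro n R A hn hR
    refine (one e hn hR).trans (le_trans (lintegral_mono fun u => ?_)
      ((split e (Ici 0) _ (meas (e + 1) n R A)).le.trans (lintegral_mono_set ?_)))
    · simp only [Lr, Fin.cons_zero, Fin.tail_cons]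
      have : 0 ≤ pos (A - R + u) / (2 * n - 2) := div_nonneg (le_max_right _ _) (by linarith)
      exact ih _ _ _ (by linarith) (by linarith)
    · rintro s ⟨h0, h1⟩ j
      exact Fin.cases h0 (fun j => h1 j) j

theorem cmp (hR : RhoStmt) {d : ℕ} (h : ℝ) (s : Fin (d + 1) → ℝ) (hs : 0 ≤ s) (e : ℕ) :
    ∀ (i : ℕ) (hi : i + e = d + 1) (t : Fin e → ℝ), (∀ j : Fin e, t j = s ⟨i + j, by omega⟩) →
    Lr e (2 ^ i) (1 - 2 * Sp s i - rho pos h s i) (1 - h - Sp s i) t = Lb h s := by
  obtain ⟨r1, -, -, r4, -, r6, -, -, r9⟩ := hR d h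
  induction e with
  | zero =>
    intro i hi t _
    obtain rfl : i = d + 1 := hi
    rw [Lr, Lb, (r1 s).2.1]
  | succ e ih =>
    intro i hi t ht
    have a1 : Sp s (i + 1) = Sp s i + t 0 := by
      rw [ht]
      exact ((r1 s).2.2 ⟨i, by omega⟩).1
    have a2 : 0 ≤ t 0 := by rw [ht]; exact hs _
    have a3 : 0 ≤ rho pos h s i := (r6 pos s i fun x => le_max_right _ _).1
    have a4 : pos (1 - h - Sp s i - (1 - 2 * Sp s i - rho pos h s i) + t 0)
        = rho pos h s i + pos (Sp s (i + 1) - h) := by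
      rcases le_total (Sp s i) h with b | b
      · rw [r9 s i hs b, a1, zero_add]
        congr 1
        ring
      · rw [pos, pos, max_eq_left (by linarith), max_eq_left (by linarith), a1]
        ring
    have a5 : rho pos h s (i + 1)
        = rho pos h s i + (rho pos h s i + pos (Sp s (i + 1) - h)) / (2 * 2 ^ i - 2) := by
      rcases Nat.eq_zero_or_pos i with rfl | b
      · rw [r4]
        simp [rho]
      · have : (1 : ℝ) < 2 ^ i := one_lt_pow₀ (by norm_num) b.ne'
        have b1 : (2 * 2 ^ i - 2 : ℝ) ≠ 0 := by linarith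
        rw [rho, pow_succ', eq_comm, add_div' _ _ _ b1]
        congr 1
        ring
    rw [Lr, a4, ← ih (i + 1) (by omega) (Fin.tail t) fun j => by
      rw [Fin.tail, ht]
      congr 2
      simp only [Fin.val_succ]
      omega]
    rw [a5, pow_succ', a1]
    congr 1 <;> ring

end VolB

open VolB in
theorem volBS (hR : RhoStmt) : VolBStmt := by
  intro d h h0 h1
  have b1 := head d (n := 1) (R := 1) (A := 1 - h) h0.le
    (w := fun u => ∫⁻ t in {t : Fin d → ℝ | 0 ≤ t},
      ENNReal.ofReal (Lr (d + 1) 1 1 (1 - h) (Fin.cons u t))) fun u hu => by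
      simp only [Lr, Fin.cons_zero, Fin.tail_cons, mul_one, sub_self, div_zero, sub_zero]
      have := all d 2 (1 - 2 * u) (1 - h - u) le_rfl (by linarith)
      rwa [V, if_pos (by linarith [hu.2])] at this
  rw [split d _ _ (meas (d + 1) 1 1 (1 - h))] at b1
  have b2 : {s : Fin (d + 1) → ℝ | s 0 ∈ Ioo 0 h ∧ 0 ≤ Fin.tail s} ⊆ orth d ∩ {s | s 0 < h} := by
    rintro s ⟨h2, h3⟩
    exact ⟨fun j => Fin.cases h2.1.le (fun j => h3 j) j, h2.2⟩
  have b3 : MeasurableSet (orth d ∩ {s : Fin (d + 1) → ℝ | s 0 < h}) :=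
    measurableSet_Ici.inter (measurableSet_lt (measurable_pi_apply 0) measurable_const)
  refine le_trans (le_of_eq ?_) (b1.trans ((lintegral_mono_set b2).trans
    (setLIntegral_mono' b3 fun s hs => le_of_eq ?_)))
  · congr 2
    rw [show 1 - h - h = 1 - 2 * h by ring]
    ring
  · have := cmp hR h s hs.1 (d + 1) 0 (zero_add _) s fun j => by simp
    rw [((hR d h).1 s).1, rho] at this
    rw [← this]
    simp

end Vale.Agent.P209
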