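import Vale.Agent.P209.All
import Vale.Agent.P209.Rho
import Vale.Agent.P209.Step
import Vale.Agent.P209.VolB
import Vale.Agent.P209.GeoL
import Vale.Agent.P209.Time
import Vale.Agent.P209.PentA
import Vale.Agent.P209.PentB
import Vale.Agent.P209.PentW
import Vale.Agent.P209.LoopB
import Vale.Agent.P209.ClsB
import Vale.Agent.P209.Lane
import Vale.Agent.P209.GlueB
import Vale.Agent.P209.CaseBn

noncomputable section
namespace Vale.Agent.P209

theorem chainA : ChainStmt := chainS rhoS (stepS rhoS shearS shakeS)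
theorem pentA : PentStmt :=
  pentS timeS laneS pent0S (pentAS pent0S) (pentWS pent0S) (pentBS pent0S)
theorem caseBnA : CaseBnStmt :=
  caseBnS (glueBS rhoS (loopBS rhoS pentA) geoLS chainA) (volBS rhoS) (clsBS rhoS) rhoS

theorem packs_all (n : ℕ) (hn : 3 ≤ n) (k : ℕ) (R : ℝ) (r : Fin k → ℝ) (hR : 0 < R)
    (h0 : ∀ i, 0 < r i) (hs : ∑ i, r i ^ n < R ^ n) (hp : ∀ i j, i < j → r i + r j < R) :
    Packs n k r R := by
  obtain ⟨m, rfl⟩ : ∃ m, n = m + 3 := ⟨n - 3, by omega⟩
  refine final_of_cases caseA m k R r hR h0 hs hp (Or.inl ?_)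
  rcases Nat.eq_zero_or_pos m with rfl | h
  · exact caseBn_zero caseB
  · exact caseBnA m h

end Vale.Agent.P209
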