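import Vale.Agent.P209.Basic4

open Set Filter Topology Function
open scoped Real ContDiff

noncomputable section
namespace Vale.Agent.P209
namespace BaseE
variable {n L : ℕ}

theorem tan_lo {M : ℕ} (hM : 17 ≤ M) : π / M ≤ Real.tan (π / M) := by
  have h : (17 : ℝ) ≤ M := by exact_mod_cast hM
  have hp := Real.pi_pos
  exact Real.le_tan (by positivity) (div_lt_div_of_pos_left hp (by norm_num) (by linarith))

theorem cos_lo {M : ℕ} (hM : 17 ≤ M) : 10 / 11 ≤ Real.cos (π / M) := by
  have h : (17 : ℝ) ≤ M := by exact_mod_cast hM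
  have hp := Real.pi_pos
  have h1 : π / M ≤ 1 / 4 := by
    rw [div_le_iff₀ (by linarith)]
    linarith [Real.pi_le_four]
  have h2 : 0 ≤ π / M := by positivity
  have h3 := Real.one_sub_sq_div_two_le_cos (x := π / M)
  nlinarith

theorem tan_hi {M : ℕ} (hM : 17 ≤ M) : Real.tan (π / M) ≤ 11 / 10 * (π / M) := by
  have hp := Real.pi_pos
  have h1 := cos_lo hM
  have h2 : 0 ≤ π / M := by positivity
  rw [Real.tan_eq_sin_div_cos, div_le_iff₀ (by linarith)]
  have h3 := Real.sin_le h2
  nlinarith

theorem tan_pos {M : ℕ} (hM : 17 ≤ M) : 0 < Real.tan (π / M) := by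
  have h : (17 : ℝ) ≤ M := by exact_mod_cast hM
  have hp := Real.pi_pos
  exact lt_of_lt_of_le (by positivity) (tan_lo hM)

theorem tan_cmp {N K : ℕ} (h8 : 8 * N ≤ K) (hK : 17 ≤ K) :
    3 / 4 * Real.tan (π / K) ≤ Real.tan (π / (N + K : ℕ)) := by
  have h : (17 : ℝ) ≤ K := by exact_mod_cast hK
  have h' : 8 * (N : ℝ) ≤ K := by exact_mod_cast h8
  have hp := Real.pi_pos
  have h1 := tan_hi hK
  have h2 := tan_lo (M := N + K) (by omega)
  have h3 : 8 / 9 * (π / K) ≤ π / (N + K : ℕ) := by
    rw [Nat.cast_add, ← mul_div_assoc, div_le_div_iff₀ (by linarith) (by positivity)]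
    nlinarith
  have h4 : 0 ≤ π / K := by positivity
  linarith

theorem tan_ten {N M : ℕ} (hN : 0 < N) (h9 : M ≤ 10 * N) (hM : 17 ≤ M) :
    2 * (π / (20 * N)) ≤ Real.tan (π / M) := by
  have h : (17 : ℝ) ≤ M := by exact_mod_cast hM
  have h' : (M : ℝ) ≤ 10 * N := by exact_mod_cast h9
  have h0 : (0 : ℝ) < N := by exact_mod_cast hN
  have hp := Real.pi_pos
  refine le_trans ?_ (tan_lo hM)
  rw [← mul_div_assoc, div_le_div_iff₀ (by positivity) (by linarith)]
  nlinarith

theorem zeta {K : ℕ} (hK : 17 ≤ K) : ∃ ζ : ℂ, ‖ζ‖ = 1 ∧ ζ ^ K = 1 ∧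
    ζ - 1 = -(Real.tan (π / K) : ℝ) * Complex.I * (1 + ζ) := by
  have h0 : (K : ℂ) ≠ 0 := by exact_mod_cast (show K ≠ 0 by omega)
  refine ⟨Complex.exp ((-(π / K) : ℝ) * Complex.I) ^ 2, ?_, ?_, ?_⟩
  · rw [norm_pow, Complex.norm_exp_ofReal_mul_I, one_pow]
  · rw [← pow_mul, ← Complex.exp_nat_mul]
    have : ((2 * K : ℕ) : ℂ) * ((-(π / K) : ℝ) * Complex.I) = -(2 * π * Complex.I) := by
      push_cast
      field_simp
    rw [this, Complex.exp_neg, Complex.exp_two_pi_mul_I, inv_one]
  · have h1 := cos_lo hK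
    have h2 : ((Real.cos (π / K) : ℝ) : ℂ) ≠ 0 := by
      exact_mod_cast (show 0 < Real.cos (π / K) by linarith).ne'
    have h3 : ((Real.cos (π / K) : ℝ) : ℂ) ^ 2 + ((Real.sin (π / K) : ℝ) : ℂ) ^ 2 = 1 := by
      exact_mod_cast Real.cos_sq_add_sin_sq (π / K)
    rw [Complex.exp_mul_I, ← Complex.ofReal_cos, ← Complex.ofReal_sin, Real.cos_neg, Real.sin_neg,
      Real.tan_eq_sin_div_cos, Complex.ofReal_neg, Complex.ofReal_div]
    generalize ((Real.cos (π / K) : ℝ) : ℂ) = c at h2 h3
    generalize ((Real.sin (π / K) : ℝ) : ℂ) = s at h3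
    field_simp
    linear_combination (c - s * Complex.I) * h3
      - (s ^ 2 * (c - s * Complex.I)) * Complex.I_mul_I

theorem nsq_tri (w c : CV n) : nsq w ≤ 2 * nsq (w - c) + 2 * nsq c := by
  have := nsq_add_le one_pos (w - c) c
  rw [sub_add_cancel] at this
  linarith

theorem nsq_tri' (w c : CV n) : nsq c ≤ 2 * nsq (w - c) + 2 * nsq w := by
  have h := nsq_tri c w
  have e : nsq (c - w) = nsq (w - c) := by
    simp only [nsq, Pi.sub_apply, norm_sub_rev]
  rwa [e] at h

variable [NeZero L]

theorem sum_if {N K : ℕ} (h : L = N + K) (x y : ℝ) :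
    ∑ k : ZMod L, (if k.val < N then x else y) = N * x + K * y := by
  have e : ∑ k : ZMod L, (if k.val < N then x else y)
      = ∑ i ∈ Finset.range L, if i < N then x else y :=
    Finset.sum_nbij' (fun k => k.val) (fun i => (i : ZMod L))
      (fun k _ => Finset.mem_range.2 (ZMod.val_lt k)) (fun _ _ => Finset.mem_univ _)
      (fun k _ => ZMod.natCast_zmod_val k)
      (fun i hi => ZMod.val_cast_of_lt (Finset.mem_range.1 hi)) fun _ _ => rfl
  rw [e, h, Finset.sum_range_add,
    Finset.sum_congr rfl fun i hi => if_pos (Finset.mem_range.1 hi),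
    Finset.sum_congr rfl fun i _ => if_neg (show ¬ N + i < N by omega)]
  simp

omit [NeZero L] in
theorem mid_add (v y : ZMod L → CV n) (k : ZMod L) : mid (v + y) k = mid v k + mid y k := by
  simp only [mid, md, Pi.add_apply, ← smul_add]
  congr 1
  abel

theorem md_self (u : CV n) : md u u = u := by
  rw [md, ← two_smul ℝ u, smul_smul]
  norm_num

omit [NeZero L] in
theorem mid_ne {y : ZMod L → CV n} (h : Injective (mid : (ZMod L → CV n) → ZMod L → CV n))
    (hy : y ≠ 0) : ∃ k, 0 < nsq (mid y k) := by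
  by_contra hc
  push Not at hc
  refine hy (h (funext fun k => ?_))
  rw [nsq_eq_zero (le_antisymm (hc k) (nsq_nonneg _))]
  exact (md_self 0).symm

theorem loop {N K : ℕ} (h : L = N + K) (hK : 17 ≤ K) (p : CV n) : ∃ v : ZMod L → CV n,
    (∀ k, nsq (v k) = nsq p) ∧ (∀ k, k.val < N → v k = p ∧ v (k + 1) = p) ∧
    ∀ k, ¬ k.val < N → v (k + 1) - v k = (-2 * Real.tan (π / K)) • (Complex.I • mid v k) := by
  obtain ⟨ζ, h1, h2, h3⟩ := zeta hK
  have : Fact (1 < L) := ⟨by omega⟩
  have hv : ∀ k : ZMod L, (k + 1).val = (k.val + 1) % L := fun k => by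
    rw [ZMod.val_add, ZMod.val_one]
  refine ⟨fun k => ζ ^ (k.val - N) • p, fun k => ?_, fun k hk => ⟨?_, ?_⟩, fun k hk => ?_⟩
  · rw [nsq_smul, norm_pow, h1, one_pow, one_pow, one_mul]
  · show ζ ^ (k.val - N) • p = p
    rw [Nat.sub_eq_zero_of_le hk.le, pow_zero, one_smul]
  · show ζ ^ ((k + 1).val - N) • p = p
    rw [hv, Nat.mod_eq_of_lt (by omega), Nat.sub_eq_zero_of_le hk, pow_zero, one_smul]
  · have h4 : ζ ^ ((k + 1).val - N) = ζ * ζ ^ (k.val - N) := by
      have h5 := ZMod.val_lt k
      rw [hv, ← pow_succ']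
      rcases Nat.lt_or_ge (k.val + 1) L with h6 | h6
      · rw [Nat.mod_eq_of_lt h6]
        congr 1
        omega
      · rw [show k.val + 1 = L by omega, Nat.mod_self, Nat.zero_sub, pow_zero,
          show k.val - N + 1 = K by omega, h2]
    funext j
    simp only [mid, md, h4, Pi.sub_apply, Pi.smul_apply, Pi.add_apply, smul_eq_mul,
      Complex.real_smul]
    generalize Real.tan (π / K) = t at h3
    push_cast
    linear_combination (ζ ^ (k.val - N) * p j) * h3

end BaseE

open BaseE

theorem defS : DefStmt := by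
  intro n L _ N K A W hL h8 hK hS
  have t0 := tan_pos hK
  have t1 := tan_cmp h8 hK
  rw [← hL] at t1
  constructor
  · intro y hy hy0
    obtain ⟨k0, hk0⟩ := mid_ne hS.bij.1 hy0
    have h1 := hS.neg y hy
    have h2 : ∑ k : ZMod L, (if k.val < N then 0 else Real.tan (π / K) / 2) * nsq (mid y k)
        ≤ ∑ k : ZMod L, Real.tan (π / K) / 2 * nsq (mid y k) := by
      refine Finset.sum_le_sum fun k _ => mul_le_mul_of_nonneg_right ?_ (nsq_nonneg _)
      split_ifs
      · positivity
      · exact le_rfl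
    rw [← Finset.mul_sum] at h2
    have h3 : 0 < ∑ k : ZMod L, nsq (mid y k) :=
      hk0.trans_le (Finset.single_le_sum (fun k _ => nsq_nonneg (mid y k)) (Finset.mem_univ k0))
    unfold act
    nlinarith
  · intro y hy hy0
    obtain ⟨k0, hk0⟩ := mid_ne hS.bij.1 hy0
    obtain ⟨c, h1⟩ := hS.pos y hy
    have t2 : 0 < Real.tan (π / L) := by linarith
    have h2 : ∀ k : ZMod L, 0 ≤ Real.tan (π / L) * nsq (mid y k - c)
        + (if k.val < N then 0 else Real.tan (π / K) / 2) * nsq (mid y k) := fun k => by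
      have := nsq_nonneg (mid y k - c)
      have := nsq_nonneg (mid y k)
      split_ifs <;> positivity
    have h3 : ∃ k : ZMod L, 0 < Real.tan (π / L) * nsq (mid y k - c)
        + (if k.val < N then 0 else Real.tan (π / K) / 2) * nsq (mid y k) := by
      by_cases hc : c = 0
      · refine ⟨k0, ?_⟩
        rw [hc, sub_zero]
        split_ifs <;> positivity
      · refine ⟨(N : ZMod L), ?_⟩
        rw [ZMod.val_cast_of_lt (by omega), if_neg (lt_irrefl N)]
        have h4 : 0 < nsq c := (nsq_nonneg c).lt_of_ne' fun h => hc (nsq_eq_zero h)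
        have h5 := nsq_tri' (mid y N) c
        have h6 := nsq_nonneg (mid y N - c)
        have h7 := nsq_nonneg (mid y N)
        rcases h6.eq_or_lt with h8 | h8
        · have h9 : 0 < nsq (mid y N) := by linarith
          positivity
        · positivity
    obtain ⟨k1, hk1⟩ := h3
    have h4 := hk1.trans_le (Finset.single_le_sum (fun k _ => h2 k) (Finset.mem_univ k1))
    rw [Finset.sum_add_distrib, ← Finset.mul_sum] at h4
    unfold act
    linarith

theorem baseS (hQ : QaddStmt) : BaseStmt := by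
  intro n L _ N K A W H g a b x1 C s p q hL hN h8 h9 hK hS hp hq hC hH hg hs hsC
  have t0 := tan_pos hK
  have t1 := tan_cmp h8 hK
  rw [← hL] at t1
  have t2 := tan_ten hN (show L ≤ 10 * N by omega) (by omega)
  have t3 := tan_ten hN (show K ≤ 10 * N by omega) hK
  have n0 : (0 : ℝ) < N := by exact_mod_cast hN
  have hpi := Real.pi_pos
  have r0 : 0 < π / (20 * N) := by positivity
  have r1 : s / N * C ≤ π / (20 * N) := by
    rw [div_mul_eq_mul_div, ← div_div]
    exact div_le_div_of_nonneg_right hsC n0.le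
  have r2 : 0 ≤ s / N := by positivity
  generalize π / (20 * N) = ρ at t2 t3 r0 r1
  constructor
  · intro y hy
    have h1 := hS.neg y hy
    have h2 : Qf ((fun _ => q) + y) = Qf y := by
      rw [hQ]
      simp only [Qf, om0_self, sub_self, om0_zero_right, zero_div, Finset.sum_const_zero, zero_add,
        add_zero]
    have h3 : ∀ k : ZMod L, stepf N (Real.tan (π / K)) s H g false k (mid ((fun _ => q) + y) k)
        ≤ Real.tan (π / L) * nsq (mid y k) + if k.val < N then -(s / N * b) else 0 := by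
      intro k
      have e : mid (fun _ => q : ZMod L → CV n) k = q := md_self q
      have h4 := nsq_nonneg (mid y k)
      rw [mid_add, e, stepf]
      split_ifs with hk hf
      · have h5 := (hH (q + mid y k)).1
        rw [add_sub_cancel_left] at h5
        have h6 := mul_le_mul_of_nonneg_left h5 r2
        have h7 := mul_le_mul_of_nonneg_right (show s / N * C ≤ Real.tan (π / L) by linarith) h4
        linarith
      · exact absurd hf (by simp)
      · have h6 := mul_le_mul_of_nonneg_left (hg q (mid y k) hq) t0.le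
        have h7 := mul_le_mul_of_nonneg_right t1 h4
        linarith
    have h4 := Finset.sum_le_sum fun k (_ : k ∈ Finset.univ) => h3 k
    rw [Finset.sum_add_distrib, ← Finset.mul_sum, sum_if hL] at h4
    have h5 : (N : ℝ) * -(s / N * b) = -(s * b) := by field_simp
    rw [act, h2]
    linarith
  · obtain ⟨v, v1, v2, v3⟩ := loop hL hK p
    refine ⟨v, fun y hy => ?_⟩
    obtain ⟨c, h1⟩ := hS.pos y hy
    have c0 := nsq_nonneg c
    have h3 : ∀ k : ZMod L, (if k.val < N then s / N * a - 2 * ρ * nsq c else ρ / 4 * nsq c)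
        ≤ Real.tan (π / L) * nsq (mid y k - c) + (omega0 (v k) (v (k + 1)) / 2
          + omega0 (mid y k) (v (k + 1) - v k)
          + stepf N (Real.tan (π / K)) s H g true k (mid (v + y) k)) := by
      intro k
      have h4 := nsq_nonneg (mid y k)
      have h5 := nsq_nonneg (mid y k - c)
      have h6 := mul_le_mul_of_nonneg_right t2 h5
      rw [mid_add, stepf]
      split_ifs with hk hf
      · have e : mid v k = p := by rw [mid, (v2 k hk).1, (v2 k hk).2, md_self]
        rw [e, (v2 k hk).1, (v2 k hk).2, om0_self, sub_self, om0_zero_right]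
        have h7 := (hH (p + mid y k)).2
        rw [add_sub_cancel_left] at h7
        have h8 := mul_le_mul_of_nonneg_left h7 r2
        have h9 := mul_le_mul_of_nonneg_right r1 h4
        have h10 := mul_le_mul_of_nonneg_left (nsq_tri (mid y k) c) r0.le
        linarith
      · have e : nsq (mid v k) ≤ x1 := by
          have := nsq_md_le (v k) (v (k + 1))
          rw [v1, v1] at this
          exact this.trans (by linarith)
        have e1 : omega0 (v k) (v (k + 1)) = -2 * Real.tan (π / K) * nsq (mid v k) := by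
          rw [om0_md, v3 k hk, om0_smul_right]
          exact congrArg _ (om0_I_self _)
        have h7 := mul_le_mul_of_nonneg_left (hg (mid v k) (mid y k) e) t0.le
        have h8 := mul_le_mul_of_nonneg_left (nsq_tri' (mid y k) c) r0.le
        have h9 := mul_le_mul_of_nonneg_right t3 h4
        have h10 := mul_nonneg r0.le h5
        rw [e1, v3 k hk, om0_smul_right, mul_sub (Real.tan (π / K)), nsq_add (mid v k) (mid y k)]
        rw [nsq_add (mid v k) (mid y k)] at h7
        linarith
      · exact absurd rfl hf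
    have h4 := Finset.sum_le_sum fun k (_ : k ∈ Finset.univ) => h3 k
    rw [Finset.sum_add_distrib, Finset.sum_add_distrib, Finset.sum_add_distrib, ← Finset.mul_sum,
      sum_if hL] at h4
    have h5 : (N : ℝ) * (s / N * a - 2 * ρ * nsq c) = s * a - 2 * N * (ρ * nsq c) := by field_simp
    have h6 : 8 * (N : ℝ) ≤ K := by exact_mod_cast h8
    have h7 := mul_le_mul_of_nonneg_right h6 (mul_nonneg r0.le c0)
    rw [act, hQ, Qf]
    linarith

end Vale.Agent.P209
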