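import Vale.Agent.P209.Basic4

open Set Filter Topology Function
open scoped Real ContDiff

noncomputable section
namespace Vale.Agent.P209

namespace DiscX

section gen
variable {E : Type*} [NormedAddCommGroup E] [NormedSpace ℝ E]

theorem quad {H : E → ℝ} {C : ℝ} (hC : 0 ≤ C) (hd : Differentiable ℝ H)
    (hL : ∀ x y, ‖fderiv ℝ H x - fderiv ℝ H y‖ ≤ C * ‖x - y‖) {q : E} (hq : fderiv ℝ H q = 0)
    (z : E) : |H z - H q| ≤ C * ‖z - q‖ ^ 2 := by
  have h := (convex_closedBall q ‖z - q‖).norm_image_sub_le_of_norm_fderiv_le (𝕜 := ℝ) (f := H)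
    (C := C * ‖z - q‖) (fun x _ => hd x) (fun x hx => by
      have := hL x q
      rw [hq, sub_zero] at this
      rw [Metric.mem_closedBall, dist_eq_norm] at hx
      exact this.trans (by gcongr)) (Metric.mem_closedBall_self (norm_nonneg _))
    (show z ∈ Metric.closedBall q ‖z - q‖ by rw [Metric.mem_closedBall, dist_eq_norm])
  rw [Real.norm_eq_abs] at h
  calc _ ≤ C * ‖z - q‖ * ‖z - q‖ := h
    _ = _ := by ring

variable {X : E → E} {M : ℝ}

theorem flow_lip (hB : ∀ x, ‖X x‖ ≤ M) {x : ℝ → E} (hx : ∀ t, HasDerivAt x (X (x t)) t)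
    (t u : ℝ) : ‖x u - x t‖ ≤ M * |u - t| :=
  convex_univ.norm_image_sub_le_of_norm_hasDerivWithin_le (f' := fun t => X (x t))
    (fun t _ => (hx t).hasDerivWithinAt) (fun _ _ => hB _) (mem_univ t) (mem_univ u)

theorem flow_step (hB : ∀ x, ‖X x‖ ≤ M) (hL : ∀ x y, ‖X x - X y‖ ≤ M * ‖x - y‖) {x : ℝ → E}
    (hx : ∀ t, HasDerivAt x (X (x t)) t) (t : ℝ) {τ : ℝ} (hτ : 0 ≤ τ) :
    ‖x (t + τ) - x t - τ • X (x t)‖ ≤ M ^ 2 * τ ^ 2 := by
  have hM : 0 ≤ M := (norm_nonneg _).trans (hB 0)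
  have h := (convex_Icc t (t + τ)).norm_image_sub_le_of_norm_hasDerivWithin_le
    (f := fun u => x u - u • X (x t)) (f' := fun u => X (x u) - X (x t)) (C := M * (M * τ))
    (fun u _ => by
      have h1 := (hx u).fun_sub ((hasDerivAt_id' u).smul_const (X (x t)))
      rw [one_smul] at h1
      exact h1.hasDerivWithinAt)
    (fun u hu => by
      refine (hL _ _).trans ?_
      have h2 := flow_lip hB hx t u
      have h3 : |u - t| ≤ τ := by
        rw [abs_of_nonneg (by linarith [hu.1])]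
        linarith [hu.2]
      gcongr
      exact h2.trans (by gcongr))
    (left_mem_Icc.2 (by linarith)) (right_mem_Icc.2 (by linarith))
  have e : x (t + τ) - x t - τ • X (x t)
      = (x (t + τ) - (t + τ) • X (x t)) - (x t - t • X (x t)) := by
    rw [add_smul]; abel
  rw [e]
  refine h.trans (le_of_eq ?_)
  rw [add_sub_cancel_left, Real.norm_eq_abs, abs_of_nonneg hτ]
  ring

theorem half_le (hB : ∀ x, ‖X x‖ ≤ M) {v v' m : E} {τ : ℝ} (hτ : 0 ≤ τ)
    (hm : m = (1 / 2 : ℝ) • (v + v')) (hv : v' - v = τ • X m) : ‖m - v‖ ≤ M * τ := by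
  have hM : 0 ≤ M := (norm_nonneg _).trans (hB 0)
  have e : m - v = (1 / 2 : ℝ) • (v' - v) := by
    rw [hm]; module
  rw [e, hv, norm_smul, norm_smul, Real.norm_eq_abs, Real.norm_eq_abs, abs_of_nonneg hτ,
    abs_of_nonneg (by norm_num)]
  have := hB m
  nlinarith [mul_le_mul_of_nonneg_left this hτ, mul_nonneg hM hτ]

theorem err_step (hB : ∀ x, ‖X x‖ ≤ M) (hL : ∀ x y, ‖X x - X y‖ ≤ M * ‖x - y‖) {x : ℝ → E}
    (hx : ∀ t, HasDerivAt x (X (x t)) t) (t : ℝ) {τ : ℝ} (hτ : 0 ≤ τ) {v v' m : E}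
    (hm : m = (1 / 2 : ℝ) • (v + v')) (hv : v' - v = τ • X m) :
    ‖v' - x (t + τ)‖ ≤ (1 + M * τ) * ‖v - x t‖ + 2 * M ^ 2 * τ ^ 2 := by
  have hM : 0 ≤ M := (norm_nonneg _).trans (hB 0)
  have h1 := flow_step hB hL hx t hτ
  have h2 := half_le hB hτ hm hv
  have h3 : ‖m - x t‖ ≤ M * τ + ‖v - x t‖ := by
    have := norm_add_le (m - v) (v - x t)
    rw [sub_add_sub_cancel] at this
    linarith
  have h4 : ‖τ • (X m - X (x t))‖ ≤ τ * (M * (M * τ + ‖v - x t‖)) := by
    rw [norm_smul, Real.norm_eq_abs, abs_of_nonneg hτ]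
    gcongr
    exact (hL _ _).trans (by gcongr)
  have e : v' - x (t + τ)
      = (v - x t) + τ • (X m - X (x t)) - (x (t + τ) - x t - τ • X (x t)) := by
    rw [smul_sub, ← hv]; abel
  rw [e]
  refine (norm_sub_le _ _).trans ?_
  have h5 := norm_add_le (v - x t) (τ • (X m - X (x t)))
  nlinarith

theorem err (hB : ∀ x, ‖X x‖ ≤ M) (hL : ∀ x y, ‖X x - X y‖ ≤ M * ‖x - y‖) {x : ℝ → E}
    (hx : ∀ t, HasDerivAt x (X (x t)) t) {τ : ℝ} (hτ : 0 ≤ τ) {N : ℕ} (hN : N * τ ≤ 1)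
    {v : ℕ → E} (h0 : x 0 = v 0)
    (hv : ∀ k < N, v (k + 1) - v k = τ • X ((1 / 2 : ℝ) • (v k + v (k + 1)))) :
    ∀ k ≤ N, ‖v k - x (k * τ)‖ ≤ 2 * M * Real.exp M * τ := by
  have hM : 0 ≤ M := (norm_nonneg _).trans (hB 0)
  have hMτ : 0 ≤ M * τ := mul_nonneg hM hτ
  have key : ∀ k ≤ N, ‖v k - x (k * τ)‖ ≤ 2 * M * τ * ((1 + M * τ) ^ k - 1) := by
    intro k
    induction k with
    | zero => intro _; simp [h0]
    | succ k ih =>
      intro hk
      have h1 := err_step hB hL hx (k * τ) hτ rfl (hv k hk)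
      have h2 := ih (by omega)
      have e : ((k + 1 : ℕ) : ℝ) * τ = k * τ + τ := by push_cast; ring
      rw [e]
      refine h1.trans ?_
      have h3 : (1 + M * τ) * ‖v k - x (k * τ)‖
          ≤ (1 + M * τ) * (2 * M * τ * ((1 + M * τ) ^ k - 1)) := by gcongr
      refine (add_le_add_left h3 _).trans (le_of_eq ?_)
      ring
  intro k hk
  refine (key k hk).trans ?_
  have h1 : (1 + M * τ) ^ k ≤ Real.exp (M * τ) ^ k := by
    gcongr
    linarith [Real.add_one_le_exp (M * τ)]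
  have h2 : Real.exp (M * τ) ^ k ≤ Real.exp M := by
    rw [← Real.exp_nat_mul]
    refine Real.exp_le_exp.2 ?_
    have h3 : (k : ℝ) * τ ≤ N * τ := by gcongr
    nlinarith [mul_le_mul_of_nonneg_left (h3.trans hN) hM]
  have h4 : 0 ≤ 2 * M * τ := by positivity
  nlinarith [mul_le_mul_of_nonneg_left (h1.trans h2) h4]

omit [NormedSpace ℝ E] in
theorem drift {N : ℕ} {v : ℕ → E} {d : ℝ} (hv : ∀ k < N, ‖v (k + 1) - v k‖ ≤ d) :
    ∀ k ≤ N, ‖v k - v 0‖ ≤ k * d := by
  intro k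
  induction k with
  | zero => intro _; simp
  | succ k ih =>
    intro hk
    have h1 := norm_add_le (v (k + 1) - v k) (v k - v 0)
    rw [sub_add_sub_cancel] at h1
    have h2 := hv k hk
    have h3 := ih (by omega)
    push_cast
    linarith

end gen

variable {n : ℕ}

theorem gap {x1 xR : ℝ} (h : x1 < xR) : ∃ δ : ℝ, 0 < δ ∧
    ∀ u w : CV n, nsq u ≤ x1 → ‖w‖ ≤ δ → nsq (u + w) ≤ xR := by
  have hx : 0 < |x1| + 1 := by positivity
  have hg : 0 < (xR - x1) / 2 := by linarith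
  obtain ⟨θ, hθ, e⟩ : ∃ θ : ℝ, 0 < θ ∧ θ * (|x1| + 1) = (xR - x1) / 2 :=
    ⟨(xR - x1) / 2 / (|x1| + 1), by positivity, by field_simp⟩
  have hK : 0 < (1 + 1 / θ) * n + 1 := by positivity
  obtain ⟨δ, hδ, e2⟩ : ∃ δ : ℝ, 0 < δ ∧ δ * ((1 + 1 / θ) * n + 1) = (xR - x1) / 2 :=
    ⟨(xR - x1) / 2 / ((1 + 1 / θ) * n + 1), by positivity, by field_simp⟩
  refine ⟨min 1 δ, lt_min one_pos hδ, fun u w hu hw => ?_⟩
  have h1 := nsq_add_le hθ u w
  have h2 := nsq_le_norm_sq w
  have h3 : ‖w‖ ^ 2 ≤ δ := by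
    have a := hw.trans (min_le_left _ _)
    have b := hw.trans (min_le_right _ _)
    nlinarith [norm_nonneg w]
  have h4 : (1 + 1 / θ) * nsq w ≤ (1 + 1 / θ) * (n * δ) := by
    gcongr
    exact h2.trans (by gcongr)
  have h5 : θ * nsq u ≤ θ * (|x1| + 1) := by
    gcongr
    linarith [le_abs_self x1]
  nlinarith

theorem ev (K : ℝ) {δ : ℝ} (hδ : 0 < δ) : ∀ᶠ N : ℕ in atTop, K / N < δ :=
  (tendsto_const_div_atTop_nhds_zero_nat K).eventually (gt_mem_nhds hδ)

theorem ham_zero {H : CV n → ℝ} {x1 : ℝ} (hs : ∀ z, x1 ≤ nsq z → H z = 0) {m : CV n}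
    (hm : x1 < nsq m) : ham H m = 0 := by
  have h : H =ᶠ[𝓝 m] fun _ => 0 := by
    filter_upwards [(isOpen_lt continuous_const contDiff_nsq.continuous).mem_nhds hm] with z hz
    exact hs z (le_of_lt hz)
  rw [ham_congr h]
  funext j
  simp [ham, Complex.ext_iff]

/-- the final estimate of the discrete action -/
theorem sum_est {H : CV n → ℝ} {C η τ c : ℝ} {N : ℕ} (hd : Differentiable ℝ H)
    (hC : ∀ x, ‖fderiv ℝ H x‖ ≤ C) (hη : 0 ≤ η) (hη1 : η ≤ 1) (hτ : 0 ≤ τ) (hN : N * τ ≤ 1)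
    {v : ℕ → CV n} (hv : ∀ k < N, ‖v (k + 1) - v k‖ ≤ τ * (2 * η)) (hcl : v N = v 0)
    (hc : |H (v 0) - c| ≤ η) :
    |∑ k ∈ Finset.range N, (omega0 (v k) (v (k + 1)) / 2 - τ * H (md (v k) (v (k + 1))))
        + N * τ * c| ≤ (4 * n + 2 * C + 1) * η := by
  have hC0 : 0 ≤ C := (norm_nonneg _).trans (hC 0)
  have h1 : ∀ k ≤ N, ‖v k - v 0‖ ≤ 2 * η := fun k hk => by
    refine (drift hv k hk).trans ?_
    have h3 : (k : ℝ) * τ ≤ N * τ := by gcongr
    nlinarith [mul_le_mul_of_nonneg_left (h3.trans hN) hη]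
  have e0 : ∑ k ∈ Finset.range N, omega0 (v 0) (v (k + 1) - v k) / 2 = 0 := by
    rw [← Finset.sum_div]
    simp only [← omL_apply]
    rw [← map_sum, Finset.sum_range_sub, hcl, sub_self, map_zero, zero_div]
  have e1 : ∑ k ∈ Finset.range N, (omega0 (v k) (v (k + 1)) / 2 - τ * H (md (v k) (v (k + 1))))
        + N * τ * c = ∑ k ∈ Finset.range N, (omega0 (v k - v 0) (v (k + 1) - v k) / 2
          - τ * (H (md (v k) (v (k + 1))) - c)) := by
    have e2 : (N : ℝ) * τ * c = ∑ _k ∈ Finset.range N, τ * c := by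
      rw [Finset.sum_const, Finset.card_range, nsmul_eq_mul, mul_assoc]
    rw [e2, ← sub_zero (_ + _), ← e0, ← Finset.sum_add_distrib, ← Finset.sum_sub_distrib]
    refine Finset.sum_congr rfl fun k _ => ?_
    rw [om0_sub_left, om0_sub_right (v k), om0_self]
    ring
  rw [e1]
  refine (Finset.abs_sum_le_sum_abs _ _).trans ?_
  refine (Finset.sum_le_card_nsmul _ _ (τ * ((4 * n + 2 * C + 1) * η)) fun k hk => ?_).trans ?_
  · rw [Finset.mem_range] at hk
    have a1 := h1 k hk.le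
    have a2 := h1 (k + 1) hk
    have a3 := hv k hk
    have a4 : |omega0 (v k - v 0) (v (k + 1) - v k)| ≤ 2 * n * (2 * 1 * (τ * (2 * η))) := by
      refine (abs_om0_le _ _).trans ?_
      gcongr
      linarith
    have a5 : ‖md (v k) (v (k + 1)) - v 0‖ ≤ 2 * η := by
      have e : md (v k) (v (k + 1)) - v 0 = (1 / 2 : ℝ) • ((v k - v 0) + (v (k + 1) - v 0)) := by
        rw [md]; module
      rw [e, norm_smul, Real.norm_eq_abs, abs_of_nonneg (by norm_num)]
      linarith [norm_add_le (v k - v 0) (v (k + 1) - v 0)]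
    have a6 : |H (md (v k) (v (k + 1))) - H (v 0)| ≤ C * (2 * η) := by
      have := convex_univ.norm_image_sub_le_of_norm_fderiv_le (𝕜 := ℝ) (f := H)
        (fun x _ => hd x) (fun x _ => hC x) (mem_univ (v 0)) (mem_univ (md (v k) (v (k + 1))))
      rw [Real.norm_eq_abs] at this
      exact this.trans (by gcongr)
    have a7 : |H (md (v k) (v (k + 1))) - c| ≤ C * (2 * η) + η := by
      have := abs_add_le (H (md (v k) (v (k + 1))) - H (v 0)) (H (v 0) - c)
      rw [sub_add_sub_cancel] at this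
      linarith
    refine (abs_sub _ _).trans ?_
    rw [abs_div, abs_mul, abs_of_nonneg hτ, abs_two]
    nlinarith [mul_le_mul_of_nonneg_left a7 hτ]
  · rw [Finset.card_range, nsmul_eq_mul, ← mul_assoc]
    have : 0 ≤ (4 * n + 2 * C + 1) * η := by positivity
    nlinarith [mul_le_mul_of_nonneg_right hN this]

end DiscX

theorem quadS : QuadStmt := by
  intro n H a b x1 p q h
  have hN : Nice H := ⟨h.smooth, |x1| + 1, 0, fun w hw => h.supp w (by
    have h1 := norm_sq_le_nsq w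
    have h2 := le_abs_self x1
    have h3 := abs_nonneg x1
    nlinarith)⟩
  obtain ⟨C, hC, -, hL⟩ := hN.bounds
  have hd : Differentiable ℝ H := h.smooth.differentiable (by simp)
  have hq : fderiv ℝ H q = 0 :=
    IsLocalMax.fderiv_eq_zero (Eventually.of_forall fun z => by rw [h.vq]; exact (h.bd z).2)
  have hp : fderiv ℝ H p = 0 :=
    IsLocalMin.fderiv_eq_zero (Eventually.of_forall fun z => by rw [h.vp]; exact (h.bd z).1)
  refine ⟨hN, C, hC, fun z => ⟨?_, ?_⟩⟩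
  · have h1 := abs_le.1 (DiscX.quad hC.le hd hL hq z)
    have h2 := mul_le_mul_of_nonneg_left (norm_sq_le_nsq (z - q)) hC.le
    rw [h.vq] at h1
    linarith [h1.1]
  · have h1 := abs_le.1 (DiscX.quad hC.le hd hL hp z)
    have h2 := mul_le_mul_of_nonneg_left (norm_sq_le_nsq (z - p)) hC.le
    rw [h.vp] at h1
    linarith [h1.2]

theorem discS (hQ : QuadStmt) : DiscStmt := by
  intro n H a b x1 p q h xR ε s0 hx hε hs0
  obtain ⟨C, hC, hB, hL⟩ := (hQ n H a b x1 p q h).1.bounds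
  have hd : Differentiable ℝ H := h.smooth.differentiable (by simp)
  have hXB : ∀ x, ‖ham H x‖ ≤ 2 * C := fun x => (norm_ham_le H x).trans (by linarith [(hB x).2])
  have hXL : ∀ x y, ‖ham H x - ham H y‖ ≤ 2 * C * ‖x - y‖ := fun x y =>
    (norm_ham_sub_le H x y).trans (by linarith [hL x y])
  obtain ⟨δ, hδ, hgap⟩ := DiscX.gap (n := n) hx
  have hK : 0 < 4 * (n : ℝ) + 2 * C + 1 := by positivity
  obtain ⟨η, hη, hη1, hηε⟩ : ∃ η : ℝ, 0 < η ∧ η ≤ 1 ∧ (4 * (n : ℝ) + 2 * C + 1) * η ≤ ε :=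
    ⟨min 1 (ε / (4 * (n : ℝ) + 2 * C + 1)), lt_min one_pos (by positivity), min_le_left _ _, by
      rw [← le_div_iff₀' hK]; exact min_le_right _ _⟩
  obtain ⟨η', hη', hslow⟩ := h.slow s0 η hs0 hη
  generalize hM : 2 * C = M at hXB hXL
  have hM0 : 0 < M := by linarith
  obtain ⟨N0, hN0⟩ := eventually_atTop.1 ((((DiscX.ev M hδ).and
    (DiscX.ev (2 * M * Real.exp M) hη')).and
    (DiscX.ev (M * (M + 2 * M * Real.exp M)) hη)).and (eventually_gt_atTop 0))
  refine ⟨N0, fun N hN s hs hs1 => ?_⟩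
  obtain ⟨⟨⟨b1, b2⟩, b3⟩, b4⟩ := hN0 N hN
  have hNp : (0 : ℝ) < N := by exact_mod_cast b4
  have hsp : 0 < s := hs0.trans_le hs
  have hτ : 0 ≤ s / N := by positivity
  have hτN : (N : ℝ) * (s / N) = s := by field_simp
  have hτ1 : ∀ K : ℝ, 0 ≤ K → K * (s / N) ≤ K / N := fun K hK => by
    rw [← mul_div_assoc]
    gcongr
    nlinarith
  refine ⟨fun v v' hv hR => ?_, fun v hv hcl => ?_⟩
  · have h1 : ‖md v v' - v‖ ≤ M * (s / N) := DiscX.half_le hXB hτ rfl hv
    have h2 : x1 < nsq (md v v') := by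
      by_contra hcon
      have h3 := hgap (md v v') (v - md v v') (not_lt.1 hcon) (by
        rw [norm_sub_rev]
        linarith [hτ1 M hM0.le])
      rw [add_sub_cancel] at h3
      linarith
    rw [DiscX.ham_zero h.supp h2, smul_zero, sub_eq_zero] at hv
    exact ⟨hv, h.supp v (by linarith)⟩
  · obtain ⟨x, hx0, hxd, hxs⟩ := hslow (v 0)
    have herr := DiscX.err hXB hXL hxd hτ (hτN.le.trans hs1) hx0 hv
    have hD : 0 ≤ 2 * M * Real.exp M := by positivity
    have h1 : ‖x s - v 0‖ < η' := by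
      have := herr N le_rfl
      rw [hτN, hcl, norm_sub_rev] at this
      linarith [hτ1 _ hD]
    obtain ⟨hsm, c, hc, hcη⟩ := hxs s hs hs1 h1
    refine ⟨c, hc, ?_⟩
    have h2 : ∀ k < N, ‖v (k + 1) - v k‖ ≤ s / N * (2 * η) := fun k hk => by
      rw [hv k hk, norm_smul, Real.norm_eq_abs, abs_of_nonneg hτ]
      gcongr
      have c1 : ‖md (v k) (v (k + 1)) - v k‖ ≤ M * (s / N) := DiscX.half_le hXB hτ rfl (hv k hk)
      have c2 := herr k hk.le
      have c3 := norm_add_le (md (v k) (v (k + 1)) - v k) (v k - x (k * (s / N)))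
      rw [sub_add_sub_cancel] at c3
      have c4 := hXL (md (v k) (v (k + 1))) (x (k * (s / N)))
      have c5 := norm_add_le (ham H (md (v k) (v (k + 1))) - ham H (x (k * (s / N))))
        (ham H (x (k * (s / N))))
      rw [sub_add_cancel] at c5
      have c6 := hsm (k * (s / N))
      have c7 := hτ1 (M * (M + 2 * M * Real.exp M)) (by positivity)
      have c8 : M * ‖md (v k) (v (k + 1)) - x (k * (s / N))‖
          ≤ M * (M * (s / N) + 2 * M * Real.exp M * (s / N)) := by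
        gcongr
        linarith
      nlinarith
    have h3 := DiscX.sum_est hd (fun x => (hB x).2) hη.le hη1 hτ (hτN.le.trans hs1) h2 hcl hcη
    rw [hτN] at h3
    exact h3.trans hηε

end Vale.Agent.P209
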