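import Vale.Agent.P209.Basic4

/-! The discrete Fourier splitting. -/

open Set Filter Topology Function
open scoped Real ContDiff ComplexConjugate

noncomputable section
namespace Vale.Agent.P209

namespace Four
open ZMod hiding map_smul

variable {n L : ℕ} [NeZero L]

theorem norm_chi (m : ZMod L) : ‖stdAddChar m‖ = 1 := Circle.norm_coe _

theorem conj_chi (m : ZMod L) : conj (stdAddChar m) = stdAddChar (-m) := by
  rw [AddChar.map_neg_eq_inv, Complex.inv_eq_conj (norm_chi m)]

theorem pars (a b : ZMod L → ℂ) :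
    ∑ k, conj (dft a k) * dft b k = L * ∑ m, conj (a m) * b m := by
  have h : ∀ k, conj (dft a k) * dft b k =
      ∑ m, ∑ j, conj (a m) * b j * stdAddChar (k * (m - j)) := fun k => by
    rw [dft_apply, dft_apply, map_sum, Finset.sum_mul_sum]
    refine Finset.sum_congr rfl fun m _ => Finset.sum_congr rfl fun j _ => ?_
    rw [smul_eq_mul, smul_eq_mul, map_mul, conj_chi,
      show k * (m - j) = - -(m * k) + -(j * k) by ring, AddChar.map_add_eq_mul]
    ring
  simp only [h]
  rw [Finset.sum_comm, Finset.mul_sum]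
  refine Finset.sum_congr rfl fun m _ => ?_
  rw [Finset.sum_comm]
  simp only [← Finset.mul_sum, AddChar.sum_mulShift _ (isPrimitive_stdAddChar L), sub_eq_zero]
  rw [Finset.sum_eq_single m]
  · simp [mul_comm]
  · intro j _ hj
    simp [hj.symm]
  · simp

theorem dft_coord (c : ZMod L → CV n) (k : ZMod L) (j : Fin n) :
    dft c k j = dft (fun m => c m j) k := by
  simp [dft_apply]

theorem om_sum (a b : ZMod L → CV n) :
    ∑ k, omega0 (dft a k) (dft b k) = L * ∑ m, omega0 (a m) (b m) := by
  have h : ∀ u v : CV n, omega0 u v = ∑ j, (conj (u j) * v j).im := fun u v =>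
    Finset.sum_congr rfl fun j _ => by simp [sub_eq_add_neg]
  simp only [h, dft_coord]
  rw [Finset.sum_comm, Finset.sum_comm (f := fun m j => (conj (a m j) * b m j).im),
    Finset.mul_sum]
  refine Finset.sum_congr rfl fun j _ => ?_
  rw [← Complex.im_sum, pars, ← Complex.im_sum]
  simp

theorem nsq_sum (a : ZMod L → CV n) : ∑ k, nsq (dft a k) = L * ∑ m, nsq (a m) := by
  have h := om_sum a (Complex.I • a)
  simpa only [map_smul, Pi.smul_apply, om0_I_self] using h

theorem om_smul (z : ℂ) (u : CV n) : omega0 u (z • u) = z.im * nsq u := by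
  rw [nsq_eq, Finset.mul_sum]
  refine Finset.sum_congr rfl fun j _ => ?_
  simp only [Pi.smul_apply, smul_eq_mul, Complex.mul_re, Complex.mul_im]
  ring

theorem shift (c : ZMod L → CV n) (k : ZMod L) :
    dft c (k + 1) = dft (fun m => stdAddChar (-m) • c m) k := by
  simp only [dft_apply, smul_smul, ← AddChar.map_add_eq_mul]
  exact Finset.sum_congr rfl fun m _ => by rw [mul_add, mul_one, neg_add]

/-- the multiplier of the midpoint map -/
def mu (m : ZMod L) : ℂ := (1 + stdAddChar (-m)) / 2

theorem mid_dft (c : ZMod L → CV n) : mid (dft c) = dft fun m => mu m • c m := by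
  funext k
  have h : (fun m => mu m • c m) =
      (1 / 2 : ℂ) • (c + fun m => stdAddChar (-m) • c m) := by
    funext m
    rw [mu, Pi.smul_apply, Pi.add_apply]
    module
  rw [h, map_smul, map_add, mid, md, shift, ← Complex.coe_smul]
  simp

theorem Qf_dft (c : ZMod L → CV n) :
    Qf (dft c) = L * ∑ m, (stdAddChar (-m)).im / 2 * nsq (c m) := by
  simp only [Qf, shift, ← Finset.sum_div, om_sum, om_smul]
  rw [mul_div_assoc, Finset.sum_div]
  exact congrArg _ (Finset.sum_congr rfl fun m _ => by ring)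

theorem norm_mu (m : ZMod L) : ‖mu m‖ ^ 2 = (1 + (stdAddChar (-m)).re) / 2 := by
  have h := Complex.sq_norm (stdAddChar (-m))
  rw [norm_chi, Complex.normSq_apply] at h
  rw [Complex.sq_norm, Complex.normSq_apply, mu]
  simp only [Complex.div_ofNat_re, Complex.div_ofNat_im, Complex.add_re, Complex.add_im,
    Complex.one_re, Complex.one_im]
  linarith

theorem mu_ne (hL : Odd L) (m : ZMod L) : mu m ≠ 0 := fun h => by
  have h1 : stdAddChar (-m) = -1 := by
    rw [mu, div_eq_zero_iff, or_iff_left two_ne_zero] at h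
    exact eq_neg_of_add_eq_zero_right h
  have h2 := AddChar.map_nsmul_eq_pow (stdAddChar (N := L)) L (-m)
  rw [h1, hL.neg_one_pow, nsmul_eq_mul, natCast_self, zero_mul, AddChar.map_zero_eq_one] at h2
  norm_num at h2

theorem key (hL : 3 ≤ L) {m : ZMod L} (hm : m ≠ 0) :
    Real.tan (π / L) * (1 + (stdAddChar m).re) ≤ |(stdAddChar m).im| := by
  have h3 : (3 : ℝ) ≤ L := by exact_mod_cast hL
  have h1 : (1 : ℝ) ≤ m.val := by exact_mod_cast Nat.one_le_iff_ne_zero.2 (by simpa using hm)
  have h2 : (m.val : ℝ) + 1 ≤ L := by exact_mod_cast val_lt m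
  have hp := Real.pi_pos
  have ht : 0 < π / L := by positivity
  have he : stdAddChar m = Complex.exp ((2 * (m.val * (π / L)) : ℝ) * Complex.I) := by
    rw [stdAddChar_apply, toCircle_apply]
    congr 1
    push_cast
    ring
  have hL' : L * (π / L) = π := by field_simp
  have a1 := mul_le_mul_of_nonneg_right h1 ht.le
  have a2 := mul_le_mul_of_nonneg_right h2 ht.le
  have a3 := mul_le_mul_of_nonneg_right h3 ht.le
  rw [add_mul] at a2
  rw [he, Complex.exp_ofReal_mul_I_re, Complex.exp_ofReal_mul_I_im]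
  generalize m.val * (π / L) = x at a1 a2 ⊢
  generalize π / L = t at ht a1 a2 a3 hL' ⊢
  have b1 := Real.sin_nonneg_of_nonneg_of_le_pi (x := x - t) (by linarith) (by linarith)
  have b2 := Real.sin_nonneg_of_nonneg_of_le_pi (x := x + t) (by linarith) (by linarith)
  have b3 := Real.sin_nonneg_of_nonneg_of_le_pi (x := x) (by linarith) (by linarith)
  have b4 := Real.cos_pos_of_mem_Ioo (x := t) ⟨by linarith, by linarith⟩
  rw [Real.sin_sub] at b1
  rw [Real.sin_add] at b2
  have b5 : Real.sin t * |Real.cos x| ≤ Real.sin x * Real.cos t := by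
    rcases abs_cases (Real.cos x) with h | h <;> rw [h.1] <;> linarith
  rw [Real.tan_eq_sin_div_cos, Real.cos_two_mul, Real.sin_two_mul, abs_mul, abs_mul, abs_two,
    abs_of_nonneg b3, div_mul_eq_mul_div, div_le_iff₀ b4, ← sq_abs (Real.cos x)]
  linarith [mul_le_mul_of_nonneg_right b5 (abs_nonneg (Real.cos x))]

/-- loops whose modes in `P` vanish -/
def Sub (n : ℕ) (P : ZMod L → Prop) : Submodule ℝ (ZMod L → CV n) where
  carrier := {v | ∀ m, P m → dft.symm v m = 0}
  add_mem' := fun {u v} hu hv m hm => by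
    rw [map_add, Pi.add_apply, hu m hm, hv m hm, add_zero]
  zero_mem' := fun m _ => by rw [map_zero, Pi.zero_apply]
  smul_mem' := fun r v hv m hm => by
    rw [← Complex.coe_smul, map_smul, Pi.smul_apply, hv m hm, smul_zero]

theorem mem_sub {P : ZMod L → Prop} {c : ZMod L → CV n} :
    dft c ∈ Sub n P ↔ ∀ m, P m → c m = 0 := by
  show (∀ m, P m → dft.symm (dft c) m = 0) ↔ _
  rw [LinearEquiv.symm_apply_apply]

theorem compl (P : ZMod L → Prop) : IsCompl (Sub n fun m => ¬ P m) (Sub n P) := by
  classical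
  refine ⟨Submodule.disjoint_def.2 fun v h1 h2 => ?_, Submodule.codisjoint_iff_exists_add_eq.2
    fun v => ?_⟩
  · obtain ⟨c, rfl⟩ := dft.surjective v
    rw [LinearEquiv.map_eq_zero_iff]
    funext m
    exact (em (P m)).elim (mem_sub.1 h2 m) (mem_sub.1 h1 m)
  · obtain ⟨c, rfl⟩ := dft.surjective v
    refine ⟨dft fun m => if P m then c m else 0, dft fun m => if P m then 0 else c m,
      mem_sub.2 fun m hm => if_neg hm, mem_sub.2 fun m hm => if_pos hm, ?_⟩
    rw [← map_add]
    refine congrArg _ (funext fun m => ?_)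
    rw [Pi.add_apply]
    split_ifs <;> simp

end Four

open ZMod in
theorem fourS : FourStmt := by
  intro n L _ hodd hL
  have hL0 : (0 : ℝ) ≤ L := L.cast_nonneg
  refine ⟨_, _, Four.compl fun m => (stdAddChar (-m)).im < 0, fun v hv => ?_, fun v hv => ?_,
    fun u v h => ?_, fun w => ?_⟩
  · obtain ⟨c, rfl⟩ := dft.surjective v
    rw [Four.mid_dft, Four.nsq_sum, Four.Qf_dft, mul_left_comm, ← mul_neg,
      Finset.mul_sum _ _ (Real.tan _), ← Finset.sum_neg_distrib]
    refine mul_le_mul_of_nonneg_left (Finset.sum_le_sum fun m _ => ?_) hL0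
    by_cases hm : (stdAddChar (-m)).im < 0
    · have h := Four.key hL (m := -m) fun h => by simp [h] at hm
      rw [abs_of_neg hm] at h
      rw [nsq_smul, Four.norm_mu]
      linarith [mul_le_mul_of_nonneg_right h (nsq_nonneg (c m))]
    · simp [Four.mem_sub.1 hv m hm, nsq]
  · obtain ⟨c, rfl⟩ := dft.surjective v
    have h1 : ∀ k, mid (dft c) k - c 0 =
        dft (fun m => if m = 0 then 0 else Four.mu m • c m) k := fun k => by
      rw [Four.mid_dft, dft_apply, dft_apply, ← Finset.add_sum_erase _ _ (Finset.mem_univ 0),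
        ← Finset.add_sum_erase _ _ (Finset.mem_univ 0), if_pos rfl, smul_zero, zero_add,
        sub_eq_iff_eq_add']
      congr 1
      · simp [Four.mu]
      · exact Finset.sum_congr rfl fun m hm => by rw [if_neg (Finset.ne_of_mem_erase hm)]
    refine ⟨c 0, ?_⟩
    simp only [h1]
    rw [Four.nsq_sum, Four.Qf_dft, mul_left_comm, Finset.mul_sum _ _ (Real.tan _)]
    refine mul_le_mul_of_nonneg_left (Finset.sum_le_sum fun m _ => ?_) hL0
    by_cases hm : (stdAddChar (-m)).im < 0
    · simp [Four.mem_sub.1 hv m hm, nsq]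
    · split_ifs with h0
      · simp [h0, nsq]
      · have h := Four.key hL (neg_ne_zero.2 h0)
        rw [abs_of_nonneg (not_lt.1 hm)] at h
        rw [nsq_smul, Four.norm_mu]
        linarith [mul_le_mul_of_nonneg_right h (nsq_nonneg (c m))]
  · obtain ⟨a, rfl⟩ := dft.surjective u
    obtain ⟨b, rfl⟩ := dft.surjective v
    rw [Four.mid_dft, Four.mid_dft] at h
    exact congrArg _ (funext fun m =>
      smul_right_injective _ (Four.mu_ne hodd m) (congrFun (dft.injective h) m))
  · obtain ⟨a, rfl⟩ := dft.surjective w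
    refine ⟨dft fun m => (Four.mu m)⁻¹ • a m, ?_⟩
    simp only [Four.mid_dft, smul_inv_smul₀ (Four.mu_ne hodd _)]

end Vale.Agent.P209
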