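import Vale.Agent.P209.Basic4

/-! The Hamiltonian built from two disjoint symplectic balls. -/

open Set Filter Topology Function
open scoped Real ContDiff

noncomputable section
namespace Vale.Agent.P209

namespace Ham
variable {n : ℕ}

theorem compact {r : ℝ} {f : CV n → CV n} (h : IsSympEmb r f) : IsCompact (f '' cball n r) := by
  obtain ⟨U, _, h1, h2, _⟩ := h
  exact (isCompact_cball r).image_of_continuousOn (h2.continuousOn.mono h1)

theorem lt_of_int {R : ℝ} (hR : 0 < R) {z : CV n} (hz : z ∈ interior (cball n R)) :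
    π * nsq z < R := by
  have h1 : ContinuousAt (fun t : ℝ => (t : ℂ) • z) 1 := by fun_prop
  have h2 : ∀ᶠ t : ℝ in 𝓝 1, (t : ℂ) • z ∈ cball n R :=
    h1.preimage_mem_nhds (by simpa using mem_interior_iff_mem_nhds.1 hz)
  obtain ⟨t, h3, h4⟩ := ((h2.filter_mono nhdsWithin_le_nhds).and
    (self_mem_nhdsWithin (s := Ioi (1 : ℝ)) (a := 1))).exists
  have h5 : (1 : ℝ) < t := h4
  rw [mem_cball, nsq_smul, Complex.norm_real, Real.norm_eq_abs, sq_abs] at h3
  by_contra h6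
  have h7 : 1 < t ^ 2 := by nlinarith
  nlinarith [not_lt.1 h6]

theorem near {K : Set (CV n)} (hK : IsCompact K) {G : CV n → ℝ} (hG : ∀ z, z ∉ K → G z = 0)
    {z : CV n} (hz : z ∉ K) : ∀ᶠ w in 𝓝 z, G w = 0 :=
  (hK.isClosed.isOpen_compl.eventually_mem hz).mono fun w hw => hG w hw

end Ham

theorem hamS (hO : OneStmt) : HamStmt := by
  intro n r1 r2 R a b f1 f2 hR h1 h2 i1 i2 hd ha har hb hbr
  obtain ⟨H1, s1, z1, b1, v1, w1⟩ := hO n r1 a f1 h1 ha har
  obtain ⟨H2, s2, z2, b2, v2, w2⟩ := hO n r2 b f2 h2 hb hbr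
  have k1 := Ham.compact h1
  have k2 := Ham.compact h2
  have m0 : ∀ r : ℝ, 0 < r → (0 : CV n) ∈ cball n r := fun r hr => by
    rw [mem_cball]; simp [nsq, hr.le]
  have m1 : f1 0 ∈ f1 '' cball n r1 := mem_image_of_mem _ (m0 _ (by linarith))
  have m2 : f2 0 ∈ f2 '' cball n r2 := mem_image_of_mem _ (m0 _ (by linarith))
  obtain ⟨u, hu, hm⟩ := (k1.union k2).exists_isMaxOn ⟨_, Or.inl m1⟩
    contDiff_nsq.continuous.continuousOn
  have hu2 : nsq u < R / π := by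
    rw [lt_div_iff₀ Real.pi_pos, mul_comm]
    exact Ham.lt_of_int hR (hu.elim (fun h => i1 h) fun h => i2 h)
  have hm2 : ∀ z ∈ f1 '' cball n r1 ∪ f2 '' cball n r2, nsq z < (nsq u + R / π) / 2 :=
    fun z hz => by
      have : nsq z ≤ nsq u := hm hz
      linarith
  have d1 : ∀ z ∈ f1 '' cball n r1, z ∉ f2 '' cball n r2 := fun z hz => disjoint_left.1 hd hz
  have d2 : ∀ z ∈ f2 '' cball n r2, z ∉ f1 '' cball n r1 := fun z hz => disjoint_right.1 hd hz
  have e1 : ∀ z, z ∉ f2 '' cball n r2 → ham (fun z => H2 z - H1 z) z = -ham H1 z := by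
    intro z hz
    rw [← neg_one_smul ℝ, ← ham_const_mul (-1) (s1.differentiable (by simp) z)]
    exact ham_congr ((Ham.near k2 z2 hz).mono fun w hw => by simp [hw])
  have e2 : ∀ z, z ∉ f1 '' cball n r1 → ham (fun z => H2 z - H1 z) z = ham H2 z := fun z hz =>
    ham_congr ((Ham.near k1 z1 hz).mono fun w hw => by simp [hw])
  refine ⟨fun z => H2 z - H1 z, (nsq u + R / π) / 2, f1 0, f2 0, by linarith, s2.sub s1,
    fun z hz => ?_, (hm2 _ (Or.inl m1)).le, (hm2 _ (Or.inr m2)).le, fun z => ?_, ?_, ?_, ?_⟩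
  · rw [z1 z fun h => (hm2 z (Or.inl h)).not_ge hz, z2 z fun h => (hm2 z (Or.inr h)).not_ge hz,
      sub_self]
  · constructor <;> linarith [b1 z, b2 z]
  · rw [v1, z2 _ (d1 _ m1), zero_sub]
  · rw [v2, z1 _ (d2 _ m2), sub_zero]
  intro s0 η hs0 hη
  obtain ⟨η1, p1, q1⟩ := w1 s0 η hs0 hη
  obtain ⟨η2, p2, q2⟩ := w2 s0 η hs0 hη
  refine ⟨min η1 η2, lt_min p1 p2, fun x0 => ?_⟩
  by_cases c1 : x0 ∈ f1 '' cball n r1
  · obtain ⟨x, a0, a1, a2⟩ := q1 x0 c1
    refine ⟨fun t => x (-t), by simpa using a0, fun t => ?_, fun s t1 t2 t3 => ?_⟩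
    · rw [e1 _ (d1 _ (a1 _).1), ← neg_one_smul ℝ]
      exact (a1 (-t)).2.scomp t (hasDerivAt_neg t)
    · have t4 : |-s| = s := by rw [abs_neg, abs_of_nonneg (by linarith)]
      obtain ⟨a3, a4⟩ := a2 (-s) (t4.symm ▸ t1) (t4.symm ▸ t2) (t3.trans_le (min_le_left _ _))
      refine ⟨fun t => ?_, ?_⟩
      · rw [e1 _ (d1 _ (a1 _).1), norm_neg]; exact a3 _
      · rcases a4 with a4 | a4
        · refine ⟨-a, by simp, ?_⟩
          rw [z2 _ (d1 _ c1), ← abs_neg]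
          rwa [show -(0 - H1 x0 - -a) = H1 x0 - a by ring]
        · refine ⟨0, by simp, ?_⟩
          rwa [z2 _ (d1 _ c1), sub_zero, zero_sub, abs_neg]
  by_cases c2 : x0 ∈ f2 '' cball n r2
  · obtain ⟨x, a0, a1, a2⟩ := q2 x0 c2
    refine ⟨x, a0, fun t => ?_, fun s t1 t2 t3 => ?_⟩
    · rw [e2 _ (d2 _ (a1 _).1)]; exact (a1 t).2
    · have t4 : |s| = s := abs_of_nonneg (by linarith)
      obtain ⟨a3, a4⟩ := a2 s (t4.symm ▸ t1) (t4.symm ▸ t2) (t3.trans_le (min_le_right _ _))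
      refine ⟨fun t => ?_, ?_⟩
      · rw [e2 _ (d2 _ (a1 _).1)]; exact a3 _
      · rcases a4 with a4 | a4
        · exact ⟨b, by simp, by rwa [z1 _ c1, sub_zero]⟩
        · exact ⟨0, by simp, by rwa [z1 _ c1, sub_zero, sub_zero]⟩
  · have e3 : ham (fun z => H2 z - H1 z) x0 = 0 := by
      rw [e2 _ c1, ham_congr (H' := fun _ => 0) (Ham.near k2 z2 c2)]
      exact ham_eq fun u => by simp [om0_zero_right]
    refine ⟨fun _ => x0, rfl, fun t => ?_, fun s _ _ _ => ⟨fun t => ?_, 0, by simp, ?_⟩⟩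
    · rw [e3]; exact hasDerivAt_const t x0
    · rw [e3, norm_zero]; exact hη.le
    · rw [z1 _ c1, z2 _ c2]; simpa using hη.le

end Vale.Agent.P209
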