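import Vale.Agent.P209.Basic4
import Vale.Agent.P371.Brouwer

open Set Filter Topology Function
open scoped Real ContDiff

noncomputable section
namespace Vale.Agent.P209
namespace MinMax
variable {E : Type} [NormedAddCommGroup E] [NormedSpace ℝ E] [FiniteDimensional ℝ E]
  {A W : Submodule ℝ E} {F : E → ℝ}

def Gam (A : Submodule ℝ E) (h : A → E) : Prop := Continuous h ∧ ∃ C, ∀ y, ‖h y - y‖ ≤ C

def Lev (A : Submodule ℝ E) (F : E → ℝ) : Set ℝ := {m | ∃ h, Gam A h ∧ ∀ y, F (h y) ≤ m}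

theorem inter (hc : IsCompl A W) {h : A → E} (hh : Gam A h) (x0 : E) :
    ∃ y : A, h y - x0 ∈ W := by
  obtain ⟨h1, C, h2⟩ := hh
  let P : E →L[ℝ] A := LinearMap.toContinuousLinearMap (A.projectionOnto W hc)
  obtain ⟨y, -, hy⟩ := Vale.Agent.P371.brouwer (K := Metric.closedBall (0 : A) (‖P x0‖ + ‖P‖ * C))
    (convex_closedBall _ _) (isCompact_closedBall _ _)
    (Metric.nonempty_closedBall.2 (by
      have := (norm_nonneg _).trans (h2 0)
      positivity))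
    (f := fun y => P x0 - P (h y - y)) (by fun_prop) fun y _ => by
      rw [mem_closedBall_zero_iff]
      refine (norm_sub_le _ _).trans (add_le_add le_rfl ((P.le_opNorm _).trans ?_))
      exact mul_le_mul_of_nonneg_left (h2 y) (norm_nonneg _)
  refine ⟨y, (Submodule.projectionOnto_apply_eq_zero_iff hc).1 ?_⟩
  have e : P (y : E) = y := Submodule.projectionOnto_apply_left hc y
  have e2 : P (h y - x0) = 0 := by
    simp only [map_sub, e] at hy
    rw [map_sub, sub_eq_zero]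
    rw [sub_sub_eq_add_sub, sub_eq_iff_eq_add, add_comm] at hy
    exact (add_left_cancel hy).symm
  exact e2

theorem lev_ne (hF : Adm A W F) : (Lev A F).Nonempty := by
  obtain ⟨m, hm⟩ := hF.up 0
  exact ⟨m, fun y => y, ⟨continuous_subtype_val, 0, fun y => by simp⟩, fun y => by
    simpa using hm y y.2 0 (by simp)⟩

theorem lev_low (hc : IsCompl A W) {x0 : E} {m : ℝ} (hm : ∀ y ∈ W, m ≤ F (x0 + y)) :
    m ∈ lowerBounds (Lev A F) := by
  rintro m' ⟨h, hh, hm'⟩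
  obtain ⟨y, hy⟩ := inter hc hh x0
  have := hm _ hy
  rw [add_sub_cancel] at this
  exact this.trans (hm' y)

theorem lev_bdd (hc : IsCompl A W) (hF : Adm A W F) : BddBelow (Lev A F) := by
  obtain ⟨m, hm⟩ := hF.low
  exact ⟨m, lev_low hc (x0 := 0) (by simpa using hm)⟩

theorem descent (hF : Adm A W F) :
    ∃ Λ : ℝ, 0 < Λ ∧ ∀ x v, F (x + v) ≤ F x + fderiv ℝ F x v + Λ * ‖v‖ ^ 2 := by
  obtain ⟨Λ, hΛ⟩ := hF.lip
  refine ⟨|Λ| + 1, by positivity, fun x v => ?_⟩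
  have := (convex_closedBall x ‖v‖).norm_image_sub_le_of_norm_fderiv_le' (𝕜 := ℝ) (f := F)
    (φ := fderiv ℝ F x) (C := (|Λ| + 1) * ‖v‖) (x := x) (y := x + v) (fun z _ => hF.diff z)
    (fun z hz => by
      rw [mem_closedBall_iff_norm] at hz
      refine (hΛ z x).trans ?_
      have := le_abs_self Λ
      have := abs_nonneg Λ
      nlinarith [norm_nonneg (z - x)])
    (Metric.mem_closedBall_self (norm_nonneg _)) (by simp)
  rw [add_sub_cancel_left, Real.norm_eq_abs] at this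
  nlinarith [le_abs_self (F (x + v) - F x - fderiv ℝ F x v)]

theorem cont_fderiv (hF : Adm A W F) : Continuous (fderiv ℝ F) := by
  obtain ⟨Λ, hΛ⟩ := hF.lip
  exact (LipschitzWith.of_dist_le' (K := Λ) fun x y => by
    rw [dist_eq_norm, dist_eq_norm]
    exact hΛ x y).continuous

theorem exists_j : ∃ (j : (E →L[ℝ] ℝ) → E) (c C : ℝ), Continuous j ∧ 0 < c ∧ 0 < C ∧
    ∀ φ, c * ‖φ‖ ^ 2 ≤ φ (j φ) ∧ ‖j φ‖ ≤ C * ‖φ‖ := by
  let b := Module.finBasis ℝ E
  obtain ⟨K, hK, hb⟩ := b.exists_opNorm_le (F := ℝ)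
  refine ⟨fun φ => ∑ i, φ (b i) • b i, 1 / K ^ 2, ∑ i, ‖b i‖ ^ 2 + 1, by fun_prop, by positivity,
    by positivity, fun φ => ⟨?_, ?_⟩⟩
  · have e : φ (∑ i, φ (b i) • b i) = ∑ i, φ (b i) ^ 2 := by
      simp only [map_sum, map_smul, smul_eq_mul, sq]
    have h0 : 0 ≤ ∑ i, φ (b i) ^ 2 := Finset.sum_nonneg fun _ _ => sq_nonneg _
    have h1 := hb (u := φ) (Real.sqrt_nonneg (∑ i, φ (b i) ^ 2)) fun i =>
      Real.abs_le_sqrt (Finset.single_le_sum (f := fun i => φ (b i) ^ 2)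
        (fun _ _ => sq_nonneg _) (Finset.mem_univ i))
    have h2 : ‖φ‖ ^ 2 ≤ (K * √(∑ i, φ (b i) ^ 2)) ^ 2 := by gcongr
    rw [mul_pow, Real.sq_sqrt h0] at h2
    rw [e, one_div, inv_mul_le_iff₀ (by positivity)]
    exact h2
  · refine (norm_sum_le _ _).trans ?_
    rw [add_mul, Finset.sum_mul]
    refine (Finset.sum_le_sum fun i _ => ?_).trans (le_add_of_nonneg_right (by positivity))
    rw [norm_smul]
    have := φ.le_opNorm (b i)
    nlinarith [norm_nonneg (b i)]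

theorem step (hF : Adm A W F) : ∃ (T : E → E) (c C : ℝ), Continuous T ∧ 0 < c ∧
    ∀ x, ‖T x - x‖ ≤ C ∧ F (T x) ≤ F x - c * min 1 ‖fderiv ℝ F x‖ ^ 2 := by
  obtain ⟨Λ, hΛ, hd⟩ := descent hF
  obtain ⟨j, c, C, hj, hc, hC, hjc⟩ := exists_j (E := E)
  have hcF := cont_fderiv hF
  obtain ⟨η, hη, hηe⟩ : ∃ η : ℝ, 0 < η ∧ η * (Λ * C ^ 2) = c / 2 :=
    ⟨c / 2 / (Λ * C ^ 2), by positivity, by field_simp⟩
  refine ⟨fun x => x + (-(η / max 1 ‖fderiv ℝ F x‖)) • j (fderiv ℝ F x), η * c / 2, η * C, ?_,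
    by positivity, fun x => ?_⟩
  · refine continuous_id.add (Continuous.smul (Continuous.neg ?_) (hj.comp hcF))
    exact continuous_const.div (continuous_const.max hcF.norm) fun x =>
      (lt_max_of_lt_left one_pos).ne'
  obtain ⟨a1, a2⟩ := hjc (fderiv ℝ F x)
  have hx := hd x ((-(η / max 1 ‖fderiv ℝ F x‖)) • j (fderiv ℝ F x))
  beta_reduce
  generalize fderiv ℝ F x = φ at a1 a2 hx ⊢
  have hn := norm_nonneg φ
  have hm : 0 < max 1 ‖φ‖ := lt_max_of_lt_left one_pos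
  have e1 : ‖φ‖ / max 1 ‖φ‖ = min 1 ‖φ‖ := by
    rcases le_total 1 ‖φ‖ with h | h
    · rw [max_eq_right h, min_eq_left h, div_self (by linarith)]
    · rw [max_eq_left h, min_eq_right h, div_one]
  have m0 : 0 ≤ min 1 ‖φ‖ := le_min zero_le_one hn
  have m1 : min 1 ‖φ‖ ≤ 1 := min_le_left _ _
  have m2 : min 1 ‖φ‖ ≤ ‖φ‖ := min_le_right _ _
  have b1 : ‖(-(η / max 1 ‖φ‖)) • j φ‖ ≤ η * C * min 1 ‖φ‖ := by
    rw [norm_smul, norm_neg, Real.norm_of_nonneg (by positivity), ← e1]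
    calc η / max 1 ‖φ‖ * ‖j φ‖ ≤ η / max 1 ‖φ‖ * (C * ‖φ‖) := by gcongr
      _ = η * C * (‖φ‖ / max 1 ‖φ‖) := by ring
  have b2 : φ ((-(η / max 1 ‖φ‖)) • j φ) ≤ -(η * c * min 1 ‖φ‖ ^ 2) := by
    rw [map_smul, smul_eq_mul, neg_mul, neg_le_neg_iff]
    calc η * c * min 1 ‖φ‖ ^ 2 ≤ η * c * (min 1 ‖φ‖ * ‖φ‖) := by
          rw [sq]
          gcongr
      _ = η / max 1 ‖φ‖ * (c * ‖φ‖ ^ 2) := by
          rw [← e1]
          ring
      _ ≤ η / max 1 ‖φ‖ * φ (j φ) := by gcongr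
  refine ⟨?_, ?_⟩
  · rw [add_sub_cancel_left]
    exact b1.trans (mul_le_of_le_one_right (by positivity) m1)
  · have b3 : ‖(-(η / max 1 ‖φ‖)) • j φ‖ ^ 2 ≤ (η * C * min 1 ‖φ‖) ^ 2 := by gcongr
    have b4 : Λ * (η * C * min 1 ‖φ‖) ^ 2 = η * c / 2 * min 1 ‖φ‖ ^ 2 := by
      linear_combination (η * min 1 ‖φ‖ ^ 2) * hηe
    have b5 := mul_le_mul_of_nonneg_left b3 hΛ.le
    linarith

theorem crit (hc : IsCompl A W) (hF : Adm A W F) :
    ∃ x, fderiv ℝ F x = 0 ∧ F x = sInf (Lev A F) := by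
  by_contra hn
  push Not at hn
  set c := sInf (Lev A F)
  have hcF := cont_fderiv hF
  obtain ⟨R, hR⟩ := hF.ps
  have hK : IsCompact {x | ‖fderiv ℝ F x‖ ≤ 1} :=
    (isCompact_closedBall (0 : E) R).of_isClosed_subset (isClosed_le hcF.norm continuous_const)
      fun x hx => mem_closedBall_zero_iff.2 (hR x hx)
  obtain ⟨d, hd, hd1, hd2⟩ : ∃ d : ℝ, 0 < d ∧ d ≤ 1 ∧
      ∀ x, |F x - c| ≤ d → d ≤ ‖fderiv ℝ F x‖ := by
    obtain ⟨μ, hμ, h⟩ := hK.exists_forall_le' (f := fun x => |F x - c| + ‖fderiv ℝ F x‖) (a := 0)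
      (((hF.diff.continuous.sub continuous_const).abs.add hcF.norm).continuousOn) fun x _ => by
        by_cases h0 : fderiv ℝ F x = 0
        · have := abs_pos.2 (sub_ne_zero.2 (hn x h0))
          positivity
        · have := norm_pos_iff.2 h0
          positivity
    refine ⟨min (μ / 2) 1, by positivity, min_le_right _ _, fun x hx => ?_⟩
    by_cases h1 : ‖fderiv ℝ F x‖ ≤ 1
    · have := h x h1
      have := min_le_left (μ / 2) 1
      linarith
    · exact (min_le_right _ _).trans (not_le.1 h1).le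
  obtain ⟨T, a, C, hT, ha, hT'⟩ := step hF
  have hp : 0 < min d (a * d ^ 2 / 2) := by positivity
  obtain ⟨m, ⟨h, ⟨g1, C', g2⟩, g3⟩, hm⟩ := exists_lt_of_csInf_lt (lev_ne hF)
    (show c < c + min d (a * d ^ 2 / 2) by linarith)
  have hmem : c - min d (a * d ^ 2 / 2) ∈ Lev A F := by
    refine ⟨T ∘ h, ⟨hT.comp g1, C + C', fun y => ?_⟩, fun y => ?_⟩
    · have e : (T ∘ h) y - y = (T (h y) - h y) + (h y - y) := by simp
      rw [e]
      exact (norm_add_le _ _).trans (add_le_add (hT' _).1 (g2 y))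
    · have k1 := (hT' (h y)).2
      have k2 := g3 y
      have k3 := min_le_left d (a * d ^ 2 / 2)
      have k4 := min_le_right d (a * d ^ 2 / 2)
      have k0 : 0 ≤ a * min 1 ‖fderiv ℝ F (h y)‖ ^ 2 := by positivity
      show F (T (h y)) ≤ _
      by_cases k5 : F (h y) ≤ c - d
      · linarith
      · have k6 := hd2 (h y) (abs_le.2 ⟨by linarith, by linarith⟩)
        have k7 : a * d ^ 2 ≤ a * min 1 ‖fderiv ℝ F (h y)‖ ^ 2 := by
          have := le_min hd1 k6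
          gcongr
        linarith
  have := csInf_le (lev_bdd hc hF) hmem
  linarith

end MinMax

open MinMax in
theorem minMaxS : MinMaxStmt := by
  intro E _ _ _ A W hc
  refine ⟨fun F => sInf (Lev A F), fun F hF => ⟨crit hc hF, fun F' κ hF' h => ?_,
    fun x0 m h => ?_, fun x0 m h => le_csInf (lev_ne hF) (lev_low hc h)⟩⟩
  · rw [← sub_le_iff_le_add]
    refine le_csInf (lev_ne hF') ?_
    rintro m ⟨g, hg, hm⟩
    rw [sub_le_iff_le_add]
    exact csInf_le (lev_bdd hc hF) ⟨g, hg, fun y => by linarith [h (g y), hm y]⟩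
  · exact csInf_le (lev_bdd hc hF) ⟨fun y => x0 + y, ⟨by fun_prop, ‖x0‖, fun y => by simp⟩,
      fun y => h y y.2⟩

end Vale.Agent.P209
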