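import Vale.Agent.P209.Basic4

open Set Filter Topology Function
open scoped Real ContDiff

noncomputable section
namespace Vale.Agent.P209
namespace One
variable {n : ℕ}

/-- rotation by the angle `θ` -/
def rot (θ : ℝ) (ζ : CV n) : CV n := Complex.exp (θ * Complex.I) • ζ

theorem rot_nsq (θ : ℝ) (ζ : CV n) : nsq (rot θ ζ) = nsq ζ := by
  rw [rot, nsq_smul, Complex.norm_exp_ofReal_mul_I]; ring

theorem rot_norm (θ : ℝ) (ζ : CV n) : ‖rot θ ζ‖ = ‖ζ‖ := by
  rw [rot, norm_smul, Complex.norm_exp_ofReal_mul_I, one_mul]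

theorem rot_zero (ζ : CV n) : rot 0 ζ = ζ := by simp [rot]

theorem rot_mem {r : ℝ} (θ : ℝ) {ζ : CV n} (h : ζ ∈ cball n r) : rot θ ζ ∈ cball n r := by
  rw [mem_cball, rot_nsq]; exact h

theorem rot_cont : Continuous fun q : ℝ × CV n => rot q.1 q.2 := by
  unfold rot
  fun_prop

theorem rot_deriv (w : ℝ) (ζ : CV n) (t : ℝ) :
    HasDerivAt (fun t : ℝ => rot (w * t) ζ) (w • (Complex.I • rot (w * t) ζ)) t := by
  have h1 : HasDerivAt (fun t : ℝ => ((w * t : ℝ) : ℂ) * Complex.I) (w * Complex.I) t := by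
    have h0 : HasDerivAt (fun t : ℝ => w * t) w t := by
      simpa using (hasDerivAt_id t).const_mul w
    exact h0.ofReal_comp.mul_const Complex.I
  have h2 := h1.cexp.smul_const ζ
  have e : (Complex.exp (((w * t : ℝ) : ℂ) * Complex.I) * (w * Complex.I)) • ζ
      = w • (Complex.I • rot (w * t) ζ) := by
    rw [rot, smul_smul, ← Complex.coe_smul, smul_smul]
    congr 1
    ring
  rw [e] at h2
  exact h2

theorem rot_fix {θ : ℝ} {ζ : CV n} (h : rot θ ζ = ζ) (hθ : |θ| < 2 * π) : ζ = 0 ∨ θ = 0 := by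
  by_cases hz : ζ = 0
  · exact Or.inl hz
  right
  have h1 : (Complex.exp (θ * Complex.I) - 1) • ζ = 0 := by
    rw [sub_smul, one_smul]; exact sub_eq_zero.2 h
  have h2 : Complex.exp (θ * Complex.I) = 1 :=
    sub_eq_zero.1 ((smul_eq_zero.1 h1).resolve_right hz)
  have h3 : Real.cos θ = 1 := by
    have := congrArg Complex.re h2
    simpa [Complex.exp_ofReal_mul_I_re] using this
  rw [abs_lt] at hθ
  exact (Real.cos_eq_one_iff_of_lt_of_lt (by linarith [hθ.1]) hθ.2).1 h3

/-- the radial profile -/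
structure Prof (r b : ℝ) (h h' : ℝ → ℝ) : Prop where
  smooth : ContDiff ℝ ∞ h
  der : ∀ x, HasDerivAt h (h' x) x
  cont : Continuous h'
  small : ∀ x, |h' x| < π
  zero : ∀ x, r < π * x → h x = 0
  crit : ∀ x, h' x = 0 → h x = 0
  bd : ∀ x, 0 ≤ x → 0 ≤ h x ∧ h x ≤ b
  top : h 0 = b

theorem exists_prof (hF : PhiStmt) {r b : ℝ} (hb : 0 < b) (hbr : b < r) :
    ∃ h h', Prof r b h h' := by
  have hpi := Real.pi_pos
  obtain ⟨Φ, hΦ⟩ := hF ((r - b) / (2 * π)) (by have := sub_pos.2 hbr; positivity)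
  have hP : b / π < Φ (r / π) := by
    refine lt_of_lt_of_le ?_ (hΦ.ge _)
    have e : r / π - (r - b) / (2 * π) - b / π = (r - b) / (2 * π) := by field_simp; ring
    have : 0 < (r - b) / (2 * π) := by have := sub_pos.2 hbr; positivity
    linarith
  have hP0 : 0 < Φ (r / π) := lt_trans (by positivity) hP
  have hp0 : 0 < b / Φ (r / π) := by positivity
  have hp1 : b / Φ (r / π) < π := by
    rw [div_lt_iff₀ hP0]
    rw [div_lt_iff₀ hpi] at hP
    linarith
  have hd : Differentiable ℝ Φ := hΦ.smooth.differentiable (by simp)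
  have hm : Monotone Φ := monotone_of_deriv_nonneg hd fun x => (hΦ.dle x).1
  have hc : Continuous (deriv Φ) := hΦ.smooth.continuous_deriv (by simp)
  refine ⟨fun x => b / Φ (r / π) * Φ (r / π - x),
    fun x => -(b / Φ (r / π) * deriv Φ (r / π - x)), ?_, ?_, ?_, ?_, ?_, ?_, ?_, ?_⟩
  · exact contDiff_const.mul (hΦ.smooth.comp (contDiff_const.sub contDiff_id))
  · intro x
    have h1 : HasDerivAt (fun x : ℝ => r / π - x) (-1) x := by
      simpa using (hasDerivAt_id x).const_sub (r / π)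
    have h2 := ((hd (r / π - x)).hasDerivAt.comp x h1).const_mul (b / Φ (r / π))
    have e : b / Φ (r / π) * (deriv Φ (r / π - x) * -1)
        = -(b / Φ (r / π) * deriv Φ (r / π - x)) := by ring
    rw [e] at h2
    exact h2
  · exact (continuous_const.mul (hc.comp (continuous_const.sub continuous_id))).neg
  · intro x
    obtain ⟨a1, a2⟩ := hΦ.dle (r / π - x)
    rw [abs_neg, abs_of_nonneg (by positivity)]
    exact lt_of_le_of_lt (mul_le_of_le_one_right hp0.le a2) hp1
  · intro x hx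
    have : r / π - x ≤ 0 := by
      rw [sub_nonpos, div_le_iff₀ hpi]; linarith
    simp only [(hΦ.lo _ this).1, mul_zero]
  · intro x hx
    have h1 : deriv Φ (r / π - x) = 0 := by
      have := neg_eq_zero.1 hx
      exact (mul_eq_zero.1 this).resolve_left hp0.ne'
    have h2 : r / π - x ≤ 0 := by
      by_contra hcon
      exact (hΦ.dpos _ (not_le.1 hcon)).ne' h1
    simp only [(hΦ.lo _ h2).1, mul_zero]
  · intro x hx
    refine ⟨mul_nonneg hp0.le (hΦ.le _).1, ?_⟩
    calc b / Φ (r / π) * Φ (r / π - x) ≤ b / Φ (r / π) * Φ (r / π) :=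
          mul_le_mul_of_nonneg_left (hm (by linarith)) hp0.le
      _ = b := by field_simp
  · simp only [sub_zero]
    field_simp

/-- the compactness step -/
theorem exists_gap {r b : ℝ} {h h' : ℝ → ℝ} (hh : Prof r b h h') {f : CV n → CV n}
    (hc : ContinuousOn f (cball n r)) (hi : InjOn f (cball n r)) (C : ℝ) {s0 η : ℝ}
    (hs : 0 < s0) (hη : 0 < η) : ∃ η' : ℝ, 0 < η' ∧ ∀ ζ ∈ cball n r, ∀ s, s0 ≤ |s| → |s| ≤ 1 →
      ‖f (rot (2 * h' (nsq ζ) * s) ζ) - f ζ‖ < η' →
      C * (|2 * h' (nsq ζ)| * ‖ζ‖) ≤ η ∧ (|h (nsq ζ) - b| ≤ η ∨ |h (nsq ζ)| ≤ η) := by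
  have cn : Continuous fun q : CV n × ℝ => nsq q.1 := contDiff_nsq.continuous.comp continuous_fst
  have c1 : Continuous fun q : CV n × ℝ => h' (nsq q.1) := hh.cont.comp cn
  have c2 : Continuous fun q : CV n × ℝ => h (nsq q.1) := hh.smooth.continuous.comp cn
  have hZ : IsCompact ((cball n r ×ˢ Icc (-1 : ℝ) 1) ∩ ({q : CV n × ℝ | s0 ≤ |q.2|} ∩
      ({q : CV n × ℝ | η ≤ C * (|2 * h' (nsq q.1)| * ‖q.1‖)} ∪
        ({q : CV n × ℝ | η ≤ |h (nsq q.1) - b|} ∩ {q : CV n × ℝ | η ≤ |h (nsq q.1)|})))) := by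
    refine ((isCompact_cball r).prod isCompact_Icc).inter_right ?_
    refine (isClosed_le continuous_const (by fun_prop)).inter
      ((isClosed_le continuous_const ?_).union ((isClosed_le continuous_const ?_).inter
        (isClosed_le continuous_const ?_)))
    · exact continuous_const.mul ((continuous_const.mul c1).abs.mul continuous_fst.norm)
    · exact (c2.sub continuous_const).abs
    · exact c2.abs
  have c3 : Continuous fun q : CV n × ℝ => rot (2 * h' (nsq q.1) * q.2) q.1 :=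
    rot_cont.comp (((continuous_const.mul c1).mul continuous_snd).prodMk continuous_fst)
  obtain ⟨η', h0, h1⟩ := hZ.exists_forall_le'
    (f := fun q : CV n × ℝ => ‖f (rot (2 * h' (nsq q.1) * q.2) q.1) - f q.1‖) (a := 0)
    (((hc.comp c3.continuousOn fun q hq => rot_mem _ hq.1.1).sub
      (hc.comp continuous_fst.continuousOn fun q hq => hq.1.1)).norm) (by
      rintro ⟨ζ, s⟩ ⟨⟨hζ, hs1⟩, hs2, hq⟩
      simp only [mem_ofPred_eq, mem_union, mem_inter_iff] at hζ hs1 hs2 hq
      refine norm_pos_iff.2 fun he => ?_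
      have e1 := hi (rot_mem _ hζ) hζ (sub_eq_zero.1 he)
      have hs3 : |s| ≤ 1 := abs_le.2 hs1
      have hlt : |2 * h' (nsq ζ) * s| < 2 * π := by
        rw [abs_mul, abs_mul, abs_two]
        have := hh.small (nsq ζ)
        have h5 := mul_le_of_le_one_right (by positivity : 0 ≤ 2 * |h' (nsq ζ)|) hs3
        linarith
      rcases rot_fix e1 hlt with h2 | h2
      · subst h2
        have : nsq (0 : CV n) = 0 := by simp [nsq]
        rw [this, hh.top] at hq
        simp only [norm_zero, mul_zero, sub_self, abs_zero] at hq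
        rcases hq with hq | hq
        · linarith
        · linarith [hq.1]
      · have h3 : s ≠ 0 := fun h4 => by
          rw [h4, abs_zero] at hs2; linarith
        have h4 : h' (nsq ζ) = 0 := by
          have := (mul_eq_zero.1 h2).resolve_right h3
          linarith
        rw [hh.crit _ h4, h4] at hq
        simp only [mul_zero, abs_zero, zero_mul] at hq
        rcases hq with hq | hq
        · linarith
        · linarith [hq.2])
  refine ⟨η', h0, fun ζ hζ s hs1 hs2 hlt => ?_⟩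
  by_contra hcon
  refine absurd (h1 (ζ, s) ⟨⟨hζ, abs_le.1 hs2⟩, hs1, ?_⟩) (not_le.2 hlt)
  simp only [mem_ofPred_eq, mem_union, mem_inter_iff]
  by_cases h5 : η ≤ C * (|2 * h' (nsq ζ)| * ‖ζ‖)
  · exact Or.inl h5
  · right
    have h6 := not_or.1 (not_and.1 hcon (not_le.1 h5).le)
    exact ⟨(not_le.1 h6.1).le, (not_le.1 h6.2).le⟩

end One

open Vale.Agent.P209.One in
theorem oneS (hP : PushStmt) (hF : PhiStmt) : OneStmt := by
  intro n r b f hf hb hbr
  obtain ⟨h, h', hh⟩ := exists_prof hF hb hbr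
  obtain ⟨H, hH, hH0, hH1⟩ := hP n r r f (fun ζ => h (nsq ζ)) hf le_rfl
    (hh.smooth.comp contDiff_nsq) fun ζ hζ => hh.zero _ (not_le.1 hζ)
  obtain ⟨U, hU, hsub, hsm, hemb, -⟩ := hf
  have hc : ContinuousOn f (cball n r) := hsm.continuousOn.mono hsub
  have hi : InjOn f (cball n r) := fun x hx y hy e =>
    congrArg Subtype.val (hemb.injective (a₁ := ⟨x, hsub hx⟩) (a₂ := ⟨y, hsub hy⟩) e)
  have hd : ∀ ζ ∈ cball n r, DifferentiableAt ℝ f ζ := fun ζ hζ =>
    (hsm.contDiffAt (hU.mem_nhds (hsub hζ))).differentiableAt (by simp)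
  obtain ⟨C, hC⟩ := (isCompact_cball r).exists_bound_of_continuousOn
    ((hsm.continuousOn_fderiv_of_isOpen hU (by simp)).mono hsub)
  have h00 : (0 : CV n) ∈ cball n r := by
    have : nsq (0 : CV n) = 0 := by simp [nsq]
    rw [mem_cball, this]; linarith
  have hham : ∀ (θ : ℝ), ∀ ζ ∈ cball n r, ham H (f (rot θ ζ))
      = fderiv ℝ f (rot θ ζ) ((2 * h' (nsq ζ)) • (Complex.I • rot θ ζ)) := fun θ ζ hζ => by
    rw [(hH1 _ (rot_mem θ hζ)).2, ham_radial (hh.der _), rot_nsq]
  refine ⟨H, hH, hH0, fun z => ?_, ?_, fun s0 η hs hη => ?_⟩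
  · by_cases hz : z ∈ f '' cball n r
    · obtain ⟨ζ, hζ, rfl⟩ := hz
      rw [(hH1 ζ hζ).1]
      exact hh.bd _ (nsq_nonneg ζ)
    · rw [hH0 z hz]; exact ⟨le_rfl, hb.le⟩
  · have : nsq (0 : CV n) = 0 := by simp [nsq]
    rw [(hH1 0 h00).1, this, hh.top]
  · obtain ⟨η', h0, h1⟩ := exists_gap hh hc hi C hs hη
    refine ⟨η', h0, ?_⟩
    rintro _ ⟨ζ, hζ, rfl⟩
    refine ⟨fun t => f (rot (2 * h' (nsq ζ) * t) ζ), by simp only [mul_zero, rot_zero],
      fun t => ⟨mem_image_of_mem f (rot_mem _ hζ), ?_⟩, fun s hs1 hs2 hlt => ?_⟩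
    · rw [hham _ ζ hζ]
      exact (hd _ (rot_mem _ hζ)).hasFDerivAt.comp_hasDerivAt t (rot_deriv _ ζ t)
    · obtain ⟨a1, a2⟩ := h1 ζ hζ s hs1 hs2 hlt
      refine ⟨fun t => ?_, by rw [(hH1 ζ hζ).1]; exact a2⟩
      rw [hham _ ζ hζ]
      refine ((fderiv ℝ f _).le_opNorm _).trans (le_trans ?_ a1)
      rw [norm_smul, norm_smul, Complex.norm_I, one_mul, rot_norm, Real.norm_eq_abs]
      exact mul_le_mul_of_nonneg_right (hC _ (rot_mem _ hζ)) (by positivity)

end Vale.Agent.P209
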