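import Vale.Agent.P209.Basic4

open Set Filter Topology Function
open scoped Real ContDiff

noncomputable section
namespace Vale.Agent.P209
namespace Osc

theorem tan_bound {δ : ℝ} (hδ : 0 < δ) :
    ∃ K0 : ℕ, ∀ K : ℕ, K0 ≤ K → K * Real.tan (π / K) ≤ π + δ := by
  have h1 : HasDerivAt Real.tan 1 0 := by simpa using Real.hasDerivAt_tan (x := 0) (by simp)
  have h2 : Tendsto (fun K : ℕ => π / K) atTop (𝓝[≠] 0) :=
    tendsto_nhdsWithin_iff.2 ⟨tendsto_const_div_atTop_nhds_zero_nat π, by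
      filter_upwards [eventually_gt_atTop 0] with K hK
      have : (0 : ℝ) < K := by exact_mod_cast hK
      exact (div_pos Real.pi_pos this).ne'⟩
  have h3 := ((hasDerivAt_iff_tendsto_slope_zero.1 h1).comp h2).const_mul π
  obtain ⟨K0, hK⟩ := eventually_atTop.1
    ((h3.eventually (gt_mem_nhds (show π * 1 < π + δ by linarith))).and (eventually_gt_atTop 0))
  refine ⟨K0, fun K h => ?_⟩
  obtain ⟨a, b⟩ := hK K h
  have : (0 : ℝ) < K := by exact_mod_cast b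
  simp only [comp, zero_add, Real.tan_zero, sub_zero, smul_eq_mul] at a
  have e : π * ((π / K)⁻¹ * Real.tan (π / K)) = K * Real.tan (π / K) := by
    field_simp
  linarith

theorem ivt {u : ℝ → ℝ} (hu : ContinuousOn u (Icc 0 1)) (h0 : u 0 < 0)
    (hne : ∀ l ∈ Icc (0 : ℝ) 1, u l ≠ 0) : u 1 < 0 := by
  by_contra h
  obtain ⟨l, hl, e⟩ := intermediate_value_Icc zero_le_one hu ⟨h0.le, not_lt.1 h⟩
  exact hne l hl e

theorem nice_mul {n : ℕ} {ψ : CV n → ℝ} (h : Nice ψ) (c : ℝ) : Nice fun w => c * ψ w := by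
  obtain ⟨h1, C, d, h2⟩ := h
  exact ⟨contDiff_const.mul h1, C, c * d, fun w hw => by simp only [h2 w hw]⟩

theorem cont_of {c : ℝ → ℝ} {Λ : ℝ}
    (h : ∀ l ∈ Icc (0 : ℝ) 1, ∀ l' ∈ Icc (0 : ℝ) 1, c l ≤ c l' + Λ * |l - l'|) :
    ContinuousOn c (Icc 0 1) :=
  (LipschitzOnWith.of_dist_le' (K := Λ) fun x hx y hy => by
    have a := h x hx y hy
    have b := h y hy x hx
    rw [abs_sub_comm] at b
    rw [Real.dist_eq, Real.dist_eq, abs_le]
    constructor <;> linarith).continuousOn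

theorem sum_ite_le {L : ℕ} [NeZero L] {N K : ℕ} (hL : L = N + K) {c : ℝ} :
    ∑ k : ZMod L, (if k.val < N then 0 else c) = K * c := by
  obtain ⟨m, rfl⟩ := Nat.exists_eq_succ_of_ne_zero (NeZero.ne L)
  have e := Fin.sum_univ_eq_sum_range (fun i => if i < N then (0 : ℝ) else c) (m + 1)
  refine e.trans ?_
  rw [show m + 1 = N + K from hL, Finset.sum_range_add, Finset.sum_eq_zero fun i hi => by
    rw [if_pos (Finset.mem_range.1 hi)]]
  simp

theorem gap {c e a b ε s a0 b0 : ℝ} (he : e ∈ ({-a, 0, b} : Set ℝ)) (h : |c + s * e| ≤ ε)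
    (ha : a0 ≤ s * a) (hb : b0 ≤ s * b) (h1 : ε ≤ a0 / 4) (h2 : ε ≤ b0 / 4) (hε : 0 < ε) :
    (c + s * b / 2 ≠ 0 ∧ s * a / 2 - c ≠ 0) ∧ (c + s * b / 2 < 0 → c ≤ -(s * b) + ε) ∧
      (s * a / 2 - c < 0 → s * a - ε ≤ c) := by
  rw [abs_le] at h
  rcases he with rfl | rfl | rfl
  · exact ⟨⟨by linarith [h.1], by linarith [h.1]⟩, fun _ => by linarith [h.1],
      fun _ => by linarith [h.1]⟩
  · exact ⟨⟨by linarith [h.1], by linarith [h.2]⟩, fun _ => by linarith [h.1],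
      fun _ => by linarith [h.2]⟩
  · exact ⟨⟨by linarith [h.2], by linarith [h.2]⟩, fun _ => by linarith [h.2],
      fun _ => by linarith [h.2]⟩

theorem step_le {n L : ℕ} [NeZero L] {N : ℕ} (n0 : 0 < N) {t s0 CH Cg l l' : ℝ} {H : CV n → ℝ}
    {g : ℝ → ℝ → ℝ} (ht : 0 < t) (hs0 : 0 < s0) (hs1 : s0 ≤ 1) (bH : ∀ w, |H w| ≤ CH)
    (g2 : ∀ l l' x, |g l x - g l' x| ≤ Cg * |l - l'|) (σ : Bool) (v : ZMod L → CV n) :
    act (stepf N t (s0 + (1 - s0) * l) H (g l) σ) v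
      ≤ act (stepf N t (s0 + (1 - s0) * l') H (g l') σ) v + L * (CH + t * |Cg|) * |l - l'| := by
  have key : ∀ k : ZMod L, stepf N t (s0 + (1 - s0) * l) H (g l) σ k (mid v k)
      ≤ stepf N t (s0 + (1 - s0) * l') H (g l') σ k (mid v k) + (CH + t * |Cg|) * |l - l'| := by
    intro k
    have hCH := (abs_nonneg _).trans (bH 0)
    have a0 := abs_nonneg (l - l')
    have a1 : |g l (nsq (mid v k)) - g l' (nsq (mid v k))| ≤ |Cg| * |l - l'| :=
      (g2 l l' _).trans (mul_le_mul_of_nonneg_right (le_abs_self _) a0)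
    have a2 := mul_le_mul_of_nonneg_left (abs_le.1 a1).1 ht.le
    have a3 := mul_le_mul_of_nonneg_left (abs_le.1 a1).2 ht.le
    have a4 : 0 ≤ CH * |l - l'| := by positivity
    have a5 : 0 ≤ t * |Cg| * |l - l'| := by positivity
    have hN1 : (1 : ℝ) ≤ N := by exact_mod_cast n0
    have a6 : |(1 - s0) / N * H (mid v k) * (l - l')| ≤ CH * |l - l'| := by
      rw [abs_mul, abs_mul, abs_of_nonneg (div_nonneg (by linarith) (by linarith))]
      refine mul_le_mul_of_nonneg_right ?_ a0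
      have : (1 - s0) / N ≤ 1 := (div_le_one (by linarith)).2 (by linarith)
      exact (mul_le_of_le_one_left (abs_nonneg _) this).trans (bH _)
    have a7 := (abs_le.1 a6).1
    unfold stepf
    split_ifs
    · have e : -((s0 + (1 - s0) * l) / N) * H (mid v k)
          = -((s0 + (1 - s0) * l') / N) * H (mid v k) - (1 - s0) / N * H (mid v k) * (l - l') := by
        ring
      linarith
    · linarith
    · linarith
  have := Finset.sum_le_sum fun k (_ : k ∈ Finset.univ) => key k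
  rw [Finset.sum_add_distrib, Finset.sum_const, Finset.card_univ, ZMod.card, nsmul_eq_mul] at this
  unfold act
  linarith

theorem cmp_le {n L : ℕ} [NeZero L] {N K : ℕ} (hL : L = N + K) {t s c : ℝ} {H : CV n → ℝ}
    {g : ℝ → ℝ} (ht : 0 < t) (g4 : ∀ x, x - c ≤ 2 * g x) (v : ZMod L → CV n) :
    act (stepf N t s H g true) v ≤ act (stepf N t s H g false) v + K * (t * c) := by
  rw [← sum_ite_le hL]
  unfold act
  rw [add_assoc, ← Finset.sum_add_distrib]
  refine add_le_add le_rfl (Finset.sum_le_sum fun k _ => ?_)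
  have := mul_le_mul_of_nonneg_left (g4 (nsq (mid v k))) ht.le
  unfold stepf
  simp only [if_true, Bool.false_eq_true, if_false]
  split_ifs <;> linarith

end Osc

open Osc in
theorem oscS (hM : MinMaxStmt) (hA : AdmActStmt) (hC : CritStmt) (hF : FourStmt) (hP : ProfStmt)
    (hQ : QuadStmt) (hD : DiscStmt) (hS : SpecStmt) (hE : DefStmt) (hB : BaseStmt) : OscStmt := by
  intro n H a b x1 xR p q ha hb hR h1 hH
  have hπ := Real.pi_pos
  obtain ⟨hN, C, hC0, hq⟩ := hQ n H a b x1 p q hH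
  refine le_of_forall_pos_le_add fun δ hδ => ?_
  obtain ⟨s0, hs0, hs1, hs2⟩ : ∃ s0 : ℝ, 0 < s0 ∧ s0 ≤ 1 ∧ s0 * C ≤ π / 20 :=
    ⟨min 1 (π / 20 / C), by positivity, min_le_left _ _,
      (le_div_iff₀ hC0).1 (min_le_right _ _)⟩
  obtain ⟨ε, hε, hε1, hε2, hε3⟩ : ∃ ε : ℝ, 0 < ε ∧ ε ≤ δ / 8 ∧ ε ≤ s0 * a / 4 ∧ ε ≤ s0 * b / 4 :=
    ⟨min (δ / 8) (min (s0 * a / 4) (s0 * b / 4)), by positivity, min_le_left _ _,
      (min_le_right _ _).trans (min_le_left _ _), (min_le_right _ _).trans (min_le_right _ _)⟩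
  obtain ⟨d, hd, hd1, hd2⟩ : ∃ d : ℝ, 0 < d ∧ d ≤ 1 ∧ d * xR ≤ δ / 4 :=
    ⟨min 1 (δ / 4 / xR), by positivity, min_le_left _ _, (le_div_iff₀ hR).1 (min_le_right _ _)⟩
  obtain ⟨κ, hκ, hκ1⟩ : ∃ κ : ℝ, 0 < κ ∧ κ * (π + 1) = δ / 4 :=
    ⟨δ / 4 / (π + 1), by positivity, by field_simp⟩
  obtain ⟨g, Cg, g1, g2, g3, g4⟩ := hP n x1 xR κ h1 hR hκ
  obtain ⟨N0, hN0⟩ := hD n H a b x1 p q hH xR ε s0 h1 hε hs0
  obtain ⟨K0, hK0⟩ := tan_bound hd
  obtain ⟨N, K, L, hL, n0, n1, n2, n3, n4, n5, n6⟩ : ∃ N K L : ℕ, L = N + K ∧ 0 < N ∧ 8 * N ≤ K ∧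
      K ≤ 9 * N ∧ 17 ≤ K ∧ N0 ≤ N ∧ K0 ≤ K ∧ Odd L :=
    ⟨2 * (N0 + K0 + 1), 16 * (N0 + K0 + 1) + 1, _, rfl, by omega, by omega, by omega, by omega,
      by omega, by omega, ⟨9 * (N0 + K0 + 1), by omega⟩⟩
  have : NeZero L := ⟨by omega⟩
  obtain ⟨A, W, hAW⟩ := hF n L n6 (by omega)
  obtain ⟨c, hc⟩ := hM (ZMod L → CV n) A W hAW.compl
  obtain ⟨d1, d2⟩ := hE n L N K A W hL n1 n3 hAW
  have hK := hK0 K n5
  have hKp : (17 : ℝ) ≤ K := by exact_mod_cast n3
  have ht : 0 < Real.tan (π / K) := Real.tan_pos_of_pos_of_lt_pi_div_two (by positivity)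
    (div_lt_div_of_pos_left hπ two_pos (by linarith))
  have hs : ∀ l ∈ Icc (0 : ℝ) 1, s0 ≤ s0 + (1 - s0) * l ∧ s0 + (1 - s0) * l ≤ 1 := fun l hl => by
    constructor <;> nlinarith [hl.1, hl.2]
  have eq : ∀ (σ : Bool) (s l : ℝ), (stepf N (Real.tan (π / K)) s H (g l) σ : ZMod L → CV n → ℝ)
      = fun k w => (if k.val < N then 0 else Real.tan (π / K) / 2) * nsq w +
        (if k.val < N then fun w => -(s / N) * H w else fun w =>
          (if σ then -Real.tan (π / K) else Real.tan (π / K)) * (g l (nsq w) - nsq w / 2)) w := by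
    intro σ s l
    funext k w
    unfold stepf
    split_ifs <;> ring
  have nice : ∀ (σ : Bool) (s : ℝ), ∀ l ∈ Icc (0 : ℝ) 1, ∀ k : ZMod L,
      Nice (if k.val < N then fun w => -(s / N) * H w else fun w =>
        (if σ then -Real.tan (π / K) else Real.tan (π / K)) * (g l (nsq w) - nsq w / 2)) := by
    intro σ s l hl k
    split_ifs
    · exact nice_mul hN _
    · exact nice_mul (g1 l hl).2 _
    · exact nice_mul (g1 l hl).2 _
  have adm : ∀ (σ : Bool) (s : ℝ), ∀ l ∈ Icc (0 : ℝ) 1,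
      Adm A W (act (stepf N (Real.tan (π / K)) s H (g l) σ)) := fun σ s l hl => by
    rw [eq]
    exact hA n L A W _ _ hAW.compl (nice σ s l hl) d1 d2
  have spec : ∀ (σ : Bool), ∀ l ∈ Icc (0 : ℝ) 1, ∃ e ∈ ({-a, 0, b} : Set ℝ),
      |c (act (stepf N (Real.tan (π / K)) (s0 + (1 - s0) * l) H (g l) σ))
        + (s0 + (1 - s0) * l) * e| ≤ ε := fun σ l hl => by
    obtain ⟨v, h0, hv⟩ := (hc _ (adm σ (s0 + (1 - s0) * l) l hl)).1
    rw [← hv]
    refine hS n L N K H (g l) a b xR ε _ σ v hL (by omega) hε.le hR.le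
      (hH.smooth.differentiable (by simp)) (g1 l hl).1 (hN0 N n4 _ (hs l hl).1 (hs l hl).2)
      (hC n L _ v hAW.bij.2 (fun k => ?_) h0)
    rw [eq]
    exact ((contDiff_nsq.differentiable (by simp)).const_mul _).fun_add
      ((nice σ _ l hl k).1.differentiable (by simp))
  obtain ⟨CH, hCH, bH, -⟩ := hN.bounds
  have cont : ∀ σ : Bool, ContinuousOn (fun l =>
      c (act (stepf N (Real.tan (π / K)) (s0 + (1 - s0) * l) H (g l) σ))) (Icc 0 1) := fun σ => by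
    exact cont_of (Λ := L * (CH + Real.tan (π / K) * |Cg|)) fun l hl l' hl' =>
      (hc _ (adm σ _ l hl)).2.1 _ _ (adm σ _ l' hl') fun v =>
        step_le n0 ht hs0 hs1 (fun w => (bH w).1) g2 σ v
  obtain ⟨b1, v0, b2⟩ := hB n L N K A W H (g 0) a b x1 C s0 p q hL n0 n1 n2 n3 hAW hH.hp hH.hq
    hC0.le hq g3 hs0.le hs2
  have z0 : (0 : ℝ) ∈ Icc (0 : ℝ) 1 := ⟨le_rfl, zero_le_one⟩
  have z1 : (1 : ℝ) ∈ Icc (0 : ℝ) 1 := ⟨zero_le_one, le_rfl⟩
  have sa : ∀ l ∈ Icc (0 : ℝ) 1, s0 * a ≤ (s0 + (1 - s0) * l) * a := fun l hl =>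
    mul_le_mul_of_nonneg_right (hs l hl).1 ha.le
  have sb : ∀ l ∈ Icc (0 : ℝ) 1, s0 * b ≤ (s0 + (1 - s0) * l) * b := fun l hl =>
    mul_le_mul_of_nonneg_right (hs l hl).1 hb.le
  have pa := mul_pos hs0 ha
  have pb := mul_pos hs0 hb
  have k0 := ivt (u := fun l => c (act (stepf N (Real.tan (π / K)) (s0 + (1 - s0) * l) H (g l) false))
      + (s0 + (1 - s0) * l) * b / 2) ((cont false).add (by fun_prop))
    (by
      have := (hc _ (adm false s0 0 z0)).2.2.1 _ _ b1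
      simp only [mul_zero, add_zero]
      linarith)
    fun l hl h0 => by
      obtain ⟨e, he, h⟩ := spec false l hl
      exact (gap he h (sa l hl) (sb l hl) hε2 hε3 hε).1.1 h0
  have k1 := ivt (u := fun l => (s0 + (1 - s0) * l) * a / 2
      - c (act (stepf N (Real.tan (π / K)) (s0 + (1 - s0) * l) H (g l) true)))
    (ContinuousOn.sub (by fun_prop) (cont true))
    (by
      have := (hc _ (adm true s0 0 z0)).2.2.2 _ _ b2
      simp only [mul_zero, add_zero]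
      linarith)
    fun l hl h0 => by
      obtain ⟨e, he, h⟩ := spec true l hl
      exact (gap he h (sa l hl) (sb l hl) hε2 hε3 hε).1.2 h0
  obtain ⟨e0, he0, f0⟩ := spec false 1 z1
  obtain ⟨e1, he1, f1⟩ := spec true 1 z1
  have q0 := (gap he0 f0 (sa 1 z1) (sb 1 z1) hε2 hε3 hε).2.1 k0
  have q1 := (gap he1 f1 (sa 1 z1) (sb 1 z1) hε2 hε3 hε).2.2 k1
  have e : s0 + (1 - s0) * 1 = 1 := by ring
  rw [e, one_mul] at q0 q1
  have cmp := (hc _ (adm true 1 1 z1)).2.1 _ (K * (Real.tan (π / K) * (xR + κ)))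
    (adm false 1 1 z1) fun v => cmp_le hL ht (fun x => by linarith [g4 x]) v
  have m1 : K * (Real.tan (π / K) * (xR + κ)) ≤ (π + d) * (xR + κ) := by
    rw [← mul_assoc]
    gcongr
  have m2 : d * κ ≤ κ := mul_le_of_le_one_left hκ.le hd1
  linarith

theorem twoS (hH : HamStmt) (hO : OscStmt) : TwoStmt := by
  intro n r1 r2 R f1 f2 hR h1 h2 e1 e2 i1 i2 hd
  have hπ := Real.pi_pos
  by_contra hn
  obtain ⟨η, hη, a1, a2, a3⟩ : ∃ η : ℝ, 0 < η ∧ η < r1 ∧ η < r2 ∧ R < r1 - η + (r2 - η) :=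
    ⟨min (min (r1 / 2) (r2 / 2)) ((r1 + r2 - R) / 4), lt_min (by positivity) (by linarith),
      ((min_le_left _ _).trans (min_le_left _ _)).trans_lt (by linarith),
      ((min_le_left _ _).trans (min_le_right _ _)).trans_lt (by linarith),
      by linarith [min_le_right (min (r1 / 2) (r2 / 2)) ((r1 + r2 - R) / 4)]⟩
  obtain ⟨H, x1, p, q, hx, h⟩ := hH n r1 r2 R (r1 - η) (r2 - η) f1 f2 hR e1 e2 i1 i2 hd
    (by linarith) (by linarith) (by linarith) (by linarith)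
  have := hO n H _ _ x1 (R / π) p q (by linarith) (by linarith) (by positivity) hx h
  rw [mul_div_cancel₀ _ hπ.ne'] at this
  linarith

end Vale.Agent.P209
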