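import Vale.Agent.P209.Basic4

open Set Filter Topology Function
open scoped Real ContDiff

noncomputable section
namespace Vale.Agent.P209

theorem IsPhi.lip {κ : ℝ} {Φ : ℝ → ℝ} (h : IsPhi κ Φ) {x y : ℝ} (hxy : x ≤ y) :
    Φ x ≤ Φ y ∧ Φ y - Φ x ≤ y - x := by
  have hd : Differentiable ℝ Φ := h.smooth.differentiable (by simp)
  refine ⟨monotone_of_deriv_nonneg hd (fun x => (h.dle x).1) hxy, ?_⟩
  have := image_sub_le_mul_sub_of_deriv_le hd (fun x => (h.dle x).2) hxy
  linarith

theorem phiS : PhiStmt := by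
  intro κ h0
  let g : ℝ → ℝ := fun x => Real.smoothTransition (x / κ)
  have hg : ContDiff ℝ ∞ g := Real.smoothTransition.contDiff.comp (contDiff_id.div_const _)
  have hz : ∀ x, x ≤ 0 → g x = 0 := fun x hx =>
    Real.smoothTransition.zero_of_nonpos (div_nonpos_of_nonpos_of_nonneg hx h0.le)
  obtain ⟨Φ, hd, h1⟩ : ∃ Φ : ℝ → ℝ, (∀ x, HasDerivAt Φ (g x) x) ∧ ∀ x, x ≤ 0 → Φ x = 0 := by
    refine ⟨fun x => ∫ u in (0 : ℝ)..x, g u, fun x =>
      (hg.continuous.integral_hasStrictDerivAt _ _).hasDerivAt, fun x hx => ?_⟩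
    show ∫ u in (0 : ℝ)..x, g u = 0
    rw [intervalIntegral.integral_congr (g := fun _ => (0 : ℝ))]
    · simp
    · intro u hu
      rw [uIcc_of_ge hx] at hu
      exact hz u hu.2
  have he : deriv Φ = g := funext fun x => (hd x).deriv
  have hD : Differentiable ℝ Φ := fun x => (hd x).differentiableAt
  have hm : Monotone Φ := monotone_of_deriv_nonneg hD fun x => by
    rw [he]
    exact Real.smoothTransition.nonneg _
  have h2 : ∀ x, 0 ≤ Φ x := fun x => by
    rcases le_total x 0 with h | h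
    · exact (h1 x h).ge
    · exact (h1 0 le_rfl).ge.trans (hm h)
  have h3 : ∀ z, κ ≤ z → Φ z - z = Φ κ - κ := fun z hz =>
    constant_of_has_deriv_right_zero (f := fun u => Φ u - u) (a := κ) (b := z)
      (hD.continuous.sub continuous_id).continuousOn (fun u hu => by
        have h1 := ((hd u).sub (hasDerivAt_id u)).hasDerivWithinAt (s := Ici u)
        rwa [show g u = 1 from Real.smoothTransition.one_of_one_le ((one_le_div h0).2 hu.1),
          sub_self] at h1) z ⟨hz, le_rfl⟩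
  refine ⟨Φ, ?_, fun x hx => ⟨h1 x hx, he ▸ hz x hx⟩, fun x hx => ?_, fun x => ?_,
    ⟨κ - Φ κ, fun x hx => by linarith [h3 x hx]⟩, fun x => ?_, fun x => ⟨h2 x, ?_⟩⟩
  · rw [contDiff_infty_iff_deriv, he]
    exact ⟨hD, hg⟩
  · rw [he]
    exact Real.smoothTransition.pos_of_pos (div_pos hx h0)
  · rw [he]
    exact ⟨Real.smoothTransition.nonneg _, Real.smoothTransition.le_one _⟩
  · rcases le_total x κ with h | h
    · linarith [h2 x]
    · linarith [h3 x h, h2 κ]
  · rcases le_total x 0 with h | h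
    · rw [h1 x h]
      exact le_max_right _ _
    · have := image_sub_le_mul_sub_of_deriv_le hD (C := 1) (fun x => by
        rw [he]
        exact Real.smoothTransition.le_one _) h
      rw [h1 0 le_rfl] at this
      linarith [le_max_left x 0]

theorem profS (hF : PhiStmt) : ProfStmt := by
  intro n x1 xR κ h1 hR hκ
  obtain ⟨Φ, hΦ⟩ := hF κ hκ
  have hd : Differentiable ℝ Φ := hΦ.smooth.differentiable (by simp)
  obtain ⟨θ, hθ, hθ1, hθ2⟩ : ∃ θ : ℝ, 0 < θ ∧ θ ≤ 1 ∧ θ * xR = xR - max x1 0 :=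
    ⟨(xR - max x1 0) / xR, div_pos (sub_pos.2 (max_lt h1 hR)) hR,
      (div_le_one hR).2 (by linarith [le_max_right x1 0]), div_mul_cancel₀ _ hR.ne'⟩
  obtain ⟨e, he, he1, he2⟩ : ∃ e : ℝ, 0 < e ∧ e ≤ 1 / 8 ∧ e * (1 + 1 / θ) = 1 / 8 :=
    ⟨θ / (8 * (1 + θ)), by positivity, by rw [div_le_div_iff₀ (by positivity) (by norm_num)]; linarith,
      by field_simp; ring⟩
  refine ⟨fun l x => (e + l * (1 / 2 - e)) * Φ (x - xR) + (1 - l) * (1 / 2 - e) * Φ (x - 5 * xR),
    2 * xR, fun l hl => ?_, fun l l' x => ?_, fun p y hp => ?_, fun x => ?_⟩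
  · have hD : ∀ x, HasDerivAt (fun x => (e + l * (1 / 2 - e)) * Φ (x - xR)
        + (1 - l) * (1 / 2 - e) * Φ (x - 5 * xR)) ((e + l * (1 / 2 - e)) * deriv Φ (x - xR)
        + (1 - l) * (1 / 2 - e) * deriv Φ (x - 5 * xR)) x := fun x =>
      (((hd _).hasDerivAt.comp_sub_const x xR).const_mul _).fun_add
        (((hd _).hasDerivAt.comp_sub_const x (5 * xR)).const_mul _)
    have p1 : 0 ≤ l * (1 / 2 - e) := mul_nonneg hl.1 (by linarith)
    have p2 : 0 ≤ (1 - l) * (1 / 2 - e) := mul_nonneg (by linarith [hl.2]) (by linarith)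
    refine ⟨⟨fun x => (hD x).differentiableAt, fun x hx => ?_, fun x hx => ?_⟩, ?_, ?_⟩
    · obtain ⟨a1, a2⟩ := hΦ.lo (x - xR) (by linarith)
      obtain ⟨a3, a4⟩ := hΦ.lo (x - 5 * xR) (by linarith)
      rw [(hD x).deriv]
      simp [a1, a2, a3, a4]
    · have a1 := hΦ.dpos (x - xR) (by linarith)
      have a2 := (hΦ.dle (x - xR)).2
      obtain ⟨a3, a4⟩ := hΦ.dle (x - 5 * xR)
      rw [(hD x).deriv]
      have a5 := mul_nonneg p2 a3
      have a6 := mul_le_of_le_one_right p2 a4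
      have a7 := mul_pos (show 0 < e + l * (1 / 2 - e) by linarith) a1
      have a8 := mul_le_of_le_one_right (show 0 ≤ e + l * (1 / 2 - e) by linarith) a2
      constructor <;> nlinarith
    · exact ((contDiff_const.mul (hΦ.smooth.comp (contDiff_nsq.sub contDiff_const))).add
        (contDiff_const.mul (hΦ.smooth.comp (contDiff_nsq.sub contDiff_const)))).sub
        (contDiff_nsq.div_const _)
    · obtain ⟨c, hc⟩ := hΦ.hi
      refine ⟨√(5 * xR + κ), -((e + l * (1 / 2 - e)) * (xR + c)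
        + (1 - l) * (1 / 2 - e) * (5 * xR + c)), fun w hw => ?_⟩
      have a1 : 5 * xR + κ ≤ nsq w := by
        refine le_trans ?_ (norm_sq_le_nsq w)
        rw [← Real.sq_sqrt (show 0 ≤ 5 * xR + κ by positivity)]
        gcongr
      simp only
      rw [hc _ (by linarith), hc _ (by linarith)]
      ring
  · obtain ⟨a1, a2⟩ := hΦ.lip (show x - 5 * xR ≤ x - xR by linarith)
    have e1 : (e + l * (1 / 2 - e)) * Φ (x - xR) + (1 - l) * (1 / 2 - e) * Φ (x - 5 * xR)
        - ((e + l' * (1 / 2 - e)) * Φ (x - xR) + (1 - l') * (1 / 2 - e) * Φ (x - 5 * xR))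
        = ((1 / 2 - e) * (Φ (x - xR) - Φ (x - 5 * xR))) * (l - l') := by ring
    simp only
    rw [e1, abs_mul, abs_of_nonneg (mul_nonneg (by linarith) (by linarith))]
    refine mul_le_mul_of_nonneg_right ?_ (abs_nonneg _)
    nlinarith
  · have a1 := nsq_add_le hθ p y
    have a2 := nsq_add_le (show (0 : ℝ) < 4 by norm_num) p y
    have a3 := nsq_nonneg y
    have a4 := nsq_nonneg p
    have a5 : nsq p ≤ max x1 0 := hp.trans (le_max_left _ _)
    have a6 : max x1 0 < xR := max_lt h1 hR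
    have a7 : θ * nsq p ≤ θ * xR := by gcongr; linarith
    have b1 : Φ (nsq (p + y) - xR) ≤ (1 + 1 / θ) * nsq y :=
      (hΦ.le _).2.trans (max_le (by linarith) (by positivity))
    have b2 : Φ (nsq (p + y) - 5 * xR) ≤ 5 / 4 * nsq y :=
      (hΦ.le _).2.trans (max_le (by linarith) (by positivity))
    have b3 := mul_le_mul_of_nonneg_left b1 he.le
    rw [← mul_assoc, he2] at b3
    have b4 := (hΦ.le (nsq (p + y) - 5 * xR)).1
    simp only
    nlinarith
  · have := hΦ.ge (x - xR)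
    simp only
    linarith

end Vale.Agent.P209
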