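import Vale.Agent.P209.Basic4

/-! Pushing a Hamiltonian forward along a symplectic embedding. -/

open Set Filter Topology Function
open scoped Real ContDiff

noncomputable section
namespace Vale.Agent.P209

theorem pushS : PushStmt := by
  intro n r r' f φ hf hr hφ h0
  obtain ⟨U, hU, hsub, hsm, hemb, hω⟩ := hf
  have hsub' : cball n r' ⊆ cball n r := fun z hz => mem_cball.2 ((mem_cball.1 hz).trans hr)
  set H : CV n → ℝ := Function.extend (fun x : U => f x) (fun x => φ x) 0 with hH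
  have hHf : ∀ ζ ∈ U, H (f ζ) = φ ζ := fun ζ hζ =>
    hemb.injective.extend_apply (fun x : U => φ x) 0 ⟨ζ, hζ⟩
  have hH0 : ∀ z, z ∉ f '' cball n r' → H z = 0 := fun z hz => by
    by_cases h : ∃ ζ : U, f ζ = z
    · obtain ⟨ζ, rfl⟩ := h
      rw [hHf ζ ζ.2]
      exact h0 _ fun h' => hz ⟨ζ, h', rfl⟩
    · exact Function.extend_apply' _ _ _ h
  have hbij : ∀ ζ ∈ U, Bijective (fderiv ℝ f ζ) := fun ζ hζ => by
    have hinj : Injective (fderiv ℝ f ζ) := fun u v huv =>
      om0_ext fun w => by rw [← hω ζ hζ, ← hω ζ hζ w v, huv]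
    exact ⟨hinj, (LinearMap.injective_iff_surjective (f := (fderiv ℝ f ζ).toLinearMap)).1 hinj⟩
  have hat : ∀ ζ ∈ U, ContDiffAt ℝ ∞ f ζ := fun ζ hζ => hsm.contDiffAt (hU.mem_nhds hζ)
  have hloc : ∀ ζ ∈ U, ContDiffAt ℝ ∞ H (f ζ) := fun ζ hζ => by
    let e : CV n ≃L[ℝ] CV n :=
      (LinearEquiv.ofBijective (fderiv ℝ f ζ).toLinearMap (hbij ζ hζ)).toContinuousLinearEquiv
    have hd : HasFDerivAt f (e : CV n →L[ℝ] CV n) ζ :=
      ((hat ζ hζ).differentiableAt (by simp)).hasFDerivAt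
    have hn : (∞ : WithTop ℕ∞) ≠ 0 := by simp
    have h1 := (hat ζ hζ).to_localInverse hd hn
    have h2 : (hat ζ hζ).localInverse hd hn (f ζ) = ζ := (hat ζ hζ).localInverse_apply_image hd hn
    have h3 : ∀ᶠ z in 𝓝 (f ζ), f ((hat ζ hζ).localInverse hd hn z) = z :=
      ((hat ζ hζ).hasStrictFDerivAt' hd hn).eventually_right_inverse
    have h4 : ∀ᶠ z in 𝓝 (f ζ), (hat ζ hζ).localInverse hd hn z ∈ U :=
      h1.continuousAt.eventually (hU.mem_nhds (by rwa [h2]))
    refine (hφ.contDiffAt.comp (f ζ) h1).congr_of_eventuallyEq ?_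
    filter_upwards [h3, h4] with z a b
    rw [Function.comp_apply, ← hHf _ b, a]
  have hK : IsClosed (f '' cball n r') :=
    ((isCompact_cball r').image_of_continuousOn
      (hsm.continuousOn.mono (hsub'.trans hsub))).isClosed
  refine ⟨H, contDiff_iff_contDiffAt.2 fun z => ?_,
    fun z hz => hH0 z fun h => hz (image_mono hsub' h), fun ζ hζ => ⟨hHf ζ (hsub hζ), ?_⟩⟩
  · by_cases h : z ∈ f '' cball n r'
    · obtain ⟨ζ, hζ, rfl⟩ := h
      exact hloc ζ (hsub (hsub' hζ))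
    · refine (contDiffAt_const (c := (0 : ℝ))).congr_of_eventuallyEq ?_
      filter_upwards [hK.isOpen_compl.mem_nhds h] with w hw
      exact hH0 w hw
  · have hζ' := hsub hζ
    refine ham_eq fun u => ?_
    obtain ⟨w, rfl⟩ := (hbij ζ hζ').2 u
    rw [hω ζ hζ', om0_ham]
    have h1 : φ =ᶠ[𝓝 ζ] H ∘ f := by
      filter_upwards [hU.mem_nhds hζ'] with x hx
      exact (hHf x hx).symm
    rw [h1.fderiv_eq, fderiv_comp ζ ((hloc ζ hζ').differentiableAt (by simp))
      ((hat ζ hζ').differentiableAt (by simp))]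
    rfl

end Vale.Agent.P209
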