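import Vale.Agent.P209.Basic4

/-! P209: the critical values of the discrete action. -/

open Set Filter Topology Function
open scoped Real ContDiff

noncomputable section
namespace Vale.Agent.P209
namespace Spec
variable {n : ℕ}

/-- rotation by the angle `-2 θ` -/
def rt (θ : ℝ) : ℂ := Complex.exp (-(2 * θ : ℝ) * Complex.I)

theorem rt_add (a b : ℝ) : rt (a + b) = rt b * rt a := by
  rw [rt, rt, rt, ← Complex.exp_add]
  congr 1
  push_cast
  ring

theorem rt_zero : rt 0 = 1 := by simp [rt]

theorem rt_pi : rt π = 1 := by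
  rw [rt, neg_mul, Complex.exp_neg]
  push_cast
  rw [Complex.exp_two_pi_mul_I, inv_one]

theorem norm_rt (a : ℝ) : ‖rt a‖ = 1 := by
  rw [rt, ← Complex.ofReal_neg, Complex.norm_exp_ofReal_mul_I]

theorem rt_eq_one {a : ℝ} (h : rt a = 1) : ∃ m : ℤ, a = m * π := by
  obtain ⟨m, hm⟩ := Complex.exp_eq_one_iff.1 h
  refine ⟨-m, ?_⟩
  have := congrArg Complex.im hm
  simp at this
  push_cast
  linarith

theorem rot {sg : ℝ} {u u' : CV n} (h : u' - u = -((2 * sg) • (Complex.I • md u u'))) :
    u' = rt (Real.arctan sg) • u := by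
  have hc := Real.cos_arctan_pos sg
  have ht := Real.tan_arctan sg
  rw [Real.tan_eq_sin_div_cos, div_eq_iff hc.ne'] at ht
  generalize Real.arctan sg = θ at hc ht
  have hE : rt θ = ((Real.cos θ : ℂ) - Real.sin θ * Complex.I) ^ 2 := by
    rw [rt, show -((2 * θ : ℝ) : ℂ) * Complex.I = -θ * Complex.I + -θ * Complex.I by
      push_cast; ring, Complex.exp_add, Complex.exp_mul_I, Complex.cos_neg, Complex.sin_neg]
    push_cast
    ring
  have h1 : (Real.sin θ : ℂ) = sg * Real.cos θ := by exact_mod_cast ht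
  have h2 : (Real.cos θ : ℂ) ^ 2 + (Real.sin θ : ℂ) ^ 2 = 1 := by
    exact_mod_cast Real.cos_sq_add_sin_sq θ
  funext j
  have hj := congrFun h j
  simp only [md, Pi.sub_apply, Pi.neg_apply, Pi.smul_apply, Pi.add_apply, smul_eq_mul,
    Complex.real_smul] at hj
  push_cast at hj
  rw [Pi.smul_apply, smul_eq_mul, hE]
  rw [h1] at h2 ⊢
  have hI := Complex.I_mul_I
  linear_combination (Real.cos θ : ℂ) ^ 2 * (1 - sg * Complex.I) * hj - u' j * h2
    + (Real.cos θ : ℂ) ^ 2 * sg ^ 2 * u' j * hI

theorem sum_zmod {L : ℕ} [NeZero L] (F : ZMod L → ℝ) :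
    ∑ k, F k = ∑ k ∈ Finset.range L, F (k : ℕ) :=
  Finset.sum_nbij' (fun k => k.val) (fun k => (k : ZMod L))
    (fun k _ => Finset.mem_range.2 (ZMod.val_lt k)) (fun _ _ => Finset.mem_univ _)
    (fun k _ => ZMod.natCast_zmod_val k)
    (fun _ hk => ZMod.val_cast_of_lt (Finset.mem_range.1 hk))
    fun k _ => by rw [ZMod.natCast_zmod_val]

theorem md_self (u : CV n) : md u u = u := by
  rw [md, ← two_smul ℝ u, smul_smul]
  norm_num

/-- the radial part of a closed orbit -/
theorem radial {K : ℕ} (hK : 3 ≤ K) {g : ℝ → ℝ} {xR : ℝ} (hx : 0 ≤ xR) (hg : IsProf xR g)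
    (σ : Bool) (w : ℕ → CV n)
    (hw : ∀ i < K, w (i + 1) - w i = -((2 * (Real.tan (π / K) *
      (if σ then 1 - deriv g (nsq (md (w i) (w (i + 1))))
        else deriv g (nsq (md (w i) (w (i + 1))))))) • (Complex.I • md (w i) (w (i + 1)))))
    (hout : xR < nsq (w K) → w 0 = w K) :
    w 0 = w K ∧ ∀ i < K, nsq (md (w i) (w (i + 1))) ≤ xR := by
  have hp := Real.pi_pos
  have hK0 : (3 : ℝ) ≤ K := by exact_mod_cast hK
  have h1 : 0 < π / K := by positivity
  have h2 : π / K < π / 2 := div_lt_div_of_pos_left hp (by norm_num) (by linarith)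
  have ht : 0 < Real.tan (π / K) := Real.tan_pos_of_pos_of_lt_pi_div_two h1 h2
  have ha : Real.arctan (Real.tan (π / K)) = π / K := Real.arctan_tan (by linarith) h2
  generalize Real.tan (π / K) = t at hw ht ha
  obtain ⟨x, hxd⟩ : ∃ x : ℕ → ℝ, ∀ i, x i = nsq (md (w i) (w (i + 1))) := ⟨_, fun _ => rfl⟩
  simp only [← hxd] at hw ⊢
  obtain ⟨θ, hθ⟩ : ∃ θ : ℕ → ℝ, ∀ i, θ i = Real.arctan (t *
    (if σ then 1 - deriv g (x i) else deriv g (x i))) := ⟨_, fun _ => rfl⟩
  have r1 : ∀ i ≤ K, w i = rt (∑ j ∈ Finset.range i, θ j) • w 0 := by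
    intro i hi
    induction i with
    | zero => simp [rt_zero]
    | succ i ih =>
      rw [Finset.sum_range_succ, rt_add, mul_smul, ← ih (by omega), hθ]
      exact rot (hw i (by omega))
  have r2 : ∀ i ≤ K, nsq (w i) = nsq (w 0) := fun i hi => by
    rw [r1 i hi, nsq_smul, norm_rt, one_pow, one_mul]
  have d0 : ∀ y, 0 ≤ deriv g y ∧ deriv g y < 1 := fun y => by
    rcases le_or_gt y xR with c | c
    · rw [(hg.lo y c).2]
      norm_num
    · exact ⟨(hg.hi y c).1.le, (hg.hi y c).2⟩
  have eK : ∑ _j ∈ Finset.range K, π / K = π := by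
    rw [Finset.sum_const, Finset.card_range, nsmul_eq_mul]
    field_simp
  rcases le_or_gt (nsq (w K)) xR with c | c
  · have hx' : ∀ i < K, x i ≤ xR := fun i hi => by
      have := nsq_md_le (w i) (w (i + 1))
      rw [r2 i hi.le, r2 (i + 1) hi, ← r2 K le_rfl, ← hxd] at this
      linarith
    refine ⟨?_, hx'⟩
    rw [r1 K le_rfl]
    cases σ
    · rw [Finset.sum_eq_zero fun i hi => by
        rw [hθ, (hg.lo _ (hx' i (Finset.mem_range.1 hi))).2]
        simp, rt_zero, one_smul]
    · rw [Finset.sum_congr rfl (g := fun _ => π / K) fun i hi => by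
        rw [hθ, (hg.lo _ (hx' i (Finset.mem_range.1 hi))).2, ← ha]
        simp, eK, rt_pi, one_smul]
  have e0 := hout c
  refine ⟨e0, ?_⟩
  have hne : w 0 ≠ 0 := fun h => by
    rw [← e0, h] at c
    simp [nsq] at c
    linarith
  have e1 : rt (∑ j ∈ Finset.range K, θ j) = 1 := by
    have := r1 K le_rfl
    rw [← e0] at this
    exact (smul_left_injective ℂ hne (by simpa using this)).symm
  obtain ⟨m, hm⟩ := rt_eq_one e1
  have hne' : (Finset.range K).Nonempty := ⟨0, Finset.mem_range.2 (by omega)⟩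
  cases σ
  · exfalso
    simp only [Bool.false_eq_true, if_false] at hθ hw
    have a1 : ∀ i ∈ Finset.range K, 0 ≤ θ i := fun i _ => by
      rw [hθ]
      exact Real.arctan_nonneg.2 (mul_nonneg ht.le (d0 _).1)
    have a2 : ∀ i ∈ Finset.range K, θ i < π / K := fun i _ => by
      rw [hθ, ← ha]
      exact Real.arctan_strictMono (mul_lt_of_lt_one_right ht (d0 _).2)
    have b1 := Finset.sum_nonneg a1
    have b2 := Finset.sum_lt_sum_of_nonempty hne' a2
    rw [eK, hm] at b2
    rw [hm] at b1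
    have m1 : (0 : ℝ) ≤ m := nonneg_of_mul_nonneg_left b1 hp
    have m2 : (m : ℝ) < 1 := by nlinarith
    have m3 : m = 0 := by
      have : 0 ≤ m := by exact_mod_cast m1
      have : m < 1 := by exact_mod_cast m2
      omega
    rw [m3, Int.cast_zero, zero_mul, Finset.sum_eq_zero_iff_of_nonneg a1] at hm
    have z := hm 0 (Finset.mem_range.2 (by omega))
    have z1 := r1 1 (by omega)
    rw [Finset.sum_range_one, z, rt_zero, one_smul] at z1
    rw [hθ, Real.arctan_eq_zero_iff, hxd, z1, md_self, e0] at z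
    exact absurd z (mul_pos ht (hg.hi _ c).1).ne'
  · simp only [if_true] at hθ hw
    have a1 : ∀ i ∈ Finset.range K, 0 < θ i := fun i _ => by
      rw [hθ]
      exact Real.arctan_pos.2 (mul_pos ht (sub_pos.2 (d0 _).2))
    have a2 : ∀ i ∈ Finset.range K, θ i ≤ π / K := fun i _ => by
      rw [hθ, ← ha]
      exact Real.arctan_strictMono.monotone
        (mul_le_of_le_one_right ht.le (by linarith [(d0 (x i)).1]))
    have b1 := Finset.sum_pos a1 hne'
    rw [hm] at b1
    have m1 : (0 : ℝ) < m := (mul_pos_iff_of_pos_right hp).1 b1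
    have m2 : (1 : ℝ) ≤ m := by
      have : 0 < m := by exact_mod_cast m1
      exact_mod_cast this
    intro i hi
    by_contra hc
    have a3 : θ i < π / K := by
      rw [hθ, ← ha]
      exact Real.arctan_strictMono
        (mul_lt_of_lt_one_right ht (by linarith [(hg.hi _ (not_le.1 hc)).1]))
    have b2 := Finset.sum_lt_sum a2 ⟨i, Finset.mem_range.2 hi, a3⟩
    rw [eK, hm] at b2
    nlinarith

end Spec

open Spec in
theorem specS : SpecStmt := by
  intro n L _ N K H g a b xR ε s σ v hL hK _ hx hH hg hD hv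
  obtain ⟨u, hu⟩ : ∃ u : ℕ → CV n, ∀ k, u k = v k := ⟨_, fun _ => rfl⟩
  have uL : u (N + K) = u 0 := by rw [hu, hu, ← hL, ZMod.natCast_self, Nat.cast_zero]
  have u1 : ∀ k : ℕ, v ((k : ZMod L) + 1) = u (k + 1) := fun k => by rw [hu, Nat.cast_succ]
  have um : ∀ k : ℕ, mid v (k : ZMod L) = md (u k) (u (k + 1)) := fun k => by rw [mid, u1, hu k]
  have f1 : ∀ k < N, stepf N (Real.tan (π / K)) s H g σ (k : ZMod L) = fun w => -(s / N) * H w :=
    fun k hk => by
      funext w
      rw [stepf, ZMod.val_cast_of_lt (by omega), if_pos hk]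
  have f2 : ∀ i < K, stepf N (Real.tan (π / K)) s H g σ ((N + i : ℕ) : ZMod L)
      = fun w => (fun x => Real.tan (π / K) * if σ then x - g x else g x) (nsq w) :=
    fun i hi => by
      funext w
      rw [stepf, ZMod.val_cast_of_lt (by omega), if_neg (by omega)]
      cases σ <;> simp
  have s1 : ∀ k < N, u (k + 1) - u k = (s / N) • ham H (md (u k) (u (k + 1))) := fun k hk => by
    have := hv k
    rwa [u1, ← hu, f1 k hk, ham_const_mul _ (hH _), um, neg_smul, neg_neg] at this
  have s2 : ∀ i < K, u (N + (i + 1)) - u (N + i) = -((2 * (Real.tan (π / K) *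
      (if σ then 1 - deriv g (nsq (md (u (N + i)) (u (N + (i + 1)))))
        else deriv g (nsq (md (u (N + i)) (u (N + (i + 1)))))))) •
          (Complex.I • md (u (N + i)) (u (N + (i + 1))))) := fun i hi => by
    have := hv (N + i : ℕ)
    rw [u1, ← hu, f2 i hi, um] at this
    rw [← add_assoc, this]
    congr 1
    refine ham_radial (γ := fun x => Real.tan (π / K) * if σ then x - g x else g x) ?_
    have d := (hg.diff (nsq (md (u (N + i)) (u (N + i + 1))))).hasDerivAt
    cases σ
    · exact d.const_mul _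
    · exact ((hasDerivAt_id' _).fun_sub d).const_mul _
  obtain ⟨r1, r2⟩ := radial hK hx hg σ (fun i => u (N + i)) s2 (fun h => by
    rw [uL] at h ⊢
    have : ∀ k ≤ N, u k = u 0 := fun k hk => by
      induction k with
      | zero => rfl
      | succ k ih =>
        have e := ih (by omega)
        rw [(hD.out _ _ (s1 k hk) (e ▸ h)).1, e]
    exact this N le_rfl)
  rw [uL] at r1
  obtain ⟨c, hc, hc'⟩ := hD.orb u s1 r1
  refine ⟨c, hc, le_of_eq_of_le ?_ hc'⟩
  congr 2
  rw [act, Qf, ← Finset.sum_add_distrib, sum_zmod]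
  rw [show Finset.range L = Finset.range (N + K) by rw [hL], Finset.sum_range_add,
    Finset.sum_eq_zero (s := Finset.range K), add_zero]
  · refine Finset.sum_congr rfl fun k hk => ?_
    rw [u1, ← hu, f1 k (Finset.mem_range.1 hk), um]
    ring
  · intro i hi
    have hi' := Finset.mem_range.1 hi
    have e1 := s2 i hi'
    have e2 := hg.lo _ (r2 i hi')
    rw [u1, ← hu, f2 i hi', um, om0_md, add_assoc N, e1, om0_neg_right, om0_smul_right,
      om0_I_self]
    simp only [e2.1, e2.2]
    cases σ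
    · simp
    · simp only [if_true]
      ring

end Vale.Agent.P209
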