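import Vale.Agent.P209.Basic4

open Set Filter Topology Function MeasureTheory
open scoped Real ContDiff Pointwise

noncomputable section
namespace Vale.Agent.P209
namespace VolNec
variable {n : ℕ}

theorem abs_det_eq_one (A : CV n →L[ℝ] CV n) (h : ∀ u v, omega0 (A u) (A v) = omega0 u v) :
    |A.det| = 1 := by
  classical
  let b := Module.finBasis ℝ (CV n)
  let B : LinearMap.BilinForm ℝ (CV n) := omL n
  have hB : B.Nondegenerate := by
    refine LinearMap.BilinForm.Nondegenerate.ofSeparatingRight ?_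
    intro v hv
    exact om0_ext fun u => by rw [om0_zero_right]; exact hv u
  have hd := (LinearMap.BilinForm.nondegenerate_iff_det_ne_zero b).1 hB
  have hc : B.comp (A : CV n →ₗ[ℝ] CV n) (A : CV n →ₗ[ℝ] CV n) = B :=
    LinearMap.BilinForm.ext fun u v => h u v
  have hm := LinearMap.BilinForm.toMatrix_comp b b B (A : CV n →ₗ[ℝ] CV n) (A : CV n →ₗ[ℝ] CV n)
  rw [hc] at hm
  have h2 := congrArg Matrix.det hm
  rw [Matrix.det_mul, Matrix.det_mul, Matrix.det_transpose, LinearMap.det_toMatrix] at h2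
  have h3 : A.det * A.det = 1 := by
    apply mul_left_cancel₀ hd
    rw [mul_one]
    conv_rhs => rw [h2]
    unfold ContinuousLinearMap.det
    ring
  rcases mul_self_eq_one_iff.1 h3 with h4 | h4 <;> simp [h4]

theorem vol_image {r : ℝ} {f : CV n → CV n} (hf : IsSympEmb r f) :
    volume (f '' cball n r) = volume (cball n r) := by
  obtain ⟨U, hU, hsub, hs, he, hw⟩ := hf
  have hm : MeasurableSet (cball n r) := (isCompact_cball r).measurableSet
  have hd : ∀ x ∈ cball n r, HasFDerivWithinAt f (fderiv ℝ f x) (cball n r) x := fun x hx =>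
    ((hs.contDiffAt (hU.mem_nhds (hsub hx))).differentiableAt (by simp)).hasFDerivAt.hasFDerivWithinAt
  have hi : InjOn f (cball n r) := fun x hx y hy hxy => by
    have := he.injective (a₁ := ⟨x, hsub hx⟩) (a₂ := ⟨y, hsub hy⟩) hxy
    exact congrArg Subtype.val this
  rw [← lintegral_abs_det_fderiv_eq_addHaar_image volume hm hd hi,
    setLIntegral_congr_fun hm (g := fun _ => 1) fun x hx => by
      simp only [abs_det_eq_one _ (hw x (hsub hx)), ENNReal.ofReal_one]]
  simp

theorem cball_eq {r : ℝ} (hr : 0 < r) : cball n r = (√r) • cball n 1 := by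
  have hs : 0 < √r := Real.sqrt_pos.2 hr
  have key : ∀ (c : ℝ) (z : CV n), nsq (c • z) = c ^ 2 * nsq z := fun c z => by
    simp only [nsq, Pi.smul_apply, norm_smul, mul_pow, Finset.mul_sum, Real.norm_eq_abs, sq_abs]
  ext z
  rw [mem_smul_set_iff_inv_smul_mem₀ hs.ne', mem_cball, mem_cball, key, inv_pow,
    Real.sq_sqrt hr.le, mul_left_comm, inv_mul_le_iff₀ hr, mul_one]

theorem vol_cball {r : ℝ} (hr : 0 < r) :
    volume (cball n r) = ENNReal.ofReal (r ^ n) * volume (cball n 1) := by
  rw [cball_eq hr, Measure.addHaar_smul_of_nonneg _ (Real.sqrt_nonneg r)]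
  congr 2
  have : Module.finrank ℝ (CV n) = 2 * n := by
    rw [Module.finrank_pi_fintype, Complex.finrank_real_complex]
    simp [mul_comm]
  rw [this, pow_mul, Real.sq_sqrt hr.le]

theorem vol_one_pos : 0 < volume (cball n 1) := by
  have ho : IsOpen {z : CV n | π * nsq z < 1} :=
    isOpen_lt (continuous_const.mul contDiff_nsq.continuous) continuous_const
  have h0 : (0 : CV n) ∈ {z : CV n | π * nsq z < 1} := by simp [nsq]
  exact (ho.measure_pos volume ⟨0, h0⟩).trans_le
    (measure_mono fun z hz => mem_cball.2 (le_of_lt hz))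

theorem isCompact_image {r : ℝ} {f : CV n → CV n} (hf : IsSympEmb r f) :
    IsCompact (f '' cball n r) := by
  obtain ⟨U, -, hsub, hs, -, -⟩ := hf
  exact (isCompact_cball r).image_of_continuousOn (hs.continuousOn.mono hsub)

theorem cball_mono {r s : ℝ} (h : r ≤ s) : cball n r ⊆ cball n s :=
  fun _ hz => mem_cball.2 ((mem_cball.1 hz).trans h)

theorem exists_eps {r : ℝ} {W : Set (CV n)} (hW : IsOpen W) (h : cball n r ⊆ W) :
    ∀ᶠ ε in 𝓝[>] (0 : ℝ), cball n (r + ε) ⊆ W := by
  have : ∃ m : ℕ, cball n (r + 1 / ((m : ℝ) + 1)) ⊆ W := by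
    refine exists_subset_nhds_of_isCompact (V := fun m : ℕ => cball n (r + 1 / ((m : ℝ) + 1)))
      (directed_of_isDirected_le fun a b hab => cball_mono ?_) (fun _ => isCompact_cball _) ?_
    · have : (a : ℝ) ≤ b := by exact_mod_cast hab
      gcongr
    · intro x hx
      refine hW.mem_nhds (h (mem_cball.2 ?_))
      have ht : Tendsto (fun m : ℕ => r + 1 / ((m : ℝ) + 1)) atTop (𝓝 (r + 0)) :=
        tendsto_one_div_add_atTop_nhds_zero_nat.const_add r
      rw [add_zero] at ht
      exact ge_of_tendsto' ht fun m => mem_cball.1 (mem_iInter.1 hx m)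
  obtain ⟨m, hm⟩ := this
  have hp : (0 : ℝ) < 1 / ((m : ℝ) + 1) := by positivity
  filter_upwards [Ioo_mem_nhdsGT hp] with ε hε
  exact (cball_mono (by linarith [hε.2])).trans hm

end VolNec
open VolNec

theorem volNecS : VolNecStmt := by
  intro n k r R hR hr ⟨f, hf, hin, hdis⟩
  have hm : ∀ i, MeasurableSet (f i '' cball n (r i)) := fun i =>
    (isCompact_image (hf i)).measurableSet
  have h1 : volume (⋃ i, f i '' cball n (r i)) ≤ volume (cball n R) :=
    measure_mono (iUnion_subset fun i => (hin i).trans interior_subset)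
  rw [measure_iUnion (fun i j hij => hdis i j hij) hm, tsum_fintype] at h1
  simp only [vol_image (hf _), vol_cball (hr _)] at h1
  rw [vol_cball hR, ← Finset.sum_mul,
    ENNReal.mul_le_mul_iff_left vol_one_pos.ne' (isCompact_cball 1).measure_lt_top.ne,
    ← ENNReal.ofReal_sum_of_nonneg fun i _ => pow_nonneg (hr i).le n] at h1
  exact (ENNReal.ofReal_le_ofReal_iff (pow_nonneg hR.le n)).1 h1

theorem enlargeS : EnlargeStmt := by
  intro n k r R ⟨f, hf, hin, hdis⟩
  have hp : Pairwise (Disjoint on fun i => 𝓝ˢ (f i '' cball n (r i))) := fun i j hij =>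
    (SeparatedNhds.of_isCompact_isCompact (isCompact_image (hf i)) (isCompact_image (hf j))
      (hdis i j hij)).disjoint_nhdsSet
  obtain ⟨O, hO, hOd⟩ := hp.exists_mem_filter_basis_of_disjoint fun i => hasBasis_nhdsSet _
  choose U hU hsub hs he hw using hf
  have hev : ∀ᶠ ε in 𝓝[>] (0 : ℝ), ∀ i,
      cball n (r i + ε) ⊆ U i ∩ f i ⁻¹' (O i ∩ interior (cball n R)) := by
    refine eventually_all.2 fun i => exists_eps
      ((hs i).continuousOn.isOpen_inter_preimage (hU i) ((hO i).1.inter isOpen_interior)) ?_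
    intro z hz
    exact ⟨hsub i hz, (hO i).2 ⟨z, hz, rfl⟩, hin i ⟨z, hz, rfl⟩⟩
  obtain ⟨ε, hε, hpos⟩ := (hev.and self_mem_nhdsWithin).exists
  refine ⟨ε, hpos, f, fun i => ⟨U i, hU i, fun z hz => (hε i hz).1, hs i, he i, hw i⟩, ?_, ?_⟩
  · rintro i _ ⟨z, hz, rfl⟩
    exact (hε i hz).2.2
  · intro i j hij
    refine (hOd hij).mono ?_ ?_
    · rintro _ ⟨z, hz, rfl⟩
      exact (hε i hz).2.1
    · rintro _ ⟨z, hz, rfl⟩
      exact (hε j hz).2.1

end Vale.Agent.P209
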