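import Vale.Agent.P209.All3
import Vale.Agent.P209.Four
import Vale.Agent.P209.MinMax
import Vale.Agent.P209.Spec
import Vale.Agent.P209.BaseE
import Vale.Agent.P209.Disc
import Vale.Agent.P209.One
import Vale.Agent.P209.Push
import Vale.Agent.P209.Osc
import Vale.Agent.P209.AdmQ
import Vale.Agent.P209.AdmA
import Vale.Agent.P209.Prof
import Vale.Agent.P209.Ham
import Vale.Agent.P209.VolNec

noncomputable section
namespace Vale.Agent.P209

theorem twoA : TwoStmt :=
  twoS (hamS (oneS pushS phiS)) (oscS minMaxS (admActS admQS) (critS qaddS) fourS (profS phiS)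
    quadS (discS quadS) specS defS (baseS qaddS))

theorem packs_iff (n : ℕ) (hn : 3 ≤ n) (k : ℕ) (hk : 1 ≤ k) (R : ℝ) (r : Fin k → ℝ) (hR : 0 < R)
    (h0 : ∀ i, 0 < r i) :
    Packs n k r R ↔ ∑ i, r i ^ n < R ^ n ∧ ∀ i j, i < j → r i + r j < R := by
  refine ⟨fun h => ?_, fun h => packs_all n hn k R r hR h0 h.1 h.2⟩
  obtain ⟨ε, hε, h'⟩ := enlargeS n k r R h
  have h1 : ∀ i, 0 < r i + ε := fun i => by linarith [h0 i]
  refine ⟨lt_of_lt_of_le ?_ (volNecS n k _ R hR h1 h'), fun i j hij => ?_⟩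
  · haveI : Nonempty (Fin k) := ⟨⟨0, hk⟩⟩
    exact Finset.sum_lt_sum_of_nonempty Finset.univ_nonempty fun i _ =>
      pow_lt_pow_left₀ (by linarith) (h0 i).le (by omega)
  · obtain ⟨f, a, b, c⟩ := h'
    have := twoA n _ _ R (f i) (f j) hR (h1 i) (h1 j) (a i) (a j) (b i) (b j) (c i j hij.ne)
    linarith

end Vale.Agent.P209
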