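import Vale.Agent.P209.Stm

open Set Filter Topology Function
open scoped Real ContDiff

noncomputable section
namespace Vale.Agent.P209
variable {ι : Type} [Fintype ι] [DecidableEq ι]

theorem SympAt.comp {F G : Ph ι → Ph ι} {x : Ph ι} (hG : SympAt G (F x)) (hF : SympAt F x) :
    SympAt (G ∘ F) x := by
  refine ⟨hG.1.comp x hF.1, fun u v => ?_⟩
  rw [fderiv_comp x (hG.1.differentiableAt (by simp)) (hF.1.differentiableAt (by simp))]
  simp only [ContinuousLinearMap.comp_apply]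
  rw [hG.2, hF.2]

theorem SympAt.comp' {F G : Ph ι → Ph ι} {x : Ph ι} (hG : SympAt G (F x)) (hF : SympAt F x) :
    SympAt (fun y => G (F y)) x := hG.comp hF

theorem SympAt.congr {F G : Ph ι → Ph ι} {x : Ph ι} (hG : SympAt G x) (h : F =ᶠ[𝓝 x] G) :
    SympAt F x := by
  refine ⟨hG.1.congr_of_eventuallyEq h, fun u v => ?_⟩
  rw [h.fderiv_eq]
  exact hG.2 u v

theorem SympAt.continuousAt {F : Ph ι → Ph ι} {x : Ph ι} (h : SympAt F x) : ContinuousAt F x :=
  h.1.continuousAt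

theorem sympAt_id (x : Ph ι) : SympAt (fun y => y) x :=
  ⟨contDiffAt_id, fun u v => by simp⟩

theorem sympAt_add_const (c x : Ph ι) : SympAt (fun y => y + c) x :=
  ⟨contDiffAt_id.add contDiffAt_const, fun u v => by simp [fderiv_add_const]⟩

theorem sympAt_sub_const (c x : Ph ι) : SympAt (fun y => y - c) x := by
  simpa [sub_eq_add_neg] using sympAt_add_const (-c) x

theorem area_id (z : ℝ × ℝ) : Area (fun w => w) z :=
  ⟨contDiffAt_id, by simp⟩

theorem Emb.trans {A B C : Set (Ph ι)} {ra rb rc : Ph ι → Ph ι → Prop} (h1 : Emb A ra B rb)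
    (h2 : Emb B rb C rc) : Emb A ra C rc := by
  obtain ⟨F, hF, mF, rF⟩ := h1
  obtain ⟨G, hG, mG, rG⟩ := h2
  exact ⟨G ∘ F, fun x hx => (hG _ (mF hx)).comp (hF x hx), mG.comp mF,
    fun x hx y hy h => rF x hx y hy (rG _ (mF hx) _ (mF hy) h)⟩

theorem Emb.mono {A A' B B' : Set (Ph ι)} {ra rb : Ph ι → Ph ι → Prop} (h : Emb A ra B rb)
    (hA : A' ⊆ A) (hB : B ⊆ B') : Emb A' ra B' rb := by
  obtain ⟨F, hF, mF, rF⟩ := h
  exact ⟨F, fun x hx => hF x (hA hx), fun x hx => hB (mF (hA hx)),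
    fun x hx y hy h => rF x (hA hx) y (hA hy) h⟩

theorem Emb.mono_tor {A : Set (Ph ι)} {U U' : Set (ι → ℝ)} {ra rb : Ph ι → Ph ι → Prop}
    (h : Emb A ra (tor U) rb) (hU : U ⊆ U') : Emb A ra (tor U') rb :=
  h.mono subset_rfl fun _ hx => hU hx

theorem Emb.refl_of_subset {A B : Set (Ph ι)} {r : Ph ι → Ph ι → Prop} (h : A ⊆ B) :
    Emb A r B r :=
  ⟨fun y => y, fun x _ => sympAt_id x, fun _ hx => h hx, fun _ _ _ _ h => h⟩

theorem Lat.refl (x : Ph ι) : Lat x x := ⟨rfl, fun _ => ⟨0, by simp⟩⟩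

/-- weaken the region and the length of a loop family -/
def LoopData.mono {hi : ℝ} {Reg Reg' : ℝ → ℝ → ℝ → Prop} {ell ell' : ℝ → ℝ}
    (P : LoopData hi Reg ell) (hR : ∀ D ∈ Ioo 0 hi, ∀ U V, Reg D U V → Reg' D U V)
    (hl : ∀ D ∈ Ioo 0 hi, ell' D ≤ ell D) : LoopData hi Reg' ell' :=
  { P with
    len := fun D hD => (hl D hD).trans (P.len D hD)
    reg := fun t D hD => hR D hD _ _ (P.reg t D hD) }

theorem Pack.toPackB {κ : Type} {ρ : κ → ℝ} {U : Set (ι → ℝ)} {B : Set (Ph ι)} (h : Pack ρ U)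
    (hE : Emb (tor U) Lat B Eq) : PackB ρ B := by
  obtain ⟨V, hV, hd, hE'⟩ := h
  obtain ⟨G, hG, mG, rG⟩ := hE
  choose F hF mF rF using hE'
  refine ⟨fun i => G ∘ F i, fun i x hx => ⟨(hG _ (hV i (mF i hx))).comp (hF i x hx),
    mG (hV i (mF i hx))⟩, fun i j x hx y hy h => ?_⟩
  have hl : Lat (F i x) (F j y) := rG _ (hV i (mF i hx)) _ (hV j (mF j hy)) h
  have hij : i = j := by
    by_contra hne
    have h1 : (F i x).1 ∈ V i := mF i hx
    have h2 : (F j y).1 ∈ V j := mF j hy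
    rw [← hl.1] at h2
    exact (Set.disjoint_left.1 (hd hne)) h1 h2
  subst hij
  exact ⟨rfl, rF i x hx y hy hl⟩

end Vale.Agent.P209
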