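import Vale.Agent.P209.Stm4

open Set Filter Topology Function
open scoped Real ContDiff

noncomputable section
namespace Vale.Agent.P209
variable {n : ℕ}

theorem om0_add_left (u u' v : CV n) : omega0 (u + u') v = omega0 u v + omega0 u' v := by
  simp only [omega0, Pi.add_apply, Complex.add_re, Complex.add_im, ← Finset.sum_add_distrib]
  exact Finset.sum_congr rfl fun _ _ => by ring

theorem om0_add_right (u v v' : CV n) : omega0 u (v + v') = omega0 u v + omega0 u v' := by
  simp only [omega0, Pi.add_apply, Complex.add_re, Complex.add_im, ← Finset.sum_add_distrib]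
  exact Finset.sum_congr rfl fun _ _ => by ring

theorem om0_smul_left (c : ℝ) (u v : CV n) : omega0 (c • u) v = c * omega0 u v := by
  simp only [omega0, Pi.smul_apply, Complex.real_smul, Complex.mul_re, Complex.mul_im,
    Complex.ofReal_re, Complex.ofReal_im, Finset.mul_sum]
  exact Finset.sum_congr rfl fun _ _ => by ring

theorem om0_smul_right (c : ℝ) (u v : CV n) : omega0 u (c • v) = c * omega0 u v := by
  simp only [omega0, Pi.smul_apply, Complex.real_smul, Complex.mul_re, Complex.mul_im,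
    Complex.ofReal_re, Complex.ofReal_im, Finset.mul_sum]
  exact Finset.sum_congr rfl fun _ _ => by ring

theorem om0_swap (u v : CV n) : omega0 u v = -omega0 v u := by
  simp only [omega0, ← Finset.sum_neg_distrib]
  exact Finset.sum_congr rfl fun _ _ => by ring

theorem om0_self (u : CV n) : omega0 u u = 0 := by
  have := om0_swap u u
  linarith

/-- `omega0` as a bilinear map -/
def omL (n : ℕ) : CV n →ₗ[ℝ] CV n →ₗ[ℝ] ℝ :=
  LinearMap.mk₂ ℝ omega0 om0_add_left (fun c u v => om0_smul_left c u v) om0_add_right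
    fun c u v => om0_smul_right c u v

theorem omL_apply (u v : CV n) : omL n u v = omega0 u v := rfl

theorem om0_sub_left (u u' v : CV n) : omega0 (u - u') v = omega0 u v - omega0 u' v := by
  simp only [← omL_apply, map_sub, LinearMap.sub_apply]

theorem om0_sub_right (u v v' : CV n) : omega0 u (v - v') = omega0 u v - omega0 u v' := by
  simp only [← omL_apply, map_sub]

theorem om0_neg_right (u v : CV n) : omega0 u (-v) = -omega0 u v := by
  simp only [← omL_apply, map_neg]

theorem om0_zero_right (u : CV n) : omega0 u 0 = 0 := by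
  simp only [← omL_apply, map_zero]

theorem om0_zero_left (u : CV n) : omega0 0 u = 0 := by
  simp only [← omL_apply, map_zero, LinearMap.zero_apply]

theorem om0_md (u v : CV n) : omega0 u v = omega0 (md u v) (v - u) := by
  rw [md, om0_smul_left, om0_add_left, om0_sub_right, om0_sub_right, om0_self, om0_self,
    om0_swap v u]
  ring

theorem om0_single_one (j : Fin n) (v : CV n) : omega0 (Pi.single j 1) v = (v j).im := by
  rw [omega0, Finset.sum_eq_single j (fun i _ hi => by simp [hi]) (by simp)]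
  simp

theorem om0_single_I (j : Fin n) (v : CV n) :
    omega0 (Pi.single j Complex.I) v = -(v j).re := by
  rw [omega0, Finset.sum_eq_single j (fun i _ hi => by simp [hi]) (by simp)]
  simp

/-- nondegeneracy -/
theorem om0_ext {v w : CV n} (h : ∀ u, omega0 u v = omega0 u w) : v = w := by
  funext j
  have h1 := h (Pi.single j 1)
  have h2 := h (Pi.single j Complex.I)
  rw [om0_single_one, om0_single_one] at h1
  rw [om0_single_I, om0_single_I] at h2
  exact Complex.ext (by linarith) h1

theorem cv_decomp (u : CV n) : u = ∑ j, ((u j).re • (Pi.single j 1 : CV n)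
    + (u j).im • (Pi.single j Complex.I : CV n)) := by
  funext i
  rw [Finset.sum_apply, Finset.sum_eq_single i (fun j _ hj => by simp [hj.symm]) (by simp)]
  simp

theorem om0_ham (H : CV n → ℝ) (x u : CV n) : omega0 u (ham H x) = fderiv ℝ H x u := by
  conv_rhs => rw [cv_decomp u]
  simp only [omega0, ham, map_sum, map_add, map_smul, smul_eq_mul]
  exact Finset.sum_congr rfl fun _ _ => by ring

theorem ham_eq {H : CV n → ℝ} {x v : CV n} (h : ∀ u, fderiv ℝ H x u = omega0 u v) :
    ham H x = v := om0_ext fun u => by rw [om0_ham, h]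

theorem ham_congr {H H' : CV n → ℝ} {x : CV n} (h : H =ᶠ[𝓝 x] H') : ham H x = ham H' x := by
  unfold ham
  rw [h.fderiv_eq]

theorem ham_const_mul (c : ℝ) {H : CV n → ℝ} {x : CV n} (h : DifferentiableAt ℝ H x) :
    ham (fun z => c * H z) x = c • ham H x :=
  ham_eq fun u => by rw [om0_smul_right, om0_ham, fderiv_const_mul h]; rfl

theorem nsq_nonneg (z : CV n) : 0 ≤ nsq z := Finset.sum_nonneg fun _ _ => by positivity

theorem nsq_eq (z : CV n) : nsq z = ∑ j, ((z j).re ^ 2 + (z j).im ^ 2) :=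
  Finset.sum_congr rfl fun j _ => by rw [Complex.sq_norm, Complex.normSq_apply]; ring

theorem mem_cball {r : ℝ} {z : CV n} : z ∈ cball n r ↔ π * nsq z ≤ r := Iff.rfl

theorem norm_sq_le_nsq (z : CV n) : ‖z‖ ^ 2 ≤ nsq z := by
  have h : ‖z‖ ≤ √(nsq z) := (pi_norm_le_iff_of_nonneg (Real.sqrt_nonneg _)).2 fun j =>
    Real.le_sqrt_of_sq_le (Finset.single_le_sum (f := fun j => ‖z j‖ ^ 2)
      (fun _ _ => by positivity) (Finset.mem_univ j))
  calc ‖z‖ ^ 2 ≤ √(nsq z) ^ 2 := by gcongr
    _ = nsq z := Real.sq_sqrt (nsq_nonneg z)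

theorem nsq_le_norm_sq (z : CV n) : nsq z ≤ n * ‖z‖ ^ 2 := by
  have := Finset.sum_le_card_nsmul Finset.univ (fun j => ‖z j‖ ^ 2) (‖z‖ ^ 2) fun j _ => by
    have := norm_le_pi_norm z j
    gcongr
  simpa [nsq] using this

theorem nsq_eq_zero {z : CV n} (h : nsq z = 0) : z = 0 := by
  have h1 := norm_sq_le_nsq z
  rw [h] at h1
  exact norm_eq_zero.1 (by nlinarith [norm_nonneg z])

theorem om0_I (u v : CV n) :
    omega0 u (Complex.I • v) = ∑ j, ((u j).re * (v j).re + (u j).im * (v j).im) := by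
  simp only [omega0, Pi.smul_apply, smul_eq_mul, Complex.mul_re, Complex.mul_im, Complex.I_re,
    Complex.I_im]
  exact Finset.sum_congr rfl fun _ _ => by ring

theorem om0_I_self (u : CV n) : omega0 u (Complex.I • u) = nsq u := by
  rw [om0_I, nsq_eq]
  exact Finset.sum_congr rfl fun _ _ => by ring

theorem nsq_add (u v : CV n) :
    nsq (u + v) = nsq u + nsq v + 2 * omega0 v (Complex.I • u) := by
  rw [om0_I, nsq_eq, nsq_eq, nsq_eq, Finset.mul_sum, ← Finset.sum_add_distrib,
    ← Finset.sum_add_distrib]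
  refine Finset.sum_congr rfl fun _ _ => ?_
  simp only [Pi.add_apply, Complex.add_re, Complex.add_im]
  ring

theorem nsq_add_le {θ : ℝ} (hθ : 0 < θ) (u v : CV n) :
    nsq (u + v) ≤ (1 + θ) * nsq u + (1 + 1 / θ) * nsq v := by
  rw [nsq_eq, nsq_eq, nsq_eq, Finset.mul_sum, Finset.mul_sum, ← Finset.sum_add_distrib]
  refine Finset.sum_le_sum fun j _ => ?_
  simp only [Pi.add_apply, Complex.add_re, Complex.add_im]
  have key : ∀ x y : ℝ, (x + y) ^ 2 ≤ (1 + θ) * x ^ 2 + (1 + 1 / θ) * y ^ 2 := fun x y => by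
    have h1 : 0 ≤ (θ * x - y) ^ 2 / θ := by positivity
    have h2 : (θ * x - y) ^ 2 / θ = θ * x ^ 2 - 2 * x * y + 1 / θ * y ^ 2 := by
      field_simp
      ring
    nlinarith
  linarith [key (u j).re (v j).re, key (u j).im (v j).im]

theorem nsq_smul (c : ℂ) (u : CV n) : nsq (c • u) = ‖c‖ ^ 2 * nsq u := by
  simp only [nsq, Pi.smul_apply, smul_eq_mul, norm_mul, mul_pow, Finset.mul_sum]

theorem nsq_md_le (u v : CV n) : nsq (md u v) ≤ (nsq u + nsq v) / 2 := by
  have h := nsq_add_le one_pos u v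
  have h2 : nsq (md u v) = (1 / 2) ^ 2 * nsq (u + v) := by
    simp only [md, nsq, Pi.smul_apply, norm_smul, mul_pow, Finset.mul_sum, Real.norm_eq_abs]
    exact Finset.sum_congr rfl fun _ _ => by norm_num
  rw [h2]
  linarith

theorem abs_om0_le (u v : CV n) : |omega0 u v| ≤ 2 * n * (‖u‖ * ‖v‖) := by
  refine (Finset.abs_sum_le_sum_abs _ _).trans ?_
  have := Finset.sum_le_card_nsmul Finset.univ
    (fun j => |(u j).re * (v j).im - (u j).im * (v j).re|) (2 * (‖u‖ * ‖v‖)) fun j _ => by
      have a1 := (Complex.abs_re_le_norm (u j)).trans (norm_le_pi_norm u j)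
      have a2 := (Complex.abs_im_le_norm (u j)).trans (norm_le_pi_norm u j)
      have a3 := (Complex.abs_re_le_norm (v j)).trans (norm_le_pi_norm v j)
      have a4 := (Complex.abs_im_le_norm (v j)).trans (norm_le_pi_norm v j)
      refine (abs_sub _ _).trans ?_
      rw [abs_mul, abs_mul, two_mul]
      gcongr
  simp only [Finset.card_univ, Fintype.card_fin, nsmul_eq_mul] at this
  linarith

theorem contDiff_nsq : ContDiff ℝ ∞ (nsq : CV n → ℝ) := by
  have : (nsq : CV n → ℝ) = fun z => ∑ j, ((z j).re ^ 2 + (z j).im ^ 2) := funext nsq_eq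
  rw [this]
  refine ContDiff.sum fun j _ => ?_
  have hj : ContDiff ℝ ∞ fun z : CV n => z j := contDiff_apply ℝ ℂ j
  exact ((Complex.reCLM.contDiff.comp hj).pow 2).add ((Complex.imCLM.contDiff.comp hj).pow 2)

theorem fderiv_nsq (w u : CV n) : fderiv ℝ nsq w u = 2 * omega0 u (Complex.I • w) := by
  have hd : DifferentiableAt ℝ nsq w := contDiff_nsq.differentiable (by simp) w
  have h1 : HasDerivAt (fun s : ℝ => w + s • u) u 0 := by
    simpa using ((hasDerivAt_id (0 : ℝ)).smul_const u).const_add w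
  have h2 : HasDerivAt (fun s : ℝ => nsq (w + s • u)) (fderiv ℝ nsq w u) 0 := by
    have := hd.hasFDerivAt
    exact HasFDerivAt.comp_hasDerivAt_of_eq (hl := this) (hf := h1) (hy := by simp)
  have e : (fun s : ℝ => nsq (w + s • u))
      = fun s => nsq w + s ^ 2 * nsq u + 2 * (s * omega0 u (Complex.I • w)) := by
    funext s
    have : nsq (s • u) = s ^ 2 * nsq u := by
      simp only [nsq, Pi.smul_apply, norm_smul, mul_pow, Finset.mul_sum, Real.norm_eq_abs, sq_abs]
    rw [nsq_add, this, om0_smul_left]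
  rw [e] at h2
  have h3 := ((((hasDerivAt_pow 2 (0 : ℝ)).mul_const (nsq u)).const_add (nsq w)).fun_add
    (((hasDerivAt_id' (0 : ℝ)).mul_const (omega0 u (Complex.I • w))).const_mul 2))
  rw [h2.unique h3]
  simp

/-- the vector field of a radial function -/
theorem ham_radial {γ : ℝ → ℝ} {γ' : ℝ} {w : CV n} (h : HasDerivAt γ γ' (nsq w)) :
    ham (fun z => γ (nsq z)) w = (2 * γ') • (Complex.I • w) := by
  refine ham_eq fun u => ?_
  have hd : DifferentiableAt ℝ nsq w := contDiff_nsq.differentiable (by simp) w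
  have h1 : HasFDerivAt (fun z => γ (nsq z)) (γ' • fderiv ℝ nsq w) w :=
    h.comp_hasFDerivAt w hd.hasFDerivAt
  rw [h1.fderiv, ContinuousLinearMap.smul_apply, fderiv_nsq, om0_smul_right, smul_eq_mul]
  ring

theorem norm_ham_le (H : CV n → ℝ) (x : CV n) : ‖ham H x‖ ≤ 2 * ‖fderiv ℝ H x‖ := by
  refine (pi_norm_le_iff_of_nonneg (by positivity)).2 fun j => ?_
  refine (Complex.norm_le_abs_re_add_abs_im _).trans ?_
  have a := (fderiv ℝ H x).le_opNorm (Pi.single j Complex.I)
  have b := (fderiv ℝ H x).le_opNorm (Pi.single j 1)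
  rw [Pi.norm_single] at a b
  simp only [Complex.norm_I, norm_one, mul_one, Real.norm_eq_abs] at a b
  simp only [ham, abs_neg]
  linarith

theorem norm_ham_sub_le (H : CV n → ℝ) (x y : CV n) :
    ‖ham H x - ham H y‖ ≤ 2 * ‖fderiv ℝ H x - fderiv ℝ H y‖ := by
  refine (pi_norm_le_iff_of_nonneg (by positivity)).2 fun j => ?_
  refine (Complex.norm_le_abs_re_add_abs_im _).trans ?_
  have a := (fderiv ℝ H x - fderiv ℝ H y).le_opNorm (Pi.single j Complex.I)
  have b := (fderiv ℝ H x - fderiv ℝ H y).le_opNorm (Pi.single j 1)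
  rw [Pi.norm_single] at a b
  simp only [Complex.norm_I, norm_one, mul_one, Real.norm_eq_abs,
    ContinuousLinearMap.sub_apply] at a b
  simp only [ham, Pi.sub_apply, Complex.sub_re, Complex.sub_im, neg_sub_neg]
  rw [abs_sub_comm] at a
  linarith

theorem isCompact_cball (r : ℝ) : IsCompact (cball n r) := by
  have hc : IsClosed (cball n r) :=
    isClosed_le (continuous_const.mul contDiff_nsq.continuous) continuous_const
  refine (isCompact_closedBall (0 : CV n) (√(r / π))).of_isClosed_subset hc fun z hz => ?_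
  rw [mem_closedBall_zero_iff]
  refine Real.le_sqrt_of_sq_le ((norm_sq_le_nsq z).trans ?_)
  rw [le_div_iff₀ Real.pi_pos, mul_comm]
  exact hz

/-- bounds for a function that is smooth and constant near infinity -/
theorem Nice.bounds {ψ : CV n → ℝ} (h : Nice ψ) : ∃ C : ℝ, 0 < C ∧
    (∀ x, |ψ x| ≤ C ∧ ‖fderiv ℝ ψ x‖ ≤ C) ∧
    ∀ x y, ‖fderiv ℝ ψ x - fderiv ℝ ψ y‖ ≤ C * ‖x - y‖ := by
  obtain ⟨hs, R, c, hc⟩ := h
  have h1 : HasCompactSupport fun w => ψ w - c :=
    HasCompactSupport.intro (isCompact_closedBall (0 : CV n) R) fun w hw => by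
      rw [mem_closedBall_zero_iff, not_le] at hw
      rw [hc w hw.le, sub_self]
  have h2 : ContDiff ℝ ∞ fun w => ψ w - c := hs.sub contDiff_const
  have e : fderiv ℝ (fun w => ψ w - c) = fderiv ℝ ψ := funext fun w => fderiv_sub_const c
  have h3 : HasCompactSupport (fderiv ℝ ψ) := e ▸ h1.fderiv ℝ
  have h4 : ContDiff ℝ 1 (fderiv ℝ ψ) := hs.fderiv_right (by norm_cast)
  obtain ⟨C1, b1⟩ := h2.continuous.bounded_above_of_compact_support h1
  obtain ⟨C2, b2⟩ := h4.continuous.bounded_above_of_compact_support h3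
  obtain ⟨C3, b3⟩ := h4.lipschitzWith_of_hasCompactSupport h3 (by simp)
  have p1 : 0 ≤ C1 := (norm_nonneg _).trans (b1 0)
  have p2 : 0 ≤ C2 := (norm_nonneg _).trans (b2 0)
  have p3 : (0 : ℝ) ≤ C3 := C3.2
  have p4 := abs_nonneg c
  refine ⟨C1 + |c| + C2 + C3 + 1, by positivity, fun x => ⟨?_, by linarith [b2 x]⟩, fun x y => ?_⟩
  · have := b1 x
    rw [Real.norm_eq_abs] at this
    have h5 : |ψ x| ≤ |ψ x - c| + |c| := by simpa using abs_add_le (ψ x - c) c
    linarith
  · have := b3.norm_sub_le x y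
    refine this.trans ?_
    gcongr
    linarith

end Vale.Agent.P209
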