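import Vale.Agent.P209.Basic

open Set Filter Topology Function
open scoped Real ContDiff

noncomputable section
namespace Vale.Agent.P209

namespace CaseA

theorem top {ι : Type} [Fintype ι] [DecidableEq ι] (r : ι → ℝ) (N : ℕ) (hN : N ≤ Fintype.card ι) :
    ∃ S : Finset ι, S.card = N ∧ ∀ i ∈ S, ∀ j ∉ S, r j ≤ r i := by
  induction N with
  | zero => exact ⟨∅, rfl, fun i hi => absurd hi (Finset.notMem_empty i)⟩
  | succ N ih =>
    obtain ⟨S, h1, h2⟩ := ih (Nat.le_of_succ_le hN)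
    obtain ⟨k, hk, hk'⟩ := Finset.exists_max_image Sᶜ r
      (Finset.card_pos.1 (by rw [Finset.card_compl]; omega))
    refine ⟨insert k S, by rw [Finset.card_insert_of_notMem (Finset.mem_compl.1 hk), h1],
      fun i hi j hj => ?_⟩
    have hj' : j ∉ S := fun h => hj (Finset.mem_insert_of_mem h)
    rcases Finset.mem_insert.1 hi with rfl | hi
    · exact hk' j (Finset.mem_compl.2 hj')
    · exact h2 i hi j hj'

theorem sel {ι : Type} [Fintype ι] [DecidableEq ι] (r : ι → ℝ) (N : ℕ) (hN : 0 < N) :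
    ∃ (S : Finset ι) (x : ℝ), S.card ≤ N ∧ (∀ i ∉ S, r i ≤ x) ∧
      (0 < x → S.card = N ∧ ∀ i ∈ S, x ≤ r i) := by
  rcases le_total N (Fintype.card ι) with h | h
  · obtain ⟨S, h1, h2⟩ := top r N h
    obtain ⟨k, hk, hk'⟩ := Finset.exists_min_image S r (Finset.card_pos.1 (h1 ▸ hN))
    exact ⟨S, r k, h1.le, h2 k hk, fun _ => ⟨h1, hk'⟩⟩
  · exact ⟨Finset.univ, 0, h, fun i hi => absurd (Finset.mem_univ i) hi,
      fun h => absurd h (lt_irrefl _)⟩

theorem mono {ι : Type} (r : ι → ℝ) (S : Finset ι) {N : ℕ} (hS : S.card ≤ N) {c : ℝ}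
    (hr : ∀ i, r i ≤ c) {u v : ℝ} (h : u ≤ v) :
    ∑ i ∈ S, max (r i - u) 0 - N * max (c - u) 0 ≤ ∑ i ∈ S, max (r i - v) 0 - N * max (c - v) 0 := by
  have h1 : ∑ i ∈ S, (max (r i - u) 0 - max (r i - v) 0) ≤
      S.card • (max (c - u) 0 - max (c - v) 0) := Finset.sum_le_card_nsmul _ _ _ fun i _ => by
    have := hr i
    simp only [max_def]
    split_ifs <;> linarith
  have h2 := mul_le_mul_of_nonneg_right (Nat.cast_le (α := ℝ).2 hS)
    (sub_nonneg.2 (max_le_max_right 0 (sub_le_sub_left h c)))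
  rw [Finset.sum_sub_distrib, nsmul_eq_mul] at h1
  linarith

theorem sum_single {d : ℕ} (s : Fin d → ℝ) (i : Fin d) (δ : ℝ) :
    ∑ j, (s + Pi.single i δ : Fin d → ℝ) j = ∑ j, s j + δ := by
  simp [Finset.sum_add_distrib]

end CaseA

open CaseA in
theorem caseAS (h5 : FiveStmt) (hG : GlueStmt) (hS : SimplexStmt) : CaseAStmt := by
  intro m ι _ _ ρ hρ hs
  obtain ⟨a, ⟨h1, h2, ha0⟩, ha1⟩ : ∃ a : ℝ, ((∀ i, 2 * ρ i < a ^ 2) ∧
      ∑ i, ρ i ^ (m + 3) < a ^ (m + 3) * a ^ (m + 3) ∧ 0 < a) ∧ a < 1 := by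
    refine ((Eventually.filter_mono nhdsWithin_le_nhds ?_).and
      (self_mem_nhdsWithin (a := (1 : ℝ)) (s := Iio (1 : ℝ)))).exists
    refine (eventually_all.2 fun i => ?_).and (Eventually.and ?_ (lt_mem_nhds one_pos))
    · exact (continuous_pow 2).continuousAt.eventually (lt_mem_nhds (by simpa using (hρ i).2))
    · exact ((continuous_pow _).mul (continuous_pow _)).continuousAt.eventually
        (lt_mem_nhds (by simpa using hs))
  have hr : ∀ i, ρ i / a < a / 2 := fun i => by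
    rw [div_lt_div_iff₀ ha0 two_pos]
    linarith [h1 i]
  obtain ⟨S, x, hS1, hS2, hS3⟩ := sel (fun i => ρ i / a) (2 ^ (m + 3)) (by positivity)
  have hd : ∀ D : ℝ, deriv (fun D : ℝ => 1 - 2 * D) D = -2 := fun D => by
    simp
  obtain ⟨P⟩ := h5 (1 / 2) ((1 - a) / 24) (fun D => 1 - 2 * D) (fun D => 1 - 2 * D) (fun _ => 0)
    (fun D => 1 - 2 * D) (fun D => 1 - 2 * D) (by linarith) (by fun_prop) (by fun_prop)
    (by fun_prop) (by fun_prop) (by fun_prop) (fun D => ⟨add_zero _, zero_add _⟩) fun D hD => by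
      rw [hd, deriv_const]
      exact ⟨by linarith [hD.2], le_rfl, by linarith [hD.2], by norm_num, le_rfl, by norm_num,
        le_rfl, le_rfl, by norm_num⟩
  have hm := fun u v => mono (fun i => ρ i / a) S hS1 (fun i => (hr i).le) (u := u) (v := v)
  have hN : (0 : ℝ) < 2 ^ m := by positivity
  have hle : ∀ u : ℝ, ∑ i ∈ S, max (ρ i / a - u) 0 ≤ (2 ^ (m + 3) : ℕ) * max (a / 2 - u) 0 :=
    fun u => (Finset.sum_le_card_nsmul _ _ _ fun i _ =>
      max_le_max_right 0 (sub_le_sub_right (hr i).le u)).trans (by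
        rw [nsmul_eq_mul]
        exact mul_le_mul_of_nonneg_right (Nat.cast_le.2 hS1) (le_max_right _ _))
  obtain ⟨F, hF, hF'⟩ := hG m 2 ((1 - a) / 24) (1 / 2) (fun D => 4 * (1 - 2 * D)) (by linarith)
    ⟨P.mono (fun D hD U V h => ⟨h.1, by linarith [h.2.2.1], by linarith [h.2.2.2.1], h.2.1,
      by linarith [h.2.2.2.2, hD.1]⟩) fun D _ => by linarith⟩ ι ρ (fun i => ρ i / a) S x
    ((1 - a) / 4) (2 ^ m * (1 - a)) ((2 ^ (m + 3) : ℕ) * (a / 2))
    (fun s => (2 ^ (m + 3) : ℕ) * max (a / 2 - ∑ j, s j) 0)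
    (fun i => ⟨(hρ i).1, lt_div_iff₀ ha0 |>.2 (mul_lt_of_lt_one_right (hρ i).1 ha1)⟩) hS2
    (by linarith) (by linarith) (mul_pos hN (by linarith))
    ⟨(2 ^ (m + 3) : ℕ) * (m + 2 : ℕ), fun s t _ _ => by
      rw [← mul_sub, abs_mul, Nat.abs_cast, mul_assoc]
      refine mul_le_mul_of_nonneg_left ((abs_max_sub_max_le_abs _ _ _).trans ?_) (Nat.cast_nonneg _)
      rw [sub_sub_sub_cancel_left, abs_sub_comm, ← Finset.sum_sub_distrib]
      refine (Finset.abs_sum_le_sum_abs _ _).trans ((Finset.sum_le_card_nsmul _ _ _ fun j _ =>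
        norm_le_pi_norm (s - t) j).trans_eq ?_)
      rw [nsmul_eq_mul, Finset.card_univ, Fintype.card_fin]⟩
    ⟨fun s _ i δ hδ => hm _ _ (by rw [sum_single]; linarith),
      fun s _ i j _ δ _ => by simp only [sum_single, le_refl],
      fun s _ k j _ δ _ _ => by simp only [sum_single, zero_mul, add_zero, le_refl],
      fun s hs0 δ hδ hx => by
        have h0 : 0 ≤ ∑ j, s j := Finset.sum_nonneg fun j _ => hs0 j
        obtain ⟨e1, e2⟩ := hS3 (by linarith)
        obtain ⟨k, hk⟩ : S.Nonempty := Finset.card_pos.1 (e1 ▸ by positivity)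
        have e3 : ∀ u < x, ∑ i ∈ S, max (ρ i / a - u) 0 - (2 ^ (m + 3) : ℕ) * max (a / 2 - u) 0 =
            ∑ i ∈ S, ρ i / a - (2 ^ (m + 3) : ℕ) * (a / 2) := fun u hu => by
          rw [Finset.sum_congr rfl fun i hi => max_eq_left (by linarith [e2 i hi]),
            max_eq_left (by linarith [e2 k hk, hr k]), Finset.sum_sub_distrib, Finset.sum_const,
            e1, nsmul_eq_mul]
          ring
        simp only [sum_single, zero_mul, add_zero]
        rw [e3 _ hx, e3 _ (by linarith)]⟩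
    (fun s _ => hle _) (by
      simp only [Pi.zero_apply, Finset.sum_const_zero, sub_zero, max_eq_left (half_pos ha0).le]
      rcases S.eq_empty_or_nonempty with rfl | hne
      · rw [Finset.sum_empty]
        positivity
      · refine (Finset.sum_lt_sum_of_nonempty hne fun i _ => hr i).trans_le ?_
        rw [Finset.sum_const, nsmul_eq_mul]
        exact mul_le_mul_of_nonneg_right (Nat.cast_le.2 hS1) (half_pos ha0).le)
    (fun s hs0 hL => by
      have h0 : 0 ≤ ∑ j, s j := Finset.sum_nonneg fun j _ => hs0 j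
      have h3 : s 0 ≤ ∑ j, s j := Finset.single_le_sum (fun j _ => hs0 j) (Finset.mem_univ 0)
      have h4 : 0 < a / 2 - ∑ j, s j :=
        (lt_max_iff.1 (pos_of_mul_pos_right hL (Nat.cast_nonneg _))).resolve_right (lt_irrefl _)
      rw [max_eq_left h4.le]
      refine ⟨by linarith, by linarith,
        mul_le_mul_of_nonneg_left (by linarith) (Nat.cast_nonneg _), ?_⟩
      have h5 : 0 ≤ 2 ^ m * ((1 - a) * (1 + (1 - a) / 4 + 2 * ∑ j, s j)) :=
        mul_nonneg hN.le (mul_nonneg (by linarith) (by linarith))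
      rw [Nat.cast_pow, pow_add, Nat.cast_ofNat]
      linarith)
    (by
      simp only [ENNReal.ofReal_mul (Nat.cast_nonneg _)]
      rw [MeasureTheory.lintegral_const_mul' _ _ ENNReal.ofReal_ne_top,
        hS (m + 1) (a / 2) (half_pos ha0).le, ← ENNReal.ofReal_mul (Nat.cast_nonneg _),
        ENNReal.ofReal_lt_ofReal_iff (by positivity), ← Finset.sum_div, ← mul_div_assoc]
      refine div_lt_div_of_pos_right ?_ (by positivity)
      simp only [div_pow]
      rw [← Finset.sum_div, div_lt_iff₀ (by positivity), Nat.cast_pow, Nat.cast_ofNat,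
        mul_div_cancel₀ _ (by positivity)]
      exact h2)
  exact ⟨F, fun i x hx => ⟨(hF i x hx).1, (hF i x hx).2.2⟩, hF'⟩

end Vale.Agent.P209
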