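import Mathlib

open scoped Real ContDiff

namespace Vale.Agent.P209

/-- The standard symplectic form `∑ dx_j ∧ dy_j` on `ℂ^n`, `z_j = x_j + i y_j`. -/
def omega0 {n : ℕ} (u v : Fin n → ℂ) : ℝ :=
  ∑ j, ((u j).re * (v j).im - (u j).im * (v j).re)

/-- The closed ball of capacity `R`: `π ∑ |z_j|^2 ≤ R`. -/
def cball (n : ℕ) (R : ℝ) : Set (Fin n → ℂ) := {z | π * ∑ j, ‖z j‖ ^ 2 ≤ R}

/-- `f` is a smooth embedding on an open neighbourhood of the closed ball of capacity `r`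
that pulls `ω₀` back to `ω₀`. -/
def IsSympEmb {n : ℕ} (r : ℝ) (f : (Fin n → ℂ) → (Fin n → ℂ)) : Prop :=
  ∃ U : Set (Fin n → ℂ), IsOpen U ∧ cball n r ⊆ U ∧ ContDiffOn ℝ ∞ f U ∧
    Topology.IsEmbedding (fun x : U => f x) ∧
    ∀ x ∈ U, ∀ u v, omega0 (fderiv ℝ f x u) (fderiv ℝ f x v) = omega0 u v

/-- The disjoint union of the closed balls of capacities `r i` embeds symplectically into the
interior of the ball of capacity `R`. -/
def Packs (n k : ℕ) (r : Fin k → ℝ) (R : ℝ) : Prop :=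
  ∃ f : Fin k → (Fin n → ℂ) → (Fin n → ℂ), (∀ i, IsSympEmb (r i) (f i)) ∧
    (∀ i, f i '' cball n (r i) ⊆ interior (cball n R)) ∧
    ∀ i j, i ≠ j → Disjoint (f i '' cball n (r i)) (f j '' cball n (r j))

end Vale.Agent.P209
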