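import Vale.Agent.P209.Basic

/-! P209: the time dependent data of the five sided loops. -/

open Set Filter Topology Function
open scoped Real ContDiff

noncomputable section
namespace Vale.Agent.P209
namespace Five

/-- the pointwise properties of a loop family -/
def Good (Ut Vt UD VD g C Sn : ℝ) : Prop :=
  (∃ r : ℝ, 0 < r ∧ Ut = r * C ∧ Vt = r * Sn) ∧ 0 < Ut * VD - Vt * UD ∧
    ∀ a b : ℤ, |a * Ut + b * Vt| < g → |a * UD + b * VD| < 1 → a = 0 ∧ b = 0

theorem lat_aux {x y p q g : ℝ} (hx : 0 ≤ x) (hy : 0 ≤ y) (hg : 0 < g) (hxy : g ≤ x + y)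
    (hp : 1 ≤ p) (hq : y = 0 ∨ 1 ≤ q) (α β : ℤ) (h1 : |x * α + y * β| < g)
    (h2 : |p * β - q * α| < 1) : α = 0 ∧ β = 0 := by
  rw [abs_lt] at h1 h2
  have tri : ∀ n : ℤ, (1 : ℝ) ≤ n ∨ n = 0 ∨ (n : ℝ) ≤ -1 := fun n => by
    rcases lt_trichotomy n 0 with h | h | h
    · exact Or.inr (Or.inr (by exact_mod_cast (show n ≤ -1 by omega)))
    · exact Or.inr (Or.inl h)
    · exact Or.inl (by exact_mod_cast (show 1 ≤ n by omega))
  rcases hq with rfl | hq
  · have ha : α = 0 := by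
      rcases tri α with h | h | h
      · nlinarith [h1.2]
      · exact h
      · nlinarith [h1.1]
    subst ha
    refine ⟨rfl, ?_⟩
    push_cast at h2
    rcases tri β with h | h | h
    · nlinarith [h2.2]
    · exact h
    · nlinarith [h2.1]
  · rcases tri α with ha | rfl | ha <;> rcases tri β with hb | rfl | hb
    · nlinarith [h1.2]
    · push_cast at h2
      nlinarith [h2.1]
    · nlinarith [h2.1]
    · push_cast at h2
      nlinarith [h2.2]
    · exact ⟨rfl, rfl⟩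
    · push_cast at h2
      nlinarith [h2.1]
    · nlinarith [h2.2]
    · push_cast at h2
      nlinarith [h2.2]
    · nlinarith [h1.1]

theorem good_of (e1 e2 f1 f2 : ℤ) (hdet : e1 * f2 - e2 * f1 = 1) {x y k m g Ut Vt UD VD C Sn : ℝ}
    (hx : 0 ≤ x) (hy : 0 ≤ y) (hxy : 1 ≤ x + y) (hC : C = x * e1 + y * f1)
    (hS : Sn = x * e2 + y * f2) (hk : 0 < k) (hm : 0 ≤ m) (hg : 0 < g) (hgm : g ≤ k + m)
    (hU : Ut = k * C + m * e1) (hV : Vt = k * Sn + m * e2) (hp : 1 ≤ e1 * VD - e2 * UD)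
    (hq : y = 0 ∨ (m = 0 ∧ 1 ≤ f1 * VD - f2 * UD)) : Good Ut Vt UD VD g C Sn := by
  have hd : (e1 : ℝ) * f2 - e2 * f1 = 1 := by exact_mod_cast hdet
  have hkx : 0 ≤ k * x := mul_nonneg hk.le hx
  have hky : 0 ≤ k * y := mul_nonneg hk.le hy
  have hs : g ≤ (k * x + m) + k * y := by nlinarith
  refine ⟨?_, ?_, fun a b h1 h2 => ?_⟩
  · rcases hq with rfl | ⟨rfl, -⟩
    · have hx0 : 0 < x := by linarith
      refine ⟨k + m / x, by positivity, ?_, ?_⟩
      · rw [hU, hC]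
        field_simp
        ring
      · rw [hV, hS]
        field_simp
        ring
    · exact ⟨k, hk, by rw [hU]; ring, by rw [hV]; ring⟩
  · have e : Ut * VD - Vt * UD
        = (k * x + m) * (e1 * VD - e2 * UD) + k * y * (f1 * VD - f2 * UD) := by
      rw [hU, hV, hC, hS]
      ring
    rw [e]
    rcases hq with rfl | ⟨-, hq⟩
    · nlinarith
    · nlinarith
  · have key := lat_aux (x := k * x + m) (y := k * y) (p := e1 * VD - e2 * UD)
      (q := f1 * VD - f2 * UD) (by linarith) hky hg hs hp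
      (hq.imp (fun h => by rw [h, mul_zero]) fun h => h.2) (a * e1 + b * e2) (a * f1 + b * f2)
      (by
        have e : (k * x + m) * ((a * e1 + b * e2 : ℤ) : ℝ) + k * y * ((a * f1 + b * f2 : ℤ) : ℝ)
            = a * Ut + b * Vt := by
          rw [hU, hV, hC, hS]
          push_cast
          ring
        rw [e]
        exact h1)
      (by
        have e : (e1 * VD - e2 * UD) * ((a * f1 + b * f2 : ℤ) : ℝ)
            - (f1 * VD - f2 * UD) * ((a * e1 + b * e2 : ℤ) : ℝ) = a * UD + b * VD := by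
          push_cast
          linear_combination (a * UD + b * VD) * hd
        rw [e]
        exact h2)
    constructor
    · linear_combination f2 * key.1 - e2 * key.2 - a * hdet
    · linear_combination e1 * key.2 - f1 * key.1 - b * hdet

/-- the five sectors of the loop -/
def Sec (C Sn p1 p2 p3 p4 e0 e1 e2 e3 e4 : ℝ) : Prop :=
  (0 ≤ C ∧ Sn ≤ 0 ∧ 1 ≤ C - Sn ∧ e1 = 0 ∧ e2 = 0 ∧ e3 = 0 ∧ e4 = 0 ∧ p1 = 0 ∧ p2 = 0 ∧
    (C = 0 ∨ (e0 = 0 ∧ p3 = 1 ∧ p4 = 1))) ∨
  (0 ≤ Sn ∧ Sn ≤ C ∧ 1 ≤ C ∧ e0 = 0 ∧ e2 = 0 ∧ e3 = 0 ∧ e4 = 0 ∧ p3 = 1 ∧ p4 = 1 ∧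
    (Sn = 0 ∨ (e1 = 0 ∧ p1 = 1 ∧ p2 = 0))) ∨
  (0 ≤ C ∧ C ≤ Sn ∧ 1 ≤ Sn ∧ e0 = 0 ∧ e1 = 0 ∧ e3 = 0 ∧ e4 = 0 ∧ p1 = 1 ∧ p3 = 1 - p2 ∧ p4 = 1 ∧
    (Sn = C ∨ (e2 = 0 ∧ p2 = 1))) ∨
  (0 ≤ Sn ∧ C ≤ 0 ∧ 1 ≤ Sn - C ∧ e0 = 0 ∧ e1 = 0 ∧ e2 = 0 ∧ e4 = 0 ∧ p1 = 1 ∧ p2 = 1 ∧
    (C = 0 ∨ (e3 = 0 ∧ p3 = 0 ∧ p4 = 0))) ∨
  (C ≤ 0 ∧ Sn ≤ 0 ∧ 1 ≤ -C - Sn ∧ e0 = 0 ∧ e1 = 0 ∧ e2 = 0 ∧ e3 = 0 ∧ p3 = 0 ∧ p4 = 0 ∧
    (Sn = 0 ∨ (e4 = 0 ∧ p1 = 0 ∧ p2 = 0)))

theorem Sec.good {C Sn p1 p2 p3 p4 e0 e1 e2 e3 e4 k c0 c1 c3 c4 l1 l2 l3 m1 m2 m3 : ℝ}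
    (h : Sec C Sn p1 p2 p3 p4 e0 e1 e2 e3 e4) (hk : 0 < k) (hc0 : 0 ≤ c0) (hc1 : 0 ≤ c1)
    (hc3 : 0 ≤ c3) (hc4 : 0 ≤ c4) (h0 : 0 ≤ e0) (h1 : 0 ≤ e1) (h2 : 0 ≤ e2) (h3 : 0 ≤ e3)
    (h4 : 0 ≤ e4) (hl1 : 0 ≤ l1) (hl2 : 0 ≤ l2) (hl3 : 0 ≤ l3) (hm0 : m2 + m3 ≤ -2)
    (hm4 : m1 + m2 ≤ -2) (hm2 : m2 + m3 + m1 ≤ -3) :
    Good (k * (C + c1 * e1 - c4 * e4) + (e1 - e4) * l1 + (e2 - e4) * l2)
      (k * (Sn - c0 * e0 + c3 * e3) - (e0 - e2) * l2 - (e0 - e3) * l3)
      (1 + p1 * m1 + p2 * m2) (-1 - p3 * m2 - p4 * m3)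
      (k + e0 * (l2 + l3) + e1 * l1 + e2 * l2 + e3 * l3 + e4 * (l1 + l2)) C Sn := by
  rcases h with ⟨a, b, c, rfl, rfl, rfl, rfl, rfl, rfl, hq⟩ | ⟨a, b, c, rfl, rfl, rfl, rfl, rfl, rfl, hq⟩ |
    ⟨a, b, c, rfl, rfl, rfl, rfl, rfl, rfl, rfl, hq⟩ | ⟨a, b, c, rfl, rfl, rfl, rfl, rfl, rfl, hq⟩ |
    ⟨a, b, c, rfl, rfl, rfl, rfl, rfl, rfl, hq⟩
  · have := mul_nonneg (mul_nonneg hk.le hc0) h0
    refine good_of 0 (-1) 1 0 (by norm_num) (x := -Sn) (y := C) (k := k)
      (m := k * c0 * e0 + e0 * (l2 + l3)) (by linarith) a (by linarith) (by push_cast; ring)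
      (by push_cast; ring) hk (by positivity) (by positivity) (by linarith) (by push_cast; ring)
      (by push_cast; ring) (by push_cast; linarith) (hq.imp id ?_)
    rintro ⟨rfl, rfl, rfl⟩
    exact ⟨by ring, by push_cast; linarith⟩
  · have := mul_nonneg (mul_nonneg hk.le hc1) h1
    refine good_of 1 0 1 1 (by norm_num) (x := C - Sn) (y := Sn) (k := k)
      (m := k * c1 * e1 + e1 * l1) (by linarith) a (by linarith) (by push_cast; ring)
      (by push_cast; ring) hk (by positivity) (by positivity) (by linarith) (by push_cast; ring)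
      (by push_cast; ring) (by push_cast; linarith) (hq.imp id ?_)
    rintro ⟨rfl, rfl, rfl⟩
    exact ⟨by ring, by push_cast; linarith⟩
  · refine good_of 1 1 0 1 (by norm_num) (x := C) (y := Sn - C) (k := k)
      (m := e2 * l2) a (by linarith) (by linarith) (by push_cast; ring)
      (by push_cast; ring) hk (by positivity) (by positivity) (by linarith) (by push_cast; ring)
      (by push_cast; ring) (by push_cast; linarith) (hq.imp (fun h => by linarith) ?_)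
    rintro ⟨rfl, rfl⟩
    exact ⟨by ring, by push_cast; linarith⟩
  · have := mul_nonneg (mul_nonneg hk.le hc3) h3
    refine good_of 0 1 (-1) 0 (by norm_num) (x := Sn) (y := -C) (k := k)
      (m := k * c3 * e3 + e3 * l3) a (by linarith) (by linarith) (by push_cast; ring)
      (by push_cast; ring) hk (by positivity) (by positivity) (by linarith) (by push_cast; ring)
      (by push_cast; ring) (by push_cast; linarith) (hq.imp (fun h => by linarith) ?_)
    rintro ⟨rfl, rfl, rfl⟩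
    exact ⟨by ring, by push_cast; linarith⟩
  · have := mul_nonneg (mul_nonneg hk.le hc4) h4
    refine good_of (-1) 0 0 (-1) (by norm_num) (x := -C) (y := -Sn) (k := k)
      (m := k * c4 * e4 + e4 * (l1 + l2)) (by linarith) (by linarith) (by linarith)
      (by push_cast; ring)
      (by push_cast; ring) hk (by positivity) (by positivity) (by linarith) (by push_cast; ring)
      (by push_cast; ring) (by push_cast; linarith) (hq.imp (fun h => by linarith) ?_)
    rintro ⟨rfl, rfl, rfl⟩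
    exact ⟨by ring, by push_cast; linarith⟩

/-- a stair function of period `12` that climbs on `(0, 1)` -/
structure St (S : ℝ → ℝ) : Prop where
  smooth : ContDiff ℝ ∞ S
  per : ∀ t, S (t + 12) = S t + 1
  dpos : ∀ t, 0 ≤ deriv S t
  lo : ∀ t, -11 ≤ t → t ≤ 0 → S t = 0 ∧ deriv S t = 0
  hi : ∀ t, 1 ≤ t → t ≤ 12 → S t = 1 ∧ deriv S t = 0
  mid : ∀ t, -11 ≤ t → t ≤ 12 → 0 ≤ S t ∧ S t ≤ 1

theorem exists_st (hS : StairStmt) : ∃ S, St S := by
  obtain ⟨S, h1, h2, h3, h4, h5, h6, h7⟩ := hS 12 0 1 (by norm_num) (by norm_num)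
  have lo : ∀ t, -11 ≤ t → t ≤ 0 → S t = 0 := fun t a b => h4 t ⟨by linarith, b⟩
  have hi : ∀ t, 1 ≤ t → t ≤ 12 → S t = 1 := fun t a b => h5 t ⟨a, by linarith⟩
  refine ⟨S, h1, h2, h3, fun t a b => ⟨lo t a b, ?_⟩, fun t a b => ⟨hi t a b, ?_⟩, fun t a b => ?_⟩
  · by_contra h
    obtain ⟨k, hk1, hk2⟩ := h7 t h
    have e1 : (k : ℝ) < 0 := by linarith
    have e2 : (-1 : ℝ) < k := by linarith
    have e3 : k < 0 := by exact_mod_cast e1
    have e4 : -1 < k := by exact_mod_cast e2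
    omega
  · by_contra h
    obtain ⟨k, hk1, hk2⟩ := h7 t h
    have e1 : (k : ℝ) < 1 := by linarith
    have e2 : (0 : ℝ) < k := by linarith
    have e3 : k < 1 := by exact_mod_cast e1
    have e4 : 0 < k := by exact_mod_cast e2
    omega
  · rcases le_total t 0 with c | c
    · rw [lo t a c]
      norm_num
    · rcases le_total t 1 with c' | c'
      · exact h6 t ⟨c, c'⟩
      · rw [hi t c' b]
        norm_num

variable {S : ℝ → ℝ}

theorem St.diff (h : St S) : Differentiable ℝ S := h.smooth.differentiable (by simp)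

theorem St.mono (h : St S) : Monotone S := monotone_of_deriv_nonneg h.diff h.dpos

theorem St.has (h : St S) (n t : ℝ) : HasDerivAt (fun t => S (t - n)) (deriv S (t - n)) t :=
  (h.diff (t - n)).hasDerivAt.comp_sub_const t n

theorem St.sm (h : St S) (n : ℝ) : ContDiff ℝ ∞ fun t => S (t - n) :=
  h.smooth.comp (contDiff_id.sub contDiff_const)

theorem St.per' (h : St S) (t n : ℝ) : S (t + 12 - n) = S (t - n) + 1 := by
  rw [← h.per, add_sub_right_comm]

theorem St.perInt (h : St S) (k : ℤ) (t : ℝ) : S (t + k * 12) = S t + k := by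
  have hp : Periodic (fun t => S t - t / 12) 12 := fun t => by
    simp only [h.per]
    ring
  have := hp.int_mul k t
  linarith

theorem St.dperInt (h : St S) (k : ℤ) (t : ℝ) : deriv S (t + k * 12) = deriv S t := by
  rw [← deriv_comp_add_const, funext (h.perInt k), deriv_add_const]

/-- the direction of motion -/
def ph (S : ℝ → ℝ) (t : ℝ) : ℝ := -(π / 2) + π / 2 * S (t - 2) + π / 4 * S (t - 4)
  + π / 4 * S (t - 6) + π / 2 * S (t - 8) + π / 2 * S (t - 10)

/-- the speed -/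
def sp (S : ℝ → ℝ) (t : ℝ) : ℝ := 1 + S (t - 1) - S (t - 10)

theorem trig1 {θ : ℝ} (h0 : 0 ≤ θ) (h1 : θ ≤ π / 2) :
    0 ≤ Real.sin θ ∧ 0 ≤ Real.cos θ ∧ 1 ≤ Real.sin θ + Real.cos θ := by
  have a := Real.sin_nonneg_of_nonneg_of_le_pi h0 (by linarith [Real.pi_pos])
  have b := Real.cos_nonneg_of_neg_pi_div_two_le_of_le (by linarith [Real.pi_pos]) h1
  refine ⟨a, b, ?_⟩
  nlinarith [Real.sin_sq_add_cos_sq θ, mul_nonneg a b]

theorem trig2 {θ : ℝ} (h0 : 0 ≤ θ) (h1 : θ ≤ π / 4) :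
    0 ≤ Real.sin θ ∧ Real.sin θ ≤ Real.cos θ ∧ 1 ≤ 2 * Real.cos θ := by
  have hp := Real.pi_pos
  obtain ⟨a, -, c⟩ := trig1 h0 (by linarith)
  have d : Real.sin θ ≤ Real.cos θ := by
    rw [← Real.sin_pi_div_two_sub]
    exact Real.sin_le_sin_of_le_of_le_pi_div_two (by linarith) (by linarith) (by linarith)
  exact ⟨a, d, by linarith⟩

/-- the sector predicate at time `t` -/
def SecAt (S : ℝ → ℝ) (t : ℝ) : Prop :=
  Sec (sp S t * Real.cos (ph S t)) (sp S t * Real.sin (ph S t)) (S (t - 3) - S (t - 9))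
    (S (t - 5) - S (t - 9)) (S (t - 1) - S (t - 5)) (S (t - 1) - S (t - 7)) (deriv S (t - 1))
    (deriv S (t - 3)) (deriv S (t - 5)) (deriv S (t - 7)) (deriv S (t - 9))

theorem St.secAt0 (h : St S) {t : ℝ} (a : -1 ≤ t) (b : t ≤ 11) : SecAt S t := by
  have hp := Real.pi_pos
  have lo : ∀ n : ℝ, t ≤ n → n ≤ 10 → S (t - n) = 0 ∧ deriv S (t - n) = 0 := fun n c d =>
    h.lo _ (by linarith) (by linarith)
  have hi : ∀ n : ℝ, n + 1 ≤ t → 0 ≤ n → S (t - n) = 1 ∧ deriv S (t - n) = 0 := fun n c d =>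
    h.hi _ (by linarith) (by linarith)
  have mid : ∀ n : ℝ, 0 ≤ n → n ≤ 10 → 0 ≤ S (t - n) ∧ S (t - n) ≤ 1 := fun n c d =>
    h.mid _ (by linarith) (by linarith)
  unfold SecAt Sec
  rcases le_total t 3 with c3 | c3
  · left
    obtain ⟨s3, d3⟩ := lo 3 c3 (by norm_num)
    obtain ⟨s4, -⟩ := lo 4 (by linarith) (by norm_num)
    obtain ⟨s5, d5⟩ := lo 5 (by linarith) (by norm_num)
    obtain ⟨s6, -⟩ := lo 6 (by linarith) (by norm_num)
    obtain ⟨s7, d7⟩ := lo 7 (by linarith) (by norm_num)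
    obtain ⟨s8, -⟩ := lo 8 (by linarith) (by norm_num)
    obtain ⟨s9, d9⟩ := lo 9 (by linarith) (by norm_num)
    obtain ⟨s10, -⟩ := lo 10 (by linarith) (by norm_num)
    obtain ⟨m1, m1'⟩ := mid 1 (by norm_num) (by norm_num)
    obtain ⟨m2, m2'⟩ := mid 2 (by norm_num) (by norm_num)
    have e : ph S t = π / 2 * S (t - 2) - π / 2 := by
      rw [ph, s4, s6, s8, s10]
      ring
    have u : 1 ≤ sp S t := by
      rw [sp, s10]
      linarith
    obtain ⟨x, y, z⟩ := trig1 (θ := π / 2 * S (t - 2)) (by positivity) (by nlinarith)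
    rw [e, Real.cos_sub_pi_div_two, Real.sin_sub_pi_div_two, s3, s5, s7, s9]
    refine ⟨by positivity, by nlinarith, by nlinarith, d3, d5, d7, d9, by ring, by ring, ?_⟩
    rcases le_total t 2 with c | c
    · left
      rw [(lo 2 c (by norm_num)).1]
      simp
    · obtain ⟨s1, d1⟩ := hi 1 (by linarith) (by norm_num)
      exact Or.inr ⟨d1, by rw [s1]; ring, by rw [s1]; ring⟩
  obtain ⟨s1, d1⟩ := hi 1 (by linarith) (by norm_num)
  obtain ⟨s2, -⟩ := hi 2 (by linarith) (by norm_num)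
  right
  rcases le_total t 5 with c5 | c5
  · left
    obtain ⟨s5, d5⟩ := lo 5 (by linarith) (by norm_num)
    obtain ⟨s6, -⟩ := lo 6 (by linarith) (by norm_num)
    obtain ⟨s7, d7⟩ := lo 7 (by linarith) (by norm_num)
    obtain ⟨s8, -⟩ := lo 8 (by linarith) (by norm_num)
    obtain ⟨s9, d9⟩ := lo 9 (by linarith) (by norm_num)
    obtain ⟨s10, -⟩ := lo 10 (by linarith) (by norm_num)
    obtain ⟨m2, m2'⟩ := mid 4 (by norm_num) (by norm_num)
    have e : ph S t = π / 4 * S (t - 4) := by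
      rw [ph, s2, s6, s8, s10]
      ring
    have u : sp S t = 2 := by
      rw [sp, s10, s1]
      ring
    obtain ⟨x, y, z⟩ := trig2 (θ := π / 4 * S (t - 4)) (by positivity) (by nlinarith)
    rw [e, u, s1, s5, s7, s9]
    refine ⟨by linarith, by linarith, z, d1, d5, d7, d9, by ring, by ring, ?_⟩
    rcases le_total t 4 with c | c
    · left
      rw [(lo 4 c (by norm_num)).1]
      simp
    · obtain ⟨s3, d3⟩ := hi 3 (by linarith) (by norm_num)
      exact Or.inr ⟨d3, by rw [s3]; ring, by ring⟩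
  obtain ⟨s3, d3⟩ := hi 3 (by linarith) (by norm_num)
  obtain ⟨s4, -⟩ := hi 4 (by linarith) (by norm_num)
  right
  rcases le_total t 7 with c7 | c7
  · left
    obtain ⟨s7, d7⟩ := lo 7 (by linarith) (by norm_num)
    obtain ⟨s8, -⟩ := lo 8 (by linarith) (by norm_num)
    obtain ⟨s9, d9⟩ := lo 9 (by linarith) (by norm_num)
    obtain ⟨s10, -⟩ := lo 10 (by linarith) (by norm_num)
    obtain ⟨m2, m2'⟩ := mid 6 (by norm_num) (by norm_num)
    have e : ph S t = π / 2 - π / 4 * (1 - S (t - 6)) := by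
      rw [ph, s2, s4, s8, s10]
      ring
    have u : sp S t = 2 := by
      rw [sp, s10, s1]
      ring
    obtain ⟨x, y, z⟩ := trig2 (θ := π / 4 * (1 - S (t - 6))) (by nlinarith) (by nlinarith)
    rw [e, u, Real.cos_pi_div_two_sub, Real.sin_pi_div_two_sub, s1, s3, s7, s9]
    refine ⟨by linarith, by linarith, z, d1, d3, d7, d9, by ring, by ring, by ring, ?_⟩
    rcases le_total t 6 with c | c
    · left
      rw [(lo 6 c (by norm_num)).1]
      simp
    · obtain ⟨s5, d5⟩ := hi 5 (by linarith) (by norm_num)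
      exact Or.inr ⟨d5, by rw [s5]; ring⟩
  obtain ⟨s5, d5⟩ := hi 5 (by linarith) (by norm_num)
  obtain ⟨s6, -⟩ := hi 6 (by linarith) (by norm_num)
  right
  rcases le_total t 9 with c9 | c9
  · left
    obtain ⟨s9, d9⟩ := lo 9 (by linarith) (by norm_num)
    obtain ⟨s10, -⟩ := lo 10 (by linarith) (by norm_num)
    obtain ⟨m2, m2'⟩ := mid 8 (by norm_num) (by norm_num)
    have e : ph S t = π / 2 * S (t - 8) + π / 2 := by
      rw [ph, s2, s4, s6, s10]
      ring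
    have u : sp S t = 2 := by
      rw [sp, s10, s1]
      ring
    obtain ⟨x, y, z⟩ := trig1 (θ := π / 2 * S (t - 8)) (by positivity) (by nlinarith)
    rw [e, u, Real.cos_add_pi_div_two, Real.sin_add_pi_div_two, s1, s3, s5, s9]
    refine ⟨by linarith, by linarith, by linarith, d1, d3, d5, d9, by ring, by ring, ?_⟩
    rcases le_total t 8 with c | c
    · left
      rw [(lo 8 c (by norm_num)).1]
      simp
    · obtain ⟨s7, d7⟩ := hi 7 (by linarith) (by norm_num)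
      exact Or.inr ⟨d7, by ring, by rw [s7]; ring⟩
  obtain ⟨s7, d7⟩ := hi 7 (by linarith) (by norm_num)
  obtain ⟨s8, -⟩ := hi 8 (by linarith) (by norm_num)
  right
  obtain ⟨m2, m2'⟩ := mid 10 (by norm_num) (by norm_num)
  have e : ph S t = π / 2 * S (t - 10) + π := by
    rw [ph, s2, s4, s6, s8]
    ring
  have u : 1 ≤ sp S t := by
    rw [sp, s1]
    linarith
  obtain ⟨x, y, z⟩ := trig1 (θ := π / 2 * S (t - 10)) (by positivity) (by nlinarith)
  rw [e, Real.cos_add_pi, Real.sin_add_pi, s1, s3, s5, s7]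
  refine ⟨by nlinarith, by nlinarith, by nlinarith, d1, d3, d5, d7, by ring, by ring, ?_⟩
  rcases le_total t 10 with c | c
  · left
    rw [(lo 10 c (by norm_num)).1]
    simp
  · obtain ⟨s9, d9⟩ := hi 9 (by linarith) (by norm_num)
    exact Or.inr ⟨d9, by rw [s9]; ring, by rw [s9]; ring⟩

theorem St.secAt (h : St S) (t : ℝ) : SecAt S t := by
  obtain ⟨k, s, a, b, rfl⟩ : ∃ (k : ℤ) (s : ℝ), -1 ≤ s ∧ s ≤ 11 ∧ t = s + k * 12 := by
    have h1 := Int.floor_le ((t + 1) / 12)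
    have h2 := Int.lt_floor_add_one ((t + 1) / 12)
    exact ⟨⌊(t + 1) / 12⌋, t - ⌊(t + 1) / 12⌋ * 12, by linarith, by linarith, by ring⟩
  have e1 : ∀ n : ℝ, S (s + k * 12 - n) = S (s - n) + k := fun n => by
    rw [← h.perInt, add_sub_right_comm]
  have e2 : ∀ n : ℝ, deriv S (s + k * 12 - n) = deriv S (s - n) := fun n => by
    rw [← h.dperInt k (s - n), add_sub_right_comm]
  have e3 : ph S (s + k * 12) = ph S s + k * (2 * π) := by
    simp only [ph, e1]
    ring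
  have e4 : sp S (s + k * 12) = sp S s := by
    simp only [sp, e1]
    ring
  have := h.secAt0 a b
  unfold SecAt at this ⊢
  simpa only [e1, e2, e3, e4, Real.cos_add_int_mul_two_pi, Real.sin_add_int_mul_two_pi,
    add_sub_add_right_eq_sub] using this

theorem St.diff_mem (h : St S) (t : ℝ) {m n : ℝ} (h1 : m ≤ n) (h2 : n ≤ m + 12) :
    0 ≤ S (t - m) - S (t - n) ∧ S (t - m) - S (t - n) ≤ 1 := by
  have a := h.mono (show t - n ≤ t - m by linarith)
  have b := h.mono (show t - m ≤ t - n + 12 by linarith)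
  rw [h.per] at b
  constructor <;> linarith

theorem St.sp_pos (h : St S) (t : ℝ) : 0 < sp S t := by
  have := (h.diff_mem t (m := 1) (n := 10) (by norm_num) (by norm_num)).1
  rw [sp]
  linarith

theorem St.ph_smooth (h : St S) : ContDiff ℝ ∞ (ph S) :=
  ((((contDiff_const.add (contDiff_const.mul (h.sm 2))).add (contDiff_const.mul (h.sm 4))).add
    (contDiff_const.mul (h.sm 6))).add (contDiff_const.mul (h.sm 8))).add
    (contDiff_const.mul (h.sm 10))

theorem St.sp_smooth (h : St S) : ContDiff ℝ ∞ (sp S) :=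
  (contDiff_const.add (h.sm 1)).sub (h.sm 10)

theorem St.ph_mono (h : St S) : Monotone (ph S) := fun s t hst => by
  have hp := Real.pi_pos
  have e : ∀ n : ℝ, S (s - n) ≤ S (t - n) := fun n => h.mono (by linarith)
  unfold ph
  gcongr <;> exact e _

theorem St.ph_per (h : St S) (t : ℝ) : ph S (t + 12) = ph S t + 2 * π := by
  simp only [ph, h.per']
  ring

theorem St.sp_per (h : St S) (t : ℝ) : sp S (t + 12) = sp S t := by
  simp only [sp, h.per']
  ring

theorem St.zone (h : St S) {t : ℝ} (ht : |t| < 1) {n : ℝ} (h1 : 1 ≤ n) (h2 : n ≤ 10) :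
    S (t - n) = 0 ∧ deriv S (t - n) = 0 := by
  rw [abs_lt] at ht
  exact h.lo _ (by linarith) (by linarith)

theorem St.zone_dir (h : St S) {t : ℝ} (ht : |t| < 1) :
    sp S t * Real.cos (ph S t) = 0 ∧ sp S t * Real.sin (ph S t) = -1 := by
  have z : ∀ n : ℝ, 1 ≤ n → n ≤ 10 → S (t - n) = 0 := fun n a b => (h.zone ht a b).1
  rw [sp, ph, z 1 (by norm_num) (by norm_num), z 2 (by norm_num) (by norm_num),
    z 4 (by norm_num) (by norm_num), z 6 (by norm_num) (by norm_num),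
    z 8 (by norm_num) (by norm_num), z 10 (by norm_num) (by norm_num)]
  simp

theorem prim {f : ℝ → ℝ} (hf : ContDiff ℝ ∞ f) (hp : ∀ t, f (t + 12) = f t) :
    ∃ (F : ℝ → ℝ) (I : ℝ), ContDiff ℝ ∞ F ∧ (∀ t, HasDerivAt F (f t) t) ∧
      ∀ t, F (t + 12) = F t + I := by
  have hd : ∀ t, HasDerivAt (fun u => ∫ x in (0 : ℝ)..u, f x) (f t) t := fun t =>
    (hf.continuous.integral_hasStrictDerivAt 0 t).hasDerivAt
  generalize (fun u => ∫ x in (0 : ℝ)..u, f x) = F at hd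
  refine ⟨F, F 12 - F 0, ?_, hd, fun t => ?_⟩
  · rw [contDiff_infty_iff_deriv, funext fun t => (hd t).deriv]
    exact ⟨fun t => (hd t).differentiableAt, hf⟩
  · have h2 : ∀ t, HasDerivAt (fun t => F (t + 12) - F t) 0 t := fun t => by
      have := ((hd (t + 12)).comp_add_const t 12).fun_sub (hd t)
      rwa [hp, sub_self] at this
    have := is_const_of_deriv_eq_zero (fun t => (h2 t).differentiableAt) (fun t => (h2 t).deriv) t 0
    simp only [zero_add] at this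
    linarith

/-- a closed primitive -/
theorem St.closed (h : St S) {f : ℝ → ℝ} (hf : ContDiff ℝ ∞ f) (hp : ∀ t, f (t + 12) = f t)
    (m n : ℝ) : ∃ (X : ℝ → ℝ) (c c' M : ℝ), ContDiff ℝ ∞ X ∧ 0 ≤ c ∧ 0 ≤ c' ∧ 0 < M ∧
      (∀ t, HasDerivAt X (f t + c * deriv S (t - m) - c' * deriv S (t - n)) t) ∧
      (∀ t, X (t + 12) = X t) ∧ ∀ t, |X t| ≤ M := by
  obtain ⟨F, I, h1, h2, h3⟩ := prim hf hp
  have hs : ContDiff ℝ ∞ fun t => F t + max (-I) 0 * S (t - m) - max I 0 * S (t - n) :=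
    (h1.add (contDiff_const.mul (h.sm m))).sub (contDiff_const.mul (h.sm n))
  have hper : Periodic (fun t => F t + max (-I) 0 * S (t - m) - max I 0 * S (t - n)) 12 :=
    fun t => by
      simp only [h3, h.per']
      rcases le_total I 0 with c | c
      · rw [max_eq_left (neg_nonneg.2 c), max_eq_right c]
        ring
      · rw [max_eq_right (neg_nonpos.2 c), max_eq_left c]
        ring
  obtain ⟨M, hM, hb⟩ := (hper.isBounded_of_continuous (by norm_num) hs.continuous).exists_pos_norm_le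
  exact ⟨_, max (-I) 0, max I 0, M, hs, le_max_right _ _, le_max_right _ _, hM,
    fun t => ((h2 t).fun_add ((h.has m t).const_mul _)).fun_sub ((h.has n t).const_mul _), hper,
    fun t => hb _ ⟨t, rfl⟩⟩

end Five
end Vale.Agent.P209
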