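import Vale.Agent.P209.Basic

/-! The reflection and translation rule, and the floor construction. -/

open Set Filter Topology Function
open scoped Real ContDiff

noncomputable section
namespace Vale.Agent.P209

namespace RuleM

variable {ι : Type} [Fintype ι] [DecidableEq ι]

theorem eq_of_int {a b : ℝ} (ha : 0 < a) (ha' : a < 1) (hb : 0 < b) (hb' : b < 1) {m : ℤ}
    (h : a - b = m) : a = b := by
  have h1 : (m : ℝ) < 1 := by linarith
  have h2 : (-1 : ℝ) < m := by linarith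
  have h3 : m < 1 := by exact_mod_cast h1
  have h4 : -1 < m := by exact_mod_cast h2
  have h5 : m = 0 := by omega
  rw [h5, Int.cast_zero] at h
  linarith

/-- the intermediate domain -/
def B1 (k : ι) (K : Set (ι → ℝ)) (ε : ℝ) : Set (Ph ι) :=
  {x | ∃ u, update x.1 k u ∈ K ∧ 0 < x.1 k ∧ x.1 k < u + ε ∧ 0 < x.2 k ∧ x.2 k < 1}

theorem step1 (hCut : CutStmt) (hP : PairsStmt) (k : ι) (K : Set (ι → ℝ)) {ε : ℝ} (hε : 0 < ε)
    (hK : ∀ x ∈ K, 0 < x k) : Emb (tor K) Lat (B1 k K ε) Lat := by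
  obtain ⟨c, h1, h2⟩ := hCut ε hε
  set φ : ι → ℝ × ℝ → ℝ × ℝ := fun i => if i = k then c else fun w => w with hφ
  have e1 : φ k = c := if_pos rfl
  have e2 : ∀ i, i ≠ k → φ i = fun w => w := fun i hi => if_neg hi
  refine ⟨pairs φ, fun x hx => hP ι φ x fun i => ?_, fun x hx => ?_, fun x hx y hy h => ?_⟩
  · by_cases hi : i = k
    · rw [hi, e1]
      exact (h1 (x.1 k, x.2 k) (hK _ hx)).1
    · rw [e2 i hi]
      exact area_id _
  · refine ⟨x.1 k, ?_, ?_⟩
    · have : update (pairs φ x).1 k (x.1 k) = x.1 := by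
        funext i
        by_cases hi : i = k
        · rw [hi, update_self]
        · rw [update_of_ne hi]
          simp only [pairs, e2 i hi]
      rw [this]
      exact hx
    · simp only [pairs, e1]
      exact (h1 (x.1 k, x.2 k) (hK _ hx)).2
  · have hx' := (h1 (x.1 k, x.2 k) (hK _ hx)).2
    have hy' := (h1 (y.1 k, y.2 k) (hK _ hy)).2
    obtain ⟨m, hm⟩ := h.2 k
    have h3 := congrFun h.1 k
    simp only [pairs, e1] at hm h3
    have h4 := h2 (x.1 k, x.2 k) (y.1 k, y.2 k) (hK _ hx) (hK _ hy)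
      (Prod.ext h3 (eq_of_int hx'.2.2.1 hx'.2.2.2 hy'.2.2.1 hy'.2.2.2 hm))
    refine ⟨funext fun i => ?_, fun i => ?_⟩
    · by_cases hi : i = k
      · rw [hi]
        exact h4.1
      · simpa only [pairs, e2 i hi] using congrFun h.1 i
    · by_cases hi : i = k
      · rw [hi]
        exact h4.2
      · simpa only [pairs, e2 i hi] using h.2 i

theorem step2 (hCot : CotStmt) (k : ι) {A : (ι → ℝ) → ℝ} (K : Set (ι → ℝ)) (ε : ℝ)
    (hA : ContDiff ℝ ∞ A) (hAk : ∀ x u, A (update x k u) = A x) {σ : ℝ} (hσ : σ = 1 ∨ σ = -1) :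
    Emb (B1 k K ε) Lat
      (tor {y | ∃ u Y, update y k u ∈ K ∧ 0 < Y ∧ Y < u + ε ∧ y k = A y + σ * Y}) Lat := by
  have hσ0 : σ ≠ 0 := by rcases hσ with h | h <;> rw [h] <;> norm_num
  set Ψ : (ι → ℝ) → (ι → ℝ) := fun q => q + (A q + (σ - 1) * q k) • Pi.single k (1 : ℝ) with hΨ
  have hu : ∀ q, Ψ q = update q k (A q + σ * q k) := by
    intro q
    funext i
    by_cases hi : i = k
    · rw [hi, update_self]
      simp only [hΨ, Pi.add_apply, Pi.smul_apply, Pi.single_eq_same, smul_eq_mul]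
      ring
    · simp [hΨ, hi]
  have sΨ : ContDiff ℝ ∞ Ψ :=
    contDiff_id.add ((hA.add (contDiff_const.mul (contDiff_apply ℝ ℝ k))).smul contDiff_const)
  have dΨ : ∀ q v, fderiv ℝ Ψ q v =
      v + (fderiv ℝ A q v + (σ - 1) * v k) • Pi.single k (1 : ℝ) := by
    intro q v
    have h1 := (hA.differentiable (by simp) q).hasFDerivAt
    have h2 := (hasFDerivAt_id q).add ((h1.add ((hasFDerivAt_apply k q).const_mul (σ - 1))).smul_const
      (Pi.single k (1 : ℝ) : ι → ℝ))
    exact congrArg (fun T : (ι → ℝ) →L[ℝ] (ι → ℝ) => T v) h2.fderiv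
  have dA : ∀ q, fderiv ℝ A q (Pi.single k 1) = 0 := by
    intro q
    have h1 : HasDerivAt (fun t : ℝ => A (update q k t)) (fderiv ℝ A q (Pi.single k 1)) (q k) := by
      have h2 : HasFDerivAt A (fderiv ℝ A q) (update q k (q k)) := by
        rw [update_eq_self]
        exact (hA.differentiable (by simp) q).hasFDerivAt
      exact h2.comp_hasDerivAt (q k) (hasDerivAt_update q k (q k))
    simp only [hAk] at h1
    exact h1.unique (hasDerivAt_const _ _)
  have inj : ∀ q, Injective (fderiv ℝ Ψ q) := by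
    intro q
    refine (injective_iff_map_eq_zero _).2 fun v hv => ?_
    rw [dΨ] at hv
    have h1 : v = v k • Pi.single k (1 : ℝ) := by
      funext i
      by_cases hi : i = k
      · simp [hi]
      · simpa [hi] using congrFun hv i
    have h2 : fderiv ℝ A q v = 0 := by rw [h1, map_smul, dA, smul_zero]
    have h3 := congrFun hv k
    simp only [h2, Pi.add_apply, Pi.smul_apply, Pi.single_eq_same, smul_eq_mul, Pi.zero_apply] at h3
    have h4 : v k = 0 := (mul_eq_zero.1 (show σ * v k = 0 by linarith)).resolve_left hσ0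
    rw [h1, h4, zero_smul]
  obtain ⟨F, f1, f2, f3⟩ := hCot ι Ψ fun _ => 0
  have ch : ∀ x j, (F x).2 j + (F x).2 k * (fderiv ℝ A x.1 (Pi.single j 1) +
      (σ - 1) * (Pi.single j (1 : ℝ) : ι → ℝ) k) = x.2 j := by
    intro x j
    have h1 := f2 x (inj _) (Pi.single j 1)
    rw [dΨ] at h1
    simpa [mul_add, Finset.sum_add_distrib, Pi.single_apply] using h1
  refine ⟨F, fun x _ => f3 x sΨ.contDiffAt contDiffAt_const (inj _), fun x hx => ?_,
    fun x hx y hy h => ?_⟩
  · obtain ⟨u, h1, h2, h3, -⟩ := hx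
    refine ⟨u, x.1 k, ?_, h2, h3, ?_⟩
    · rw [f1, hu, update_idem]
      exact h1
    · rw [f1, hu, update_self, hAk]
  · obtain ⟨_, -, -, -, hx1, hx2⟩ := hx
    obtain ⟨_, -, -, -, hy1, hy2⟩ := hy
    have h1 : update x.1 k (A x.1 + σ * x.1 k) = update y.1 k (A y.1 + σ * y.1 k) := by
      rw [← hu, ← hu, ← f1, ← f1, h.1]
    have h2 : A x.1 = A y.1 := by rw [← hAk x.1, h1, hAk]
    have h3 : x.1 = y.1 := by
      funext i
      by_cases hi : i = k
      · have h4 := congrFun h1 k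
        rw [update_self, update_self, h2, add_right_inj] at h4
        rw [hi]
        exact mul_left_cancel₀ hσ0 h4
      · simpa [hi] using congrFun h1 i
    have cx := ch x k
    have cy := ch y k
    rw [dA, Pi.single_eq_same] at cx cy
    obtain ⟨m, hm⟩ := h.2 k
    have h5 : x.2 k = y.2 k := by
      rcases hσ with hs | hs
      · exact eq_of_int hx1 hx2 hy1 hy2 (m := m) (by rw [← cx, ← cy, ← hm, hs]; ring)
      · exact eq_of_int hx1 hx2 hy1 hy2 (m := -m) (by
          rw [← cx, ← cy, Int.cast_neg, ← hm, hs]; ring)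
    have h6 : (F x).2 k = (F y).2 k :=
      mul_left_cancel₀ hσ0 (by linarith)
    refine ⟨h3, fun j => ?_⟩
    obtain ⟨n, hn⟩ := h.2 j
    exact ⟨n, by rw [← ch x j, ← ch y j, h6, h3, ← hn]; ring⟩

end RuleM

theorem ruleMS (hCut : CutStmt) (hCot : CotStmt) (hP : PairsStmt) : RuleMStmt := by
  intro ι _ _ k A K ε hε hA hAk hK
  have h1 := RuleM.step1 hCut hP k K hε hK
  constructor
  · refine (h1.trans (RuleM.step2 hCot k K ε hA hAk (Or.inr rfl))).mono_tor ?_
    rintro y ⟨u, Y, h2, h3, h4, h5⟩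
    exact ⟨u, h2, by linarith, by linarith⟩
  · refine (h1.trans (RuleM.step2 hCot k K ε hA hAk (Or.inl rfl))).mono_tor ?_
    rintro y ⟨u, Y, h2, h3, h4, h5⟩
    exact ⟨u, h2, by linarith, by linarith⟩

theorem floorS : FloorStmt := by
  intro ι _ _ i A0 U F v hF hU hL hper
  set G : ℤ → Ph ι → Ph ι := fun n y =>
    F (y - (0, Pi.single i (n : ℝ))) + (0, fun j => (n : ℝ) * v j) with hG
  refine ⟨fun x => G ⌊x.2 i⌋ x, fun x hx => ?_, fun x hx => ?_, fun x hx y hy h => ?_⟩
  · have h1 : SympAt (G ⌊x.2 i⌋) x :=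
      (sympAt_add_const _ _).comp' (SympAt.comp' (F := fun y => y - (0, Pi.single i (⌊x.2 i⌋ : ℝ)))
        (hF _ hx) (sympAt_sub_const _ x))
    refine h1.congr ?_
    have hc : Continuous fun y : Ph ι => y.2 i := (continuous_apply i).comp continuous_snd
    have h2 : ∀ᶠ y in 𝓝 x, y.2 i < (⌊x.2 i⌋ : ℝ) + 1 :=
      hc.continuousAt.eventually (gt_mem_nhds (Int.lt_floor_add_one _))
    rcases (Int.floor_le (x.2 i)).eq_or_lt with h3 | h3
    · have h4 : ∀ᶠ y in 𝓝 x, (⌊x.2 i⌋ : ℝ) - 1 < y.2 i :=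
        hc.continuousAt.eventually (lt_mem_nhds (by linarith))
      have h5 := (continuous_sub_right ((0, Pi.single i (⌊x.2 i⌋ : ℝ)) : Ph ι)).continuousAt.eventually
        (hper _ hx (by simp [h3]))
      filter_upwards [h2, h4, h5] with y y2 y4 y5
      by_cases h6 : (⌊x.2 i⌋ : ℝ) ≤ y.2 i
      · rw [Int.floor_eq_iff.2 ⟨h6, y2⟩]
      · have h7 : ⌊y.2 i⌋ = ⌊x.2 i⌋ - 1 := Int.floor_eq_iff.2 ⟨by push_cast; linarith,
          by push_cast; linarith⟩
        have h8 : y - ((0, Pi.single i ((⌊x.2 i⌋ - 1 : ℤ) : ℝ)) : Ph ι) =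
            y - (0, Pi.single i (⌊x.2 i⌋ : ℝ)) + (0, Pi.single i 1) := by
          rw [Int.cast_sub, Int.cast_one, Pi.single_sub]
          ext <;> simp
          ring
        rw [h7]
        simp only [hG]
        rw [h8, y5, add_assoc]
        congr 1
        ext <;> simp
        ring
    · filter_upwards [h2, hc.continuousAt.eventually (lt_mem_nhds h3)] with y y2 y3
      rw [Int.floor_eq_iff.2 ⟨y3.le, y2⟩]
  · have h1 := hU hx
    simpa [tor, hG] using h1
  · have h1 : Lat (F (x - (0, Pi.single i (⌊x.2 i⌋ : ℝ)))) (F (y - (0, Pi.single i (⌊y.2 i⌋ : ℝ)))) := by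
      refine ⟨by simpa [hG] using h.1, fun j => ?_⟩
      obtain ⟨m, hm⟩ := h.2 j
      refine ⟨m - ⌊x.2 i⌋ * v j + ⌊y.2 i⌋ * v j, ?_⟩
      simp only [hG, Prod.snd_add, Pi.add_apply] at hm
      push_cast
      linarith
    have h2 := hL _ hx _ hy h1
    refine ⟨by simpa using h2.1, fun j => ?_⟩
    obtain ⟨m, hm⟩ := h2.2 j
    simp only [Prod.snd_sub, Pi.sub_apply, Pi.single_apply] at hm
    by_cases hj : j = i
    · rw [if_pos hj, if_pos hj] at hm
      exact ⟨m + ⌊x.2 i⌋ - ⌊y.2 i⌋, by push_cast; linarith⟩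
    · rw [if_neg hj, if_neg hj] at hm
      exact ⟨m, by linarith⟩

end Vale.Agent.P209
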