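import Mathlib

/-! Statements of the steps of the P209 packing proof.  See PLAN.md in this folder. -/

open Set Filter Topology Function
open scoped Real ContDiff

noncomputable section
namespace Vale.Agent.P209

/-- phase space: base point (actions) and momentum (angles) -/
abbrev Ph (ι : Type) := (ι → ℝ) × (ι → ℝ)

section tool
variable {ι : Type} [Fintype ι] [DecidableEq ι]

def om (u v : Ph ι) : ℝ := ∑ i, (u.1 i * v.2 i - u.2 i * v.1 i)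

def SympAt (F : Ph ι → Ph ι) (x : Ph ι) : Prop :=
  ContDiffAt ℝ ∞ F x ∧ ∀ u v, om (fderiv ℝ F x u) (fderiv ℝ F x v) = om u v

/-- a symplectic map from `A` to `B` that reflects the relation `rb` to `ra` -/
def Emb (A : Set (Ph ι)) (ra : Ph ι → Ph ι → Prop) (B : Set (Ph ι))
    (rb : Ph ι → Ph ι → Prop) : Prop :=
  ∃ F : Ph ι → Ph ι, (∀ x ∈ A, SympAt F x) ∧ MapsTo F A B ∧
    ∀ x ∈ A, ∀ y ∈ A, rb (F x) (F y) → ra x y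

/-- same actions, angles equal modulo integers -/
def Lat (x y : Ph ι) : Prop := x.1 = y.1 ∧ ∀ i, ∃ k : ℤ, x.2 i - y.2 i = k

def tor (U : Set (ι → ℝ)) : Set (Ph ι) := {x | x.1 ∈ U}

def cap (x : Ph ι) : ℝ := π * ∑ i, (x.1 i ^ 2 + x.2 i ^ 2)

def ballO (ι : Type) [Fintype ι] (r : ℝ) : Set (Ph ι) := {x | cap x < r}

def Area (φ : ℝ × ℝ → ℝ × ℝ) (z : ℝ × ℝ) : Prop :=
  ContDiffAt ℝ ∞ φ z ∧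
    (fderiv ℝ φ z (1, 0)).1 * (fderiv ℝ φ z (0, 1)).2
      - (fderiv ℝ φ z (1, 0)).2 * (fderiv ℝ φ z (0, 1)).1 = 1

def pairs (φ : ι → ℝ × ℝ → ℝ × ℝ) (x : Ph ι) : Ph ι :=
  (fun i => (φ i (x.1 i, x.2 i)).1, fun i => (φ i (x.1 i, x.2 i)).2)

def pol (z : ℝ × ℝ) : ℝ × ℝ :=
  (√(z.1 / π) * Real.cos (2 * π * z.2), √(z.1 / π) * Real.sin (2 * π * z.2))

/-- packing of open balls of capacities `ρ i` into `B` -/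
def PackB {κ : Type} (ρ : κ → ℝ) (B : Set (Ph ι)) : Prop :=
  ∃ F : κ → Ph ι → Ph ι, (∀ i, ∀ x ∈ ballO ι (ρ i), SympAt (F i) x ∧ F i x ∈ B) ∧
    ∀ i j, ∀ x ∈ ballO ι (ρ i), ∀ y ∈ ballO ι (ρ j), F i x = F j y → i = j ∧ x = y

/-- packing of open balls into torus bundles over disjoint subsets of `U` -/
def Pack {κ : Type} (ρ : κ → ℝ) (U : Set (ι → ℝ)) : Prop :=
  ∃ V : κ → Set (ι → ℝ), (∀ i, V i ⊆ U) ∧ (Pairwise fun i j => Disjoint (V i) (V j)) ∧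
    ∀ i, Emb (ballO ι (ρ i)) Eq (tor (V i)) Lat

end tool

def ExactStmt : Prop := ∀ (ι : Type) [Fintype ι] [DecidableEq ι] (F : Ph ι → Ph ι) (S : Ph ι → ℝ)
  (x : Ph ι), ContDiffAt ℝ ∞ F x → ContDiffAt ℝ ∞ S x →
  (∀ᶠ y in 𝓝 x, ∀ v : Ph ι, ∑ i, (F y).2 i * (fderiv ℝ F y v).1 i
    = ∑ i, y.2 i * v.1 i + fderiv ℝ S y v) → SympAt F x

def CotStmt : Prop := ∀ (ι : Type) [Fintype ι] [DecidableEq ι] (Ψ : (ι → ℝ) → (ι → ℝ))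
  (K : (ι → ℝ) → ℝ), ∃ F : Ph ι → Ph ι, (∀ x, (F x).1 = Ψ x.1) ∧
    (∀ x, Injective (fderiv ℝ Ψ x.1) → ∀ v : ι → ℝ,
      ∑ i, (F x).2 i * fderiv ℝ Ψ x.1 v i = ∑ i, x.2 i * v i + fderiv ℝ K x.1 v) ∧
    (∀ x, ContDiffAt ℝ ∞ Ψ x.1 → ContDiffAt ℝ ∞ K x.1 → Injective (fderiv ℝ Ψ x.1) →
      SympAt F x)

def PairsStmt : Prop := ∀ (ι : Type) [Fintype ι] [DecidableEq ι] (φ : ι → ℝ × ℝ → ℝ × ℝ)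
  (x : Ph ι), (∀ i, Area (φ i) (x.1 i, x.2 i)) → SympAt (pairs φ) x

def PolStmt : Prop :=
  (∀ z : ℝ × ℝ, 0 < z.1 → Area pol z ∧ π * ((pol z).1 ^ 2 + (pol z).2 ^ 2) = z.1) ∧
  ∀ z w : ℝ × ℝ, 0 < z.1 → 0 < w.1 → pol z = pol w → z.1 = w.1 ∧ ∃ k : ℤ, z.2 - w.2 = k

def ChiStmt : Prop := ∀ ε : ℝ, 0 < ε → ∃ χ : ℝ × ℝ → ℝ × ℝ, (∀ z, Area χ z) ∧ Injective χ ∧
  ∀ z, 0 < (χ z).1 ∧ (χ z).1 < π * (z.1 ^ 2 + z.2 ^ 2) + ε ∧ 0 < (χ z).2 ∧ (χ z).2 < 1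

def CutStmt : Prop := ∀ ε : ℝ, 0 < ε → ∃ c : ℝ × ℝ → ℝ × ℝ,
  (∀ z : ℝ × ℝ, 0 < z.1 → Area c z ∧ 0 < (c z).1 ∧ (c z).1 < z.1 + ε ∧ 0 < (c z).2 ∧ (c z).2 < 1) ∧
  ∀ z w : ℝ × ℝ, 0 < z.1 → 0 < w.1 → c z = c w → z.1 = w.1 ∧ ∃ k : ℤ, z.2 - w.2 = k

def SrcStmt : Prop := ∀ (ι : Type) [Fintype ι] [DecidableEq ι] (r ε : ℝ), 0 < ε →
  Emb (ballO ι r) Eq (tor {μ | (∀ i, 0 < μ i) ∧ ∑ i, μ i < r + ε}) Lat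

def TgtStmt : Prop := ∀ (ι : Type) [Fintype ι] [DecidableEq ι] (a b : ℝ),
  Emb (tor {μ : ι → ℝ | (∀ i, 0 < μ i) ∧ a < ∑ i, μ i ∧ ∑ i, μ i < b}) Lat
    {x | a < cap x ∧ cap x < b} Eq

def RuleMStmt : Prop := ∀ (ι : Type) [Fintype ι] [DecidableEq ι] (k : ι) (A : (ι → ℝ) → ℝ)
  (K : Set (ι → ℝ)) (ε : ℝ), 0 < ε → ContDiff ℝ ∞ A → (∀ x u, A (update x k u) = A x) →
  (∀ x ∈ K, 0 < x k) →
  Emb (tor K) Lat (tor {y | ∃ u, update y k u ∈ K ∧ A y - u - ε < y k ∧ y k < A y}) Lat ∧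
  Emb (tor K) Lat (tor {y | ∃ u, update y k u ∈ K ∧ A y < y k ∧ y k < A y + u + ε}) Lat

def FloorStmt : Prop := ∀ (ι : Type) [Fintype ι] [DecidableEq ι] (i : ι) (A0 : Set (Ph ι))
  (U : Set (ι → ℝ)) (F : Ph ι → Ph ι) (v : ι → ℤ), (∀ x ∈ A0, SympAt F x) →
  MapsTo F A0 (tor U) → (∀ x ∈ A0, ∀ y ∈ A0, Lat (F x) (F y) → Lat x y) →
  (∀ x ∈ A0, x.2 i = 0 → ∀ᶠ y in 𝓝 x,
    F (y + (0, Pi.single i 1)) = F y + (0, fun j => (v j : ℝ))) →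
  Emb {x | x - (0, Pi.single i (⌊x.2 i⌋ : ℝ)) ∈ A0} Lat (tor U) Lat

/-! ### Dynamics of fronts -/

section dyn
variable {d : ℕ}

/-- `s 0 + ... + s k` -/
def ps (s : Fin (d + 1) → ℝ) (k : Fin (d + 1)) : ℝ := ∑ j with j ≤ k, s j

structure Cls (lam x : ℝ) (q : (Fin (d + 1) → ℝ) → ℝ) : Prop where
  mono : ∀ s : Fin (d + 1) → ℝ, 0 ≤ s → ∀ (i : Fin (d + 1)) (δ : ℝ), 0 ≤ δ →
    q s ≤ q (s + Pi.single i δ)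
  ord : ∀ s : Fin (d + 1) → ℝ, 0 ≤ s → ∀ i j : Fin (d + 1), i < j → ∀ δ : ℝ, 0 ≤ δ →
    q (s + Pi.single j δ) ≤ q (s + Pi.single i δ)
  dd : ∀ s : Fin (d + 1) → ℝ, 0 ≤ s → ∀ k j : Fin (d + 1), (j : ℕ) = k + 1 → ∀ δ : ℝ, 0 ≤ δ →
    ps s k + δ < x → q (s + Pi.single 0 δ) ≤ q (s + Pi.single j δ) + lam * δ
  dlast : ∀ s : Fin (d + 1) → ℝ, 0 ≤ s → ∀ δ : ℝ, 0 ≤ δ → ∑ j, s j + δ < x →
    q (s + Pi.single 0 δ) ≤ q s + lam * δ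

/-- Lipschitz on the orthant -/
def LipE (q : (Fin (d + 1) → ℝ) → ℝ) : Prop :=
  ∃ Λ : ℝ, ∀ s t, 0 ≤ s → 0 ≤ t → |q s - q t| ≤ Λ * ‖s - t‖

/-- bounded below on the orthant -/
def LB (q : (Fin (d + 1) → ℝ) → ℝ) : Prop := ∃ b : ℝ, ∀ s, 0 ≤ s → b ≤ q s

def job (lam r : ℝ) (q : (Fin (d + 1) → ℝ) → ℝ) (s : Fin (d + 1) → ℝ) : ℝ :=
  q s + lam * max (r - ∑ j, s j) 0

def srt (k : Fin (d + 1)) (q p : (Fin (d + 1) → ℝ) → ℝ) (s : Fin (d + 1) → ℝ) : ℝ :=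
  sInf ((fun u => max (p (update s k u)) (q (update s k (u + s k)))) '' Ici 0)

def chain (lam r : ℝ) (q : (Fin (d + 1) → ℝ) → ℝ) : ℕ → (Fin (d + 1) → ℝ) → ℝ
  | 0 => job lam r q
  | k + 1 => if h : k < d + 1 then srt ⟨k, h⟩ q (chain lam r q k) else chain lam r q k

def mv (lam r : ℝ) (q : (Fin (d + 1) → ℝ) → ℝ) : (Fin (d + 1) → ℝ) → ℝ := chain lam r q (d + 1)

def mvs (rs : List ℝ) (q : (Fin (d + 1) → ℝ) → ℝ) : (Fin (d + 1) → ℝ) → ℝ :=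
  rs.foldl (fun p r => mv 1 r p) q

/-- cross-section coordinates -/
def cs (z : Option (Fin (d + 1)) → ℝ) : Fin (d + 1) → ℝ := fun j => z (some j)

def orth (d : ℕ) : Set (Fin (d + 1) → ℝ) := {s | 0 ≤ s}

end dyn

/-- unfolding of the infimum, monotonicity, constants, Lipschitz bounds -/
def Core0Stmt : Prop := ∀ (d : ℕ) (lam r : ℝ), 0 ≤ lam →
  (∀ q : (Fin (d + 1) → ℝ) → ℝ, LB q → ∀ k, LB (chain lam r q k)) ∧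
  (∀ q : (Fin (d + 1) → ℝ) → ℝ, LB q → ∀ (k : Fin (d + 1)) s, 0 ≤ s → ∀ τ,
    (chain lam r q (k + 1) s < τ ↔ ∃ u, 0 ≤ u ∧ chain lam r q k (update s k u) < τ ∧
      q (update s k (u + s k)) < τ)) ∧
  (∀ (q q' : (Fin (d + 1) → ℝ) → ℝ) (c : ℝ), LB q → LB q' → (∀ s, 0 ≤ s → q s ≤ q' s + c) →
    ∀ k s, 0 ≤ s → chain lam r q k s ≤ chain lam r q' k s + c) ∧
  (∀ q : (Fin (d + 1) → ℝ) → ℝ, LB q → LipE q → ∀ k, LipE (chain lam r q k))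

def Core1Stmt : Prop := ∀ (d : ℕ) (lam r x : ℝ) (q : (Fin (d + 1) → ℝ) → ℝ), 0 ≤ lam → 0 ≤ r →
  r ≤ x → Cls lam x q → ∀ k : ℕ,
  (∀ s, 0 ≤ s → q s ≤ chain lam r q k s) ∧
  (∀ s, 0 ≤ s → chain lam r q k s ≤ max (q s) (q 0 + lam * r)) ∧
  (∀ s : Fin (d + 1) → ℝ, 0 ≤ s → ∀ j : Fin (d + 1), k ≤ (j : ℕ) → ∀ δ : ℝ, 0 ≤ δ →
    chain lam r q k (s + Pi.single j δ) ≤ max (chain lam r q k s) (q (s + Pi.single j δ))) ∧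
  (∀ s : Fin (d + 1) → ℝ, 0 ≤ s → ∀ j : Fin (d + 1), (j : ℕ) < k → ∀ δ : ℝ, 0 ≤ δ →
    chain lam r q k s ≤ chain lam r q k (s + Pi.single j δ)) ∧
  (∀ s : Fin (d + 1) → ℝ, 0 ≤ s → ∀ i j : Fin (d + 1), i < j → ∀ δ : ℝ, 0 ≤ δ →
    chain lam r q k (s + Pi.single j δ) ≤ chain lam r q k (s + Pi.single i δ))

def Core2Stmt : Prop := ∀ (d : ℕ) (lam r x : ℝ) (q : (Fin (d + 1) → ℝ) → ℝ), 0 ≤ lam → 0 ≤ r →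
  r ≤ x → Cls lam x q → Cls lam x (mv lam r q)

def VolStmt : Prop := ∀ (d : ℕ) (lam r x : ℝ) (q : (Fin (d + 1) → ℝ) → ℝ), 0 ≤ lam → 0 ≤ r →
  r ≤ x → Cls lam x q → LipE q →
  ∫⁻ s in orth d, ENNReal.ofReal (mv lam r q s - q s)
    ≤ ∫⁻ s in orth d, ENNReal.ofReal (lam * max (r - ∑ j, s j) 0)

def SimplexStmt : Prop := ∀ (d : ℕ) (r : ℝ), 0 ≤ r →
  ∫⁻ s in orth d, ENNReal.ofReal (max (r - ∑ j, s j) 0)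
    = ENNReal.ofReal (r ^ (d + 2) / (d + 2).factorial)

def MinStmt : Prop := ∀ (d : ℕ) (x B : ℝ) (rs : List ℝ) (Γ : (Fin (d + 1) → ℝ) → ℝ),
  (∀ r ∈ rs, 0 ≤ r ∧ r ≤ x) → Cls 0 x Γ → LipE Γ → (∀ s, 0 ≤ s → Γ s ≤ 0) → Γ 0 < 0 →
  (∀ s, 0 ≤ s → Γ s < 0 → ∑ j, s j ≤ B) →
  ENNReal.ofReal ((rs.map fun r : ℝ => r ^ (d + 2) / (d + 2).factorial).sum)
    < ∫⁻ s in orth d, ENNReal.ofReal (-Γ s) →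
  ∃ f : (Fin (d + 1) → ℝ) → ℝ, Cls 1 x f ∧ LipE f ∧ (∀ s, 0 ≤ s → mvs rs f s ≤ f s - Γ s) ∧
    ∀ s, 0 ≤ s → f s < f 0 + rs.sum + 1 → Γ s < 0

def TypeBStmt : Prop := ∀ (d : ℕ) (ρ r : ℝ) (f : (Fin (d + 1) → ℝ) → ℝ), ρ < r → LipE f →
  Emb (ballO (Option (Fin (d + 1))) ρ) Eq
    (tor {z | (∀ j, 0 < z (some j)) ∧ f (cs z) < z none ∧ z none < f (cs z) + (r - ∑ j, cs z j)})
    Lat

def RealStmt : Prop := ∀ (d : ℕ) (ρ r x B η : ℝ) (q : (Fin (d + 1) → ℝ) → ℝ), 0 < ρ → ρ < r →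
  r ≤ x → 0 < η → Cls 1 x q → LipE q → (∀ s, 0 ≤ s → q s < q 0 + r + 1 → ∑ j, s j ≤ B) →
  Emb (ballO (Option (Fin (d + 1))) ρ) Eq
    (tor {z | (∀ j, 0 < z (some j)) ∧ q (cs z) < z none ∧ z none < mv 1 r q (cs z) + η ∧
      z none < q 0 + r + η}) Lat

def DynStmt : Prop := ∀ (d : ℕ) (κ : Type) [Fintype κ] [DecidableEq κ] (ρ r : κ → ℝ)
  (S : Finset κ) (x B η : ℝ) (L : (Fin (d + 1) → ℝ) → ℝ),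
  (∀ i, 0 < ρ i ∧ ρ i < r i) → (∀ i, i ∉ S → r i ≤ x) → 0 < η → LipE L →
  Cls 0 x (fun s => ∑ i ∈ S, max (r i - ∑ j, s j) 0 - L s) →
  (∀ s, 0 ≤ s → ∑ i ∈ S, max (r i - ∑ j, s j) 0 ≤ L s) → ∑ i ∈ S, r i < L 0 →
  (∀ s, 0 ≤ s → 0 < L s → ∑ j, s j ≤ B) →
  ENNReal.ofReal (∑ i, r i ^ (d + 2) / (d + 2).factorial) < ∫⁻ s in orth d, ENNReal.ofReal (L s) →
  ∃ f : (Fin (d + 1) → ℝ) → ℝ, LipE f ∧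
    Pack ρ {z : Option (Fin (d + 1)) → ℝ | (∀ j, 0 < z (some j)) ∧ 0 < L (cs z) ∧
      f (cs z) < z none ∧ z none < f (cs z) + L (cs z) + η}

/-! ### Wrapping the cylinder -/

/-- derivative in the first (time) variable -/
def d1 {E : Type} [NormedAddCommGroup E] [NormedSpace ℝ E] (G : ℝ × E → ℝ) (p : ℝ × E) : ℝ :=
  fderiv ℝ G p (1, 0)

/-- derivative in the second variable -/
def d2 (G : ℝ × ℝ → ℝ) (p : ℝ × ℝ) : ℝ := fderiv ℝ G p (0, 1)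

section wrap
variable {d : ℕ}

def W0 (C : Set (Fin (d + 1) → ℝ)) (G : ℝ × (Fin (d + 1) → ℝ) → ℝ) (z : ℝ) :
    Set (Ph (Option (Fin (d + 1)))) :=
  {x | cs x.1 ∈ C ∧ 0 ≤ x.2 none ∧ x.2 none < d1 G (x.1 none, cs x.1) ∧
    (x.2 none = 0 → |x.1 none| < z)}

def RW (T : ℝ) (x y : Ph (Option (Fin (d + 1)))) : Prop :=
  (∃ k : ℤ, x.1 none - y.1 none = k * T) ∧ cs x.1 = cs y.1 ∧ x.2 none = y.2 none ∧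
    ∀ j, ∃ k : ℤ, x.2 (some j) - y.2 (some j) = k

def Geo (C : Set (Fin (d + 1) → ℝ)) (G : ℝ × (Fin (d + 1) → ℝ) → ℝ) (T z ρ0 : ℝ)
    (Δ : Set (Option (Fin (d + 1)) → ℝ)) : Prop :=
  ∃ (F : Ph (Option (Fin (d + 1))) → Ph (Option (Fin (d + 1)))) (v : Option (Fin (d + 1)) → ℤ),
    (∀ x ∈ W0 C G z, SympAt F x) ∧ MapsTo F (W0 C G z) (tor Δ) ∧
    (∀ x ∈ W0 C G z, ∀ y ∈ W0 C G z, Lat (F x) (F y) → RW T x y) ∧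
    ∀ x ∈ W0 C G z, x.2 none = 0 → ∀ᶠ y in 𝓝 x,
      F (y + (0, Pi.single none ρ0)) = F y + (0, fun j => (v j : ℝ))

end wrap

def ThetaStmt : Prop := ∀ ε M : ℝ, 0 < ε → ε < 1 → ∃ ϑ : ℝ → ℝ, ContDiff ℝ ∞ ϑ ∧ ϑ 0 = 0 ∧
  (∀ θ, ϑ (θ + 1) = ϑ θ + 1) ∧ (∀ θ, 1 - ε ≤ deriv ϑ θ) ∧ M ≤ deriv ϑ 0

def InvStmt : Prop := ∀ (d : ℕ) (G : ℝ × (Fin (d + 1) → ℝ) → ℝ) (C : Set (Fin (d + 1) → ℝ)),
  IsOpen C → ContDiff ℝ ∞ G → (∀ s ∈ C, ∀ t, 0 < d1 G (t, s)) → (∀ s ∈ C, ∀ τ, ∃ t, G (t, s) = τ) →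
  ∃ ti : ℝ × (Fin (d + 1) → ℝ) → ℝ, ∀ p, p.2 ∈ C → ContDiffAt ℝ ∞ ti p ∧ G (ti p, p.2) = p.1

def WrapStmt : Prop := ∀ (d : ℕ) (C C0 : Set (Fin (d + 1) → ℝ))
  (G : ℝ × (Fin (d + 1) → ℝ) → ℝ) (T z ρ0 ε η M : ℝ) (Lh ℓ f : (Fin (d + 1) → ℝ) → ℝ)
  (Δ : Set (Option (Fin (d + 1)) → ℝ)),
  IsOpen C → C0 ⊆ C → (∀ s ∈ C0, 0 ≤ s) → ContDiff ℝ ∞ G → 0 < T → 0 < z → 0 < ρ0 → 0 < ε →
  ε < 1 → 0 < η → (∀ s ∈ C, ∀ t, 0 < d1 G (t, s)) → (∀ s ∈ C, ∀ t, G (t + T, s) = G (t, s) + Lh s) →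
  (∀ s ∈ C, ∀ t, |t| < z → G (t, s) = ρ0 * t) → LipE f →
  (∀ s ∈ C0, ℓ s ≤ M ∧ ℓ s + η ≤ (1 - ε) * Lh s) → Geo C G T z ρ0 Δ →
  Emb (tor {y | cs y ∈ C0 ∧ f (cs y) < y none ∧ y none < f (cs y) + ℓ (cs y)}) Lat (tor Δ) Lat

/-! ### Geometry -/

/-- a family of loops in the plane, indexed by the depth `D ∈ (0, hi)` -/
structure LoopData (hi : ℝ) (Reg : ℝ → ℝ → ℝ → Prop) (ell : ℝ → ℝ) where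
  T : ℝ
  z : ℝ
  ρ0 : ℝ
  G : ℝ × ℝ → ℝ
  U : ℝ × ℝ → ℝ
  V : ℝ × ℝ → ℝ
  k1 : ℤ
  k2 : ℤ
  hT : 0 < T
  hz : 0 < z
  hzT : 2 * z < T
  hρ : 0 < ρ0
  sG : ContDiff ℝ ∞ G
  sU : ContDiff ℝ ∞ U
  sV : ContDiff ℝ ∞ V
  perU : ∀ t D, D ∈ Ioo 0 hi → U (t + T, D) = U (t, D)
  perV : ∀ t D, D ∈ Ioo 0 hi → V (t + T, D) = V (t, D)
  perG : ∀ t D, D ∈ Ioo 0 hi → G (t + T, D) = G (t, D) + G (T, D)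
  len : ∀ D, D ∈ Ioo 0 hi → ell D ≤ G (T, D)
  zone : ∀ t D, D ∈ Ioo 0 hi → |t| < z → G (t, D) = ρ0 * t
  wpos : ∀ t D, D ∈ Ioo 0 hi → 0 < d1 G (t, D)
  anti : ∀ t D D', D ∈ Ioo 0 hi → D' ∈ Ioo 0 hi → D ≤ D' → d1 G (t, D') ≤ d1 G (t, D)
  inj : ∀ t D t' D', D ∈ Ioo 0 hi → D' ∈ Ioo 0 hi → U (t, D) = U (t', D') →
    V (t, D) = V (t', D') → D = D' ∧ ∃ k : ℤ, t - t' = k * T
  det : ∀ t D, D ∈ Ioo 0 hi → d1 U (t, D) * d2 V (t, D) - d1 V (t, D) * d2 U (t, D) ≠ 0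
  lat : ∀ t D, D ∈ Ioo 0 hi → ∀ a b : ℤ, |a * d1 U (t, D) + b * d1 V (t, D)| < d1 G (t, D) →
    |a * d2 U (t, D) + b * d2 V (t, D)| < 1 → a = 0 ∧ b = 0
  even : Even (k1 + k2)
  zlat : ∀ t D, D ∈ Ioo 0 hi → |t| < z → k1 * d1 U (t, D) + k2 * d1 V (t, D) = ρ0 ∧
    k1 * d2 U (t, D) + k2 * d2 V (t, D) = 0 ∧
    ∀ a b : ℤ, |a * d2 U (t, D) + b * d2 V (t, D)| < 1 → ∃ m : ℤ, a = m * k1 ∧ b = m * k2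
  reg : ∀ t D, D ∈ Ioo 0 hi → Reg D (U (t, D)) (V (t, D))

def StairStmt : Prop := ∀ P a b : ℝ, a < b → b - a < P → ∃ S : ℝ → ℝ, ContDiff ℝ ∞ S ∧
  (∀ t, S (t + P) = S t + 1) ∧ (∀ t, 0 ≤ deriv S t) ∧ (∀ t ∈ Icc (b - P) a, S t = 0) ∧
  (∀ t ∈ Icc b (a + P), S t = 1) ∧ (∀ t ∈ Icc a b, S t ∈ Icc (0 : ℝ) 1) ∧
  ∀ t, deriv S t ≠ 0 → ∃ k : ℤ, t - k * P ∈ Ioo a b

def ConvexStmt : Prop := ∀ (T : ℝ) (X Y u φ : ℝ → ℝ), 0 < T → (∀ t, X (t + T) = X t) →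
  (∀ t, Y (t + T) = Y t) → (∀ t, HasDerivAt X (u t * Real.cos (φ t)) t) →
  (∀ t, HasDerivAt Y (u t * Real.sin (φ t)) t) → (∀ t, 0 < u t) → Continuous φ → Monotone φ →
  (∀ t, φ (t + T) = φ t + 2 * π) →
  (∀ s t, 0 ≤ -Real.sin (φ t) * (X s - X t) + Real.cos (φ t) * (Y s - Y t)) ∧
  ∀ s t, X s = X t → Y s = Y t → ∃ k : ℤ, s - t = k * T

def FiveStmt : Prop := ∀ (hi κ : ℝ) (l0 l1 l2 l3 l4 : ℝ → ℝ), 0 < κ → ContDiff ℝ ∞ l0 →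
  ContDiff ℝ ∞ l1 → ContDiff ℝ ∞ l2 → ContDiff ℝ ∞ l3 → ContDiff ℝ ∞ l4 →
  (∀ D, l1 D + l2 D = l4 D ∧ l2 D + l3 D = l0 D) →
  (∀ D ∈ Ioo 0 hi, 0 ≤ l1 D ∧ 0 ≤ l2 D ∧ 0 ≤ l3 D ∧ deriv l1 D ≤ 0 ∧ deriv l2 D ≤ 0 ∧
    deriv l3 D ≤ 0 ∧ deriv l0 D ≤ -2 ∧ deriv l4 D ≤ -2 ∧ deriv l0 D + deriv l1 D ≤ -3) →
  Nonempty (LoopData hi
    (fun D U V => D - κ ≤ U ∧ V ≤ 1 - D + κ ∧ 1 - D - l0 D - κ ≤ V ∧ U ≤ D + l4 D + κ ∧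
      1 - 2 * D - l0 D - l1 D - κ ≤ V - U)
    (fun D => l0 D + l1 D + l2 D + l3 D + l4 D))

/-- smooth positive part -/
structure IsFold (κ : ℝ) (f : ℝ → ℝ) : Prop where
  smooth : ContDiff ℝ ∞ f
  odd : ∀ x, f x - f (-x) = x
  nonneg : ∀ x, 0 ≤ f x
  le : ∀ x, f x ≤ max x 0 + κ
  d0 : ∀ x, 0 ≤ deriv f x
  d1 : ∀ x, deriv f x ≤ 1

def FoldFnStmt : Prop := ∀ κ : ℝ, 0 < κ → ∃ f, IsFold κ f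

section geo
variable {m : ℕ}

/-- index of the `j`-th long coordinate -/
def lg (j : Fin m) : Option (Fin (m + 2)) := some j.succ.succ

/-- the relation between the loop lift and the fold -/
def RM (x y : Ph (Option (Fin (m + 2)))) : Prop :=
  x.1 = y.1 ∧ x.2 (some 0) = y.2 (some 0) ∧ ∃ a b : ℤ, x.2 none - y.2 none = a ∧
    x.2 (some 1) - y.2 (some 1) = b ∧ ∀ j, ∃ c : ℤ, x.2 (lg j) - y.2 (lg j) = 2 * c - a - b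

/-- domain of the fold: `U = x.1 none`, `V = x.1 (some 1)` -/
def AF (f : ℝ → ℝ) (h : ℝ) : Set (Ph (Option (Fin (m + 2)))) :=
  {x | 0 < x.2 (some 0) ∧ x.2 (some 0) < 1 ∧ 0 < x.1 (some 0) ∧ (∀ j, 0 < x.1 (lg j)) ∧
    ∑ j, x.1 (lg j) + x.1 (some 0) + f (x.1 none - x.1 (some 1)) < x.1 none ∧
    ∑ j, x.1 (lg j) + x.1 (some 0) + f (x.1 (some 1) - x.1 none) < 1 - x.1 none ∧
    x.1 (some 0) + f (x.1 none - x.1 (some 1)) < h}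

def shellA (m : ℕ) (h : ℝ) : Set (Option (Fin (m + 2)) → ℝ) :=
  {μ | (∀ i, 0 < μ i) ∧ 1 - h < ∑ i, μ i ∧ ∑ i, μ i < 1}

/-- domain of the loop lift: `t = x.1 none`, `D = x.1 (some 1)` -/
def AL (hi z : ℝ) (G : ℝ × ℝ → ℝ) : Set (Ph (Option (Fin (m + 2)))) :=
  {x | x.1 (some 1) ∈ Ioo 0 hi ∧ 0 ≤ x.2 none ∧ x.2 none < d1 G (x.1 none, x.1 (some 1)) ∧
    (x.2 none = 0 → |x.1 none| < z) ∧ ∀ j, 0 < x.2 (some j) ∧ x.2 (some j) < 1}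

def Reg5 (h κ D U V : ℝ) : Prop :=
  D - κ ≤ U ∧ D - κ ≤ V ∧ U ≤ 1 - D + κ ∧ V ≤ 1 - D + κ ∧ D - h - κ ≤ V - U

end geo

def FoldStmt : Prop := ∀ (m : ℕ) (κ h : ℝ) (f : ℝ → ℝ), IsFold κ f →
  ∃ F : Ph (Option (Fin (m + 2))) → Ph (Option (Fin (m + 2))), (∀ x, SympAt F x) ∧
    MapsTo F (AF f h) (tor (shellA m h)) ∧
    (∀ x ∈ AF f h, ∀ y ∈ AF f h, Lat (F x) (F y) → RM x y) ∧
    ∀ a b : ℤ, Even (a + b) → ∃ v : Option (Fin (m + 2)) → ℤ, ∀ y,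
      F (y + (0, Pi.single none (a : ℝ) + Pi.single (some 1) (b : ℝ))) = F y + (0, fun j => (v j : ℝ))

def LiftStmt : Prop := ∀ (m : ℕ) (hi : ℝ) (Reg : ℝ → ℝ → ℝ → Prop) (ell : ℝ → ℝ)
  (P : LoopData hi Reg ell),
  ∃ F : Ph (Option (Fin (m + 2))) → Ph (Option (Fin (m + 2))),
    (∀ x ∈ AL hi P.z P.G, SympAt F x ∧ (F x).2 (some 0) = x.2 (some 0)) ∧
    (∀ x, (F x).1 none = P.U (x.1 none, x.1 (some 1)) ∧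
      (F x).1 (some 1) = P.V (x.1 none, x.1 (some 1)) ∧ (F x).1 (some 0) = x.1 (some 0) ∧
      ∀ j, (F x).1 (lg j) = x.1 (lg j)) ∧
    (∀ x ∈ AL hi P.z P.G, ∀ y ∈ AL hi P.z P.G, RM (F x) (F y) →
      (∃ k : ℤ, x.1 none - y.1 none = k * (2 ^ m * P.T)) ∧ cs x.1 = cs y.1 ∧ x.2 = y.2) ∧
    ∀ x ∈ AL hi P.z P.G, x.2 none = 0 → ∀ᶠ y in 𝓝 x, F (y + (0, Pi.single none P.ρ0))
      = F y + (0, Pi.single none (P.k1 : ℝ) + Pi.single (some 1) (P.k2 : ℝ))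

def GeoStmt : Prop := ∀ (m : ℕ) (h κ hi : ℝ) (ell : ℝ → ℝ) (P : LoopData hi (Reg5 h κ) ell),
  0 < κ →
  Geo {s : Fin (m + 2) → ℝ | (∀ j, 0 < s j) ∧ s 0 + 2 * κ < h ∧ ∑ j, s j + 3 * κ < hi}
    (fun p => P.G (p.1, ∑ j, p.2 j + 3 * κ)) (2 ^ m * P.T) P.z P.ρ0 (shellA m h)

/-! ### Assembly -/

def GlueStmt : Prop := ∀ (m : ℕ) (h κ hi : ℝ) (ell : ℝ → ℝ), 0 < κ →
  Nonempty (LoopData hi (Reg5 h κ) ell) →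
  ∀ (ι : Type) [Fintype ι] [DecidableEq ι] (ρ r : ι → ℝ) (S : Finset ι) (x ε η M : ℝ)
  (L : (Fin (m + 2) → ℝ) → ℝ),
  (∀ i, 0 < ρ i ∧ ρ i < r i) → (∀ i, i ∉ S → r i ≤ x) → 0 < ε → ε < 1 → 0 < η → LipE L →
  Cls 0 x (fun s => ∑ i ∈ S, max (r i - ∑ j, s j) 0 - L s) →
  (∀ s, 0 ≤ s → ∑ i ∈ S, max (r i - ∑ j, s j) 0 ≤ L s) → ∑ i ∈ S, r i < L 0 →
  (∀ s, 0 ≤ s → 0 < L s → s 0 + 2 * κ < h ∧ ∑ j, s j + 3 * κ < hi ∧ L s ≤ M ∧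
    L s + η ≤ (1 - ε) * (2 ^ m * ell (∑ j, s j + 3 * κ))) →
  ENNReal.ofReal (∑ i, r i ^ (m + 3) / (m + 3).factorial)
    < ∫⁻ s in orth (m + 1), ENNReal.ofReal (L s) →
  PackB ρ {y : Ph (Option (Fin (m + 2))) | 1 - h < cap y ∧ cap y < 1}

def CaseAStmt : Prop := ∀ (m : ℕ) (ι : Type) [Fintype ι] [DecidableEq ι] (ρ : ι → ℝ),
  (∀ i, 0 < ρ i ∧ 2 * ρ i < 1) → ∑ i, ρ i ^ (m + 3) < 1 →
  PackB ρ (ballO (Option (Fin (m + 2))) 1)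

def CaseBStmt : Prop := ∀ (h : ℝ) (ι : Type) [Fintype ι] [DecidableEq ι] (ρ : ι → ℝ),
  0 < h → 2 * h < 1 → (∀ i, 0 < ρ i ∧ ρ i < h) → ∑ i, ρ i ^ 3 < 1 - (1 - h) ^ 3 →
  PackB ρ {y : Ph (Option (Fin 2)) | 1 - h < cap y ∧ cap y < 1}

end Vale.Agent.P209
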