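import Vale.Agent.P209.FiveA
import Vale.Agent.P209.Final

/-! Statements for the shell in all dimensions.  See PLAN3.md in this folder. -/

open Set Filter Topology Function
open scoped Real ContDiff

noncomputable section
namespace Vale.Agent.P209

/-! ### Shaking the shell -/

def ShearStmt : Prop := ∀ (ι : Type) [Fintype ι] [DecidableEq ι] (k : ι) (a : ι → ℤ)
  (K : Set (ι → ℝ)), a k = 0 → Emb (tor K) Lat (tor {y | (fun i => y i - a i * y k) ∈ K}) Lat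

def ShakeStmt : Prop := ∀ (ι : Type) [Fintype ι] [DecidableEq ι] (k : ι) (b : (ι → ℝ) → ℝ)
  (K : Set (ι → ℝ)) (ε : ℝ), 0 < ε → UniformContinuous b → (∀ x u, b (update x k u) = b x) →
  (∀ x ∈ K, 0 < x k) →
  Emb (tor K) Lat (tor {y | ∃ u, update y k u ∈ K ∧ b y < y k ∧ y k < b y + u + ε}) Lat

section body
variable {d : ℕ}

/-- sum of the first `i` coordinates -/
def Sp (s : Fin (d + 1) → ℝ) (i : ℕ) : ℝ := ∑ j : Fin (d + 1), if j.val < i then s j else 0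

/-- the deficit after `i` shakes (it vanishes for `i = 0, 1`) -/
def rho (f : ℝ → ℝ) (h : ℝ) (s : Fin (d + 1) → ℝ) : ℕ → ℝ
  | 0 => 0
  | i + 1 => ((2 ^ (i + 1) - 1) * rho f h s i + f (Sp s (i + 1) - h)) / (2 ^ (i + 1) - 2)

def pos (x : ℝ) : ℝ := max x 0

/-- the shell after `i` shakes, with slack `δ` -/
def Qs (d : ℕ) (h δ : ℝ) (i : ℕ) : Set (Option (Fin (d + 1)) → ℝ) :=
  {y | (∀ j : Fin (d + 1), (j : ℕ) < d → 0 < y (some j)) ∧ δ < y none ∧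
    δ < y (some (Fin.last d)) ∧ (0 < i → y (some 0) + δ < h) ∧
    y none - (1 - 2 / 2 ^ i) * y (some (Fin.last d)) + (Sp (cs y) d - Sp (cs y) i)
      < 1 - 2 * Sp (cs y) i - rho pos h (cs y) i - δ ∧
    y (some (Fin.last d)) - (1 - 2 / 2 ^ i) * y none + (Sp (cs y) d - Sp (cs y) i)
      < 1 - 2 * Sp (cs y) i - rho pos h (cs y) i - δ ∧
    1 - h - Sp (cs y) i + δ
      < y none + y (some (Fin.last d)) + (Sp (cs y) d - Sp (cs y) i)}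

/-- the length function of the shell -/
def Lb (h : ℝ) (s : Fin (d + 1) → ℝ) : ℝ :=
  2 ^ (d + 1) * (1 - 2 * ∑ j, s j - rho pos h s (d + 1)) - (1 - h - ∑ j, s j)

/-- its Lipschitz truncation -/
def Lt (h a : ℝ) (s : Fin (d + 1) → ℝ) : ℝ :=
  max (min (Lb h s - a) (2 ^ (d + 1) / a * (h - a - s 0))) 0

def pt (X Y : ℝ) (s : Fin (d + 1) → ℝ) : Option (Fin (d + 1)) → ℝ :=
  fun o => o.elim X (update s (Fin.last d) Y)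

/-- derivative in the last coordinate -/
def dL (F : ℝ × (Fin (d + 1) → ℝ) → ℝ) (p : ℝ × (Fin (d + 1) → ℝ)) : ℝ :=
  fderiv ℝ F p (0, Pi.single (Fin.last d) 1)

end body

/-- basic facts on `Sp` and `rho` -/
def RhoStmt : Prop := ∀ (d : ℕ) (h : ℝ),
  (∀ s : Fin (d + 1) → ℝ, Sp s 0 = 0 ∧ Sp s (d + 1) = ∑ j, s j ∧
    ∀ k : Fin (d + 1), Sp s (k.val + 1) = Sp s k.val + s k ∧ Sp s (k.val + 1) = ps s k) ∧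
  (∀ (s : Fin (d + 1) → ℝ) (k : Fin (d + 1)) (u : ℝ) (i : ℕ),
    Sp (update s k u) i = if (k : ℕ) < i then Sp s i - s k + u else Sp s i) ∧
  (∀ (s : Fin (d + 1) → ℝ) (k : Fin (d + 1)) (u : ℝ) (i : ℕ),
    Sp (s + Pi.single k u) i = if (k : ℕ) < i then Sp s i + u else Sp s i) ∧
  (∀ (f : ℝ → ℝ) (s : Fin (d + 1) → ℝ), rho f h s 1 = 0) ∧
  (∀ (f g : ℝ → ℝ) (s t : Fin (d + 1) → ℝ) (c : ℝ) (i : ℕ), 0 ≤ c →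
    (∀ j, j ≤ i → f (Sp s j - h) ≤ g (Sp t j - h) + c) → rho f h s i ≤ rho g h t i + c) ∧
  (∀ (f : ℝ → ℝ) (s : Fin (d + 1) → ℝ) (i : ℕ), (∀ x, 0 ≤ f x) →
    0 ≤ rho f h s i ∧ rho f h s i ≤ rho f h s (i + 1)) ∧
  (∀ (f : ℝ → ℝ) (i : ℕ), ContDiff ℝ ∞ f → ContDiff ℝ ∞ fun s : Fin (d + 1) → ℝ => rho f h s i) ∧
  (∀ (s t : Fin (d + 1) → ℝ) (i : ℕ), |rho pos h s i - rho pos h t i| ≤ (d + 1) * ‖s - t‖) ∧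
  (∀ (s : Fin (d + 1) → ℝ) (i : ℕ), 0 ≤ s → Sp s i ≤ h → rho pos h s i = 0)

def StepStmt : Prop := ∀ (d : ℕ) (h δ : ℝ) (i : ℕ), 0 < δ → i < d →
  Emb (tor (Qs d h (3 * δ) (i + 1))) Lat (tor (Qs d h δ i)) Lat

def ChainStmt : Prop := ∀ (d : ℕ) (h δ : ℝ), 0 < δ →
  Emb (tor (Qs d h δ d)) Lat {x : Ph (Option (Fin (d + 1))) | 1 - h < cap x ∧ cap x < 1} Eq

/-! ### The pentagon loops -/

structure ExFold (κ : ℝ) (F : ℝ → ℝ) : Prop where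
  smooth : ContDiff ℝ ∞ F
  lo : ∀ x, x ≤ -κ → F x = 0 ∧ deriv F x = 0
  hi : ∀ x, κ ≤ x → deriv F x = 1
  mono : Monotone (deriv F)

/-- progress along a long side -/
structure IsLane (κ : ℝ) (F ν : ℝ → ℝ) (a : ℝ × ℝ × ℝ → ℝ) : Prop where
  fold : ExFold κ F
  sν : ContDiff ℝ ∞ ν
  dν : ∀ t, 0 ≤ deriv ν t
  smooth : ContDiff ℝ ∞ a
  per : ∀ t α β, a (t + 12, α, β) = a (t, α, β) + (α - β)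
  lo : ∀ t α β, |α| ≤ 2 → |β| ≤ 2 → -11 ≤ t → t ≤ 0 → a (t, α, β) = 0
  hi : ∀ t α β, |α| ≤ 2 → |β| ≤ 2 → 1 ≤ t → t ≤ 12 → a (t, α, β) = α - β
  mid : ∀ t α β, -1 ≤ t → t ≤ 2 → a (t, α, β) = F (α + ν t) - F (β + ν t)
  dout : ∀ t α β, |α| ≤ 2 → |β| ≤ 2 → -11 ≤ t → t ≤ 12 → (t ≤ 0 ∨ 1 ≤ t) →
    HasDerivAt (fun τ => a (τ, α, β)) 0 t
  dmid : ∀ t α β, 0 ≤ t → t ≤ 1 → HasDerivAt (fun τ => a (τ, α, β))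
    (deriv ν t * (deriv F (α + ν t) - deriv F (β + ν t))) t

def LaneStmt : Prop := ∀ κ : ℝ, 0 < κ → κ ≤ 1 → ∃ F ν a, IsLane κ F ν a

def Ray (x y e1 e2 : ℝ) : Prop := ∃ σ : ℝ, 1 ≤ σ ∧ x = σ * e1 ∧ y = σ * e2

def Cone (x y e1 e2 f1 f2 : ℝ) : Prop :=
  ∃ p q : ℝ, 0 ≤ p ∧ 0 ≤ q ∧ 1 ≤ p + q ∧ x = p * e1 + q * f1 ∧ y = p * e2 + q * f2

/-- a thin closed convex curve with sides parallel to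
`(-M, 1-M), (0, -1), (1, -1), (1, 0), (M-1, M)` -/
structure IsTime (M b : ℝ) (X Y φ : ℝ → ℝ) : Prop where
  sX : ContDiff ℝ ∞ X
  sY : ContDiff ℝ ∞ Y
  pX : ∀ t, X (t + 12) = X t
  pY : ∀ t, Y (t + 12) = Y t
  bd : ∀ t, |X t| ≤ b ∧ |Y t| ≤ b
  cφ : Continuous φ
  mφ : Monotone φ
  pφ : ∀ t, φ (t + 12) = φ t + 2 * π
  dir : ∀ t, ∃ u : ℝ, 0 < u ∧ deriv X t = u * Real.cos (φ t) ∧ deriv Y t = u * Real.sin (φ t)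
  zone : ∀ t, |t| < 1 → Y t - X t = t
  r1 : ∀ t, -1 ≤ t → t ≤ 2 → Ray (deriv X t) (deriv Y t) (-M) (1 - M)
  c1 : ∀ t, 2 ≤ t → t ≤ 3 → Cone (deriv X t) (deriv Y t) (-M) (1 - M) 0 (-1)
  r2 : ∀ t, 3 ≤ t → t ≤ 4 → Ray (deriv X t) (deriv Y t) 0 (-1)
  c2 : ∀ t, 4 ≤ t → t ≤ 5 → Cone (deriv X t) (deriv Y t) 0 (-1) 1 (-1)
  r3 : ∀ t, 5 ≤ t → t ≤ 6 → Ray (deriv X t) (deriv Y t) 1 (-1)
  c3 : ∀ t, 6 ≤ t → t ≤ 7 → Cone (deriv X t) (deriv Y t) 1 (-1) 1 0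
  r4 : ∀ t, 7 ≤ t → t ≤ 8 → Ray (deriv X t) (deriv Y t) 1 0
  c4 : ∀ t, 8 ≤ t → t ≤ 9 → Cone (deriv X t) (deriv Y t) 1 0 (M - 1) M
  r5 : ∀ t, 9 ≤ t → t ≤ 10 → Ray (deriv X t) (deriv Y t) (M - 1) M
  c5 : ∀ t, 10 ≤ t → t ≤ 11 → Cone (deriv X t) (deriv Y t) (M - 1) M (-M) (1 - M)

def TimeStmt : Prop := ∀ M : ℝ, 2 ≤ M → ∃ b X Y φ, 0 < b ∧ IsTime M b X Y φ

/-- parameters `(A, B)` of the pentagons -/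
def PDom (M κ : ℝ) : Set (ℝ × ℝ) :=
  {p | κ < p.1 ∧ κ < p.1 - p.2 * (2 * M / (2 * M - 1)) ∧ p.1 - p.2 < 1}

/-- derivative in the depth direction -/
def dD (F : ℝ × ℝ × ℝ → ℝ) (p : ℝ × ℝ × ℝ) : ℝ := fderiv ℝ F p (0, -1, 1)

/-- the ingredients of the pentagon loops -/
structure PData where
  M : ℕ
  κ : ℝ
  e : ℝ
  k : ℝ
  b : ℝ
  S : ℝ → ℝ
  X : ℝ → ℝ
  Y : ℝ → ℝ
  φ : ℝ → ℝ
  f : ℝ → ℝ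
  F : ℝ → ℝ
  ν : ℝ → ℝ
  a : ℝ × ℝ × ℝ → ℝ
  hM : 2 ≤ M
  he : 0 < e
  he1 : 20 * M * e ≤ 1
  heκ : 20 * M * e ≤ κ
  hk : 0 < k
  hkb : 2 * M * (k * b) ≤ κ
  hS : Five.St S
  hT : IsTime M b X Y φ
  hf : IsFold e f
  ha : IsLane e F ν a

namespace PData
variable (P : PData)

def ψ (B : ℝ) : ℝ := P.f B / (2 * P.M - 1)
def lb (B : ℝ) : ℝ := P.f B - B
def lc (A B : ℝ) : ℝ := A - 2 * P.M * P.ψ B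
def a1 (c : ℝ) (p : ℝ × ℝ × ℝ) : ℝ := P.a (p.1 - 1, p.2.1 - p.2.2 - c, P.ψ p.2.2 + c)
def a5 (c : ℝ) (p : ℝ × ℝ × ℝ) : ℝ := P.a (p.1 - 9, -P.ψ p.2.2 - c, -(p.2.1 - p.2.2) + c)

def U (p : ℝ × ℝ × ℝ) : ℝ := P.M * (p.2.1 - p.2.2) + P.k * P.X p.1 - P.M * P.a1 0 p
  + P.S (p.1 - 5) * P.lc p.2.1 p.2.2 + P.S (p.1 - 7) * P.lb p.2.2 + (P.M - 1) * P.a5 0 p

def V (p : ℝ × ℝ × ℝ) : ℝ := P.M * (p.2.1 - p.2.2) + P.k * P.Y p.1 - (P.M - 1) * P.a1 0 p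
  - P.S (p.1 - 3) * P.lb p.2.2 - P.S (p.1 - 5) * P.lc p.2.1 p.2.2 + P.M * P.a5 0 p

def G (p : ℝ × ℝ × ℝ) : ℝ := P.k * p.1 + (2 * P.M - 1) * (P.a1 (2 * P.e) p + P.a5 (2 * P.e) p)
  + P.S (p.1 - 3) * P.lb p.2.2 + P.S (p.1 - 5) * P.lc p.2.1 p.2.2 + P.S (p.1 - 7) * P.lb p.2.2

end PData

/-- smoothness and periodicity -/
def Pent0Stmt : Prop := ∀ P : PData,
  ContDiff ℝ ∞ P.U ∧ ContDiff ℝ ∞ P.V ∧ ContDiff ℝ ∞ P.G ∧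
  (∀ t p, P.U (t + 12, p) = P.U (t, p) ∧ P.V (t + 12, p) = P.V (t, p)) ∧
  (∀ p, ∃ c, ∀ t, P.G (t + 12, p) = P.G (t, p) + c) ∧
  ∀ p ∈ PDom P.M P.κ, 4 * P.e ≤ P.lc p.1 p.2 ∧ 0 ≤ P.lb p.2 ∧ 0 ≤ P.ψ p.2 ∧
    p.1 - p.2 - P.ψ p.2 = P.lc p.1 p.2 + P.lb p.2

/-- values -/
def PentAStmt : Prop := ∀ P : PData, ∀ p ∈ PDom P.M P.κ,
  (4 * P.M - 1) * p.1 - 4 * P.M * p.2 - 2 * P.M / (2 * P.M - 1) * max p.2 0 - P.κ ≤ P.G (12, p) ∧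
  (∀ t, |t| < 1 → P.G (t, p) = P.k * t ∧ P.V (t, p) - P.U (t, p) = P.k * t) ∧
  ∀ t, -P.κ ≤ P.U (t, p) ∧ -P.κ ≤ P.V (t, p) ∧ p.1 - P.κ ≤ P.U (t, p) + P.V (t, p) ∧
    P.M * P.U (t, p) - (P.M - 1) * P.V (t, p) ≤ P.M * (p.1 - p.2) + P.κ ∧
    P.M * P.V (t, p) - (P.M - 1) * P.U (t, p) ≤ P.M * (p.1 - p.2) + P.κ

/-- widths -/
def PentWStmt : Prop := ∀ P : PData, ∀ p ∈ PDom P.M P.κ, ∀ t,
  0 < d1 P.G (t, p) ∧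
  ∀ p' ∈ PDom P.M P.κ, p'.1 ≤ p.1 → p.2 ≤ p'.2 → d1 P.G (t, p') ≤ d1 P.G (t, p)

/-- direction, determinant and lattice condition -/
def PentBStmt : Prop := ∀ P : PData, ∀ p ∈ PDom P.M P.κ, ∀ t,
  (∃ u : ℝ, 0 < u ∧ d1 P.U (t, p) = u * Real.cos (P.φ t) ∧ d1 P.V (t, p) = u * Real.sin (P.φ t)) ∧
  0 < d1 P.U (t, p) * (1 + dD P.V (t, p)) - d1 P.V (t, p) * (1 + dD P.U (t, p)) ∧
  ∀ a b : ℤ, |a * d1 P.U (t, p) + b * d1 P.V (t, p)| < d1 P.G (t, p) →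
    |a * (1 + dD P.U (t, p)) + b * (1 + dD P.V (t, p))| < 1 → a = 0 ∧ b = 0

structure Pent (M κ : ℝ) where
  ρ0 : ℝ
  G : ℝ × ℝ × ℝ → ℝ
  U : ℝ × ℝ × ℝ → ℝ
  V : ℝ × ℝ × ℝ → ℝ
  hρ : 0 < ρ0
  sG : ContDiff ℝ ∞ G
  sU : ContDiff ℝ ∞ U
  sV : ContDiff ℝ ∞ V
  perU : ∀ t p, U (t + 12, p) = U (t, p)
  perV : ∀ t p, V (t + 12, p) = V (t, p)
  perG : ∀ t, ∀ p ∈ PDom M κ, G (t + 12, p) = G (t, p) + G (12, p)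
  len : ∀ p ∈ PDom M κ,
    (4 * M - 1) * p.1 - 4 * M * p.2 - 2 * M / (2 * M - 1) * max p.2 0 - κ ≤ G (12, p)
  zone : ∀ t, ∀ p ∈ PDom M κ, |t| < 1 → G (t, p) = ρ0 * t ∧ V (t, p) - U (t, p) = ρ0 * t
  wpos : ∀ t, ∀ p ∈ PDom M κ, 0 < d1 G (t, p)
  anti : ∀ t, ∀ p ∈ PDom M κ, ∀ p' ∈ PDom M κ, p'.1 ≤ p.1 → p.2 ≤ p'.2 →
    d1 G (t, p') ≤ d1 G (t, p)
  inj : ∀ t t' A B D, (A, B) ∈ PDom M κ → (A - D, B + D) ∈ PDom M κ →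
    U (t, A, B) = D + U (t', A - D, B + D) → V (t, A, B) = D + V (t', A - D, B + D) →
    D = 0 ∧ ∃ k : ℤ, t - t' = k * 12
  det : ∀ t, ∀ p ∈ PDom M κ,
    d1 U (t, p) * (1 + dD V (t, p)) - d1 V (t, p) * (1 + dD U (t, p)) ≠ 0
  lat : ∀ t, ∀ p ∈ PDom M κ, ∀ a b : ℤ, |a * d1 U (t, p) + b * d1 V (t, p)| < d1 G (t, p) →
    |a * (1 + dD U (t, p)) + b * (1 + dD V (t, p))| < 1 → a = 0 ∧ b = 0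
  reg : ∀ t, ∀ p ∈ PDom M κ, -κ ≤ U (t, p) ∧ -κ ≤ V (t, p) ∧ p.1 - κ ≤ U (t, p) + V (t, p) ∧
    M * U (t, p) - (M - 1) * V (t, p) ≤ M * (p.1 - p.2) + κ ∧
    M * V (t, p) - (M - 1) * U (t, p) ≤ M * (p.1 - p.2) + κ

def PentStmt : Prop := ∀ (M : ℕ) (κ : ℝ), 2 ≤ M → 0 < κ → Nonempty (Pent M κ)

/-- a family of loops over a cross-section `C` -/
structure Loop2 (d : ℕ) (C : Set (Fin (d + 1) → ℝ)) where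
  T : ℝ
  z : ℝ
  ρ0 : ℝ
  G : ℝ × (Fin (d + 1) → ℝ) → ℝ
  U : ℝ × (Fin (d + 1) → ℝ) → ℝ
  V : ℝ × (Fin (d + 1) → ℝ) → ℝ
  hT : 0 < T
  hz : 0 < z
  hρ : 0 < ρ0
  sG : ContDiff ℝ ∞ G
  sU : ContDiff ℝ ∞ U
  sV : ContDiff ℝ ∞ V
  perU : ∀ t s, U (t + T, s) = U (t, s)
  perV : ∀ t s, V (t + T, s) = V (t, s)
  perG : ∀ t, ∀ s ∈ C, G (t + T, s) = G (t, s) + G (T, s)
  zone : ∀ t, ∀ s ∈ C, |t| < z → G (t, s) = ρ0 * t ∧ V (t, s) - U (t, s) = ρ0 * t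
  wpos : ∀ t, ∀ s ∈ C, 0 < d1 G (t, s)
  anti : ∀ t, ∀ s ∈ C, ∀ s' ∈ C, s ≤ s' → d1 G (t, s') ≤ d1 G (t, s)
  inj : ∀ t t', ∀ s ∈ C, ∀ s' ∈ C, (∀ j, j ≠ Fin.last d → s j = s' j) → U (t, s) = U (t', s') →
    V (t, s) = V (t', s') → s = s' ∧ ∃ k : ℤ, t - t' = k * T
  det : ∀ t, ∀ s ∈ C, d1 U (t, s) * dL V (t, s) - d1 V (t, s) * dL U (t, s) ≠ 0
  lat : ∀ t, ∀ s ∈ C, ∀ a b : ℤ, |a * d1 U (t, s) + b * d1 V (t, s)| < d1 G (t, s) →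
    |a * dL U (t, s) + b * dL V (t, s)| < 1 → a = 0 ∧ b = 0

def LoopBStmt : Prop := ∀ (d : ℕ) (h κ : ℝ), 2 ≤ d → 0 < h → 2 * h < 1 → 0 < κ →
  ∃ (C : Set (Fin (d + 1) → ℝ)) (P : Loop2 d C) (δ : ℝ), 0 < δ ∧ IsOpen C ∧
    (∀ s ∈ C, ∀ Y : Fin (d + 1) → ℝ, (∀ j, 0 < Y j) → Y ≤ s → Y ∈ C) ∧
    (∀ t, ∀ s ∈ C, pt (P.U (t, s)) (P.V (t, s)) s ∈ Qs d h δ d) ∧
    ∀ s : Fin (d + 1) → ℝ, (∀ j, 0 < s j) → s 0 + κ < h → κ < Lb h s →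
      s ∈ C ∧ Lb h s - κ ≤ P.G (P.T, s)

def GeoLStmt : Prop := ∀ (d : ℕ) (C : Set (Fin (d + 1) → ℝ)) (P : Loop2 d C)
  (Δ : Set (Option (Fin (d + 1)) → ℝ)) (ε : ℝ), 0 < ε → IsOpen C →
  (∀ s ∈ C, ∀ Y : Fin (d + 1) → ℝ, (∀ j, 0 < Y j) → Y ≤ s → Y ∈ C) →
  (∀ t, ∀ s ∈ C, pt (P.U (t, s)) (P.V (t, s)) s ∈ Δ) →
  Geo {s | (∀ j, 0 < s j) ∧ (fun j => s j + ε) ∈ C} (fun p => P.G (p.1, fun j => p.2 j + ε))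
    P.T P.z P.ρ0 Δ

/-! ### Assembly -/

def GlueBStmt : Prop := ∀ (d : ℕ) (h a : ℝ), 2 ≤ d → 0 < h → 2 * h < 1 → 0 < a →
  ∀ (ι : Type) [Fintype ι] [DecidableEq ι] (ρ r : ι → ℝ) (S : Finset ι) (x : ℝ)
  (L : (Fin (d + 1) → ℝ) → ℝ),
  (∀ i, 0 < ρ i ∧ ρ i < r i) → (∀ i, i ∉ S → r i ≤ x) → LipE L →
  Cls 0 x (fun s => ∑ i ∈ S, max (r i - ∑ j, s j) 0 - L s) →
  (∀ s, 0 ≤ s → ∑ i ∈ S, max (r i - ∑ j, s j) 0 ≤ L s) → ∑ i ∈ S, r i < L 0 →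
  (∀ s, 0 ≤ s → 0 < L s → s 0 + a < h ∧ L s + a ≤ Lb h s) →
  ENNReal.ofReal (∑ i, r i ^ (d + 2) / (d + 2).factorial)
    < ∫⁻ s in orth d, ENNReal.ofReal (L s) →
  PackB ρ {y : Ph (Option (Fin (d + 1))) | 1 - h < cap y ∧ cap y < 1}

def VolBStmt : Prop := ∀ (d : ℕ) (h : ℝ), 0 < h → 2 * h < 1 →
  ENNReal.ofReal ((1 - (1 - h) ^ (d + 2)) / (d + 2).factorial)
    ≤ ∫⁻ s in orth d ∩ {s | s 0 < h}, ENNReal.ofReal (Lb h s)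

def ClsBStmt : Prop := ∀ (d : ℕ) (h a : ℝ) (ι : Type) (r : ι → ℝ) (S : Finset ι) (x : ℝ),
  0 < a → 2 * a < h → 2 * h < 1 → (∀ i, r i ≤ h - 2 * a) → S.card ≤ 2 ^ (d + 2) - 1 →
  x ≤ h - 2 * a → (x ≤ 0 ∨ (S.card = 2 ^ (d + 2) - 1 ∧ ∀ i ∈ S, x ≤ r i)) →
  LipE (Lt (d := d) h a) ∧
  Cls 0 x (fun s : Fin (d + 1) → ℝ => ∑ i ∈ S, max (r i - ∑ j, s j) 0 - Lt h a s) ∧
  (∀ s : Fin (d + 1) → ℝ, 0 ≤ s → ∑ i ∈ S, max (r i - ∑ j, s j) 0 ≤ Lt h a s) ∧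
  ∑ i ∈ S, r i < Lt h a (0 : Fin (d + 1) → ℝ)

def CaseBnStmt : Prop := ∀ m : ℕ, 1 ≤ m → CaseBn m

end Vale.Agent.P209
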