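import Vale.Agent.P209.Defs

/-! Statements for the necessity half (volume and two-ball obstruction).  See PLAN4.md. -/

open Set Filter Topology Function
open scoped Real ContDiff

noncomputable section
namespace Vale.Agent.P209

abbrev CV (n : ℕ) := Fin n → ℂ

section basic
variable {n : ℕ}

def nsq (z : CV n) : ℝ := ∑ j, ‖z j‖ ^ 2

/-- the Hamiltonian vector field: `omega0 η (ham H x) = dH x η` -/
def ham (H : CV n → ℝ) (x : CV n) : CV n :=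
  fun j => ⟨-fderiv ℝ H x (Pi.single j Complex.I), fderiv ℝ H x (Pi.single j 1)⟩

/-- midpoint -/
def md (u v : CV n) : CV n := (1 / 2 : ℝ) • (u + v)

/-- smooth and constant near infinity -/
def Nice (ψ : CV n → ℝ) : Prop := ContDiff ℝ ∞ ψ ∧ ∃ C c : ℝ, ∀ w, C ≤ ‖w‖ → ψ w = c

variable {L : ℕ} [NeZero L]

def mid (v : ZMod L → CV n) (k : ZMod L) : CV n := md (v k) (v (k + 1))

def Qf (v : ZMod L → CV n) : ℝ := ∑ k, omega0 (v k) (v (k + 1)) / 2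

/-- the discrete action -/
def act (f : ZMod L → CV n → ℝ) (v : ZMod L → CV n) : ℝ := Qf v + ∑ k, f k (mid v k)

/-- `N` steps of `s H` followed by radial steps -/
def stepf (N : ℕ) (t s : ℝ) (H : CV n → ℝ) (g : ℝ → ℝ) (σ : Bool) (k : ZMod L) (w : CV n) : ℝ :=
  if k.val < N then -(s / N) * H w else if σ then t * (nsq w - g (nsq w)) else t * g (nsq w)

/-- the splitting into negative and nonnegative modes -/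
structure IsSplit (A W : Submodule ℝ (ZMod L → CV n)) : Prop where
  compl : IsCompl A W
  neg : ∀ v ∈ A, Qf v ≤ -(Real.tan (π / L) * ∑ k, nsq (mid v k))
  pos : ∀ v ∈ W, ∃ c : CV n, Real.tan (π / L) * ∑ k, nsq (mid v k - c) ≤ Qf v
  bij : Bijective (mid : (ZMod L → CV n) → ZMod L → CV n)

end basic

/-! ### The saddle point value -/

structure Adm {E : Type} [NormedAddCommGroup E] [NormedSpace ℝ E] (A W : Submodule ℝ E)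
    (F : E → ℝ) : Prop where
  diff : Differentiable ℝ F
  lip : ∃ Λ : ℝ, ∀ x y, ‖fderiv ℝ F x - fderiv ℝ F y‖ ≤ Λ * ‖x - y‖
  ps : ∃ C : ℝ, ∀ x, ‖fderiv ℝ F x‖ ≤ 1 → ‖x‖ ≤ C
  up : ∀ C : ℝ, ∃ m : ℝ, ∀ y ∈ A, ∀ e, ‖e‖ ≤ C → F (y + e) ≤ m
  low : ∃ m : ℝ, ∀ y ∈ W, m ≤ F y

def MinMaxStmt : Prop := ∀ (E : Type) [NormedAddCommGroup E] [NormedSpace ℝ E]
  [FiniteDimensional ℝ E] (A W : Submodule ℝ E), IsCompl A W → ∃ c : (E → ℝ) → ℝ,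
  ∀ F, Adm A W F → (∃ x, fderiv ℝ F x = 0 ∧ F x = c F) ∧
    (∀ F' κ, Adm A W F' → (∀ x, F x ≤ F' x + κ) → c F ≤ c F' + κ) ∧
    (∀ x0 m, (∀ y ∈ A, F (x0 + y) ≤ m) → c F ≤ m) ∧
    (∀ x0 m, (∀ y ∈ W, m ≤ F (x0 + y)) → m ≤ c F)

def AdmQStmt : Prop := ∀ (E : Type) [NormedAddCommGroup E] [NormedSpace ℝ E]
  [FiniteDimensional ℝ E] (A W : Submodule ℝ E) (B : E →ₗ[ℝ] E →ₗ[ℝ] ℝ) (ψ : E → ℝ) (C : ℝ),
  IsCompl A W → (∀ y ∈ A, y ≠ 0 → B y y < 0) → (∀ y ∈ W, y ≠ 0 → 0 < B y y) →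
  Differentiable ℝ ψ → (∀ x, |ψ x| ≤ C ∧ ‖fderiv ℝ ψ x‖ ≤ C) →
  (∀ x y, ‖fderiv ℝ ψ x - fderiv ℝ ψ y‖ ≤ C * ‖x - y‖) → Adm A W fun x => B x x + ψ x

def AdmActStmt : Prop := ∀ (n L : ℕ) [NeZero L] (A W : Submodule ℝ (ZMod L → CV n))
  (c : ZMod L → ℝ) (ψ : ZMod L → CV n → ℝ), IsCompl A W → (∀ k, Nice (ψ k)) →
  (∀ y ∈ A, y ≠ 0 → act (fun k w => c k * nsq w) y < 0) →
  (∀ y ∈ W, y ≠ 0 → 0 < act (fun k w => c k * nsq w) y) →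
  Adm A W (act fun k w => c k * nsq w + ψ k w)

def QaddStmt : Prop := ∀ (n L : ℕ) [NeZero L] (v y : ZMod L → CV n),
  Qf (v + y) = Qf v + Qf y + ∑ k, omega0 (mid y k) (v (k + 1) - v k)

def CritStmt : Prop := ∀ (n L : ℕ) [NeZero L] (f : ZMod L → CV n → ℝ) (v : ZMod L → CV n),
  Surjective (mid : (ZMod L → CV n) → ZMod L → CV n) → (∀ k, Differentiable ℝ (f k)) →
  fderiv ℝ (act f) v = 0 → ∀ k, v (k + 1) - v k = -ham (f k) (mid v k)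

def FourStmt : Prop := ∀ (n L : ℕ) [NeZero L], Odd L → 3 ≤ L →
  ∃ A W : Submodule ℝ (ZMod L → CV n), IsSplit A W

/-! ### The Hamiltonian -/

structure IsPhi (κ : ℝ) (Φ : ℝ → ℝ) : Prop where
  smooth : ContDiff ℝ ∞ Φ
  lo : ∀ x, x ≤ 0 → Φ x = 0 ∧ deriv Φ x = 0
  dpos : ∀ x, 0 < x → 0 < deriv Φ x
  dle : ∀ x, 0 ≤ deriv Φ x ∧ deriv Φ x ≤ 1
  hi : ∃ c, ∀ x, κ ≤ x → Φ x = x - c
  ge : ∀ x, x - κ ≤ Φ x
  le : ∀ x, 0 ≤ Φ x ∧ Φ x ≤ max x 0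

def PhiStmt : Prop := ∀ κ : ℝ, 0 < κ → ∃ Φ, IsPhi κ Φ

structure IsProf (xR : ℝ) (g : ℝ → ℝ) : Prop where
  diff : Differentiable ℝ g
  lo : ∀ x, x ≤ xR → g x = 0 ∧ deriv g x = 0
  hi : ∀ x, xR < x → 0 < deriv g x ∧ deriv g x < 1

def ProfStmt : Prop := ∀ (n : ℕ) (x1 xR κ : ℝ), x1 < xR → 0 < xR → 0 < κ →
  ∃ (g : ℝ → ℝ → ℝ) (C : ℝ),
    (∀ l ∈ Icc (0 : ℝ) 1, IsProf xR (g l) ∧ Nice fun w : CV n => g l (nsq w) - nsq w / 2) ∧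
    (∀ l l' x, |g l x - g l' x| ≤ C * |l - l'|) ∧
    (∀ p y : CV n, nsq p ≤ x1 → g 0 (nsq (p + y)) ≤ 3 / 4 * nsq y) ∧
    ∀ x, x - xR - κ ≤ 2 * g 1 x

def PushStmt : Prop := ∀ (n : ℕ) (r r' : ℝ) (f : CV n → CV n) (φ : CV n → ℝ), IsSympEmb r f →
  r' ≤ r → ContDiff ℝ ∞ φ → (∀ ζ, ζ ∉ cball n r' → φ ζ = 0) →
  ∃ H : CV n → ℝ, ContDiff ℝ ∞ H ∧ (∀ z, z ∉ f '' cball n r → H z = 0) ∧
    ∀ ζ ∈ cball n r, H (f ζ) = φ ζ ∧ ham H (f ζ) = fderiv ℝ f ζ (ham φ ζ)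

def OneStmt : Prop := ∀ (n : ℕ) (r b : ℝ) (f : CV n → CV n), IsSympEmb r f → 0 < b → b < r →
  ∃ H : CV n → ℝ, ContDiff ℝ ∞ H ∧ (∀ z, z ∉ f '' cball n r → H z = 0) ∧
    (∀ z, 0 ≤ H z ∧ H z ≤ b) ∧ H (f 0) = b ∧
    ∀ s0 η : ℝ, 0 < s0 → 0 < η → ∃ η' : ℝ, 0 < η' ∧ ∀ x0 ∈ f '' cball n r, ∃ x : ℝ → CV n,
      x 0 = x0 ∧ (∀ t, x t ∈ f '' cball n r ∧ HasDerivAt x (ham H (x t)) t) ∧
      ∀ s, s0 ≤ |s| → |s| ≤ 1 → ‖x s - x0‖ < η' →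
        (∀ t, ‖ham H (x t)‖ ≤ η) ∧ (|H x0 - b| ≤ η ∨ |H x0| ≤ η)

structure IsHam {n : ℕ} (H : CV n → ℝ) (a b x1 : ℝ) (p q : CV n) : Prop where
  smooth : ContDiff ℝ ∞ H
  supp : ∀ z, x1 ≤ nsq z → H z = 0
  hp : nsq p ≤ x1
  hq : nsq q ≤ x1
  bd : ∀ z, -a ≤ H z ∧ H z ≤ b
  vp : H p = -a
  vq : H q = b
  slow : ∀ s0 η : ℝ, 0 < s0 → 0 < η → ∃ η' : ℝ, 0 < η' ∧ ∀ x0, ∃ x : ℝ → CV n,
    x 0 = x0 ∧ (∀ t, HasDerivAt x (ham H (x t)) t) ∧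
    ∀ s, s0 ≤ s → s ≤ 1 → ‖x s - x0‖ < η' →
      (∀ t, ‖ham H (x t)‖ ≤ η) ∧ ∃ c ∈ ({-a, 0, b} : Set ℝ), |H x0 - c| ≤ η

def HamStmt : Prop := ∀ (n : ℕ) (r1 r2 R a b : ℝ) (f1 f2 : CV n → CV n), 0 < R →
  IsSympEmb r1 f1 → IsSympEmb r2 f2 → f1 '' cball n r1 ⊆ interior (cball n R) →
  f2 '' cball n r2 ⊆ interior (cball n R) → Disjoint (f1 '' cball n r1) (f2 '' cball n r2) →
  0 < a → a < r1 → 0 < b → b < r2 → ∃ H x1 p q, x1 < R / π ∧ IsHam (n := n) H a b x1 p q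

def QuadStmt : Prop := ∀ (n : ℕ) (H : CV n → ℝ) (a b x1 : ℝ) (p q : CV n), IsHam H a b x1 p q →
  Nice H ∧ ∃ C : ℝ, 0 < C ∧ ∀ z, b - C * nsq (z - q) ≤ H z ∧ H z ≤ -a + C * nsq (z - p)

/-- closed orbits of the midpoint scheme -/
structure Disc {n : ℕ} (H : CV n → ℝ) (a b xR ε s : ℝ) (N : ℕ) : Prop where
  out : ∀ v v' : CV n, v' - v = (s / N) • ham H (md v v') → xR < nsq v → v' = v ∧ H v = 0
  orb : ∀ v : ℕ → CV n, (∀ k < N, v (k + 1) - v k = (s / N) • ham H (md (v k) (v (k + 1)))) →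
    v N = v 0 → ∃ c ∈ ({-a, 0, b} : Set ℝ),
      |∑ k ∈ Finset.range N, (omega0 (v k) (v (k + 1)) / 2 - s / N * H (md (v k) (v (k + 1))))
        + s * c| ≤ ε

def DiscStmt : Prop := ∀ (n : ℕ) (H : CV n → ℝ) (a b x1 : ℝ) (p q : CV n), IsHam H a b x1 p q →
  ∀ xR ε s0 : ℝ, x1 < xR → 0 < ε → 0 < s0 → ∃ N0 : ℕ, ∀ N : ℕ, N0 ≤ N → ∀ s, s0 ≤ s → s ≤ 1 →
    Disc H a b xR ε s N

/-! ### Critical values and base estimates -/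

def SpecStmt : Prop := ∀ (n L : ℕ) [NeZero L] (N K : ℕ) (H : CV n → ℝ) (g : ℝ → ℝ)
  (a b xR ε s : ℝ) (σ : Bool) (v : ZMod L → CV n), L = N + K → 3 ≤ K → 0 ≤ ε → 0 ≤ xR →
  Differentiable ℝ H → IsProf xR g → Disc H a b xR ε s N →
  (∀ k, v (k + 1) - v k = -ham (stepf N (Real.tan (π / K)) s H g σ k) (mid v k)) →
  ∃ c ∈ ({-a, 0, b} : Set ℝ), |act (stepf N (Real.tan (π / K)) s H g σ) v + s * c| ≤ ε

def DefStmt : Prop := ∀ (n L : ℕ) [NeZero L] (N K : ℕ) (A W : Submodule ℝ (ZMod L → CV n)),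
  L = N + K → 8 * N ≤ K → 17 ≤ K → IsSplit A W →
  (∀ y ∈ A, y ≠ 0 →
    act (fun k w => (if k.val < N then 0 else Real.tan (π / K) / 2) * nsq w) y < 0) ∧
  ∀ y ∈ W, y ≠ 0 →
    0 < act (fun k w => (if k.val < N then 0 else Real.tan (π / K) / 2) * nsq w) y

def BaseStmt : Prop := ∀ (n L : ℕ) [NeZero L] (N K : ℕ) (A W : Submodule ℝ (ZMod L → CV n))
  (H : CV n → ℝ) (g : ℝ → ℝ) (a b x1 C s : ℝ) (p q : CV n),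
  L = N + K → 0 < N → 8 * N ≤ K → K ≤ 9 * N → 17 ≤ K → IsSplit A W → nsq p ≤ x1 → nsq q ≤ x1 →
  0 ≤ C → (∀ z, b - C * nsq (z - q) ≤ H z ∧ H z ≤ -a + C * nsq (z - p)) →
  (∀ u y : CV n, nsq u ≤ x1 → g (nsq (u + y)) ≤ 3 / 4 * nsq y) → 0 ≤ s → s * C ≤ π / 20 →
  (∀ y ∈ A, act (stepf N (Real.tan (π / K)) s H g false) ((fun _ => q) + y) ≤ -(s * b)) ∧
  ∃ v0 : ZMod L → CV n, ∀ y ∈ W, s * a ≤ act (stepf N (Real.tan (π / K)) s H g true) (v0 + y)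

/-- the two-ball inequality for a Hamiltonian -/
def OscStmt : Prop := ∀ (n : ℕ) (H : CV n → ℝ) (a b x1 xR : ℝ) (p q : CV n), 0 < a → 0 < b →
  0 < xR → x1 < xR → IsHam H a b x1 p q → a + b ≤ π * xR

def TwoStmt : Prop := ∀ (n : ℕ) (r1 r2 R : ℝ) (f1 f2 : CV n → CV n), 0 < R → 0 < r1 → 0 < r2 →
  IsSympEmb r1 f1 → IsSympEmb r2 f2 → f1 '' cball n r1 ⊆ interior (cball n R) →
  f2 '' cball n r2 ⊆ interior (cball n R) → Disjoint (f1 '' cball n r1) (f2 '' cball n r2) →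
  r1 + r2 ≤ R

def VolNecStmt : Prop := ∀ (n k : ℕ) (r : Fin k → ℝ) (R : ℝ), 0 < R → (∀ i, 0 < r i) →
  Packs n k r R → ∑ i, r i ^ n ≤ R ^ n

def EnlargeStmt : Prop := ∀ (n k : ℕ) (r : Fin k → ℝ) (R : ℝ),
  Packs n k r R → ∃ ε : ℝ, 0 < ε ∧ Packs n k (fun i => r i + ε) R

end Vale.Agent.P209
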