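import Vale.Agent.P209.Basic
import Vale.Agent.P209.Defs

open Set Filter Topology Function
open scoped Real ContDiff

noncomputable section
namespace Vale.Agent.P209
namespace Transfer

variable {ι : Type} [Fintype ι] [DecidableEq ι] {n : ℕ}

def toPhL (σ : ι ≃ Fin n) (c : ℝ) : (Fin n → ℂ) →ₗ[ℝ] Ph ι where
  toFun z := (fun i => (z (σ i)).re / c, fun i => (z (σ i)).im / c)
  map_add' a b := by
    ext i <;> simp [add_div]
  map_smul' a b := by
    ext i <;> simp [mul_div_assoc]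

def ofPhL (σ : ι ≃ Fin n) (c : ℝ) : Ph ι →ₗ[ℝ] (Fin n → ℂ) where
  toFun x := fun j => ⟨c * x.1 (σ.symm j), c * x.2 (σ.symm j)⟩
  map_add' a b := by
    ext j; apply Complex.ext <;> simp [mul_add]
  map_smul' a b := by
    ext j; apply Complex.ext <;> simp <;> ring

def toPh (σ : ι ≃ Fin n) (c : ℝ) : (Fin n → ℂ) →L[ℝ] Ph ι :=
  LinearMap.toContinuousLinearMap (toPhL σ c)

def ofPh (σ : ι ≃ Fin n) (c : ℝ) : Ph ι →L[ℝ] (Fin n → ℂ) :=
  LinearMap.toContinuousLinearMap (ofPhL σ c)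

theorem toPh_apply (σ : ι ≃ Fin n) (c : ℝ) (z : Fin n → ℂ) :
    toPh σ c z = (fun i => (z (σ i)).re / c, fun i => (z (σ i)).im / c) := rfl

theorem ofPh_apply (σ : ι ≃ Fin n) (c : ℝ) (x : Ph ι) :
    ofPh σ c x = fun j => ⟨c * x.1 (σ.symm j), c * x.2 (σ.symm j)⟩ := rfl

theorem toPh_ofPh (σ : ι ≃ Fin n) {c : ℝ} (hc : c ≠ 0) (x : Ph ι) :
    toPh σ c (ofPh σ c x) = x := by
  rw [toPh_apply, ofPh_apply]
  ext i <;> simp [hc]

theorem ofPh_toPh (σ : ι ≃ Fin n) {c : ℝ} (hc : c ≠ 0) (z : Fin n → ℂ) :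
    ofPh σ c (toPh σ c z) = z := by
  rw [ofPh_apply, toPh_apply]
  ext j
  apply Complex.ext <;> simp <;> field_simp

theorem omega_ofPh (σ : ι ≃ Fin n) (c : ℝ) (a b : Ph ι) :
    omega0 (ofPh σ c a) (ofPh σ c b) = c ^ 2 * om a b := by
  unfold omega0 om
  rw [Finset.mul_sum, ← Equiv.sum_comp σ]
  refine Finset.sum_congr rfl fun i _ => ?_
  simp [ofPh_apply]; ring

theorem cap_ofPh (σ : ι ≃ Fin n) (c : ℝ) (a : Ph ι) :
    π * ∑ j, ‖ofPh σ c a j‖ ^ 2 = c ^ 2 * cap a := by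
  unfold cap
  rw [mul_left_comm, ← Equiv.sum_comp σ]
  congr 1
  rw [Finset.mul_sum]
  refine Finset.sum_congr rfl fun i _ => ?_
  rw [Complex.sq_norm, Complex.normSq_apply]
  simp [ofPh_apply]; ring

theorem om_nondeg (u : Ph ι) (h : ∀ v, om u v = 0) : u = 0 := by
  have h1 := h (-u.2, u.1)
  unfold om at h1
  have h2 : ∑ i, (u.1 i ^ 2 + u.2 i ^ 2) = 0 := by
    rw [← h1]; refine Finset.sum_congr rfl fun i _ => ?_
    simp; ring
  rw [Finset.sum_eq_zero_iff_of_nonneg (fun i _ => by positivity)] at h2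
  ext i
  · have := h2 i (Finset.mem_univ i)
    simp only [Prod.fst_zero, Pi.zero_apply]; nlinarith [sq_nonneg (u.1 i), sq_nonneg (u.2 i)]
  · have := h2 i (Finset.mem_univ i)
    simp only [Prod.snd_zero, Pi.zero_apply]; nlinarith [sq_nonneg (u.1 i), sq_nonneg (u.2 i)]

theorem map_nhds {F : Ph ι → Ph ι} {x : Ph ι} (h : SympAt F x) : map F (𝓝 x) = 𝓝 (F x) := by
  have hs : HasStrictFDerivAt F (fderiv ℝ F x) x := h.1.hasStrictFDerivAt (by simp)
  apply hs.map_nhds_eq_of_surj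
  have hinj : Injective (fderiv ℝ F x) := by
    rw [injective_iff_map_eq_zero]
    intro u hu
    apply om_nondeg
    intro v
    rw [← h.2 u v, hu]
    simp [om]
  have : Surjective ((fderiv ℝ F x : Ph ι →L[ℝ] Ph ι) : Ph ι →ₗ[ℝ] Ph ι) :=
    LinearMap.injective_iff_surjective.1 hinj
  exact LinearMap.range_eq_top.2 this

theorem continuous_cap : Continuous (cap : Ph ι → ℝ) := by
  unfold cap; fun_prop

end Transfer

open Transfer in
theorem packs_of_packB {ι : Type} [Fintype ι] [DecidableEq ι] {n k : ℕ} (σ : ι ≃ Fin n)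
    (r ρ : Fin k → ℝ) (R : ℝ) (hR : 0 < R) (hρ : ∀ i, r i / R < ρ i)
    (h : PackB ρ (ballO ι 1)) : Packs n k r R := by
  obtain ⟨F, hF, hinj⟩ := h
  set c := √R with hc
  have hc0 : c ≠ 0 := (Real.sqrt_pos.2 hR).ne'
  have hc2 : c ^ 2 = R := Real.sq_sqrt hR.le
  have capz : ∀ z : Fin n → ℂ, π * ∑ j, ‖z j‖ ^ 2 = R * cap (toPh σ c z) := fun z => by
    rw [← hc2, ← cap_ofPh σ c, ofPh_toPh σ hc0]
  have hsub : ∀ i, ∀ z ∈ cball n (r i), toPh σ c z ∈ ballO ι (ρ i) := fun i z hz => by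
    have h1 : π * ∑ j, ‖z j‖ ^ 2 ≤ r i := hz
    rw [capz] at h1
    have h2 : cap (toPh σ c z) ≤ r i / R := by
      rw [le_div_iff₀ hR]; linarith
    exact lt_of_le_of_lt h2 (hρ i)
  have ofinj : Injective (ofPh σ c) := fun a b hab => by
    rw [← toPh_ofPh σ hc0 a, hab, toPh_ofPh σ hc0]
  have toinj : Injective (toPh σ c) := fun a b hab => by
    rw [← ofPh_toPh σ hc0 a, hab, ofPh_toPh σ hc0]
  refine ⟨fun i z => ofPh σ c (F i (toPh σ c z)), fun i => ?_, fun i => ?_, fun i j hij => ?_⟩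
  · have hO : IsOpen (toPh σ c ⁻¹' ballO ι (ρ i)) :=
      (isOpen_lt continuous_cap continuous_const).preimage (toPh σ c).continuous
    have hcd : ∀ z ∈ toPh σ c ⁻¹' ballO ι (ρ i),
        ContDiffAt ℝ ∞ (fun z => ofPh σ c (F i (toPh σ c z))) z := fun z hz =>
      (ofPh σ c).contDiff.contDiffAt.comp z
        (((hF i _ hz).1.1).comp z (toPh σ c).contDiff.contDiffAt)
    refine ⟨toPh σ c ⁻¹' ballO ι (ρ i), hO, hsub i, fun z hz => (hcd z hz).contDiffWithinAt,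
      ?_, fun z hz u v => ?_⟩
    · refine (IsOpenEmbedding.of_continuous_injective_isOpenMap ?_ ?_ ?_).isEmbedding
      · exact continuousOn_iff_continuous_domRestrict.1
          fun z hz => (hcd z hz).continuousAt.continuousWithinAt
      · intro a b hab
        have := (hinj i i _ a.2 _ b.2 (ofinj hab)).2
        exact Subtype.ext (toinj this)
      · rw [isOpenMap_iff_nhds_le]
        intro a
        have e1 : map (Subtype.val : (toPh σ c ⁻¹' ballO ι (ρ i)) → _) (𝓝 a) = 𝓝 a.1 :=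
          hO.isOpenEmbedding_subtypeVal.map_nhds_eq a
        have e2 : map (toPh σ c) (𝓝 a.1) = 𝓝 (toPh σ c a.1) :=
          (toPh σ c).hasStrictFDerivAt.map_nhds_eq_of_surj
            (LinearMap.range_eq_top.2 fun y => ⟨ofPh σ c y, toPh_ofPh σ hc0 y⟩)
        have e3 := map_nhds (hF i _ a.2).1
        have e4 : map (ofPh σ c) (𝓝 (F i (toPh σ c a.1))) = 𝓝 (ofPh σ c (F i (toPh σ c a.1))) :=
          (ofPh σ c).hasStrictFDerivAt.map_nhds_eq_of_surj
            (LinearMap.range_eq_top.2 fun y => ⟨toPh σ c y, ofPh_toPh σ hc0 y⟩)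
        have e5 : (fun x : (toPh σ c ⁻¹' ballO ι (ρ i)) => ofPh σ c (F i (toPh σ c x)))
            = ofPh σ c ∘ F i ∘ toPh σ c ∘ Subtype.val := rfl
        rw [e5, ← Filter.map_map, ← Filter.map_map, ← Filter.map_map, e1, e2, e3, e4]
    · have hd : HasFDerivAt (fun z => ofPh σ c (F i (toPh σ c z)))
          ((ofPh σ c).comp ((fderiv ℝ (F i) (toPh σ c z)).comp (toPh σ c))) z :=
        (ofPh σ c).hasFDerivAt.comp z
          ((((hF i _ hz).1.1).differentiableAt (by simp)).hasFDerivAt.comp z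
            (toPh σ c).hasFDerivAt)
      rw [hd.fderiv]
      simp only [ContinuousLinearMap.comp_apply]
      rw [omega_ofPh, (hF i _ hz).1.2, ← omega_ofPh σ c, ofPh_toPh σ hc0, ofPh_toPh σ hc0]
  · rintro _ ⟨z, hz, rfl⟩
    have hO : IsOpen {z : Fin n → ℂ | π * ∑ j, ‖z j‖ ^ 2 < R} :=
      isOpen_lt (by fun_prop) continuous_const
    refine interior_maximal (fun w hw => ?_) hO ?_
    · exact le_of_lt (show π * ∑ j, ‖w j‖ ^ 2 < R from hw)
    · have h1 : cap (F i (toPh σ c z)) < 1 := (hF i _ (hsub i z hz)).2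
      show π * ∑ j, ‖ofPh σ c (F i (toPh σ c z)) j‖ ^ 2 < R
      rw [cap_ofPh, hc2]
      nlinarith
  · rw [Set.disjoint_left]
    rintro _ ⟨z, hz, rfl⟩ ⟨w, hw, hzw⟩
    exact hij (hinj j i _ (hsub j w hw) _ (hsub i z hz) (ofinj hzw)).1.symm

end Vale.Agent.P209
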